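import Mathlib

/-!
# Row 286 (S0533), LL Section 5 (pair inverse), MATHLIB-ONLY KIT      (helper296; prefix `inv_rk_`)

Linear algebra and summation by parts used in the proof of LL Prop. 5.1 (`inv:pair-inverse`), paragraphs "The additive resolvent" and "Absolute attachment domination".
`InvPsd B` : `B` real symmetric with nonnegative quadratic form.      `w ≥ 0` a diagonal.      `invC B w = (1 + B w)⁻¹ B`.
* `inv_rk_unit`        `1 + B w` is invertible
* `inv_rk_C_eq`        `C = B - B w C`;   `inv_rk_C_eq'`  `C = B - C w B`;   `inv_rk_inv`  `(1 + B w)⁻¹ = 1 - C w`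
* `inv_rk_symm`        `C` is symmetric;   `inv_rk_psd`, `inv_rk_le`   `0 ⪯ C ⪯ B`
* `inv_rk_entry`       `M_rt² ≤ M_rr M_tt` for `InvPsd M`;   `inv_rk_C_entry`  `|C_rt| ≤ β` if the diagonal of `B` is `≤ β`
* `inv_rk_resolvent`   `C' - C = (1 - C' w')(B' - B)(1 - w C) - C' (w' - w) C`
* `inv_rk_T_inv`       `(diag ℓ + B diag (μ b)) (diag (1/ℓ) + A diag μ) = 1` and the reverse product, `A_rt = - C_rt b_t / (ℓ_r ℓ_t)`, `w = μ b / ℓ`
* `inv_rk_lip`         transfer of Lipschitz bounds from `B` to `C`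
* `inv_rk_abel`, `inv_rk_abel2`      the one- and two-variable Abel identities
* `inv_rk_mixed1`, `inv_rk_mixed2`       single and mixed differences of `1 / (1 - b g)`
-/

set_option autoImplicit false

namespace Claimed.Agent.R286

open Matrix Finset

variable {ι : Type} [Fintype ι] [DecidableEq ι]

/-- real symmetric, nonnegative quadratic form -/
def InvPsd (B : Matrix ι ι ℝ) : Prop := Bᵀ = B ∧ ∀ x : ι → ℝ, 0 ≤ x ⬝ᵥ (B *ᵥ x)

/-- `C = (1 + B w)⁻¹ B` -/
noncomputable def invC (B : Matrix ι ι ℝ) (w : ι → ℝ) : Matrix ι ι ℝ := (1 + B * diagonal w)⁻¹ * B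

theorem inv_rk_eqns_cite : True := by
  have := @InvPsd.eq_1
  have := @invC.eq_1
  trivial

/-- the quadratic form of a diagonal matrix -/
theorem inv_rk_diag_form (w x : ι → ℝ) : x ⬝ᵥ (diagonal w *ᵥ x) = ∑ i, w i * x i ^ 2 := by
  simp only [dotProduct, mulVec_diagonal]
  refine Finset.sum_congr rfl fun i _ => ?_
  ring

theorem inv_rk_diag_form_nonneg (w x : ι → ℝ) (hw : ∀ i, 0 ≤ w i) : 0 ≤ x ⬝ᵥ (diagonal w *ᵥ x) := by
  rw [inv_rk_diag_form]
  exact Finset.sum_nonneg fun i _ => mul_nonneg (hw i) (sq_nonneg _)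

/-- symmetric matrices move across the dot product -/
theorem inv_rk_dot_symm {B : Matrix ι ι ℝ} (hs : Bᵀ = B) (x y : ι → ℝ) : x ⬝ᵥ (B *ᵥ y) = (B *ᵥ x) ⬝ᵥ y := by
  rw [dotProduct_mulVec, ← mulVec_transpose, hs]

/-- `1 + B w` is injective -/
theorem inv_rk_inj {B : Matrix ι ι ℝ} (hB : InvPsd B) {w : ι → ℝ} (hw : ∀ i, 0 ≤ w i) (x : ι → ℝ) (hx : (1 + B * diagonal w) *ᵥ x = 0) : x = 0 := by
  have h1 : x + B *ᵥ (diagonal w *ᵥ x) = 0 := by
    rw [add_mulVec, one_mulVec, ← mulVec_mulVec] at hx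
    exact hx
  have h2 : (diagonal w *ᵥ x) ⬝ᵥ x + (diagonal w *ᵥ x) ⬝ᵥ (B *ᵥ (diagonal w *ᵥ x)) = 0 := by
    rw [← dotProduct_add, h1, dotProduct_zero]
  have h3 := hB.2 (diagonal w *ᵥ x)
  have h4 : (diagonal w *ᵥ x) ⬝ᵥ x = ∑ i, w i * x i ^ 2 := by
    rw [dotProduct_comm, inv_rk_diag_form]
  have h5 : ∑ i, w i * x i ^ 2 = 0 := by
    have : 0 ≤ ∑ i, w i * x i ^ 2 := Finset.sum_nonneg fun i _ => mul_nonneg (hw i) (sq_nonneg _)
    linarith
  have h6 : diagonal w *ᵥ x = 0 := by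
    funext i
    have := (Finset.sum_eq_zero_iff_of_nonneg fun i _ => mul_nonneg (hw i) (sq_nonneg (x i))).1 h5 i (Finset.mem_univ i)
    rw [mulVec_diagonal]
    rcases mul_eq_zero.1 this with h | h
    · simp [h]
    · simp [pow_eq_zero_iff (two_ne_zero) |>.1 h]
  rw [h6, mulVec_zero, add_zero] at h1
  exact h1

/-- `1 + B w` is invertible -/
theorem inv_rk_unit {B : Matrix ι ι ℝ} (hB : InvPsd B) {w : ι → ℝ} (hw : ∀ i, 0 ≤ w i) : IsUnit (1 + B * diagonal w) := by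
  rw [← Matrix.mulVec_injective_iff_isUnit]
  intro x y hxy
  have : (1 + B * diagonal w) *ᵥ (x - y) = 0 := by rw [mulVec_sub, hxy, sub_self]
  exact sub_eq_zero.1 (inv_rk_inj hB hw _ this)

theorem inv_rk_mul_C {B : Matrix ι ι ℝ} (hB : InvPsd B) {w : ι → ℝ} (hw : ∀ i, 0 ≤ w i) : (1 + B * diagonal w) * invC B w = B := by
  unfold invC
  rw [← Matrix.mul_assoc, Matrix.mul_nonsing_inv _ ((Matrix.isUnit_iff_isUnit_det _).1 (inv_rk_unit hB hw)), Matrix.one_mul]

/-- `C = B - B w C` -/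
theorem inv_rk_C_eq {B : Matrix ι ι ℝ} (hB : InvPsd B) {w : ι → ℝ} (hw : ∀ i, 0 ≤ w i) : invC B w = B - B * diagonal w * invC B w := by
  have := inv_rk_mul_C hB hw
  rw [Matrix.add_mul, Matrix.one_mul] at this
  rw [eq_sub_iff_add_eq]
  exact this

/-- push-through: `C (1 + w B) = B` -/
theorem inv_rk_C_mul {B : Matrix ι ι ℝ} (hB : InvPsd B) {w : ι → ℝ} (hw : ∀ i, 0 ≤ w i) : invC B w * (1 + diagonal w * B) = B := by
  have h1 : B * (1 + diagonal w * B) = (1 + B * diagonal w) * B := by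
    rw [Matrix.mul_add, Matrix.add_mul, Matrix.mul_one, Matrix.one_mul, Matrix.mul_assoc]
  unfold invC
  rw [Matrix.mul_assoc, h1, ← Matrix.mul_assoc, Matrix.nonsing_inv_mul _ ((Matrix.isUnit_iff_isUnit_det _).1 (inv_rk_unit hB hw)), Matrix.one_mul]

/-- `C = B - C w B` -/
theorem inv_rk_C_eq' {B : Matrix ι ι ℝ} (hB : InvPsd B) {w : ι → ℝ} (hw : ∀ i, 0 ≤ w i) : invC B w = B - invC B w * diagonal w * B := by
  have := inv_rk_C_mul hB hw
  rw [Matrix.mul_add, Matrix.mul_one, ← Matrix.mul_assoc] at this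
  rw [eq_sub_iff_add_eq]
  exact this

/-- `C` is symmetric -/
theorem inv_rk_symm {B : Matrix ι ι ℝ} (hB : InvPsd B) {w : ι → ℝ} (hw : ∀ i, 0 ≤ w i) : (invC B w)ᵀ = invC B w := by
  -- both `Cᵀ` and `C` solve `(1 + B w) X = B`
  have h1 : (1 + B * diagonal w) * (invC B w)ᵀ = B := by
    have := congrArg Matrix.transpose (inv_rk_C_mul hB hw)
    rw [Matrix.transpose_mul, Matrix.transpose_add, Matrix.transpose_one, Matrix.transpose_mul, hB.1, Matrix.diagonal_transpose] at this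
    exact this
  have h2 := inv_rk_mul_C hB hw
  have hu := (Matrix.isUnit_iff_isUnit_det _).1 (inv_rk_unit hB hw)
  calc (invC B w)ᵀ = (1 + B * diagonal w)⁻¹ * ((1 + B * diagonal w) * (invC B w)ᵀ) := by
        rw [← Matrix.mul_assoc, Matrix.nonsing_inv_mul _ hu, Matrix.one_mul]
    _ = (1 + B * diagonal w)⁻¹ * ((1 + B * diagonal w) * invC B w) := by rw [h1, h2]
    _ = invC B w := by rw [← Matrix.mul_assoc, Matrix.nonsing_inv_mul _ hu, Matrix.one_mul]

/-- `(1 + B w)⁻¹ = 1 - C w` -/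
theorem inv_rk_inv {B : Matrix ι ι ℝ} (hB : InvPsd B) {w : ι → ℝ} (hw : ∀ i, 0 ≤ w i) : (1 + B * diagonal w)⁻¹ = 1 - invC B w * diagonal w := by
  have hu := (Matrix.isUnit_iff_isUnit_det _).1 (inv_rk_unit hB hw)
  have h : (1 + B * diagonal w)⁻¹ * (1 + B * diagonal w) = 1 := Matrix.nonsing_inv_mul _ hu
  rw [Matrix.mul_add, Matrix.mul_one, ← Matrix.mul_assoc] at h
  unfold invC
  rw [eq_sub_iff_add_eq]
  exact h

/-- the quadratic form of a conjugate -/
theorem inv_rk_form_conj (M N : Matrix ι ι ℝ) (x : ι → ℝ) : x ⬝ᵥ ((Mᵀ * N * M) *ᵥ x) = (M *ᵥ x) ⬝ᵥ (N *ᵥ (M *ᵥ x)) := by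
  rw [← mulVec_mulVec, ← mulVec_mulVec, dotProduct_mulVec, vecMul_transpose]

/-- `C = (1 - C w) B (1 - w C) + C w C` -/
theorem inv_rk_C_sos {B : Matrix ι ι ℝ} (hB : InvPsd B) {w : ι → ℝ} (hw : ∀ i, 0 ≤ w i) :
    invC B w = (1 - invC B w * diagonal w) * B * (1 - diagonal w * invC B w) + invC B w * diagonal w * invC B w := by
  have h1 : B * (1 - diagonal w * invC B w) = invC B w := by
    rw [Matrix.mul_sub, Matrix.mul_one, ← Matrix.mul_assoc]
    exact (inv_rk_C_eq hB hw).symm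
  rw [Matrix.mul_assoc, h1, Matrix.sub_mul, Matrix.one_mul, sub_add_cancel]

/-- `B - C = C w C + C w B w C` -/
theorem inv_rk_sub_sos {B : Matrix ι ι ℝ} (hB : InvPsd B) {w : ι → ℝ} (hw : ∀ i, 0 ≤ w i) :
    B - invC B w = invC B w * diagonal w * invC B w + invC B w * diagonal w * B * diagonal w * invC B w := by
  have h1 : B - invC B w = B * diagonal w * invC B w := by
    have := inv_rk_C_eq hB hw
    rw [sub_eq_iff_eq_add]
    nth_rewrite 2 [this]
    abel
  have h2 : B = invC B w + invC B w * diagonal w * B := by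
    have := inv_rk_C_eq' hB hw
    rw [eq_sub_iff_add_eq] at this
    exact this.symm
  rw [h1]
  nth_rewrite 1 [h2]
  rw [Matrix.add_mul, Matrix.add_mul]

/-- `0 ⪯ C` -/
theorem inv_rk_psd {B : Matrix ι ι ℝ} (hB : InvPsd B) {w : ι → ℝ} (hw : ∀ i, 0 ≤ w i) : InvPsd (invC B w) := by
  have hs := inv_rk_symm hB hw
  refine ⟨hs, fun x => ?_⟩
  have e1 : (1 - invC B w * diagonal w) = (1 - diagonal w * invC B w)ᵀ := by
    rw [Matrix.transpose_sub, Matrix.transpose_one, Matrix.transpose_mul, hs, Matrix.diagonal_transpose]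
  have e2 : invC B w * diagonal w * invC B w = (invC B w)ᵀ * diagonal w * invC B w := by rw [hs]
  rw [inv_rk_C_sos hB hw, add_mulVec, dotProduct_add, e1, inv_rk_form_conj, e2, inv_rk_form_conj]
  exact add_nonneg (hB.2 _) (inv_rk_diag_form_nonneg _ _ hw)

/-- `C ⪯ B` -/
theorem inv_rk_le {B : Matrix ι ι ℝ} (hB : InvPsd B) {w : ι → ℝ} (hw : ∀ i, 0 ≤ w i) : InvPsd (B - invC B w) := by
  have hs := inv_rk_symm hB hw
  refine ⟨by rw [Matrix.transpose_sub, hB.1, hs], fun x => ?_⟩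
  have e2 : invC B w * diagonal w * invC B w = (invC B w)ᵀ * diagonal w * invC B w := by rw [hs]
  have e3 : invC B w * diagonal w * B * diagonal w * invC B w = (diagonal w * invC B w)ᵀ * B * (diagonal w * invC B w) := by
    rw [Matrix.transpose_mul, hs, Matrix.diagonal_transpose]
    simp only [Matrix.mul_assoc]
  rw [inv_rk_sub_sos hB hw, add_mulVec, dotProduct_add, e2, inv_rk_form_conj, e3, inv_rk_form_conj]
  exact add_nonneg (inv_rk_diag_form_nonneg _ _ hw) (hB.2 _)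

/-- the diagonal of a positive semidefinite matrix -/
theorem inv_rk_diag_nonneg {M : Matrix ι ι ℝ} (hM : InvPsd M) (r : ι) : 0 ≤ M r r := by
  have := hM.2 (Pi.single r 1)
  simpa using this

/-- the quadratic form on two coordinates -/
theorem inv_rk_form_two (M : Matrix ι ι ℝ) (r t : ι) (a b : ℝ) :
    (Pi.single r a + Pi.single t b) ⬝ᵥ (M *ᵥ (Pi.single r a + Pi.single t b)) = a * a * M r r + a * b * M r t + b * a * M t r + b * b * M t t := by
  simp only [mulVec_add, dotProduct_add, add_dotProduct, single_dotProduct, mulVec_single, Pi.smul_apply, Matrix.col_apply, MulOpposite.smul_eq_mul_unop,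
    MulOpposite.unop_op]
  ring

/-- Cauchy-Schwarz for the entries -/
theorem inv_rk_entry {M : Matrix ι ι ℝ} (hM : InvPsd M) (r t : ι) : M r t ^ 2 ≤ M r r * M t t := by
  have hrt : M t r = M r t := by
    have := congrFun (congrFun hM.1 r) t
    rwa [Matrix.transpose_apply] at this
  have h : ∀ s : ℝ, 0 ≤ M t t * (s * s) + 2 * M r t * s + M r r := by
    intro s
    have := hM.2 (Pi.single r 1 + Pi.single t s)
    rw [inv_rk_form_two, hrt] at this
    nlinarith
  have := discrim_le_zero h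
  unfold discrim at this
  nlinarith

theorem inv_rk_entry_abs {M : Matrix ι ι ℝ} (hM : InvPsd M) {β : ℝ} (hβ : ∀ r, M r r ≤ β) (r t : ι) : |M r t| ≤ β := by
  have h1 := inv_rk_entry hM r t
  have h0 := inv_rk_diag_nonneg hM r
  have h0' := inv_rk_diag_nonneg hM t
  have h2 : M r r * M t t ≤ β * β := mul_le_mul (hβ r) (hβ t) h0' (h0.trans (hβ r))
  exact abs_le_of_sq_le_sq (by nlinarith) (h0.trans (hβ r))

/-- the entries of `C` -/
theorem inv_rk_C_entry {B : Matrix ι ι ℝ} (hB : InvPsd B) {w : ι → ℝ} (hw : ∀ i, 0 ≤ w i) {β : ℝ} (hβ : ∀ r, B r r ≤ β) (r t : ι) : |invC B w r t| ≤ β := by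
  refine inv_rk_entry_abs (inv_rk_psd hB hw) (fun r => ?_) r t
  have := inv_rk_diag_nonneg (inv_rk_le hB hw) r
  rw [Matrix.sub_apply] at this
  linarith [hβ r]

/-- **the resolvent identity** -/
theorem inv_rk_resolvent {B B' : Matrix ι ι ℝ} (hB : InvPsd B) (hB' : InvPsd B') {w w' : ι → ℝ} (hw : ∀ i, 0 ≤ w i) (hw' : ∀ i, 0 ≤ w' i) :
    invC B' w' - invC B w = (1 - invC B' w' * diagonal w') * (B' - B) * (1 - diagonal w * invC B w)
      - invC B' w' * (diagonal w' - diagonal w) * invC B w := by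
  have h1 : B * (1 - diagonal w * invC B w) = invC B w := by
    rw [Matrix.mul_sub, Matrix.mul_one, ← Matrix.mul_assoc]
    exact (inv_rk_C_eq hB hw).symm
  have h2 : (1 - invC B' w' * diagonal w') * B' = invC B' w' := by
    rw [Matrix.sub_mul, Matrix.one_mul]
    exact (inv_rk_C_eq' hB' hw').symm
  have h3 : (1 - invC B' w' * diagonal w') * (B' - B) * (1 - diagonal w * invC B w)
      = invC B' w' * (1 - diagonal w * invC B w) - (1 - invC B' w' * diagonal w') * invC B w := by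
    rw [Matrix.mul_sub (1 - invC B' w' * diagonal w') B' B, Matrix.sub_mul, h2, Matrix.mul_assoc _ B, h1]
  rw [h3]
  simp only [Matrix.mul_sub, Matrix.sub_mul, Matrix.mul_one, Matrix.one_mul, Matrix.mul_assoc]
  abel

/-! ## the inverse on the additive sector -/

/-- `A_rt = - C_rt b_t / (ℓ_r ℓ_t)`, `C = invC B (μ b / ℓ)` -/
noncomputable def invA (B : Matrix ι ι ℝ) (l μ b : ι → ℝ) : Matrix ι ι ℝ :=
  Matrix.of fun r t => - invC B (fun s => μ s * b s / l s) r t * b t / (l r * l t)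

theorem inv_rk_eqns_cite2 : True := by
  have := @invA.eq_1
  trivial

/-- **the additive-sector inverse**: `(diag ℓ + B diag (μ b)) (diag (1/ℓ) + A diag μ) = 1` -/
theorem inv_rk_T_inv {B : Matrix ι ι ℝ} (hB : InvPsd B) (l μ b : ι → ℝ) (hl : ∀ i, 0 < l i) (hμ : ∀ i, 0 ≤ μ i) (hb : ∀ i, 0 ≤ b i) :
    (diagonal l + B * diagonal (fun t => μ t * b t)) * (diagonal (fun r => 1 / l r) + invA B l μ b * diagonal μ) = 1 := by
  have hw : ∀ i, 0 ≤ μ i * b i / l i := fun i => div_nonneg (mul_nonneg (hμ i) (hb i)) (hl i).le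
  have hu := (Matrix.isUnit_iff_isUnit_det _).1 (inv_rk_unit hB hw)
  have e1 : diagonal l + B * diagonal (fun t => μ t * b t) = (1 + B * diagonal (fun s => μ s * b s / l s)) * diagonal l := by
    rw [Matrix.add_mul, Matrix.one_mul, Matrix.mul_assoc, Matrix.diagonal_mul_diagonal]
    congr 3
    funext t
    field_simp [(hl t).ne']
  have e2 : diagonal (fun r => 1 / l r) + invA B l μ b * diagonal μ
      = diagonal (fun r => 1 / l r) * (1 - invC B (fun s => μ s * b s / l s) * diagonal (fun s => μ s * b s / l s)) := by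
    rw [Matrix.mul_sub, Matrix.mul_one, sub_eq_add_neg]
    congr 1
    ext r t
    rw [Matrix.neg_apply, Matrix.mul_diagonal, ← Matrix.mul_assoc, Matrix.mul_diagonal, Matrix.diagonal_mul]
    unfold invA
    rw [Matrix.of_apply]
    have := (hl r).ne'
    have := (hl t).ne'
    field_simp
  have e3 : diagonal l * diagonal (fun r => 1 / l r) = 1 := by
    rw [Matrix.diagonal_mul_diagonal, ← Matrix.diagonal_one]
    congr 1
    funext t
    field_simp [(hl t).ne']
  rw [e1, e2, ← inv_rk_inv hB hw, Matrix.mul_assoc, ← Matrix.mul_assoc (diagonal l), e3, Matrix.one_mul, Matrix.mul_nonsing_inv _ hu]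

theorem inv_rk_T_inv' {B : Matrix ι ι ℝ} (hB : InvPsd B) (l μ b : ι → ℝ) (hl : ∀ i, 0 < l i) (hμ : ∀ i, 0 ≤ μ i) (hb : ∀ i, 0 ≤ b i) :
    (diagonal (fun r => 1 / l r) + invA B l μ b * diagonal μ) * (diagonal l + B * diagonal (fun t => μ t * b t)) = 1 :=
  mul_eq_one_comm.1 (inv_rk_T_inv hB l μ b hl hμ hb)

/-- the same for vectors: the solution of `ℓ_r f_r + Σ_t B_rt μ_t b_t f_t = g_r` -/
theorem inv_rk_T_solve {B : Matrix ι ι ℝ} (hB : InvPsd B) (l μ b : ι → ℝ) (hl : ∀ i, 0 < l i) (hμ : ∀ i, 0 ≤ μ i) (hb : ∀ i, 0 ≤ b i) (f g : ι → ℝ)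
    (h : ∀ r, l r * f r + ∑ t, B r t * (μ t * b t) * f t = g r) (r : ι) : f r = g r / l r + ∑ t, invA B l μ b r t * μ t * g t := by
  have h1 : (diagonal l + B * diagonal (fun t => μ t * b t)) *ᵥ f = g := by
    funext r
    rw [add_mulVec, Pi.add_apply, mulVec_diagonal, ← h r]
    congr 1
    simp only [mulVec, dotProduct, Matrix.mul_diagonal]
  have h2 : f = (diagonal (fun r => 1 / l r) + invA B l μ b * diagonal μ) *ᵥ g := by
    rw [← h1, mulVec_mulVec, inv_rk_T_inv' hB l μ b hl hμ hb, one_mulVec]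
  have h3 := congrFun h2 r
  rw [h3, add_mulVec, Pi.add_apply, mulVec_diagonal]
  congr 1
  · ring
  · simp only [mulVec, dotProduct, Matrix.mul_diagonal]

/-! ## entrywise bounds -/

/-- transfer of Lipschitz bounds in the first index from `B` to `C` -/
theorem inv_rk_lip {B : Matrix ι ι ℝ} (hB : InvPsd B) {w : ι → ℝ} (hw : ∀ i, 0 ≤ w i) {β δ : ℝ} (hβ : ∀ r, B r r ≤ β) (r r' : ι)
    (hδ : ∀ s, |B r s - B r' s| ≤ δ) (t : ι) : |invC B w r t - invC B w r' t| ≤ δ * (1 + β * ∑ s, w s) := by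
  have hC := inv_rk_C_entry hB hw hβ
  have hδ0 : 0 ≤ δ := (abs_nonneg _).trans (hδ t)
  have e : ∀ a, invC B w a t = B a t - ∑ s, B a s * w s * invC B w s t := by
    intro a
    have := congrFun (congrFun (inv_rk_C_eq hB hw) a) t
    rw [this, Matrix.sub_apply, Matrix.mul_apply]
    simp only [Matrix.mul_diagonal]
  rw [e r, e r']
  have e2 : B r t - ∑ s, B r s * w s * invC B w s t - (B r' t - ∑ s, B r' s * w s * invC B w s t)
      = (B r t - B r' t) - ∑ s, (B r s - B r' s) * w s * invC B w s t := by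
    rw [sub_sub_sub_comm, ← Finset.sum_sub_distrib]
    congr 1
    refine Finset.sum_congr rfl fun s _ => ?_
    ring
  rw [e2]
  have h1 : |∑ s, (B r s - B r' s) * w s * invC B w s t| ≤ ∑ s, δ * w s * β := by
    refine (Finset.abs_sum_le_sum_abs _ _).trans (Finset.sum_le_sum fun s _ => ?_)
    rw [abs_mul, abs_mul, abs_of_nonneg (hw s)]
    exact mul_le_mul (mul_le_mul_of_nonneg_right (hδ s) (hw s)) (hC s t) (abs_nonneg _) (mul_nonneg hδ0 (hw s))
  have h2 : ∑ s, δ * w s * β = δ * (β * ∑ s, w s) := by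
    rw [Finset.mul_sum, Finset.mul_sum]
    refine Finset.sum_congr rfl fun s _ => ?_
    ring
  calc |(B r t - B r' t) - ∑ s, (B r s - B r' s) * w s * invC B w s t| ≤ |B r t - B r' t| + |∑ s, (B r s - B r' s) * w s * invC B w s t| := abs_sub _ _
    _ ≤ δ + δ * (β * ∑ s, w s) := add_le_add (hδ t) (h1.trans h2.le)
    _ = δ * (1 + β * ∑ s, w s) := by ring

/-- the same in the second index -/
theorem inv_rk_lip' {B : Matrix ι ι ℝ} (hB : InvPsd B) {w : ι → ℝ} (hw : ∀ i, 0 ≤ w i) {β δ : ℝ} (hβ : ∀ r, B r r ≤ β) (t t' : ι)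
    (hδ : ∀ s, |B t s - B t' s| ≤ δ) (r : ι) : |invC B w r t - invC B w r t'| ≤ δ * (1 + β * ∑ s, w s) := by
  have hs := inv_rk_symm hB hw
  have e : ∀ a c, invC B w a c = invC B w c a := fun a c => by
    have := congrFun (congrFun hs a) c
    rw [Matrix.transpose_apply] at this
    exact this.symm
  rw [e r t, e r t']
  exact inv_rk_lip hB hw hβ t t' hδ r

/-- a sandwich `(1 - C' w') D (1 - w C)` entrywise -/
theorem inv_rk_sandwich (C C' D : Matrix ι ι ℝ) {w w' : ι → ℝ} (hw : ∀ i, 0 ≤ w i) (hw' : ∀ i, 0 ≤ w' i) {β β' δ : ℝ} (hβ : ∀ r t, |C r t| ≤ β) (hβ' : ∀ r t, |C' r t| ≤ β')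
    (hδ : ∀ r t, |D r t| ≤ δ) (r t : ι) :
    |((1 - C' * diagonal w') * D * (1 - diagonal w * C)) r t| ≤ (1 + β' * ∑ s, w' s) * δ * (1 + β * ∑ s, w s) := by
  have hδ0 : 0 ≤ δ := (abs_nonneg _).trans (hδ r t)
  have hβ0 : 0 ≤ β := (abs_nonneg _).trans (hβ r t)
  have hβ0' : 0 ≤ β' := (abs_nonneg _).trans (hβ' r t)
  have hW : 0 ≤ ∑ s, w s := Finset.sum_nonneg fun s _ => hw s
  have hW' : 0 ≤ ∑ s, w' s := Finset.sum_nonneg fun s _ => hw' s
  -- first product
  have h1 : ∀ a c, |((1 - C' * diagonal w') * D) a c| ≤ (1 + β' * ∑ s, w' s) * δ := by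
    intro a c
    have e : ((1 - C' * diagonal w') * D) a c = D a c - ∑ s, C' a s * w' s * D s c := by
      rw [Matrix.sub_mul, Matrix.one_mul, Matrix.sub_apply, Matrix.mul_apply]
      simp only [Matrix.mul_diagonal]
    rw [e]
    have h : |∑ s, C' a s * w' s * D s c| ≤ ∑ s, β' * w' s * δ := by
      refine (Finset.abs_sum_le_sum_abs _ _).trans (Finset.sum_le_sum fun s _ => ?_)
      rw [abs_mul, abs_mul, abs_of_nonneg (hw' s)]
      exact mul_le_mul (mul_le_mul_of_nonneg_right (hβ' a s) (hw' s)) (hδ s c) (abs_nonneg _) (mul_nonneg hβ0' (hw' s))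
    have h2 : ∑ s, β' * w' s * δ = β' * (∑ s, w' s) * δ := by
      rw [Finset.mul_sum, Finset.sum_mul]
    calc |D a c - ∑ s, C' a s * w' s * D s c| ≤ |D a c| + |∑ s, C' a s * w' s * D s c| := abs_sub _ _
      _ ≤ δ + β' * (∑ s, w' s) * δ := add_le_add (hδ a c) (h.trans h2.le)
      _ = (1 + β' * ∑ s, w' s) * δ := by ring
  have hγ0 : 0 ≤ (1 + β' * ∑ s, w' s) * δ := by positivity
  have e : ((1 - C' * diagonal w') * D * (1 - diagonal w * C)) r t
      = ((1 - C' * diagonal w') * D) r t - ∑ s, ((1 - C' * diagonal w') * D) r s * (w s * C s t) := by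
    rw [Matrix.mul_sub, Matrix.mul_one, Matrix.sub_apply, Matrix.mul_apply]
    congr 1
    refine Finset.sum_congr rfl fun s _ => ?_
    show ((1 - C' * diagonal w') * D) r s * (diagonal w * C) s t = _
    rw [Matrix.diagonal_mul]
  rw [e]
  have h : |∑ s, ((1 - C' * diagonal w') * D) r s * (w s * C s t)| ≤ ∑ s, (1 + β' * ∑ s, w' s) * δ * (w s * β) := by
    refine (Finset.abs_sum_le_sum_abs _ _).trans (Finset.sum_le_sum fun s _ => ?_)
    rw [abs_mul, abs_mul, abs_of_nonneg (hw s)]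
    exact mul_le_mul (h1 r s) (mul_le_mul_of_nonneg_left (hβ s t) (hw s)) (mul_nonneg (hw s) (abs_nonneg _)) hγ0
  have h2 : ∑ s, (1 + β' * ∑ s, w' s) * δ * (w s * β) = (1 + β' * ∑ s, w' s) * δ * (β * ∑ s, w s) := by
    rw [← Finset.mul_sum, ← Finset.sum_mul]
    ring
  calc |((1 - C' * diagonal w') * D) r t - ∑ s, ((1 - C' * diagonal w') * D) r s * (w s * C s t)|
      ≤ |((1 - C' * diagonal w') * D) r t| + |∑ s, ((1 - C' * diagonal w') * D) r s * (w s * C s t)| := abs_sub _ _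
    _ ≤ (1 + β' * ∑ s, w' s) * δ + (1 + β' * ∑ s, w' s) * δ * (β * ∑ s, w s) := add_le_add (h1 r t) (h.trans h2.le)
    _ = (1 + β' * ∑ s, w' s) * δ * (1 + β * ∑ s, w s) := by ring

/-- **difference of two resolvents, entrywise**: the change of the kernel is paid in sup norm, the change of the measure is kept as a signed sum -/
theorem inv_rk_diff {B B' : Matrix ι ι ℝ} (hB : InvPsd B) (hB' : InvPsd B') {w w' : ι → ℝ} (hw : ∀ i, 0 ≤ w i) (hw' : ∀ i, 0 ≤ w' i) {β δ : ℝ}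
    (hβ : ∀ r, B r r ≤ β) (hβ' : ∀ r, B' r r ≤ β) (hδ : ∀ r t, |B' r t - B r t| ≤ δ) (r t : ι) :
    |invC B' w' r t - invC B w r t| ≤ (1 + β * ∑ s, w' s) * δ * (1 + β * ∑ s, w s) + |∑ s, invC B' w' r s * (w' s - w s) * invC B w s t| := by
  have h := congrFun (congrFun (inv_rk_resolvent hB hB' hw hw') r) t
  rw [Matrix.sub_apply, Matrix.sub_apply] at h
  rw [h]
  have e : (invC B' w' * (diagonal w' - diagonal w) * invC B w) r t = ∑ s, invC B' w' r s * (w' s - w s) * invC B w s t := by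
    rw [Matrix.diagonal_sub, Matrix.mul_apply]
    simp only [Matrix.mul_diagonal]
  rw [e]
  refine (abs_sub _ _).trans (add_le_add_left ?_ _)
  exact inv_rk_sandwich _ _ _ hw hw' (inv_rk_C_entry hB hw hβ) (inv_rk_C_entry hB' hw' hβ') (fun a c => by rw [Matrix.sub_apply]; exact hδ a c) r t

/-! ## Abel identities -/

section abel

variable {M : Type} [AddCommGroup M] [Module ℝ M]

/-- **one-variable Abel identity**: `E_0 = P_0`, `E_k = P_k - P_(k-1)`:   `Σ_{k ≤ n+1} A_k E_k = A_(n+1) P_(n+1) + Σ_{k ≤ n} (A_k - A_(k+1)) P_k` -/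
theorem inv_rk_abel (A : ℕ → ℝ) (P E : ℕ → M) (h0 : E 0 = P 0) (hE : ∀ k, E (k + 1) = P (k + 1) - P k) (n : ℕ) :
    ∑ k ∈ range (n + 2), A k • E k = A (n + 1) • P (n + 1) + ∑ k ∈ range (n + 1), (A k - A (k + 1)) • P k := by
  induction n with
  | zero =>
    simp only [zero_add, Finset.sum_range_succ, Finset.sum_range_zero, h0, hE 0, smul_sub, sub_smul]
    abel
  | succ n ih =>
    rw [Finset.sum_range_succ, ih, Finset.sum_range_succ _ (n + 1), hE (n + 1), smul_sub, sub_smul]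
    abel

/-- the case `n + 1 = 0` is trivial; the form with `range (n + 1)` -/
theorem inv_rk_abel' (A : ℕ → ℝ) (P E : ℕ → M) (h0 : E 0 = P 0) (hE : ∀ k, E (k + 1) = P (k + 1) - P k) (n : ℕ) :
    ∑ k ∈ range (n + 1), A k • E k = A n • P n + ∑ k ∈ range n, (A k - A (k + 1)) • P k := by
  cases n with
  | zero => simp [h0]
  | succ n => exact inv_rk_abel A P E h0 hE n

/-- **two-variable Abel identity**.   `F i l = P_i ⊗ P_l`, `E1 i l = E_i ⊗ P_l`, `EE i l = E_i ⊗ E_l` -/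
theorem inv_rk_abel2 (D : ℕ → ℕ → ℝ) (F E1 EE : ℕ → ℕ → M) (h10 : ∀ l, E1 0 l = F 0 l) (h1 : ∀ i l, E1 (i + 1) l = F (i + 1) l - F i l)
    (h20 : ∀ i, EE i 0 = E1 i 0) (h2 : ∀ i l, EE i (l + 1) = E1 i (l + 1) - E1 i l) (n : ℕ) :
    ∑ i ∈ range (n + 1), ∑ l ∈ range (n + 1), D i l • EE i l
      = D n n • F n n + ∑ i ∈ range n, (D i n - D (i + 1) n) • F i n + ∑ l ∈ range n, (D n l - D n (l + 1)) • F n l
        + ∑ i ∈ range n, ∑ l ∈ range n, (D i l - D (i + 1) l - D i (l + 1) + D (i + 1) (l + 1)) • F i l := by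
  have s1 : ∀ i, ∑ l ∈ range (n + 1), D i l • EE i l = D i n • E1 i n + ∑ l ∈ range n, (D i l - D i (l + 1)) • E1 i l :=
    fun i => inv_rk_abel' (D i) (E1 i) (EE i) (h20 i) (h2 i) n
  simp only [s1]
  rw [Finset.sum_add_distrib, Finset.sum_comm]
  have s2 := inv_rk_abel' (fun i => D i n) (fun i => F i n) (fun i => E1 i n) (h10 n) (fun i => h1 i n) n
  have s3 : ∀ l, ∑ i ∈ range (n + 1), (D i l - D i (l + 1)) • E1 i l
      = (D n l - D n (l + 1)) • F n l + ∑ i ∈ range n, ((D i l - D i (l + 1)) - (D (i + 1) l - D (i + 1) (l + 1))) • F i l :=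
    fun l => inv_rk_abel' (fun i => D i l - D i (l + 1)) (fun i => F i l) (fun i => E1 i l) (h10 l) (fun i => h1 i l) n
  rw [s2]
  simp only [s3]
  rw [Finset.sum_add_distrib, Finset.sum_comm (s := range n) (t := range n)]
  have e : ∀ i l, (D i l - D i (l + 1)) - (D (i + 1) l - D (i + 1) (l + 1)) = D i l - D (i + 1) l - D i (l + 1) + D (i + 1) (l + 1) := fun i l => by ring
  simp only [e]
  abel

end abel

/-! ## differences of `1 / (1 - b g)` -/

/-- `F(x) - F(y) = b (x - y) F(x) F(y)`, `F(z) = 1 / (1 - b z)` -/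
theorem inv_rk_F_sub (b x y : ℝ) (hx : 1 - b * x ≠ 0) (hy : 1 - b * y ≠ 0) : 1 / (1 - b * x) - 1 / (1 - b * y) = b * (x - y) * (1 / (1 - b * x)) * (1 / (1 - b * y)) := by
  field_simp
  ring

theorem inv_rk_F_bd {b x e : ℝ} (he : 0 < e) (hx : e ≤ 1 - b * x) : 0 < 1 / (1 - b * x) ∧ 1 / (1 - b * x) ≤ 1 / e :=
  ⟨by have : 0 < 1 - b * x := lt_of_lt_of_le he hx
      positivity, one_div_le_one_div_of_le he hx⟩

/-- single difference -/
theorem inv_rk_mixed1 {b x y e c : ℝ} (hb : 0 ≤ b) (he : 0 < e) (hx : e ≤ 1 - b * x) (hy : e ≤ 1 - b * y) (hc : |x - y| ≤ c) :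
    |1 / (1 - b * x) - 1 / (1 - b * y)| ≤ b / e ^ 2 * c := by
  obtain ⟨x0, x1⟩ := inv_rk_F_bd he hx
  obtain ⟨y0, y1⟩ := inv_rk_F_bd he hy
  have hc0 : 0 ≤ c := (abs_nonneg _).trans hc
  rw [inv_rk_F_sub b x y (by linarith) (by linarith), abs_mul, abs_mul, abs_mul, abs_of_nonneg hb, abs_of_pos x0, abs_of_pos y0]
  calc b * |x - y| * (1 / (1 - b * x)) * (1 / (1 - b * y)) ≤ b * c * (1 / e) * (1 / e) := by gcongr
    _ = b / e ^ 2 * c := by
      field_simp

/-- **mixed difference**: `g00, g10, g01, g11` = the values at `(i,l), (i+1,l), (i,l+1), (i+1,l+1)`; `ci`, `cl` bound the differences in the first, second index; the mixed difference of `g` is `≤ ci cl` -/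
theorem inv_rk_mixed2 {b g00 g10 g01 g11 e ci cl : ℝ} (hb : 0 ≤ b) (he : 0 < e) (h00 : e ≤ 1 - b * g00) (h10 : e ≤ 1 - b * g10) (h01 : e ≤ 1 - b * g01) (h11 : e ≤ 1 - b * g11)
    (hi1 : |g01 - g11| ≤ ci) (hl0 : |g00 - g01| ≤ cl) (hl1 : |g10 - g11| ≤ cl) (hm : |g00 - g10 - g01 + g11| ≤ ci * cl) :
    |1 / (1 - b * g00) - 1 / (1 - b * g10) - 1 / (1 - b * g01) + 1 / (1 - b * g11)| ≤ (b / e ^ 2 + 2 * b ^ 2 / e ^ 3) * (ci * cl) := by
  obtain ⟨a0, a1⟩ := inv_rk_F_bd he h00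
  obtain ⟨b0, b1⟩ := inv_rk_F_bd he h10
  obtain ⟨c0, c1⟩ := inv_rk_F_bd he h01
  obtain ⟨d0, d1⟩ := inv_rk_F_bd he h11
  have hci : 0 ≤ ci := (abs_nonneg _).trans hi1
  have hcl : 0 ≤ cl := (abs_nonneg _).trans hl0
  generalize hF00 : 1 / (1 - b * g00) = F00 at *
  generalize hF10 : 1 / (1 - b * g10) = F10 at *
  generalize hF01 : 1 / (1 - b * g01) = F01 at *
  generalize hF11 : 1 / (1 - b * g11) = F11 at *
  have e1 : F00 - F10 = b * (g00 - g10) * F00 * F10 := by rw [← hF00, ← hF10]; exact inv_rk_F_sub b _ _ (by linarith) (by linarith)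
  have e2 : F01 - F11 = b * (g01 - g11) * F01 * F11 := by rw [← hF01, ← hF11]; exact inv_rk_F_sub b _ _ (by linarith) (by linarith)
  have e3 : F00 - F01 = b * (g00 - g01) * F00 * F01 := by rw [← hF00, ← hF01]; exact inv_rk_F_sub b _ _ (by linarith) (by linarith)
  have e4 : F10 - F11 = b * (g10 - g11) * F10 * F11 := by rw [← hF10, ← hF11]; exact inv_rk_F_sub b _ _ (by linarith) (by linarith)
  have key : F00 - F10 - F01 + F11 = b * (g00 - g10 - g01 + g11) * F00 * F10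
      + b * (g01 - g11) * ((b * (g00 - g01) * F00 * F01) * F10 + F01 * (b * (g10 - g11) * F10 * F11)) := by
    rw [← e3, ← e4]
    linear_combination e1 - e2
  rw [key]
  have hie : 0 < 1 / e := by positivity
  have t1 : |b * (g00 - g10 - g01 + g11) * F00 * F10| ≤ b * (ci * cl) * (1 / e) * (1 / e) := by
    rw [abs_mul, abs_mul, abs_mul, abs_of_nonneg hb, abs_of_pos a0, abs_of_pos b0]
    gcongr
  have t2 : |b * (g00 - g01) * F00 * F01 * F10| ≤ b * cl * (1 / e) * (1 / e) * (1 / e) := by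
    rw [abs_mul, abs_mul, abs_mul, abs_mul, abs_of_nonneg hb, abs_of_pos a0, abs_of_pos b0, abs_of_pos c0]
    gcongr
  have t3 : |F01 * (b * (g10 - g11) * F10 * F11)| ≤ (1 / e) * (b * cl * (1 / e) * (1 / e)) := by
    rw [abs_mul, abs_mul, abs_mul, abs_mul, abs_of_nonneg hb, abs_of_pos d0, abs_of_pos b0, abs_of_pos c0]
    gcongr
  have t4 : |b * (g01 - g11) * ((b * (g00 - g01) * F00 * F01) * F10 + F01 * (b * (g10 - g11) * F10 * F11))|
      ≤ b * ci * (b * cl * (1 / e) * (1 / e) * (1 / e) + (1 / e) * (b * cl * (1 / e) * (1 / e))) := by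
    rw [abs_mul, abs_mul, abs_of_nonneg hb]
    have := (abs_add_le (b * (g00 - g01) * F00 * F01 * F10) (F01 * (b * (g10 - g11) * F10 * F11))).trans (add_le_add t2 t3)
    gcongr
  refine (abs_add_le _ _).trans ((add_le_add t1 t4).trans (le_of_eq ?_))
  field_simp
  ring

end Claimed.Agent.R286
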