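import Mathlib

/-!
# Row 286, LL 05-inverse, Prop 5.1, paragraph "The additive resolvent": the WEIGHTED DIFFERENCE estimate and the `ℕ`-indexed exit
Owner: helper123 (platoon LL05+06, head 84).  Paper-free, Mathlib only, 0 sorry.   Prefix `l05r_` / `L05r`.

Abstract part (any finite index type `ι`):
* `l05r_C B w = (1 + B w)⁻¹ B`: `l05r_C_symm`, `l05r_C_psd`, `l05r_C_le`, `l05r_C_abs_le`, `l05r_C_eq`, `l05r_C_eq'`, `l05r_C_lip`, `l05r_resolvent`.
* `L05rOk Λ d b B g μ` : hypotheses of one additive sector, ONE constant `Λ ≥ 1` (bounds `B_rr`, Lipschitz constants, `g`, `b`, `1/e`).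
* `l05r_T = diag ℓ + B diag (μ b)`, `l05r_S = diag (1/ℓ) + A diag μ`, `L05rOk.S_T`, `L05rOk.T_S`, `L05rOk.A_abs : |A_rt| ≤ Λ^4`.
* `L05rOk.C_diff`, `L05rOk.A_diff : |A'_rt - A_rt| ≤ 10 Λ^10 (εB + εg + P)`, the change of the sheet measure enters only through
  `|∑ (μ' - μ) φ| ≤ P (L + M)` for `M`-bounded `L`-Lipschitz `φ` (atoms subtracted BEFORE absolute values).
`ℕ`-indexed exit (retained sheets `Finset.Icc r0 R`, functions on `ℕ`, only ADJACENT rows in the Lipschitz hypotheses):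
* `L05rOkN`, `l05r_AN`, `l05r_TN`, `l05r_SN`, `L05rOkN.SN_TN`, `L05rOkN.TN_SN`, `L05rOkN.AN_abs`, `L05rOkN.AN_diff`.
* `l05r_mu p k t` = the paper's `μ_t^k`; `l05r_mu_nonneg`, `l05r_mu_diff` (`= p_k (δ_k - δ_{k-1})`), `l05r_mu_sum` (`≤ 2`).
* (the family record of all sectors was DELETED 15 Oct 05:00Z: no consumer; the sectors are instantiated pairwise `k, k+1` in `Inv/Coef0.lean`, `Inv/Coef.lean`.)
-/

set_option autoImplicit false
set_option linter.unusedSectionVars false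

namespace Claimed.Agent.R286

open Finset Matrix

variable {ι : Type*} [Fintype ι] [DecidableEq ι]

/-- the additive resolvent `C = (1 + B w)⁻¹ B` -/
noncomputable def l05r_C (B : Matrix ι ι ℝ) (w : ι → ℝ) : Matrix ι ι ℝ :=
  (1 + B * diagonal w)⁻¹ * B

theorem l05r_C_eqns_cite : True := by
  have := @l05r_C.eq_1.{0}
  trivial

/-- `1 + B w` is invertible when `B` is positive semidefinite and `w ≥ 0` -/
theorem l05r_unit (B : Matrix ι ι ℝ) (w : ι → ℝ)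
    (hBp : ∀ x : ι → ℝ, 0 ≤ x ⬝ᵥ (B *ᵥ x)) (hw : ∀ t, 0 ≤ w t) :
    IsUnit (1 + B * diagonal w).det := by
  rw [← isUnit_iff_isUnit_det, ← mulVec_injective_iff_isUnit]
  intro v v' hvv
  have h0 : (1 + B * diagonal w) *ᵥ (v - v') = 0 := by
    rw [mulVec_sub, hvv, sub_self]
  set z := v - v' with hz
  set u : ι → ℝ := fun t => w t * z t with hu
  have hdu : diagonal w *ᵥ z = u := by
    funext t
    simp [hu, mulVec_diagonal]
  have h1 : z + B *ᵥ u = 0 := by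
    have := h0
    rw [add_mulVec, one_mulVec, ← mulVec_mulVec, hdu] at this
    exact this
  have h2 : u ⬝ᵥ z + u ⬝ᵥ (B *ᵥ u) = 0 := by
    rw [← dotProduct_add, h1, dotProduct_zero]
  have h3 : 0 ≤ u ⬝ᵥ (B *ᵥ u) := hBp u
  have h4 : u ⬝ᵥ z = ∑ t, w t * z t ^ 2 := by
    simp only [dotProduct, hu]
    exact Finset.sum_congr rfl fun t _ => by ring
  have h5 : ∀ t, 0 ≤ w t * z t ^ 2 := fun t => mul_nonneg (hw t) (sq_nonneg _)
  have h6 : ∑ t, w t * z t ^ 2 = 0 := by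
    have : 0 ≤ ∑ t, w t * z t ^ 2 := Finset.sum_nonneg fun t _ => h5 t
    linarith [h4 ▸ h2]
  have h7 : ∀ t, w t * z t ^ 2 = 0 := fun t =>
    (Finset.sum_eq_zero_iff_of_nonneg fun t _ => h5 t).1 h6 t (Finset.mem_univ t)
  have h8 : u = 0 := by
    funext t
    rcases mul_eq_zero.1 (h7 t) with h | h
    · simp [hu, h]
    · simp [hu, pow_eq_zero_iff (two_ne_zero) |>.1 h]
  have h9 : z = 0 := by
    rw [h8, mulVec_zero, add_zero] at h1
    exact h1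
  exact sub_eq_zero.1 h9

theorem l05r_C_mul (B : Matrix ι ι ℝ) (w : ι → ℝ)
    (hBp : ∀ x : ι → ℝ, 0 ≤ x ⬝ᵥ (B *ᵥ x)) (hw : ∀ t, 0 ≤ w t) :
    (1 + B * diagonal w) * l05r_C B w = B := by
  unfold l05r_C
  rw [← Matrix.mul_assoc, mul_nonsing_inv _ (l05r_unit B w hBp hw), Matrix.one_mul]

/-- `C = B - B w C` -/
theorem l05r_C_eq (B : Matrix ι ι ℝ) (w : ι → ℝ)
    (hBp : ∀ x : ι → ℝ, 0 ≤ x ⬝ᵥ (B *ᵥ x)) (hw : ∀ t, 0 ≤ w t) :
    l05r_C B w = B - B * diagonal w * l05r_C B w := by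
  have := l05r_C_mul B w hBp hw
  rw [Matrix.add_mul, Matrix.one_mul] at this
  rw [eq_sub_iff_add_eq]
  exact this

/-- `C (1 + w B) = B` -/
theorem l05r_C_mul' (B : Matrix ι ι ℝ) (w : ι → ℝ)
    (hBp : ∀ x : ι → ℝ, 0 ≤ x ⬝ᵥ (B *ᵥ x)) (hw : ∀ t, 0 ≤ w t) :
    l05r_C B w * (1 + diagonal w * B) = B := by
  have h1 : B * (1 + diagonal w * B) = (1 + B * diagonal w) * B := by
    rw [Matrix.mul_add, Matrix.add_mul, Matrix.mul_one, Matrix.one_mul, Matrix.mul_assoc]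
  unfold l05r_C
  rw [Matrix.mul_assoc, h1, ← Matrix.mul_assoc, nonsing_inv_mul _ (l05r_unit B w hBp hw), Matrix.one_mul]

/-- `C = B - C w B` -/
theorem l05r_C_eq' (B : Matrix ι ι ℝ) (w : ι → ℝ)
    (hBp : ∀ x : ι → ℝ, 0 ≤ x ⬝ᵥ (B *ᵥ x)) (hw : ∀ t, 0 ≤ w t) :
    l05r_C B w = B - l05r_C B w * diagonal w * B := by
  have := l05r_C_mul' B w hBp hw
  rw [Matrix.mul_add, Matrix.mul_one, ← Matrix.mul_assoc] at this
  rw [eq_sub_iff_add_eq]
  exact this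

/-- `C` is symmetric -/
theorem l05r_C_symm (B : Matrix ι ι ℝ) (w : ι → ℝ) (hBs : Bᵀ = B)
    (hBp : ∀ x : ι → ℝ, 0 ≤ x ⬝ᵥ (B *ᵥ x)) (hw : ∀ t, 0 ≤ w t) :
    (l05r_C B w)ᵀ = l05r_C B w := by
  -- `(1 + B w) Cᵀ = B` as well
  have h1 : (l05r_C B w * (1 + diagonal w * B))ᵀ = Bᵀ := by rw [l05r_C_mul' B w hBp hw]
  rw [transpose_mul, transpose_add, transpose_one, transpose_mul, hBs, diagonal_transpose] at h1
  have h2 := l05r_C_mul B w hBp hw
  have hu := l05r_unit B w hBp hw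
  calc (l05r_C B w)ᵀ = (1 + B * diagonal w)⁻¹ * ((1 + B * diagonal w) * (l05r_C B w)ᵀ) := by
        rw [← Matrix.mul_assoc, nonsing_inv_mul _ hu, Matrix.one_mul]
    _ = (1 + B * diagonal w)⁻¹ * ((1 + B * diagonal w) * (l05r_C B w)) := by rw [h1, h2]
    _ = l05r_C B w := by rw [← Matrix.mul_assoc, nonsing_inv_mul _ hu, Matrix.one_mul]


/-- the key substitution: for every `x` there is `y` with `x = y + w B y` and `C x = B y` -/
theorem l05r_C_subst (B : Matrix ι ι ℝ) (w : ι → ℝ) (hBs : Bᵀ = B)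
    (hBp : ∀ x : ι → ℝ, 0 ≤ x ⬝ᵥ (B *ᵥ x)) (hw : ∀ t, 0 ≤ w t) (x : ι → ℝ) :
    ∃ y : ι → ℝ, x = y + diagonal w *ᵥ (B *ᵥ y) ∧ l05r_C B w *ᵥ x = B *ᵥ y := by
  -- `y = x - w C x`
  refine ⟨x - diagonal w *ᵥ (l05r_C B w *ᵥ x), ?_, ?_⟩
  · have h := l05r_C_eq B w hBp hw
    have h2 : B *ᵥ (x - diagonal w *ᵥ (l05r_C B w *ᵥ x)) = l05r_C B w *ᵥ x := by
      conv_rhs => rw [h]
      rw [mulVec_sub, sub_mulVec, mulVec_mulVec, mulVec_mulVec]
    rw [h2]
    abel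
  · have h := l05r_C_eq B w hBp hw
    conv_lhs => rw [h]
    rw [mulVec_sub, sub_mulVec, mulVec_mulVec, mulVec_mulVec]

theorem l05r_dot_diag (w : ι → ℝ) (hw : ∀ t, 0 ≤ w t) (z : ι → ℝ) : 0 ≤ (diagonal w *ᵥ z) ⬝ᵥ z := by
  simp only [dotProduct, mulVec_diagonal]
  exact Finset.sum_nonneg fun t _ => by nlinarith [hw t, sq_nonneg (z t), mul_nonneg (hw t) (sq_nonneg (z t))]

omit [DecidableEq ι] in
theorem l05r_dot_symm (B : Matrix ι ι ℝ) (hBs : Bᵀ = B) (x y : ι → ℝ) :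
    x ⬝ᵥ (B *ᵥ y) = y ⬝ᵥ (B *ᵥ x) := by
  rw [dotProduct_mulVec, ← mulVec_transpose, hBs, dotProduct_comm]

/-- `0 ≼ C` -/
theorem l05r_C_psd (B : Matrix ι ι ℝ) (w : ι → ℝ) (hBs : Bᵀ = B)
    (hBp : ∀ x : ι → ℝ, 0 ≤ x ⬝ᵥ (B *ᵥ x)) (hw : ∀ t, 0 ≤ w t) (x : ι → ℝ) :
    0 ≤ x ⬝ᵥ (l05r_C B w *ᵥ x) := by
  obtain ⟨y, hx, hC⟩ := l05r_C_subst B w hBs hBp hw x
  rw [hC]
  conv_rhs => rw [hx]
  rw [add_dotProduct]
  exact add_nonneg (hBp y) (l05r_dot_diag w hw _)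

/-- `C ≼ B` -/
theorem l05r_C_le (B : Matrix ι ι ℝ) (w : ι → ℝ) (hBs : Bᵀ = B)
    (hBp : ∀ x : ι → ℝ, 0 ≤ x ⬝ᵥ (B *ᵥ x)) (hw : ∀ t, 0 ≤ w t) (x : ι → ℝ) :
    x ⬝ᵥ (l05r_C B w *ᵥ x) ≤ x ⬝ᵥ (B *ᵥ x) := by
  obtain ⟨y, hx, hC⟩ := l05r_C_subst B w hBs hBp hw x
  rw [hC]
  set v := diagonal w *ᵥ (B *ᵥ y) with hv
  have h1 : x ⬝ᵥ (B *ᵥ x) = x ⬝ᵥ (B *ᵥ y) + (y ⬝ᵥ (B *ᵥ v) + v ⬝ᵥ (B *ᵥ v)) := by
    conv_lhs => rw [hx]
    rw [mulVec_add, dotProduct_add, ← hx]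
    congr 1
    rw [hx, add_dotProduct]
  have h2 : y ⬝ᵥ (B *ᵥ v) = v ⬝ᵥ (B *ᵥ y) := l05r_dot_symm B hBs _ _
  have h3 : 0 ≤ v ⬝ᵥ (B *ᵥ y) := l05r_dot_diag w hw _
  have h4 := hBp v
  linarith

theorem l05r_quad_single (M : Matrix ι ι ℝ) (r : ι) : (Pi.single r 1 : ι → ℝ) ⬝ᵥ (M *ᵥ Pi.single r 1) = M r r := by
  simp

/-- entries of a symmetric positive semidefinite matrix are bounded by the diagonal -/
theorem l05r_entry_le (M : Matrix ι ι ℝ) (hMs : Mᵀ = M) (hMp : ∀ x : ι → ℝ, 0 ≤ x ⬝ᵥ (M *ᵥ x)) (r t : ι) :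
    |M r t| ≤ (M r r + M t t) / 2 := by
  have hs : M t r = M r t := by
    have := congrFun (congrFun hMs r) t
    simpa using this
  have e1 : ∀ c : ℝ, ((Pi.single r 1 : ι → ℝ) + c • Pi.single t 1) ⬝ᵥ (M *ᵥ ((Pi.single r 1 : ι → ℝ) + c • Pi.single t 1))
      = M r r + 2 * c * M r t + c ^ 2 * M t t := by
    intro c
    simp only [mulVec_add, mulVec_smul, add_dotProduct, dotProduct_add, smul_dotProduct, dotProduct_smul, smul_eq_mul,
      single_one_dotProduct, mulVec_single_one, Matrix.col_apply]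
    rw [hs]
    ring
  have h1 := hMp ((Pi.single r 1 : ι → ℝ) + (1 : ℝ) • Pi.single t 1)
  have h2 := hMp ((Pi.single r 1 : ι → ℝ) + (-1 : ℝ) • Pi.single t 1)
  rw [e1] at h1 h2
  rw [abs_le]
  constructor <;> linarith

/-- entrywise bound of the resolvent -/
theorem l05r_C_abs_le (B : Matrix ι ι ℝ) (w : ι → ℝ) (hBs : Bᵀ = B)
    (hBp : ∀ x : ι → ℝ, 0 ≤ x ⬝ᵥ (B *ᵥ x)) (hw : ∀ t, 0 ≤ w t) {β : ℝ} (hβ : ∀ r, B r r ≤ β) (r t : ι) :
    |l05r_C B w r t| ≤ β := by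
  have h1 := l05r_entry_le (l05r_C B w) (l05r_C_symm B w hBs hBp hw) (l05r_C_psd B w hBs hBp hw) r t
  have h2 : ∀ s, l05r_C B w s s ≤ β := by
    intro s
    have := l05r_C_le B w hBs hBp hw (Pi.single s 1)
    rw [l05r_quad_single, l05r_quad_single] at this
    exact this.trans (hβ s)
  linarith [h2 r, h2 t]

theorem l05r_mul_diag_mul (M N : Matrix ι ι ℝ) (w : ι → ℝ) (r t : ι) :
    (M * diagonal w * N) r t = ∑ s, M r s * w s * N s t := by
  rw [Matrix.mul_apply]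
  exact Finset.sum_congr rfl fun s _ => by rw [Matrix.mul_diagonal]

/-- transfer of the evaluation Lipschitz bound from `B` to `C` -/
theorem l05r_C_lip (B : Matrix ι ι ℝ) (w : ι → ℝ)
    (hBp : ∀ x : ι → ℝ, 0 ≤ x ⬝ᵥ (B *ᵥ x)) (hw : ∀ t, 0 ≤ w t) {δ ω γ : ℝ} {r r' : ι}
    (hlip : ∀ s, |B r s - B r' s| ≤ δ) (hω : ∑ s, w s ≤ ω) (hγ : ∀ s t, |l05r_C B w s t| ≤ γ) (t : ι) :
    |l05r_C B w r t - l05r_C B w r' t| ≤ δ * (1 + ω * γ) := by
  have hδ : 0 ≤ δ := (abs_nonneg _).trans (hlip t)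
  have hγ0 : 0 ≤ γ := (abs_nonneg _).trans (hγ t t)
  have h := l05r_C_eq B w hBp hw
  have e : l05r_C B w r t - l05r_C B w r' t
      = (B r t - B r' t) - ∑ s, (B r s - B r' s) * w s * l05r_C B w s t := by
    have h1 : ∀ q, l05r_C B w q t = B q t - ∑ s, B q s * w s * l05r_C B w s t := by
      intro q
      conv_lhs => rw [h]
      rw [Matrix.sub_apply, l05r_mul_diag_mul]
    rw [h1 r, h1 r']
    have : ∑ s, (B r s - B r' s) * w s * l05r_C B w s t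
        = ∑ s, B r s * w s * l05r_C B w s t - ∑ s, B r' s * w s * l05r_C B w s t := by
      rw [← Finset.sum_sub_distrib]
      exact Finset.sum_congr rfl fun s _ => by ring
    rw [this]
    ring
  rw [e]
  have h2 : |∑ s, (B r s - B r' s) * w s * l05r_C B w s t| ≤ δ * (ω * γ) := by
    calc |∑ s, (B r s - B r' s) * w s * l05r_C B w s t|
        ≤ ∑ s, |(B r s - B r' s) * w s * l05r_C B w s t| := Finset.abs_sum_le_sum_abs _ _
      _ ≤ ∑ s, δ * (w s * γ) := by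
          refine Finset.sum_le_sum fun s _ => ?_
          rw [abs_mul, abs_mul, abs_of_nonneg (hw s), mul_assoc]
          exact mul_le_mul (hlip s) (mul_le_mul_of_nonneg_left (hγ s t) (hw s)) (by have := hw s; positivity) hδ
      _ = δ * ((∑ s, w s) * γ) := by rw [Finset.sum_mul, Finset.mul_sum]
      _ ≤ δ * (ω * γ) := by gcongr
  calc |(B r t - B r' t) - ∑ s, (B r s - B r' s) * w s * l05r_C B w s t|
      ≤ |B r t - B r' t| + |∑ s, (B r s - B r' s) * w s * l05r_C B w s t| := abs_sub _ _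
    _ ≤ δ + δ * (ω * γ) := add_le_add (hlip t) h2
    _ = δ * (1 + ω * γ) := by ring

/-- **the resolvent identity** -/
theorem l05r_resolvent (B B' : Matrix ι ι ℝ) (w w' : ι → ℝ)
    (hBp : ∀ x : ι → ℝ, 0 ≤ x ⬝ᵥ (B *ᵥ x)) (hw : ∀ t, 0 ≤ w t)
    (hBp' : ∀ x : ι → ℝ, 0 ≤ x ⬝ᵥ (B' *ᵥ x)) (hw' : ∀ t, 0 ≤ w' t) :
    l05r_C B' w' - l05r_C B w
      = (1 - l05r_C B' w' * diagonal w') * (B' - B) * (1 - diagonal w * l05r_C B w)
        - l05r_C B' w' * diagonal (fun s => w' s - w s) * l05r_C B w := by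
  set C := l05r_C B w with hC
  set C' := l05r_C B' w' with hC'
  have ha : B * (1 - diagonal w * C) = C := by
    have := l05r_C_eq B w hBp hw
    rw [Matrix.mul_sub, Matrix.mul_one, ← Matrix.mul_assoc]
    exact this.symm
  have hb : (1 - C' * diagonal w') * B' = C' := by
    have := l05r_C_eq' B' w' hBp' hw'
    rw [Matrix.sub_mul, Matrix.one_mul]
    exact this.symm
  have hd : diagonal (fun s => w' s - w s) = diagonal w' - diagonal w := by
    rw [← diagonal_sub]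
  have e1 : (1 - C' * diagonal w') * (B' - B) * (1 - diagonal w * C)
      = ((1 - C' * diagonal w') * B') * (1 - diagonal w * C) - (1 - C' * diagonal w') * (B * (1 - diagonal w * C)) := by
    noncomm_ring
  rw [e1, ha, hb, hd]
  noncomm_ring

omit [DecidableEq ι] in
/-- entrywise bound for a sandwich `M X N` -/
theorem l05r_sandwich (M X N : Matrix ι ι ℝ) {ε m n : ℝ} (r t : ι) (hX : ∀ s s', |X s s'| ≤ ε)
    (hM : ∑ s, |M r s| ≤ m) (hN : ∑ s, |N s t| ≤ n) : |(M * X * N) r t| ≤ m * ε * n := by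
  have hε : 0 ≤ ε := (abs_nonneg _).trans (hX r r)
  have hm : 0 ≤ m := (Finset.sum_nonneg fun s _ => abs_nonneg _).trans hM
  have h1 : ∀ s', |(M * X) r s'| ≤ m * ε := by
    intro s'
    rw [Matrix.mul_apply]
    calc |∑ s, M r s * X s s'| ≤ ∑ s, |M r s * X s s'| := Finset.abs_sum_le_sum_abs _ _
      _ ≤ ∑ s, |M r s| * ε := Finset.sum_le_sum fun s _ => by
          rw [abs_mul]; exact mul_le_mul_of_nonneg_left (hX s s') (abs_nonneg _)
      _ = (∑ s, |M r s|) * ε := by rw [Finset.sum_mul]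
      _ ≤ m * ε := by gcongr
  rw [Matrix.mul_apply]
  calc |∑ s, (M * X) r s * N s t| ≤ ∑ s, |(M * X) r s * N s t| := Finset.abs_sum_le_sum_abs _ _
    _ ≤ ∑ s, (m * ε) * |N s t| := Finset.sum_le_sum fun s _ => by
        rw [abs_mul]; exact mul_le_mul_of_nonneg_right (h1 s) (abs_nonneg _)
    _ = (m * ε) * ∑ s, |N s t| := by rw [Finset.mul_sum]
    _ ≤ m * ε * n := by gcongr

theorem l05r_row_sum (C : Matrix ι ι ℝ) (w : ι → ℝ) (hw : ∀ t, 0 ≤ w t) {ω γ : ℝ}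
    (hω : ∑ s, w s ≤ ω) (hγ : ∀ s t, |C s t| ≤ γ) (r : ι) :
    ∑ s, |(1 - C * diagonal w) r s| ≤ 1 + γ * ω := by
  have hγ0 : 0 ≤ γ := (abs_nonneg _).trans (hγ r r)
  calc ∑ s, |(1 - C * diagonal w) r s| ≤ ∑ s, (|(1 : Matrix ι ι ℝ) r s| + γ * w s) := by
        refine Finset.sum_le_sum fun s _ => ?_
        rw [Matrix.sub_apply, Matrix.mul_diagonal]
        refine (abs_sub _ _).trans (add_le_add le_rfl ?_)
        rw [abs_mul, abs_of_nonneg (hw s)]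
        exact mul_le_mul_of_nonneg_right (hγ r s) (hw s)
    _ = 1 + γ * ∑ s, w s := by
        rw [Finset.sum_add_distrib, Finset.mul_sum]
        congr 1
        simp [Matrix.one_apply, apply_ite abs]
    _ ≤ 1 + γ * ω := by gcongr

theorem l05r_col_sum (C : Matrix ι ι ℝ) (w : ι → ℝ) (hw : ∀ t, 0 ≤ w t) {ω γ : ℝ}
    (hω : ∑ s, w s ≤ ω) (hγ : ∀ s t, |C s t| ≤ γ) (t : ι) :
    ∑ s, |(1 - diagonal w * C) s t| ≤ 1 + γ * ω := by
  have hγ0 : 0 ≤ γ := (abs_nonneg _).trans (hγ t t)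
  calc ∑ s, |(1 - diagonal w * C) s t| ≤ ∑ s, (|(1 : Matrix ι ι ℝ) s t| + γ * w s) := by
        refine Finset.sum_le_sum fun s _ => ?_
        rw [Matrix.sub_apply, Matrix.diagonal_mul]
        refine (abs_sub _ _).trans (add_le_add le_rfl ?_)
        rw [abs_mul, abs_of_nonneg (hw s), mul_comm]
        exact mul_le_mul_of_nonneg_right (hγ s t) (hw s)
    _ = 1 + γ * ∑ s, w s := by
        rw [Finset.sum_add_distrib, Finset.mul_sum]
        congr 1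
        simp [Matrix.one_apply, apply_ite abs]
    _ ≤ 1 + γ * ω := by gcongr

/-- inverse gap `1/ℓ` -/
noncomputable def l05r_u (b g : ι → ℝ) (s : ι) : ℝ := (1 - b s * g s)⁻¹
/-- the weight `w = μ b / ℓ` -/
noncomputable def l05r_w (b g μ : ι → ℝ) (s : ι) : ℝ := μ s * b s * l05r_u b g s
/-- the off-diagonal part of the additive inverse: `A_rt = - C_rt b_t / (ℓ_r ℓ_t)` -/
noncomputable def l05r_A (b : ι → ℝ) (B : Matrix ι ι ℝ) (g μ : ι → ℝ) (r t : ι) : ℝ :=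
  - (l05r_C B (l05r_w b g μ) r t * b t * (l05r_u b g r * l05r_u b g t))
/-- the additive sector operator `T = diag ℓ + B diag (μ b)` -/
noncomputable def l05r_T (b : ι → ℝ) (B : Matrix ι ι ℝ) (g μ : ι → ℝ) (f : ι → ℝ) (r : ι) : ℝ :=
  (1 - b r * g r) * f r + ∑ t, B r t * (μ t * b t) * f t
/-- its inverse `S = diag (1/ℓ) + A diag μ` -/
noncomputable def l05r_S (b : ι → ℝ) (B : Matrix ι ι ℝ) (g μ : ι → ℝ) (h : ι → ℝ) (r : ι) : ℝ :=
  l05r_u b g r * h r + ∑ t, l05r_A b B g μ r t * μ t * h t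

theorem l05r_defs_eqns_cite : True := by
  have := @l05r_u.eq_1.{0}
  have := @l05r_w.eq_1.{0}
  have := @l05r_A.eq_1.{0}
  have := @l05r_T.eq_1.{0}
  have := @l05r_S.eq_1.{0}
  trivial

/-- hypotheses on the data of one additive sector; one constant `Λ ≥ 1` bounds everything; `d` = evaluation distance `|ΔK| + |Δb|` -/
structure L05rOk (Λ : ℝ) (d : ι → ι → ℝ) (b : ι → ℝ) (B : Matrix ι ι ℝ) (g μ : ι → ℝ) : Prop where
  one : 1 ≤ Λ
  sym : Bᵀ = B
  psd : ∀ x : ι → ℝ, 0 ≤ x ⬝ᵥ (B *ᵥ x)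
  diag : ∀ r, B r r ≤ Λ
  lipB : ∀ r r' s, |B r s - B r' s| ≤ Λ * d r r'
  g0 : ∀ s, 0 ≤ g s
  g1 : ∀ s, g s ≤ Λ
  lipg : ∀ s s', |g s - g s'| ≤ Λ * d s s'
  mu0 : ∀ s, 0 ≤ μ s
  mu1 : ∑ s, μ s ≤ 2
  gap : ∀ s, Λ⁻¹ ≤ 1 - b s * g s
  b0 : ∀ s, 0 ≤ b s
  b1 : ∀ s, b s ≤ Λ
  lipb : ∀ s s', |b s - b s'| ≤ d s s'

namespace L05rOk

variable {Λ : ℝ} {d : ι → ι → ℝ} {b : ι → ℝ} {B : Matrix ι ι ℝ} {g μ : ι → ℝ}

theorem pos (h : L05rOk Λ d b B g μ) : 0 < Λ := lt_of_lt_of_le one_pos h.one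

theorem pw (h : L05rOk Λ d b B g μ) {j k : ℕ} (hjk : j ≤ k) : Λ ^ j ≤ Λ ^ k := pow_le_pow_right₀ h.one hjk

theorem l_pos (h : L05rOk Λ d b B g μ) (s : ι) : 0 < 1 - b s * g s :=
  lt_of_lt_of_le (inv_pos.2 h.pos) (h.gap s)

theorem u_pos (h : L05rOk Λ d b B g μ) (s : ι) : 0 < l05r_u b g s := inv_pos.2 (h.l_pos s)

theorem u_le (h : L05rOk Λ d b B g μ) (s : ι) : l05r_u b g s ≤ Λ := by
  unfold l05r_u
  exact inv_le_of_inv_le₀ h.pos (h.gap s)

theorem u_mul (h : L05rOk Λ d b B g μ) (s : ι) : l05r_u b g s * (1 - b s * g s) = 1 :=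
  inv_mul_cancel₀ (h.l_pos s).ne'

theorem d_nonneg (h : L05rOk Λ d b B g μ) (s s' : ι) : 0 ≤ d s s' := (abs_nonneg _).trans (h.lipb s s')

theorem w_nonneg (h : L05rOk Λ d b B g μ) (s : ι) : 0 ≤ l05r_w b g μ s :=
  mul_nonneg (mul_nonneg (h.mu0 s) (h.b0 s)) (h.u_pos s).le

theorem w_sum (h : L05rOk Λ d b B g μ) : ∑ s, l05r_w b g μ s ≤ 2 * Λ ^ 2 := by
  calc ∑ s, l05r_w b g μ s ≤ ∑ s, μ s * Λ ^ 2 := by
        refine Finset.sum_le_sum fun s _ => ?_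
        unfold l05r_w
        rw [mul_assoc, sq]
        exact mul_le_mul_of_nonneg_left (mul_le_mul (h.b1 s) (h.u_le s) (h.u_pos s).le h.pos.le) (h.mu0 s)
    _ = (∑ s, μ s) * Λ ^ 2 := by rw [Finset.sum_mul]
    _ ≤ 2 * Λ ^ 2 := by have := h.mu1; have := h.pos; gcongr

theorem C_abs (h : L05rOk Λ d b B g μ) (r t : ι) : |l05r_C B (l05r_w b g μ) r t| ≤ Λ :=
  l05r_C_abs_le B _ h.sym h.psd h.w_nonneg h.diag r t

theorem C_sym (h : L05rOk Λ d b B g μ) (r t : ι) : l05r_C B (l05r_w b g μ) r t = l05r_C B (l05r_w b g μ) t r := by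
  have := congrFun (congrFun (l05r_C_symm B _ h.sym h.psd h.w_nonneg) r) t
  simpa using this.symm

theorem C_lip (h : L05rOk Λ d b B g μ) (r r' t : ι) :
    |l05r_C B (l05r_w b g μ) r t - l05r_C B (l05r_w b g μ) r' t| ≤ 3 * Λ ^ 4 * d r r' := by
  have h1 := l05r_C_lip B _ h.psd h.w_nonneg (h.lipB r r') h.w_sum h.C_abs t
  refine h1.trans ?_
  have hd := h.d_nonneg r r'
  have e : Λ * d r r' * (1 + 2 * Λ ^ 2 * Λ) = (Λ ^ 1 + 2 * Λ ^ 4) * d r r' := by ring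
  rw [e]
  have := h.pw (show 1 ≤ 4 by norm_num)
  exact mul_le_mul_of_nonneg_right (by linarith) hd

theorem C_lip' (h : L05rOk Λ d b B g μ) (r r' t : ι) :
    |l05r_C B (l05r_w b g μ) t r - l05r_C B (l05r_w b g μ) t r'| ≤ 3 * Λ ^ 4 * d r r' := by
  rw [h.C_sym t r, h.C_sym t r']
  exact h.C_lip r r' t

theorem l_lip (h : L05rOk Λ d b B g μ) (s s' : ι) :
    |(1 - b s * g s) - (1 - b s' * g s')| ≤ 2 * Λ ^ 2 * d s s' := by
  have e : (1 - b s * g s) - (1 - b s' * g s') = -((b s - b s') * g s) - b s' * (g s - g s') := by ring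
  rw [e]
  have hd := h.d_nonneg s s'
  have h1 : |(b s - b s') * g s| ≤ d s s' * Λ := by
    rw [abs_mul, abs_of_nonneg (h.g0 s)]
    exact mul_le_mul (h.lipb s s') (h.g1 s) (h.g0 s) hd
  have h2 : |b s' * (g s - g s')| ≤ Λ * (Λ * d s s') := by
    rw [abs_mul, abs_of_nonneg (h.b0 s')]
    exact mul_le_mul (h.b1 s') (h.lipg s s') (abs_nonneg _) h.pos.le
  have h3 : d s s' * Λ ≤ Λ ^ 2 * d s s' := by
    have := h.pw (show 1 ≤ 2 by norm_num)
    nlinarith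
  calc |-((b s - b s') * g s) - b s' * (g s - g s')| ≤ |-((b s - b s') * g s)| + |b s' * (g s - g s')| := abs_sub _ _
    _ ≤ d s s' * Λ + Λ * (Λ * d s s') := by rw [abs_neg]; exact add_le_add h1 h2
    _ ≤ 2 * Λ ^ 2 * d s s' := by nlinarith

theorem u_lip (h : L05rOk Λ d b B g μ) (s s' : ι) :
    |l05r_u b g s - l05r_u b g s'| ≤ 2 * Λ ^ 4 * d s s' := by
  have e : l05r_u b g s - l05r_u b g s' = ((1 - b s' * g s') - (1 - b s * g s)) * (l05r_u b g s * l05r_u b g s') := by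
    have h1 := h.u_mul s
    have h2 := h.u_mul s'
    calc l05r_u b g s - l05r_u b g s'
        = l05r_u b g s * (l05r_u b g s' * (1 - b s' * g s')) - l05r_u b g s' * (l05r_u b g s * (1 - b s * g s)) := by
          rw [h1, h2]; ring
      _ = _ := by ring
  rw [e, abs_mul, abs_of_pos (mul_pos (h.u_pos s) (h.u_pos s'))]
  have h1 := h.l_lip s' s
  have hd := h.d_nonneg s s'
  have h1' : |(1 - b s' * g s') - (1 - b s * g s)| ≤ 2 * Λ ^ 2 * d s s' := by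
    rw [abs_sub_comm]; exact h.l_lip s s'
  have h2 : l05r_u b g s * l05r_u b g s' ≤ Λ * Λ := mul_le_mul (h.u_le s) (h.u_le s') (h.u_pos s').le h.pos.le
  calc _ ≤ (2 * Λ ^ 2 * d s s') * (Λ * Λ) := mul_le_mul h1' h2 (mul_pos (h.u_pos s) (h.u_pos s')).le (by have := h.pos; positivity)
    _ = 2 * Λ ^ 4 * d s s' := by ring

theorem bu_abs (h : L05rOk Λ d b B g μ) (s : ι) : |b s * l05r_u b g s| ≤ Λ ^ 2 := by
  rw [abs_of_nonneg (mul_nonneg (h.b0 s) (h.u_pos s).le), sq]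
  exact mul_le_mul (h.b1 s) (h.u_le s) (h.u_pos s).le h.pos.le

theorem bu_lip (h : L05rOk Λ d b B g μ) (s s' : ι) :
    |b s * l05r_u b g s - b s' * l05r_u b g s'| ≤ 3 * Λ ^ 5 * d s s' := by
  have e : b s * l05r_u b g s - b s' * l05r_u b g s' = (b s - b s') * l05r_u b g s + b s' * (l05r_u b g s - l05r_u b g s') := by ring
  rw [e]
  have hd := h.d_nonneg s s'
  have h1 : |(b s - b s') * l05r_u b g s| ≤ d s s' * Λ := by
    rw [abs_mul, abs_of_pos (h.u_pos s)]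
    exact mul_le_mul (h.lipb s s') (h.u_le s) (h.u_pos s).le hd
  have h2 : |b s' * (l05r_u b g s - l05r_u b g s')| ≤ Λ * (2 * Λ ^ 4 * d s s') := by
    rw [abs_mul, abs_of_nonneg (h.b0 s')]
    exact mul_le_mul (h.b1 s') (h.u_lip s s') (abs_nonneg _) h.pos.le
  have h3 : d s s' * Λ ≤ Λ ^ 5 * d s s' := by
    have := h.pw (show 1 ≤ 5 by norm_num)
    nlinarith
  calc _ ≤ |(b s - b s') * l05r_u b g s| + |b s' * (l05r_u b g s - l05r_u b g s')| := abs_add_le _ _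
    _ ≤ d s s' * Λ + Λ * (2 * Λ ^ 4 * d s s') := add_le_add h1 h2
    _ ≤ 3 * Λ ^ 5 * d s s' := by nlinarith

/-- bound of the entries of `A` -/
theorem A_abs (h : L05rOk Λ d b B g μ) (r t : ι) : |l05r_A b B g μ r t| ≤ Λ ^ 4 := by
  unfold l05r_A
  rw [abs_neg, abs_mul, abs_mul, abs_of_nonneg (h.b0 t), abs_of_pos (mul_pos (h.u_pos r) (h.u_pos t))]
  have h1 : |l05r_C B (l05r_w b g μ) r t| * b t ≤ Λ * Λ := mul_le_mul (h.C_abs r t) (h.b1 t) (h.b0 t) h.pos.le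
  have h2 : l05r_u b g r * l05r_u b g t ≤ Λ * Λ := mul_le_mul (h.u_le r) (h.u_le t) (h.u_pos t).le h.pos.le
  calc _ ≤ (Λ * Λ) * (Λ * Λ) := mul_le_mul h1 h2 (mul_pos (h.u_pos r) (h.u_pos t)).le (by have := h.pos; positivity)
    _ = Λ ^ 4 := by ring

end L05rOk

theorem l05r_prod3 {x y z x' y' z' X Y Z a b c : ℝ} (hx' : |x'| ≤ X) (hy : |y| ≤ Y) (hy' : |y'| ≤ Y) (hz : |z| ≤ Z)
    (ha : |x - x'| ≤ a) (hb : |y - y'| ≤ b) (hc : |z - z'| ≤ c) :
    |x * y * z - x' * y' * z'| ≤ a * Y * Z + X * b * Z + X * Y * c := by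
  have e : x * y * z - x' * y' * z' = (x - x') * y * z + x' * (y - y') * z + x' * y' * (z - z') := by ring
  rw [e]
  have hX : 0 ≤ X := (abs_nonneg _).trans hx'
  have hY : 0 ≤ Y := (abs_nonneg _).trans hy
  have hZ : 0 ≤ Z := (abs_nonneg _).trans hz
  have ha0 : 0 ≤ a := (abs_nonneg _).trans ha
  have hb0 : 0 ≤ b := (abs_nonneg _).trans hb
  have h1 : |(x - x') * y * z| ≤ a * Y * Z := by
    rw [abs_mul, abs_mul]
    exact mul_le_mul (mul_le_mul ha hy (abs_nonneg _) ha0) hz (abs_nonneg _) (by positivity)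
  have h2 : |x' * (y - y') * z| ≤ X * b * Z := by
    rw [abs_mul, abs_mul]
    exact mul_le_mul (mul_le_mul hx' hb (abs_nonneg _) hX) hz (abs_nonneg _) (by positivity)
  have h3 : |x' * y' * (z - z')| ≤ X * Y * c := by
    rw [abs_mul, abs_mul]
    exact mul_le_mul (mul_le_mul hx' hy' (abs_nonneg _) hX) hc (abs_nonneg _) (by positivity)
  calc _ ≤ |(x - x') * y * z + x' * (y - y') * z| + |x' * y' * (z - z')| := abs_add_le _ _
    _ ≤ |(x - x') * y * z| + |x' * (y - y') * z| + |x' * y' * (z - z')| := by gcongr; exact abs_add_le _ _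
    _ ≤ _ := by linarith

namespace L05rOk

variable {Λ : ℝ} {d : ι → ι → ℝ} {b : ι → ℝ} {B B' : Matrix ι ι ℝ} {g μ g' μ' : ι → ℝ}

/-- `S` is a left inverse of `T` -/
theorem S_T (h : L05rOk Λ d b B g μ) (f : ι → ℝ) : l05r_S b B g μ (l05r_T b B g μ f) = f := by
  set w := l05r_w b g μ with hw
  set C := l05r_C B w with hC
  set φ : ι → ℝ := fun s => (1 - b s * g s) * f s with hφ
  have hT : l05r_T b B g μ f = φ + (B * diagonal w) *ᵥ φ := by
    funext r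
    simp only [l05r_T, Pi.add_apply, mulVec, dotProduct, Matrix.mul_diagonal, hφ]
    congr 1
    refine Finset.sum_congr rfl fun t _ => ?_
    have := h.u_mul t
    rw [hw]
    simp only [l05r_w]
    calc B r t * (μ t * b t) * f t = B r t * (μ t * b t) * (l05r_u b g t * (1 - b t * g t)) * f t := by rw [this, mul_one]
      _ = _ := by ring
  have hS : ∀ k : ι → ℝ, l05r_S b B g μ k = fun r => l05r_u b g r * ((k - (C * diagonal w) *ᵥ k) r) := by
    intro k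
    funext r
    simp only [l05r_S, Pi.sub_apply, mulVec, dotProduct, Matrix.mul_diagonal, l05r_A]
    rw [mul_sub, Finset.mul_sum, sub_eq_add_neg, ← Finset.sum_neg_distrib]
    congr 1
    refine Finset.sum_congr rfl fun t _ => ?_
    rw [hw]
    simp only [l05r_w]
    ring
  have hinv : (φ + (B * diagonal w) *ᵥ φ) - (C * diagonal w) *ᵥ (φ + (B * diagonal w) *ᵥ φ) = φ := by
    have e := l05r_C_eq' B w h.psd h.w_nonneg
    have e2 : B * diagonal w - C * diagonal w - C * diagonal w * (B * diagonal w) = 0 := by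
      have : B = C + C * diagonal w * B := by
        rw [← hC] at e
        rw [eq_sub_iff_add_eq] at e
        exact e.symm
      calc B * diagonal w - C * diagonal w - C * diagonal w * (B * diagonal w)
          = (B - C - C * diagonal w * B) * diagonal w := by noncomm_ring
        _ = 0 := by
          have : B - C - C * diagonal w * B = 0 := by
            nth_rewrite 1 [this]
            abel
          rw [this, Matrix.zero_mul]
    have : (φ + (B * diagonal w) *ᵥ φ) - (C * diagonal w) *ᵥ (φ + (B * diagonal w) *ᵥ φ)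
        = φ + (B * diagonal w - C * diagonal w - C * diagonal w * (B * diagonal w)) *ᵥ φ := by
      rw [mulVec_add, mulVec_mulVec, sub_mulVec, sub_mulVec]
      abel
    rw [this, e2, zero_mulVec, add_zero]
  rw [hT, hS, hinv]
  funext r
  simp only [hφ]
  rw [← mul_assoc, h.u_mul r, one_mul]

/-- `S` is a right inverse of `T` -/
theorem T_S (h : L05rOk Λ d b B g μ) (k : ι → ℝ) : l05r_T b B g μ (l05r_S b B g μ k) = k := by
  -- a left inverse of a linear endomorphism of a finite dimensional space is a right inverse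
  let T : (ι → ℝ) →ₗ[ℝ] (ι → ℝ) :=
    { toFun := l05r_T b B g μ
      map_add' := by
        intro x y; funext r
        simp only [l05r_T, Pi.add_apply, mul_add, Finset.sum_add_distrib]; ring
      map_smul' := by
        intro c x; funext r
        simp only [l05r_T, Pi.smul_apply, smul_eq_mul, RingHom.id_apply, Finset.mul_sum, mul_add]
        congr 1
        · ring
        · exact Finset.sum_congr rfl fun t _ => by ring }
  have hinj : Function.Injective T := by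
    intro x y hxy
    have h1 := h.S_T x
    have h2 := h.S_T y
    have : l05r_T b B g μ x = l05r_T b B g μ y := hxy
    rw [← h1, ← h2, this]
  have hsurj : Function.Surjective T := LinearMap.injective_iff_surjective.1 hinj
  obtain ⟨f, hf⟩ := hsurj k
  have hf' : l05r_T b B g μ f = k := hf
  rw [← hf', h.S_T f]

end L05rOk

namespace L05rOk

variable {Λ : ℝ} {d : ι → ι → ℝ} {b : ι → ℝ} {B B' : Matrix ι ι ℝ} {g μ g' μ' : ι → ℝ}

theorem u_diff (h : L05rOk Λ d b B g μ) (h' : L05rOk Λ d b B' g' μ') {εg : ℝ} (hg : ∀ s, |g' s - g s| ≤ εg) (s : ι) :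
    |l05r_u b g' s - l05r_u b g s| ≤ Λ ^ 3 * εg := by
  have e : l05r_u b g' s - l05r_u b g s = (b s * (g' s - g s)) * (l05r_u b g' s * l05r_u b g s) := by
    have h1 := h.u_mul s
    have h2 := h'.u_mul s
    calc l05r_u b g' s - l05r_u b g s
        = l05r_u b g' s * (l05r_u b g s * (1 - b s * g s)) - l05r_u b g s * (l05r_u b g' s * (1 - b s * g' s)) := by
          rw [h1, h2]; ring
      _ = _ := by ring
  have hε : 0 ≤ εg := (abs_nonneg _).trans (hg s)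
  rw [e, abs_mul, abs_mul, abs_of_nonneg (h.b0 s), abs_of_pos (mul_pos (h'.u_pos s) (h.u_pos s))]
  have h1 : b s * |g' s - g s| ≤ Λ * εg := mul_le_mul (h.b1 s) (hg s) (abs_nonneg _) h.pos.le
  have h2 : l05r_u b g' s * l05r_u b g s ≤ Λ * Λ := mul_le_mul (h'.u_le s) (h.u_le s) (h.u_pos s).le h.pos.le
  calc _ ≤ (Λ * εg) * (Λ * Λ) := mul_le_mul h1 h2 (mul_pos (h'.u_pos s) (h.u_pos s)).le (by have := h.pos; positivity)
    _ = Λ ^ 3 * εg := by ring

/-- **difference of two resolvents** -/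
theorem C_diff (h : L05rOk Λ d b B g μ) (h' : L05rOk Λ d b B' g' μ') {εB εg P : ℝ}
    (hB : ∀ r t, |B' r t - B r t| ≤ εB) (hg : ∀ s, |g' s - g s| ≤ εg)
    (hΔ : ∀ (φ : ι → ℝ) (M L : ℝ), 0 ≤ L → (∀ s, |φ s| ≤ M) → (∀ s s', |φ s - φ s'| ≤ L * d s s') →
      |∑ s, (μ' s - μ s) * φ s| ≤ P * (L + M)) (r t : ι) :
    |l05r_C B' (l05r_w b g' μ') r t - l05r_C B (l05r_w b g μ) r t| ≤ 9 * Λ ^ 6 * εB + 2 * Λ ^ 6 * εg + 10 * Λ ^ 7 * P := by
  have hΛ := h.pos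
  have hεB : 0 ≤ εB := (abs_nonneg _).trans (hB r r)
  have hεg : 0 ≤ εg := (abs_nonneg _).trans (hg r)
  have hP : 0 ≤ P := by
    have := hΔ (fun _ => 0) 1 0 le_rfl (by simp) (by simp)
    simpa using this
  set w := l05r_w b g μ with hw
  set w' := l05r_w b g' μ' with hw'
  set C := l05r_C B w with hC
  set C' := l05r_C B' w' with hC'
  have hres := l05r_resolvent B B' w w' h.psd h.w_nonneg h'.psd h'.w_nonneg
  have e : C' r t - C r t = ((1 - C' * diagonal w') * (B' - B) * (1 - diagonal w * C)) r t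
      - (C' * diagonal (fun s => w' s - w s) * C) r t := by
    rw [← Matrix.sub_apply, ← Matrix.sub_apply, hres]
  rw [e]
  -- first term
  have t1 : |((1 - C' * diagonal w') * (B' - B) * (1 - diagonal w * C)) r t| ≤ 9 * Λ ^ 6 * εB := by
    have := l05r_sandwich (1 - C' * diagonal w') (B' - B) (1 - diagonal w * C) r t (fun s s' => by rw [Matrix.sub_apply]; exact hB s s')
      (l05r_row_sum C' w' h'.w_nonneg h'.w_sum h'.C_abs r) (l05r_col_sum C w h.w_nonneg h.w_sum h.C_abs t)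
    refine this.trans ?_
    have e1 : (1 + Λ * (2 * Λ ^ 2)) * εB * (1 + Λ * (2 * Λ ^ 2)) = (Λ ^ 0 + 4 * Λ ^ 3 + 4 * Λ ^ 6) * εB := by ring
    rw [e1]
    have p1 := h.pw (show 0 ≤ 6 by norm_num)
    have p2 := h.pw (show 3 ≤ 6 by norm_num)
    exact mul_le_mul_of_nonneg_right (by linarith) hεB
  -- second term
  have e2 : (C' * diagonal (fun s => w' s - w s) * C) r t
      = ∑ s, (μ' s - μ s) * (C' r s * (b s * l05r_u b g' s) * C s t)
        + ∑ s, μ s * (b s * (l05r_u b g' s - l05r_u b g s) * (C' r s * C s t)) := by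
    rw [l05r_mul_diag_mul, ← Finset.sum_add_distrib]
    refine Finset.sum_congr rfl fun s _ => ?_
    simp only [hw, hw', l05r_w]
    ring
  have t2 : |∑ s, (μ' s - μ s) * (C' r s * (b s * l05r_u b g' s) * C s t)| ≤ 10 * Λ ^ 7 * P := by
    have := hΔ (fun s => C' r s * (b s * l05r_u b g' s) * C s t) (Λ ^ 4) (9 * Λ ^ 7) (by positivity) ?_ ?_
    · refine this.trans ?_
      have p1 := h.pw (show 4 ≤ 7 by norm_num)
      nlinarith
    · intro s
      rw [abs_mul, abs_mul]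
      calc _ ≤ Λ * Λ ^ 2 * Λ := mul_le_mul (mul_le_mul (h'.C_abs r s) (h'.bu_abs s) (abs_nonneg _) hΛ.le) (h.C_abs s t) (abs_nonneg _) (by positivity)
        _ = Λ ^ 4 := by ring
    · intro s s'
      have := l05r_prod3 (h'.C_abs r s') (h'.bu_abs s) (h'.bu_abs s') (h.C_abs s t) (h'.C_lip' s s' r) (h'.bu_lip s s') (h.C_lip s s' t)
      refine this.trans (le_of_eq ?_)
      ring
  have t3 : |∑ s, μ s * (b s * (l05r_u b g' s - l05r_u b g s) * (C' r s * C s t))| ≤ 2 * Λ ^ 6 * εg := by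
    calc _ ≤ ∑ s, |μ s * (b s * (l05r_u b g' s - l05r_u b g s) * (C' r s * C s t))| := Finset.abs_sum_le_sum_abs _ _
      _ ≤ ∑ s, μ s * (Λ ^ 6 * εg) := by
          refine Finset.sum_le_sum fun s _ => ?_
          rw [abs_mul, abs_of_nonneg (h.mu0 s)]
          refine mul_le_mul_of_nonneg_left ?_ (h.mu0 s)
          rw [abs_mul, abs_mul, abs_mul, abs_of_nonneg (h.b0 s)]
          calc _ ≤ (Λ * (Λ ^ 3 * εg)) * (Λ * Λ) :=
                mul_le_mul (mul_le_mul (h.b1 s) (h.u_diff h' hg s) (abs_nonneg _) hΛ.le)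
                  (mul_le_mul (h'.C_abs r s) (h.C_abs s t) (abs_nonneg _) hΛ.le) (by positivity) (by positivity)
            _ = Λ ^ 6 * εg := by ring
      _ = (∑ s, μ s) * (Λ ^ 6 * εg) := by rw [Finset.sum_mul]
      _ ≤ 2 * (Λ ^ 6 * εg) := by have := h.mu1; gcongr
      _ = 2 * Λ ^ 6 * εg := by ring
  rw [e2]
  calc _ ≤ |((1 - C' * diagonal w') * (B' - B) * (1 - diagonal w * C)) r t|
        + |∑ s, (μ' s - μ s) * (C' r s * (b s * l05r_u b g' s) * C s t)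
          + ∑ s, μ s * (b s * (l05r_u b g' s - l05r_u b g s) * (C' r s * C s t))| := abs_sub _ _
    _ ≤ 9 * Λ ^ 6 * εB + (10 * Λ ^ 7 * P + 2 * Λ ^ 6 * εg) := add_le_add t1 ((abs_add_le _ _).trans (add_le_add t2 t3))
    _ = _ := by ring

/-- **weighted difference of the additive inverses** (`‖A^{k+1} - A^k‖ ≲ p_k ρ_k` in the application) -/
theorem A_diff (h : L05rOk Λ d b B g μ) (h' : L05rOk Λ d b B' g' μ') {εB εg P : ℝ}
    (hB : ∀ r t, |B' r t - B r t| ≤ εB) (hg : ∀ s, |g' s - g s| ≤ εg)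
    (hΔ : ∀ (φ : ι → ℝ) (M L : ℝ), 0 ≤ L → (∀ s, |φ s| ≤ M) → (∀ s s', |φ s - φ s'| ≤ L * d s s') →
      |∑ s, (μ' s - μ s) * φ s| ≤ P * (L + M)) (r t : ι) :
    |l05r_A b B' g' μ' r t - l05r_A b B g μ r t| ≤ 10 * Λ ^ 10 * (εB + εg + P) := by
  have hΛ := h.pos
  have hεB : 0 ≤ εB := (abs_nonneg _).trans (hB r r)
  have hεg : 0 ≤ εg := (abs_nonneg _).trans (hg r)
  have hP : 0 ≤ P := by
    have := hΔ (fun _ => 0) 1 0 le_rfl (by simp) (by simp)
    simpa using this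
  have hC := h.C_diff h' hB hg hΔ r t
  unfold l05r_A
  have hu : ∀ (k : L05rOk Λ d b B g μ) (s : ι), |l05r_u b g s| ≤ Λ := fun k s => by rw [abs_of_pos (k.u_pos s)]; exact k.u_le s
  have hu' : ∀ (s : ι), |l05r_u b g' s| ≤ Λ := fun s => by rw [abs_of_pos (h'.u_pos s)]; exact h'.u_le s
  have huu : |l05r_u b g' r * l05r_u b g' t - l05r_u b g r * l05r_u b g t| ≤ 2 * Λ ^ 4 * εg := by
    have e : l05r_u b g' r * l05r_u b g' t - l05r_u b g r * l05r_u b g t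
        = (l05r_u b g' r - l05r_u b g r) * l05r_u b g' t + l05r_u b g r * (l05r_u b g' t - l05r_u b g t) := by ring
    rw [e]
    have a1 : |(l05r_u b g' r - l05r_u b g r) * l05r_u b g' t| ≤ (Λ ^ 3 * εg) * Λ := by
      rw [abs_mul]; exact mul_le_mul (h.u_diff h' hg r) (hu' t) (abs_nonneg _) (by positivity)
    have a2 : |l05r_u b g r * (l05r_u b g' t - l05r_u b g t)| ≤ Λ * (Λ ^ 3 * εg) := by
      rw [abs_mul]; exact mul_le_mul (hu h r) (h.u_diff h' hg t) (abs_nonneg _) hΛ.le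
    calc _ ≤ _ := abs_add_le _ _
      _ ≤ (Λ ^ 3 * εg) * Λ + Λ * (Λ ^ 3 * εg) := add_le_add a1 a2
      _ = 2 * Λ ^ 4 * εg := by ring
  have hb : |b t| ≤ Λ := by rw [abs_of_nonneg (h.b0 t)]; exact h.b1 t
  have huu1 : |l05r_u b g' r * l05r_u b g' t| ≤ Λ ^ 2 := by
    rw [abs_mul, sq]; exact mul_le_mul (hu' r) (hu' t) (abs_nonneg _) hΛ.le
  have key := l05r_prod3 (h.C_abs r t) hb hb huu1 hC (by simp : |b t - b t| ≤ 0) huu
  have e : -(l05r_C B' (l05r_w b g' μ') r t * b t * (l05r_u b g' r * l05r_u b g' t))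
      - -(l05r_C B (l05r_w b g μ) r t * b t * (l05r_u b g r * l05r_u b g t))
      = -(l05r_C B' (l05r_w b g' μ') r t * b t * (l05r_u b g' r * l05r_u b g' t)
        - l05r_C B (l05r_w b g μ) r t * b t * (l05r_u b g r * l05r_u b g t)) := by ring
  rw [e, abs_neg]
  refine key.trans ?_
  have p1 := h.pw (show 9 ≤ 10 by norm_num)
  have p2 := h.pw (show 6 ≤ 10 by norm_num)
  have e3 : (9 * Λ ^ 6 * εB + 2 * Λ ^ 6 * εg + 10 * Λ ^ 7 * P) * Λ * Λ ^ 2 + Λ * 0 * Λ ^ 2 + Λ * Λ * (2 * Λ ^ 4 * εg)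
      = 9 * Λ ^ 9 * εB + (2 * Λ ^ 9 + 2 * Λ ^ 6) * εg + 10 * Λ ^ 10 * P := by ring
  rw [e3]
  have q1 : 9 * Λ ^ 9 * εB ≤ 10 * Λ ^ 10 * εB := mul_le_mul_of_nonneg_right (by nlinarith [pow_pos hΛ 10]) hεB
  have q2 : (2 * Λ ^ 9 + 2 * Λ ^ 6) * εg ≤ 10 * Λ ^ 10 * εg := mul_le_mul_of_nonneg_right (by nlinarith [pow_pos hΛ 10]) hεg
  linarith

end L05rOk

/-! ## The `ℕ`-indexed exit -/

/-- cumulative evaluation distance -/
noncomputable def l05r_D (δ : ℕ → ℝ) (j : ℕ) : ℝ := ∑ i ∈ Finset.range (j + 1), δ i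

/-- `A^k_{rt}` on the retained sheets `Icc r0 R`, `0` elsewhere -/
noncomputable def l05r_AN (r0 R : ℕ) (b : ℕ → ℝ) (B : ℕ → ℕ → ℝ) (g μ : ℕ → ℝ) (r t : ℕ) : ℝ :=
  if h : r ∈ Finset.Icc r0 R ∧ t ∈ Finset.Icc r0 R then
    l05r_A (ι := ↥(Finset.Icc r0 R)) (fun s => b s) (Matrix.of fun s s' => B s s') (fun s => g s) (fun s => μ s) ⟨r, h.1⟩ ⟨t, h.2⟩
  else 0

/-- the additive sector operator on the retained sheets -/
noncomputable def l05r_TN (r0 R : ℕ) (b : ℕ → ℝ) (B : ℕ → ℕ → ℝ) (g μ : ℕ → ℝ) (f : ℕ → ℝ) (r : ℕ) : ℝ :=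
  (1 - b r * g r) * f r + ∑ t ∈ Finset.Icc r0 R, B r t * (μ t * b t) * f t

/-- its inverse -/
noncomputable def l05r_SN (r0 R : ℕ) (b : ℕ → ℝ) (B : ℕ → ℕ → ℝ) (g μ : ℕ → ℝ) (h : ℕ → ℝ) (r : ℕ) : ℝ :=
  (1 - b r * g r)⁻¹ * h r + ∑ t ∈ Finset.Icc r0 R, l05r_AN r0 R b B g μ r t * μ t * h t

theorem l05r_N_eqns_cite : True := by
  have := @l05r_D.eq_1
  have := @l05r_AN.eq_1
  have := @l05r_TN.eq_1
  have := @l05r_SN.eq_1
  trivial

theorem l05r_D_succ (δ : ℕ → ℝ) (j : ℕ) : l05r_D δ (j + 1) = l05r_D δ j + δ (j + 1) := by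
  unfold l05r_D
  rw [Finset.sum_range_succ]

theorem l05r_D_mono (δ : ℕ → ℝ) (hδ : ∀ j, 0 ≤ δ j) : Monotone (l05r_D δ) :=
  monotone_nat_of_le_succ fun j => by rw [l05r_D_succ]; linarith [hδ (j + 1)]

/-- adjacent Lipschitz bounds telescope -/
theorem l05r_tele (r0 R : ℕ) (δ : ℕ → ℝ) (hδ : ∀ j, 0 ≤ δ j) (F : ℕ → ℝ) (c : ℝ)
    (hadj : ∀ j, r0 < j → j ≤ R → |F j - F (j - 1)| ≤ c * δ j) (r r' : ℕ) (hr : r ∈ Finset.Icc r0 R) (hr' : r' ∈ Finset.Icc r0 R) :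
    |F r - F r'| ≤ c * |l05r_D δ r - l05r_D δ r'| := by
  have key : ∀ a, r0 ≤ a → ∀ a', a ≤ a' → a' ≤ R → |F a - F a'| ≤ c * (l05r_D δ a' - l05r_D δ a) := by
    intro a ha a' haa'
    induction a', haa' using Nat.le_induction with
    | base => intro _; simp
    | succ n hn ih =>
      intro hnR
      have h1 := ih (by omega)
      have h2 := hadj (n + 1) (by omega) hnR
      rw [Nat.add_sub_cancel] at h2
      rw [l05r_D_succ]
      calc |F a - F (n + 1)| = |(F a - F n) - (F (n + 1) - F n)| := by congr 1; ring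
        _ ≤ |F a - F n| + |F (n + 1) - F n| := abs_sub _ _
        _ ≤ c * (l05r_D δ n - l05r_D δ a) + c * δ (n + 1) := add_le_add h1 h2
        _ = _ := by ring
  rw [Finset.mem_Icc] at hr hr'
  rcases le_total r r' with h | h
  · have := key r hr.1 r' h hr'.2
    rwa [abs_sub_comm (l05r_D δ r), abs_of_nonneg (sub_nonneg.2 (l05r_D_mono δ hδ h))]
  · have := key r' hr'.1 r h hr.2
    rwa [abs_sub_comm (F r), abs_of_nonneg (sub_nonneg.2 (l05r_D_mono δ hδ h))]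

/-- hypotheses of one additive sector, `ℕ`-indexed; retained sheets `Icc r0 R`; only ADJACENT rows in the Lipschitz bounds -/
structure L05rOkN (r0 R : ℕ) (Λ : ℝ) (δ b : ℕ → ℝ) (B : ℕ → ℕ → ℝ) (g μ : ℕ → ℝ) : Prop where
  one : 1 ≤ Λ
  δ0 : ∀ j, 0 ≤ δ j
  sym : ∀ r ∈ Finset.Icc r0 R, ∀ t ∈ Finset.Icc r0 R, B r t = B t r
  psd : ∀ x : ℕ → ℝ, 0 ≤ ∑ r ∈ Finset.Icc r0 R, ∑ t ∈ Finset.Icc r0 R, x r * B r t * x t
  diag : ∀ r ∈ Finset.Icc r0 R, B r r ≤ Λ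
  lipB : ∀ j, r0 < j → j ≤ R → ∀ s ∈ Finset.Icc r0 R, |B j s - B (j - 1) s| ≤ Λ * δ j
  g0 : ∀ s ∈ Finset.Icc r0 R, 0 ≤ g s
  g1 : ∀ s ∈ Finset.Icc r0 R, g s ≤ Λ
  lipg : ∀ j, r0 < j → j ≤ R → |g j - g (j - 1)| ≤ Λ * δ j
  mu0 : ∀ s ∈ Finset.Icc r0 R, 0 ≤ μ s
  mu1 : ∑ s ∈ Finset.Icc r0 R, μ s ≤ 2
  gap : ∀ s ∈ Finset.Icc r0 R, Λ⁻¹ ≤ 1 - b s * g s
  b0 : ∀ s ∈ Finset.Icc r0 R, 0 ≤ b s
  b1 : ∀ s ∈ Finset.Icc r0 R, b s ≤ Λ
  lipb : ∀ j, r0 < j → j ≤ R → |b j - b (j - 1)| ≤ δ j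

namespace L05rOkN

variable {r0 R : ℕ} {Λ : ℝ} {δ b : ℕ → ℝ} {B B' : ℕ → ℕ → ℝ} {g μ g' μ' : ℕ → ℝ}

/-- passage to the subtype of retained sheets -/
theorem toOk (h : L05rOkN r0 R Λ δ b B g μ) :
    L05rOk (ι := ↥(Finset.Icc r0 R)) Λ (fun s s' => |l05r_D δ s - l05r_D δ s'|) (fun s => b s)
      (Matrix.of fun s s' => B s s') (fun s => g s) (fun s => μ s) where
  one := h.one
  sym := by
    ext s s'
    simp only [Matrix.transpose_apply, Matrix.of_apply]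
    exact h.sym _ s'.2 _ s.2
  psd := by
    intro x
    set x' : ℕ → ℝ := fun t => if ht : t ∈ Finset.Icc r0 R then x ⟨t, ht⟩ else 0 with hx'
    have hxx : ∀ i : ↥(Finset.Icc r0 R), x' i = x i := by
      intro i
      simp only [hx']
      rw [dif_pos i.2]
    have := h.psd x'
    have e : x ⬝ᵥ ((Matrix.of fun (s s' : ↥(Finset.Icc r0 R)) => B s s') *ᵥ x)
        = ∑ r ∈ Finset.Icc r0 R, ∑ t ∈ Finset.Icc r0 R, x' r * B r t * x' t := by
      rw [← Finset.sum_coe_sort (Finset.Icc r0 R)]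
      simp only [dotProduct, mulVec, Matrix.of_apply]
      refine Finset.sum_congr rfl fun r _ => ?_
      rw [← Finset.sum_coe_sort (Finset.Icc r0 R), Finset.mul_sum]
      refine Finset.sum_congr rfl fun t _ => ?_
      rw [hxx, hxx]
      ring
    rw [e]
    exact this
  diag := fun r => h.diag _ r.2
  lipB := fun r r' s => by
    simp only [Matrix.of_apply]
    exact l05r_tele r0 R δ h.δ0 (fun j => B j s) Λ (fun j h1 h2 => h.lipB j h1 h2 _ s.2) _ _ r.2 r'.2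
  g0 := fun s => h.g0 _ s.2
  g1 := fun s => h.g1 _ s.2
  lipg := fun s s' => l05r_tele r0 R δ h.δ0 g Λ h.lipg _ _ s.2 s'.2
  mu0 := fun s => h.mu0 _ s.2
  mu1 := by
    rw [Finset.sum_coe_sort (Finset.Icc r0 R) μ]
    exact h.mu1
  gap := fun s => h.gap _ s.2
  b0 := fun s => h.b0 _ s.2
  b1 := fun s => h.b1 _ s.2
  lipb := fun s s' => by
    have := l05r_tele r0 R δ h.δ0 b 1 (fun j h1 h2 => by rw [one_mul]; exact h.lipb j h1 h2) _ _ s.2 s'.2
    rwa [one_mul] at this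

theorem AN_eq (r t : ℕ) (hr : r ∈ Finset.Icc r0 R) (ht : t ∈ Finset.Icc r0 R) :
    l05r_AN r0 R b B g μ r t = l05r_A (ι := ↥(Finset.Icc r0 R)) (fun s => b s) (Matrix.of fun s s' => B s s')
      (fun s => g s) (fun s => μ s) ⟨r, hr⟩ ⟨t, ht⟩ := by
  unfold l05r_AN
  rw [dif_pos ⟨hr, ht⟩]

/-- entries of `A` -/
theorem AN_abs (h : L05rOkN r0 R Λ δ b B g μ) (r t : ℕ) : |l05r_AN r0 R b B g μ r t| ≤ Λ ^ 4 := by
  by_cases hrt : r ∈ Finset.Icc r0 R ∧ t ∈ Finset.Icc r0 R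
  · rw [AN_eq r t hrt.1 hrt.2]
    exact h.toOk.A_abs _ _
  · unfold l05r_AN
    rw [dif_neg hrt, abs_zero]
    have := h.one
    positivity

theorem TN_eq (f : ℕ → ℝ) (r : ↥(Finset.Icc r0 R)) :
    l05r_TN r0 R b B g μ f r = l05r_T (ι := ↥(Finset.Icc r0 R)) (fun s => b s) (Matrix.of fun s s' => B s s')
      (fun s => g s) (fun s => μ s) (fun s => f s) r := by
  unfold l05r_TN l05r_T
  rw [← Finset.sum_coe_sort (Finset.Icc r0 R)]
  rfl

theorem SN_eq (f : ℕ → ℝ) (r : ↥(Finset.Icc r0 R)) :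
    l05r_SN r0 R b B g μ f r = l05r_S (ι := ↥(Finset.Icc r0 R)) (fun s => b s) (Matrix.of fun s s' => B s s')
      (fun s => g s) (fun s => μ s) (fun s => f s) r := by
  unfold l05r_SN l05r_S
  rw [← Finset.sum_coe_sort (Finset.Icc r0 R)]
  congr 1
  refine Finset.sum_congr rfl fun t _ => ?_
  rw [AN_eq _ _ r.2 t.2]

/-- `S T = 1` on the retained sheets -/
theorem SN_TN (h : L05rOkN r0 R Λ δ b B g μ) (f : ℕ → ℝ) (r : ℕ) (hr : r ∈ Finset.Icc r0 R) :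
    l05r_SN r0 R b B g μ (l05r_TN r0 R b B g μ f) r = f r := by
  have h1 := SN_eq (b := b) (B := B) (g := g) (μ := μ) (l05r_TN r0 R b B g μ f) ⟨r, hr⟩
  have h2 : (fun s : ↥(Finset.Icc r0 R) => l05r_TN r0 R b B g μ f s)
      = l05r_T (ι := ↥(Finset.Icc r0 R)) (fun s => b s) (Matrix.of fun s s' => B s s') (fun s => g s) (fun s => μ s) (fun s => f s) := by
    funext s
    exact TN_eq f s
  rw [h2, h.toOk.S_T] at h1
  exact h1

/-- `T S = 1` on the retained sheets -/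
theorem TN_SN (h : L05rOkN r0 R Λ δ b B g μ) (f : ℕ → ℝ) (r : ℕ) (hr : r ∈ Finset.Icc r0 R) :
    l05r_TN r0 R b B g μ (l05r_SN r0 R b B g μ f) r = f r := by
  have h1 := TN_eq (b := b) (B := B) (g := g) (μ := μ) (l05r_SN r0 R b B g μ f) ⟨r, hr⟩
  have h2 : (fun s : ↥(Finset.Icc r0 R) => l05r_SN r0 R b B g μ f s)
      = l05r_S (ι := ↥(Finset.Icc r0 R)) (fun s => b s) (Matrix.of fun s s' => B s s') (fun s => g s) (fun s => μ s) (fun s => f s) := by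
    funext s
    exact SN_eq f s
  rw [h2, h.toOk.T_S] at h1
  exact h1

end L05rOkN

namespace L05rOkN

variable {r0 R : ℕ} {Λ : ℝ} {δ b : ℕ → ℝ} {B B' : ℕ → ℕ → ℝ} {g μ g' μ' : ℕ → ℝ}

theorem sum_ind (k : ℕ) (hk : k ∈ Finset.Icc r0 R) (φ : ↥(Finset.Icc r0 R) → ℝ) :
    ∑ s : ↥(Finset.Icc r0 R), (if (s : ℕ) = k then (1 : ℝ) else 0) * φ s = φ ⟨k, hk⟩ := by
  rw [Finset.sum_eq_single (⟨k, hk⟩ : ↥(Finset.Icc r0 R))]
  · simp
  · intro s _ hs
    have : (s : ℕ) ≠ k := fun h => hs (Subtype.ext h)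
    simp [this]
  · intro h
    exact absurd (Finset.mem_univ _) h

theorem sum_ind0 (P : ℕ → Prop) [DecidablePred P] (hk : ∀ s ∈ Finset.Icc r0 R, ¬ P s) (φ : ↥(Finset.Icc r0 R) → ℝ) :
    ∑ s : ↥(Finset.Icc r0 R), (if P (s : ℕ) then (1 : ℝ) else 0) * φ s = 0 := by
  refine Finset.sum_eq_zero fun s _ => ?_
  simp [hk s s.2]

theorem sum_ind' (k : ℕ) (hk1 : 1 ≤ k) (hk : k - 1 ∈ Finset.Icc r0 R) (φ : ↥(Finset.Icc r0 R) → ℝ) :
    ∑ s : ↥(Finset.Icc r0 R), (if (s : ℕ) + 1 = k then (1 : ℝ) else 0) * φ s = φ ⟨k - 1, hk⟩ := by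
  rw [← sum_ind (k - 1) hk φ]
  refine Finset.sum_congr rfl fun s _ => ?_
  have : ((s : ℕ) + 1 = k) ↔ ((s : ℕ) = k - 1) := by omega
  simp only [this]

/-- **the weighted difference estimate** `|A^{k+1}_{rt} - A^k_{rt}| ≤ 30 Λ^11 p_k ρ_k`, `ρ_k = δ_k + 1_{k = r0}`;
the two atoms `p_k (δ_k - δ_{k-1})` of `μ^{k+1} - μ^k` are subtracted before absolute values are taken. -/
theorem AN_diff (h : L05rOkN r0 R Λ δ b B g μ) (h' : L05rOkN r0 R Λ δ b B' g' μ') (k : ℕ) (hkR : k ≤ R) (pk : ℝ) (hpk : 0 ≤ pk)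
    (hB : ∀ r ∈ Finset.Icc r0 R, ∀ t ∈ Finset.Icc r0 R, |B' r t - B r t| ≤ Λ * (pk * δ k))
    (hg : ∀ s ∈ Finset.Icc r0 R, |g' s - g s| ≤ Λ * (pk * δ k))
    (hμ : ∀ t ∈ Finset.Icc r0 R, μ' t - μ t = pk * ((if t = k then 1 else 0) - (if t + 1 = k then 1 else 0)))
    (r t : ℕ) :
    |l05r_AN r0 R b B' g' μ' r t - l05r_AN r0 R b B g μ r t| ≤ 30 * Λ ^ 11 * (pk * (δ k + if k = r0 then 1 else 0)) := by
  have hΛ : 0 < Λ := lt_of_lt_of_le one_pos h.one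
  have hδk := h.δ0 k
  have hρ : 0 ≤ δ k + (if k = r0 then (1 : ℝ) else 0) := by split_ifs <;> linarith
  by_cases hrt : r ∈ Finset.Icc r0 R ∧ t ∈ Finset.Icc r0 R
  swap
  · unfold l05r_AN
    rw [dif_neg hrt, dif_neg hrt, sub_zero, abs_zero]
    positivity
  rw [AN_eq r t hrt.1 hrt.2, AN_eq r t hrt.1 hrt.2]
  have key := h.toOk.A_diff h'.toOk (εB := Λ * (pk * δ k)) (εg := Λ * (pk * δ k))
    (P := pk * (δ k + if k = r0 then 1 else 0))
    (fun r t => by simp only [Matrix.of_apply]; exact hB _ r.2 _ t.2) (fun s => hg _ s.2) ?_ ⟨r, hrt.1⟩ ⟨t, hrt.2⟩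
  · refine key.trans ?_
    have e : 30 * Λ ^ 11 * (pk * (δ k + if k = r0 then 1 else 0))
        = 10 * Λ ^ 10 * (3 * Λ * (pk * (δ k + if k = r0 then 1 else 0))) := by ring
    rw [e]
    refine mul_le_mul_of_nonneg_left ?_ (by positivity)
    have h1 : pk * δ k ≤ pk * (δ k + if k = r0 then 1 else 0) := by
      refine mul_le_mul_of_nonneg_left ?_ hpk
      split_ifs <;> linarith
    have h2 : 0 ≤ pk * (δ k + if k = r0 then 1 else 0) := mul_nonneg hpk hρ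
    have h3 : pk * (δ k + if k = r0 then 1 else 0) ≤ Λ * (pk * (δ k + if k = r0 then 1 else 0)) := by
      nlinarith [h.one]
    have h4 : Λ * (pk * δ k) ≤ Λ * (pk * (δ k + if k = r0 then 1 else 0)) := mul_le_mul_of_nonneg_left h1 hΛ.le
    linarith
  · intro φ M L hL hM hLip
    have hM0 : 0 ≤ M := (abs_nonneg _).trans (hM ⟨r, hrt.1⟩)
    have e1 : ∑ s : ↥(Finset.Icc r0 R), (μ' s - μ s) * φ s
        = pk * (∑ s : ↥(Finset.Icc r0 R), (if (s : ℕ) = k then (1 : ℝ) else 0) * φ s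
          - ∑ s : ↥(Finset.Icc r0 R), (if (s : ℕ) + 1 = k then (1 : ℝ) else 0) * φ s) := by
      rw [← Finset.sum_sub_distrib, Finset.mul_sum]
      refine Finset.sum_congr rfl fun s _ => ?_
      rw [hμ _ s.2]
      ring
    rw [e1, abs_mul, abs_of_nonneg hpk, mul_assoc]
    refine mul_le_mul_of_nonneg_left ?_ hpk
    rcases lt_trichotomy k r0 with hk | hk | hk
    · have z1 : ∑ s : ↥(Finset.Icc r0 R), (if (s : ℕ) = k then (1 : ℝ) else 0) * φ s = 0 :=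
        sum_ind0 (fun s => s = k) (fun s hs => by rw [Finset.mem_Icc] at hs; omega) φ
      have z2 : ∑ s : ↥(Finset.Icc r0 R), (if (s : ℕ) + 1 = k then (1 : ℝ) else 0) * φ s = 0 :=
        sum_ind0 (fun s => s + 1 = k) (fun s hs => by rw [Finset.mem_Icc] at hs; omega) φ
      rw [z1, z2, sub_zero, abs_zero]
      positivity
    · have hkm : k ∈ Finset.Icc r0 R := Finset.mem_Icc.2 ⟨hk.ge, hkR⟩
      have z2 : ∑ s : ↥(Finset.Icc r0 R), (if (s : ℕ) + 1 = k then (1 : ℝ) else 0) * φ s = 0 :=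
        sum_ind0 (fun s => s + 1 = k) (fun s hs => by rw [Finset.mem_Icc] at hs; omega) φ
      rw [sum_ind k hkm, z2, sub_zero, if_pos hk]
      have := hM ⟨k, hkm⟩
      nlinarith
    · have hkm : k ∈ Finset.Icc r0 R := Finset.mem_Icc.2 ⟨hk.le, hkR⟩
      have hkm' : k - 1 ∈ Finset.Icc r0 R := Finset.mem_Icc.2 ⟨by omega, by omega⟩
      rw [sum_ind k hkm, sum_ind' k (by omega) hkm', if_neg (by omega), add_zero]
      have h1 := hLip ⟨k, hkm⟩ ⟨k - 1, hkm'⟩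
      have h2 : |l05r_D δ k - l05r_D δ (k - 1)| = δ k := by
        obtain ⟨j, rfl⟩ : ∃ j, k = j + 1 := ⟨k - 1, by omega⟩
        rw [Nat.add_sub_cancel, l05r_D_succ, add_sub_cancel_left, abs_of_nonneg (h.δ0 _)]
      simp only [h2] at h1
      nlinarith

end L05rOkN

/-! ## The sheet measure `μ^k` of the paper and the family statement -/

/-- `μ_t^k = -d_t^k`, `d_t^k = p_t - p_{t+1} + p_t 1_{k ≤ t} - p_{t+1} 1_{k ≤ t+1}` -/
noncomputable def l05r_mu (p : ℕ → ℝ) (k t : ℕ) : ℝ :=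
  (p (t + 1) - p t) - (if k ≤ t then p t else 0) + (if k ≤ t + 1 then p (t + 1) else 0)

theorem l05r_mu_eqns_cite : True := by
  have := @l05r_mu.eq_1
  trivial

theorem l05r_mu_nonneg (p : ℕ → ℝ) (hp0 : ∀ k, 0 ≤ p k) (hp : Monotone p) (k t : ℕ) : 0 ≤ l05r_mu p k t := by
  unfold l05r_mu
  have h1 := hp (Nat.le_succ t)
  have h2 := hp0 (t + 1)
  by_cases a : k ≤ t
  · rw [if_pos a, if_pos (by omega)]
    simp only [Nat.succ_eq_add_one] at h1
    linarith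
  · rw [if_neg a]
    simp only [Nat.succ_eq_add_one] at h1
    split_ifs <;> linarith

theorem l05r_mu_diff (p : ℕ → ℝ) (k t : ℕ) :
    l05r_mu p (k + 1) t - l05r_mu p k t = p k * ((if t = k then 1 else 0) - (if t + 1 = k then 1 else 0)) := by
  unfold l05r_mu
  rcases lt_trichotomy t k with h | h | h
  · by_cases h' : t + 1 = k
    · subst h'
      rw [if_neg (by omega), if_neg (by omega), if_neg (by omega), if_pos le_rfl, if_neg (by omega), if_pos rfl]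
      ring
    · rw [if_neg (by omega), if_neg (by omega), if_neg (by omega), if_neg (by omega), if_neg (by omega), if_neg h']
      ring
  · subst h
    rw [if_neg (by omega), if_pos le_rfl, if_pos le_rfl, if_pos (by omega), if_pos rfl, if_neg (by omega)]
    ring
  · rw [if_pos (by omega), if_pos (by omega), if_pos (by omega), if_pos (by omega), if_neg (by omega), if_neg (by omega)]
    ring

theorem l05r_mu_sum (p : ℕ → ℝ) (hp0 : ∀ k, 0 ≤ p k) (hp : Monotone p) (r0 R k : ℕ) (hR : p (R + 1) ≤ 1) :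
    ∑ t ∈ Finset.Icc r0 R, l05r_mu p k t ≤ 2 := by
  have h1 : ∑ t ∈ Finset.Icc r0 R, l05r_mu p k t ≤ ∑ t ∈ Finset.range (R + 1), l05r_mu p k t := by
    refine Finset.sum_le_sum_of_subset_of_nonneg ?_ fun t _ _ => l05r_mu_nonneg p hp0 hp k t
    intro t ht
    rw [Finset.mem_Icc] at ht
    rw [Finset.mem_range]
    omega
  refine h1.trans ?_
  set G : ℕ → ℝ := fun t => p t + if k ≤ t then p t else 0 with hG
  have e : ∀ t, l05r_mu p k t = G (t + 1) - G t := by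
    intro t
    simp only [l05r_mu, hG]
    ring
  simp only [e]
  rw [Finset.sum_range_sub]
  have g0 : 0 ≤ G 0 := by
    simp only [hG]
    have := hp0 0
    split_ifs <;> linarith
  have g1 : G (R + 1) ≤ 2 := by
    simp only [hG]
    have := hp0 (R + 1)
    split_ifs <;> linarith
  linarith

end Claimed.Agent.R286
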