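import Claimed.Agent.R286.Inv.Arr
import Claimed.Agent.R286.Inv.ResolvA
import Claimed.Agent.R286.Inv.ResKit

/-!
# Row 286 (S0533), LL Section 5 (pair inverse): UNIT COEF = the kernels of the exact inverse and their bounds, FORM `VcCoef0` USED BY `Inv/Main.lean` (helper84)
Owner: helper123 (order of helper84; `notes/R286/L05_design_84.md`, section COEF).   0 sorry of its own.   Prefix `vc_c0_` / `vcCf` / `VcCoefM` / `VcCoef0`.
(`Inv/Coef.lean` = the parallel version of helper17, structure `VcCoef`; the bridge `VcCoef.toCoef0` at the end of this file feeds `VcCoef0` from it.)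
TEX[LL:inv:pair-inverse] (05-inverse.tex, "The additive resolvent" + "Absolute attachment domination": coefficient bounds).

INPUT  `VcCoefM p R r0 dK db b dG dP β bm e` : abstract data with (P1)-(P5), (G1)-(G4) of the design note.   CONVENTIONS:
  * `dK (R+1) = 1`  (the level `R+1` = terminal spin draw), so that ONE formula covers `j ≤ R` and `j = R+1`;
  * `db k ≥ |b k - b (k-1)|` (`r0 < k ≤ R`);   all hypotheses only on the retained sheets `Icc r0 R` and on child indices in `Ioc r (R+1)`;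
  * (P5), (G4) only compare the ADJACENT rows `k-1, k` and only in the two sectors `j ∈ {k, k+1}`.
OUTPUT (explicit kernels)
  * `vcCfDel p R b dG`  = `δ`,   `δ r j j' = Δ_j Δ_j' D / (p_j p_j')`, `D_il = 1 / (1 - b_r Ĝ(r,i,l))`, `D = 0` beyond `R+1`;
  * `vcCfA p R r0 b dG dP` = `a`,   `a r t k = (A^k_rt - A^(k+1)_rt) / p_k`, `A^k = l05r_AN` of `Inv/ResolvA.lean`, `A^(R+2) = 0`;
  * `VcCoefM.h1`, `VcCoefM.h2`  = the hypotheses `h1`, `h2` of `vc_inverse` (`Inv/Arr.lean`), verbatim;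
  * `VcCoefM.del_abs : |δ r j j'| ≤ 3 Λ^7 dK_j dK_j'`  (`r < j, j' ≤ R+1`);
  * `VcCoefM.a_abs   : |a r t k| ≤ 30 Λ^11 (dK_k + db_k + 1_{k = r0})`  (`k ≤ R+1`, all `r, t`);   `VcCoefM.Ah_abs : |A^k_rt| ≤ Λ^4`;
  * `Λ = vcCfLam R dK β bm e = κ (1 + β κ) + bm + 1/e`, `κ = vcCfKap R dK = ∑_{s ≤ R+1} dK s = K_R + 1`;   `VcCoefM.lam_le : Λ ≤ (κ + β + bm + 1/e)^3`;
  * `vc_coefM` = the existential form.
VERSION 2 (sections 8, 9; for `vc_inverse`, `vc_inverse0` of `Inv/Alg.lean`: outputs on ALL sheets `r ≤ R`):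
  * all sheets are retained (`r0 = 0` in `VcCoefM`), "not retained" = `b t = 0` (any set of sheets): `VcCoefM.h1v2`, `VcCoefM.h2v2`, `vc_c0_A_zero : b t = 0 → a r t k = 0`;
  * **OFFICIAL FORM** `VcCoef0 p R r0 ..` : `p 0` ARBITRARY (e.g. `0`), masses `> 0` only for `1 ≤ k ≤ R+1`, `dP r t 0 = 0`, sheets `< r0` masked or decoupled (use `r0 = 1`, `dP 0 t k = 0`);
    kernels `vcCfDel0`, `vcCfA0`;  `VcCoef0.ha0`, `.h1`, `.h2` = hypotheses of `vc_inverse0` VERBATIM (unification tested);  `.del_abs` (`3 Λ^7 dK_j dK_j'`),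
    `.a_abs : |a r t k| ≤ 30 Λ^11 (dK_k + db_k)` (NO indicator: `db k ≥ |b k - b (k-1)|`, `1 ≤ k ≤ R`, contains the jumps of the mask), `.a_zero`;  `vc_coef0` = existential form.
-/

set_option autoImplicit false

namespace Claimed.Agent.R286

open Finset
open scoped Matrix

/-! ## 0. elementary sums -/

theorem vc_c0_tele (F : ℕ → ℝ) (k n : ℕ) (hk : k ≤ n + 1) : ∑ s ∈ Icc k n, (F s - F (s + 1)) = F k - F (n + 1) := by
  rw [← Finset.Ico_add_one_right_eq_Icc]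
  have := Finset.sum_Ico_sub F hk
  rw [← neg_inj, ← Finset.sum_neg_distrib]
  simpa using this

theorem vc_c0_split (F : ℕ → ℝ) (k n : ℕ) (hk : k ≤ n) : ∑ s ∈ Icc k n, F s = F k + ∑ s ∈ Icc (k + 1) n, F s := by
  rw [Finset.Icc_add_one_left_eq_Ioc, Finset.add_sum_Ioc_eq_sum_Icc hk]

/-- the masses, frozen above `R + 1` -/
noncomputable def vcCfP (p : ℕ → ℝ) (R : ℕ) (k : ℕ) : ℝ := p (min k (R + 1))

theorem vc_c0_P_eq (p : ℕ → ℝ) (R : ℕ) {k : ℕ} (hk : k ≤ R + 1) : vcCfP p R k = p k := by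
  unfold vcCfP
  rw [min_eq_left hk]

theorem vc_c0_P_pos {p : ℕ → ℝ} {R : ℕ} (hM : VcMass p R) (k : ℕ) : 0 < vcCfP p R k := hM.pos _ (min_le_right _ _)

theorem vc_c0_P_mono {p : ℕ → ℝ} {R : ℕ} (hM : VcMass p R) : Monotone (vcCfP p R) := by
  refine monotone_nat_of_le_succ fun k => ?_
  unfold vcCfP
  by_cases hk : k ≤ R
  · rw [min_eq_left (by omega), min_eq_left (by omega)]
    exact hM.mono k hk
  · rw [min_eq_right (by omega), min_eq_right (by omega)]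

theorem vc_c0_p_le_one {p : ℕ → ℝ} {R : ℕ} (hM : VcMass p R) {k : ℕ} (hk : k ≤ R + 1) : p k ≤ 1 := by
  have := vc_c0_P_mono hM hk
  rwa [vc_c0_P_eq p R hk, vc_c0_P_eq p R le_rfl, hM.top] at this

theorem vc_c0_mu_eq (p : ℕ → ℝ) (R k : ℕ) {t : ℕ} (ht : t ≤ R) : vcMu p k t = l05r_mu (vcCfP p R) k t := by
  unfold vcMu l05r_mu
  rw [vc_c0_P_eq p R (show t ≤ R + 1 by omega), vc_c0_P_eq p R (show t + 1 ≤ R + 1 by omega)]
  ring

theorem vc_c0_mu_nonneg {p : ℕ → ℝ} {R : ℕ} (hM : VcMass p R) (k : ℕ) {t : ℕ} (ht : t ≤ R) : 0 ≤ vcMu p k t := by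
  rw [vc_c0_mu_eq p R k ht]
  exact l05r_mu_nonneg _ (fun k => (vc_c0_P_pos hM k).le) (vc_c0_P_mono hM) k t

theorem vc_c0_mu_sum {p : ℕ → ℝ} {R : ℕ} (hM : VcMass p R) (r0 k : ℕ) : ∑ t ∈ Icc r0 R, vcMu p k t ≤ 2 := by
  have h := l05r_mu_sum (vcCfP p R) (fun k => (vc_c0_P_pos hM k).le) (vc_c0_P_mono hM) r0 R k
    (by rw [vc_c0_P_eq p R le_rfl, hM.top])
  refine le_trans (le_of_eq ?_) h
  refine Finset.sum_congr rfl fun t ht => ?_
  rw [Finset.mem_Icc] at ht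
  exact vc_c0_mu_eq p R k ht.2

theorem vc_c0_mu_diff (p : ℕ → ℝ) (k t : ℕ) :
    vcMu p (k + 1) t - vcMu p k t = p k * ((if t = k then 1 else 0) - (if t + 1 = k then 1 else 0)) := by
  have h := l05r_mu_diff p k t
  have e : ∀ k, vcMu p k t = l05r_mu p k t := fun k => by unfold vcMu l05r_mu; ring
  rw [e, e, h]

/-- weighted sums against the clock increments -/
theorem vc_c0_wsum {p : ℕ → ℝ} {R : ℕ} (hM : VcMass p R) (dK : ℕ → ℝ) (hdK : ∀ s ≤ R + 1, 0 ≤ dK s) (x : ℕ → ℝ) {c : ℝ} (hc : 0 ≤ c) (k : ℕ)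
    (hx : ∀ s ∈ Icc k (R + 1), |x s| ≤ c * dK s) :
    ∑ s ∈ Icc k (R + 1), p s * |x s| ≤ c * ∑ s ∈ range (R + 2), dK s := by
  calc ∑ s ∈ Icc k (R + 1), p s * |x s| ≤ ∑ s ∈ Icc k (R + 1), c * dK s := by
        refine Finset.sum_le_sum fun s hs => ?_
        have hs' := Finset.mem_Icc.1 hs
        calc p s * |x s| ≤ 1 * |x s| := mul_le_mul_of_nonneg_right (vc_c0_p_le_one hM hs'.2) (abs_nonneg _)
          _ = |x s| := one_mul _
          _ ≤ _ := hx s hs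
    _ ≤ ∑ s ∈ range (R + 2), c * dK s := by
        refine Finset.sum_le_sum_of_subset_of_nonneg ?_ fun s hs _ => mul_nonneg hc (hdK s (by have := Finset.mem_range.1 hs; omega))
        intro s hs
        rw [Finset.mem_Icc] at hs
        rw [Finset.mem_range]
        omega
    _ = _ := by rw [Finset.mul_sum]

/-! ## 1. data and hypotheses -/

/-- total clock `κ = K_R + 1` -/
noncomputable def vcCfKap (R : ℕ) (dK : ℕ → ℝ) : ℝ := ∑ s ∈ range (R + 2), dK s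

/-- THE constant: `Λ = κ (1 + β κ) + sup b + 1/e` -/
noncomputable def vcCfLam (R : ℕ) (dK : ℕ → ℝ) (β bm e : ℝ) : ℝ := vcCfKap R dK * (1 + β * vcCfKap R dK) + bm + e⁻¹

/-- **DATA and HYPOTHESES of unit COEF** (`L05_design_84.md`, section COEF).   Retained sheets `Icc r0 R`.
CONVENTION: `dK (R+1) = 1` (the terminal spin draw is the level `R+1`, of "variance" one); `db k` bounds `|b k - b (k-1)|`.
`P1`-`P5`: the row kernel `dP r t s` (a covariance matrix in `(r,t)` for every level `s`); `G1`-`G4`: the child kernel `dG r j j'`. -/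
structure VcCoefM (p : ℕ → ℝ) (R r0 : ℕ) (dK db b : ℕ → ℝ) (dG dP : ℕ → ℕ → ℕ → ℝ) (β bm e : ℝ) : Prop where
  mass : VcMass p R
  dK0 : ∀ s ≤ R + 1, 0 ≤ dK s
  dKtop : dK (R + 1) = 1
  db0 : ∀ s ≤ R + 1, 0 ≤ db s
  β0 : 0 ≤ β
  e0 : 0 < e
  bm0 : 0 ≤ bm
  b0 : ∀ r ∈ Icc r0 R, 0 ≤ b r
  b1 : ∀ r ∈ Icc r0 R, b r ≤ bm
  bv : ∀ k, r0 < k → k ≤ R → |b k - b (k - 1)| ≤ db k
  P1 : ∀ r ∈ Icc r0 R, ∀ t ∈ Icc r0 R, ∀ s ≤ R + 1, dP r t s = dP t r s
  P2 : ∀ s ≤ R + 1, ∀ c : ℕ → ℝ, 0 ≤ ∑ r ∈ Icc r0 R, ∑ t ∈ Icc r0 R, c r * dP r t s * c t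
  P3 : ∀ r ∈ Icc r0 R, ∀ t ∈ Icc r0 R, ∀ s ≤ R + 1, |dP r t s| ≤ β * dK s
  P5 : ∀ k, r0 < k → k ≤ R → ∀ t ∈ Icc r0 R, ∀ j, j = k ∨ j = k + 1 →
    |vcHatP p R dP k t j - vcHatP p R dP (k - 1) t j| ≤ β * dK k
  G1 : ∀ r ∈ Icc r0 R, ∀ j ∈ Ioc r (R + 1), ∀ j' ∈ Ioc r (R + 1), 0 ≤ dG r j j'
  G2 : ∀ r ∈ Icc r0 R, ∀ j ∈ Ioc r (R + 1), ∀ j' ∈ Ioc r (R + 1), dG r j j' ≤ β * dK j * dK j'
  G3 : ∀ r ∈ Icc r0 R, e ≤ 1 - b r * vcHatG p R dG r (r + 1) (r + 1)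
  G4 : ∀ k, r0 < k → k ≤ R → ∀ j, j = k ∨ j = k + 1 → |vcHatK p R dG j k - vcHatK p R dG j (k - 1)| ≤ β * dK k

/-- spectral child multiplier of the inverse: `D_il = 1 / (1 - b_r Ĝ(r,i,l))`, `0` if an index exceeds `R+1` -/
noncomputable def vcCfDh (p : ℕ → ℝ) (R : ℕ) (b : ℕ → ℝ) (dG : ℕ → ℕ → ℕ → ℝ) (r i l : ℕ) : ℝ :=
  if i ≤ R + 1 ∧ l ≤ R + 1 then 1 / (1 - b r * vcHatG p R dG r i l) else 0

/-- **child kernel of the inverse** -/
noncomputable def vcCfDel (p : ℕ → ℝ) (R : ℕ) (b : ℕ → ℝ) (dG : ℕ → ℕ → ℕ → ℝ) (r j j' : ℕ) : ℝ :=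
  (vcCfDh p R b dG r j j' - vcCfDh p R b dG r (j + 1) j' - vcCfDh p R b dG r j (j' + 1) + vcCfDh p R b dG r (j + 1) (j' + 1)) / (p j * p j')

/-- spectral row multiplier of the inverse in the sector `k`: `A^k_rt`, `0` for `k > R+1` -/
noncomputable def vcCfAh (p : ℕ → ℝ) (R r0 : ℕ) (b : ℕ → ℝ) (dG dP : ℕ → ℕ → ℕ → ℝ) (k r t : ℕ) : ℝ :=
  if k ≤ R + 1 then l05r_AN r0 R b (fun r t => vcHatP p R dP r t k) (fun s => vcHatK p R dG k s) (fun s => vcMu p k s) r t else 0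

/-- **row kernel of the inverse** (`vc_inverse` uses `- a`) -/
noncomputable def vcCfA (p : ℕ → ℝ) (R r0 : ℕ) (b : ℕ → ℝ) (dG dP : ℕ → ℕ → ℕ → ℝ) (r t k : ℕ) : ℝ :=
  (vcCfAh p R r0 b dG dP k r t - vcCfAh p R r0 b dG dP (k + 1) r t) / p k

theorem vc_c0_eqns_cite : True := by
  have := @vcCfP.eq_1
  have := @vcCfKap.eq_1
  have := @vcCfLam.eq_1
  have := @vcCfDh.eq_1
  have := @vcCfDel.eq_1
  have := @vcCfAh.eq_1
  have := @vcCfA.eq_1
  trivial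

/-! ## 2. the spectral transforms undo the difference quotients -/

theorem vc_c0_hatP_tele {p : ℕ → ℝ} {R : ℕ} (hM : VcMass p R) (F : ℕ → ℕ → ℕ → ℝ) (r t k : ℕ) (hk : k ≤ R + 1) :
    vcHatP p R (fun r t k => (F k r t - F (k + 1) r t) / p k) r t k = F k r t - F (R + 2) r t := by
  unfold vcHatP
  rw [← vc_c0_tele (fun s => F s r t) k (R + 1) (by omega)]
  refine Finset.sum_congr rfl fun s hs => ?_
  have := (hM.pos s (Finset.mem_Icc.1 hs).2).ne'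
  field_simp

theorem vc_c0_hatG_tele {p : ℕ → ℝ} {R : ℕ} (hM : VcMass p R) (F : ℕ → ℕ → ℕ → ℝ) (r i l : ℕ) (hi : i ≤ R + 1) (hl : l ≤ R + 1) :
    vcHatG p R (fun r j j' => (F r j j' - F r (j + 1) j' - F r j (j' + 1) + F r (j + 1) (j' + 1)) / (p j * p j')) r i l
      = F r i l - F r (R + 2) l - F r i (R + 2) + F r (R + 2) (R + 2) := by
  unfold vcHatG
  have h1 : ∀ j ∈ Icc i (R + 1), ∑ j' ∈ Icc l (R + 1),
      p j * p j' * ((F r j j' - F r (j + 1) j' - F r j (j' + 1) + F r (j + 1) (j' + 1)) / (p j * p j'))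
      = (F r j l - F r j (R + 2)) - (F r (j + 1) l - F r (j + 1) (R + 2)) := by
    intro j hj
    rw [← vc_c0_tele (fun s => F r j s) l (R + 1) (by omega), ← vc_c0_tele (fun s => F r (j + 1) s) l (R + 1) (by omega),
      ← Finset.sum_sub_distrib]
    refine Finset.sum_congr rfl fun s hs => ?_
    have h1 := (hM.pos s (Finset.mem_Icc.1 hs).2).ne'
    have h2 := (hM.pos j (Finset.mem_Icc.1 hj).2).ne'
    field_simp
    ring
  rw [Finset.sum_congr rfl h1, vc_c0_tele (fun j => F r j l - F r j (R + 2)) i (R + 1) (by omega)]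
  ring

/-! ## 3. the child transform `Ĝ` -/

theorem vc_c0_hatG_left (p : ℕ → ℝ) (R : ℕ) (γ : ℕ → ℕ → ℕ → ℝ) (r j l : ℕ) (hj : j ≤ R + 1) :
    vcHatG p R γ r j l = p j * ∑ j' ∈ Icc l (R + 1), p j' * γ r j j' + vcHatG p R γ r (j + 1) l := by
  unfold vcHatG
  rw [vc_c0_split _ j (R + 1) hj, Finset.mul_sum]
  congr 1
  exact Finset.sum_congr rfl fun _ _ => by ring

theorem vc_c0_hatG_right (p : ℕ → ℝ) (R : ℕ) (γ : ℕ → ℕ → ℕ → ℝ) (r i l : ℕ) (hl : l ≤ R + 1) :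
    vcHatG p R γ r i l = p l * ∑ j ∈ Icc i (R + 1), p j * γ r j l + vcHatG p R γ r i (l + 1) := by
  unfold vcHatG
  rw [Finset.mul_sum, ← Finset.sum_add_distrib]
  refine Finset.sum_congr rfl fun j _ => ?_
  rw [vc_c0_split _ l (R + 1) hl]
  ring

theorem vc_c0_hatG_mixed (p : ℕ → ℝ) (R : ℕ) (γ : ℕ → ℕ → ℕ → ℝ) (r j l : ℕ) (hj : j ≤ R + 1) (hl : l ≤ R + 1) :
    vcHatG p R γ r j l - vcHatG p R γ r (j + 1) l - vcHatG p R γ r j (l + 1) + vcHatG p R γ r (j + 1) (l + 1) = p j * p l * γ r j l := by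
  rw [vc_c0_hatG_left p R γ r j l hj, vc_c0_hatG_left p R γ r j (l + 1) hj, vc_c0_split _ l (R + 1) hl]
  ring

namespace VcCoefM

variable {p : ℕ → ℝ} {R r0 : ℕ} {dK db b : ℕ → ℝ} {dG dP : ℕ → ℕ → ℕ → ℝ} {β bm e : ℝ}

theorem kap_one (H : VcCoefM p R r0 dK db b dG dP β bm e) : 1 ≤ vcCfKap R dK := by
  unfold vcCfKap
  rw [Finset.sum_range_succ, H.dKtop]
  have : 0 ≤ ∑ s ∈ range (R + 1), dK s := Finset.sum_nonneg fun s hs => H.dK0 s (by have := Finset.mem_range.1 hs; omega)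
  linarith

/-- everything is bounded by `Λ` -/
theorem lam (H : VcCoefM p R r0 dK db b dG dP β bm e) :
    1 ≤ vcCfLam R dK β bm e ∧ β ≤ vcCfLam R dK β bm e ∧ β * vcCfKap R dK ≤ vcCfLam R dK β bm e
      ∧ β * vcCfKap R dK ^ 2 ≤ vcCfLam R dK β bm e ∧ (1 + β) * vcCfKap R dK ≤ vcCfLam R dK β bm e
      ∧ bm ≤ vcCfLam R dK β bm e ∧ e⁻¹ ≤ vcCfLam R dK β bm e := by
  have h1 := H.kap_one
  have h2 := H.β0
  have h3 := H.bm0
  have h4 : 0 < e⁻¹ := inv_pos.2 H.e0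
  unfold vcCfLam
  set κ := vcCfKap R dK
  have h5 : 0 ≤ β * κ := by positivity
  have h6 : β ≤ β * κ := by nlinarith
  have h7 : β * κ ≤ β * κ * κ := by nlinarith
  refine ⟨by nlinarith, by nlinarith, by nlinarith, by nlinarith, by nlinarith, by nlinarith, by nlinarith⟩

theorem rowG (H : VcCoefM p R r0 dK db b dG dP β bm e) {r j l : ℕ} (hr : r ∈ Icc r0 R) (hj : j ∈ Ioc r (R + 1)) (hl : r < l) :
    0 ≤ ∑ j' ∈ Icc l (R + 1), p j' * dG r j j' ∧ ∑ j' ∈ Icc l (R + 1), p j' * dG r j j' ≤ β * vcCfKap R dK * dK j := by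
  have hm : ∀ j' ∈ Icc l (R + 1), j' ∈ Ioc r (R + 1) := fun j' hj' => by
    rw [Finset.mem_Icc] at hj'; rw [Finset.mem_Ioc]; omega
  have hjR : j ≤ R + 1 := (Finset.mem_Ioc.1 hj).2
  refine ⟨Finset.sum_nonneg fun j' hj' => mul_nonneg (H.mass.pos j' (Finset.mem_Icc.1 hj').2).le (H.G1 r hr j hj j' (hm j' hj')), ?_⟩
  have := vc_c0_wsum H.mass dK H.dK0 (fun j' => dG r j j') (c := β * dK j) (mul_nonneg H.β0 (H.dK0 j hjR)) l
    (fun j' hj' => by rw [abs_of_nonneg (H.G1 r hr j hj j' (hm j' hj'))]; exact H.G2 r hr j hj j' (hm j' hj'))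
  calc _ = ∑ j' ∈ Icc l (R + 1), p j' * |dG r j j'| :=
        Finset.sum_congr rfl fun j' hj' => by rw [abs_of_nonneg (H.G1 r hr j hj j' (hm j' hj'))]
    _ ≤ _ := this
    _ = _ := by unfold vcCfKap; ring

theorem colG (H : VcCoefM p R r0 dK db b dG dP β bm e) {r i l : ℕ} (hr : r ∈ Icc r0 R) (hl : l ∈ Ioc r (R + 1)) (hi : r < i) :
    0 ≤ ∑ j ∈ Icc i (R + 1), p j * dG r j l ∧ ∑ j ∈ Icc i (R + 1), p j * dG r j l ≤ β * vcCfKap R dK * dK l := by
  have hm : ∀ j ∈ Icc i (R + 1), j ∈ Ioc r (R + 1) := fun j hj => by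
    rw [Finset.mem_Icc] at hj; rw [Finset.mem_Ioc]; omega
  have hlR : l ≤ R + 1 := (Finset.mem_Ioc.1 hl).2
  refine ⟨Finset.sum_nonneg fun j hj => mul_nonneg (H.mass.pos j (Finset.mem_Icc.1 hj).2).le (H.G1 r hr j (hm j hj) l hl), ?_⟩
  have := vc_c0_wsum H.mass dK H.dK0 (fun j => dG r j l) (c := β * dK l) (mul_nonneg H.β0 (H.dK0 l hlR)) i
    (fun j hj => by
      rw [abs_of_nonneg (H.G1 r hr j (hm j hj) l hl)]
      refine (H.G2 r hr j (hm j hj) l hl).trans (le_of_eq ?_)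
      ring)
  calc _ = ∑ j ∈ Icc i (R + 1), p j * |dG r j l| :=
        Finset.sum_congr rfl fun j hj => by rw [abs_of_nonneg (H.G1 r hr j (hm j hj) l hl)]
    _ ≤ _ := this
    _ = _ := by unfold vcCfKap; ring

/-- difference of `Ĝ` in the first index -/
theorem G_left (H : VcCoefM p R r0 dK db b dG dP β bm e) {r j l : ℕ} (hr : r ∈ Icc r0 R) (hj : j ∈ Ioc r (R + 1)) (hl : r < l) :
    |vcHatG p R dG r j l - vcHatG p R dG r (j + 1) l| ≤ β * vcCfKap R dK * (p j * dK j) := by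
  have hjR : j ≤ R + 1 := (Finset.mem_Ioc.1 hj).2
  obtain ⟨h0, h1⟩ := H.rowG hr hj hl
  have hp := (H.mass.pos j hjR).le
  rw [vc_c0_hatG_left p R dG r j l hjR, add_sub_cancel_right, abs_of_nonneg (mul_nonneg hp h0)]
  calc _ ≤ p j * (β * vcCfKap R dK * dK j) := mul_le_mul_of_nonneg_left h1 hp
    _ = _ := by ring

/-- difference of `Ĝ` in the second index -/
theorem G_right (H : VcCoefM p R r0 dK db b dG dP β bm e) {r i l : ℕ} (hr : r ∈ Icc r0 R) (hl : l ∈ Ioc r (R + 1)) (hi : r < i) :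
    |vcHatG p R dG r i l - vcHatG p R dG r i (l + 1)| ≤ β * vcCfKap R dK * (p l * dK l) := by
  have hlR : l ≤ R + 1 := (Finset.mem_Ioc.1 hl).2
  obtain ⟨h0, h1⟩ := H.colG hr hl hi
  have hp := (H.mass.pos l hlR).le
  rw [vc_c0_hatG_right p R dG r i l hlR, add_sub_cancel_right, abs_of_nonneg (mul_nonneg hp h0)]
  calc _ ≤ p l * (β * vcCfKap R dK * dK l) := mul_le_mul_of_nonneg_left h1 hp
    _ = _ := by ring

theorem G_term (H : VcCoefM p R r0 dK db b dG dP β bm e) {r j j' : ℕ} (hr : r ∈ Icc r0 R) (hj : j ∈ Ioc r (R + 1)) (hj' : j' ∈ Ioc r (R + 1)) :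
    0 ≤ p j * p j' * dG r j j' :=
  mul_nonneg (mul_nonneg (H.mass.pos j (Finset.mem_Ioc.1 hj).2).le (H.mass.pos j' (Finset.mem_Ioc.1 hj').2).le) (H.G1 r hr j hj j' hj')

theorem G_nonneg (H : VcCoefM p R r0 dK db b dG dP β bm e) {r i l : ℕ} (hr : r ∈ Icc r0 R) (hi : r < i) (hl : r < l) :
    0 ≤ vcHatG p R dG r i l := by
  unfold vcHatG
  refine Finset.sum_nonneg fun j hj => Finset.sum_nonneg fun j' hj' => H.G_term hr ?_ ?_
  · rw [Finset.mem_Icc] at hj; rw [Finset.mem_Ioc]; omega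
  · rw [Finset.mem_Icc] at hj'; rw [Finset.mem_Ioc]; omega

/-- `Ĝ` decreases in both indices -/
theorem G_anti (H : VcCoefM p R r0 dK db b dG dP β bm e) {r i l : ℕ} (hr : r ∈ Icc r0 R) (hi : r < i) (hl : r < l) :
    vcHatG p R dG r i l ≤ vcHatG p R dG r (r + 1) (r + 1) := by
  unfold vcHatG
  have m1 : ∀ a, r < a → ∀ j ∈ Icc a (R + 1), j ∈ Ioc r (R + 1) := fun a ha j hj => by
    rw [Finset.mem_Icc] at hj; rw [Finset.mem_Ioc]; omega
  have s1 : ∀ a, r < a → Icc a (R + 1) ⊆ Icc (r + 1) (R + 1) := fun a ha => Finset.Icc_subset_Icc_left (by omega)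
  calc _ ≤ ∑ j ∈ Icc i (R + 1), ∑ j' ∈ Icc (r + 1) (R + 1), p j * p j' * dG r j j' :=
        Finset.sum_le_sum fun j hj => Finset.sum_le_sum_of_subset_of_nonneg (s1 l hl)
          fun j' hj' _ => H.G_term hr (m1 i hi j hj) (m1 (r + 1) (by omega) j' hj')
    _ ≤ _ := Finset.sum_le_sum_of_subset_of_nonneg (s1 i hi)
          fun j hj _ => Finset.sum_nonneg fun j' hj' => H.G_term hr (m1 (r + 1) (by omega) j hj) (m1 (r + 1) (by omega) j' hj')

theorem G_le (H : VcCoefM p R r0 dK db b dG dP β bm e) {r i l : ℕ} (hr : r ∈ Icc r0 R) (hi : r < i) (hl : r < l) :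
    vcHatG p R dG r i l ≤ β * vcCfKap R dK ^ 2 := by
  have hκ := H.kap_one
  have e1 : vcHatG p R dG r i l = ∑ j ∈ Icc i (R + 1), p j * |∑ j' ∈ Icc l (R + 1), p j' * dG r j j'| := by
    unfold vcHatG
    refine Finset.sum_congr rfl fun j hj => ?_
    have hj' : j ∈ Ioc r (R + 1) := by rw [Finset.mem_Icc] at hj; rw [Finset.mem_Ioc]; omega
    rw [abs_of_nonneg (H.rowG hr hj' hl).1, Finset.mul_sum]
    exact Finset.sum_congr rfl fun _ _ => by ring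
  rw [e1]
  have := vc_c0_wsum H.mass dK H.dK0 (fun j => ∑ j' ∈ Icc l (R + 1), p j' * dG r j j') (c := β * vcCfKap R dK)
    (mul_nonneg H.β0 (by linarith)) i (fun j hj => by
      have hj' : j ∈ Ioc r (R + 1) := by rw [Finset.mem_Icc] at hj; rw [Finset.mem_Ioc]; omega
      rw [abs_of_nonneg (H.rowG hr hj' hl).1]
      exact (H.rowG hr hj' hl).2)
  refine this.trans (le_of_eq ?_)
  unfold vcCfKap
  ring

/-- the gap on all child sectors -/
theorem G_gap (H : VcCoefM p R r0 dK db b dG dP β bm e) {r i l : ℕ} (hr : r ∈ Icc r0 R) (hi : r < i) (hl : r < l) :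
    e ≤ 1 - b r * vcHatG p R dG r i l := by
  have h1 := H.G3 r hr
  have h2 := mul_le_mul_of_nonneg_left (H.G_anti hr hi hl) (H.b0 r hr)
  linarith

end VcCoefM

/-! ## 4. the child kernel of the inverse -/

theorem vc_c0_Dh_in (p : ℕ → ℝ) (R : ℕ) (b : ℕ → ℝ) (dG : ℕ → ℕ → ℕ → ℝ) (r : ℕ) {i l : ℕ} (hi : i ≤ R + 1) (hl : l ≤ R + 1) :
    vcCfDh p R b dG r i l = 1 / (1 - b r * vcHatG p R dG r i l) := by
  unfold vcCfDh
  rw [if_pos ⟨hi, hl⟩]

theorem vc_c0_Dh_out1 (p : ℕ → ℝ) (R : ℕ) (b : ℕ → ℝ) (dG : ℕ → ℕ → ℕ → ℝ) (r l : ℕ) : vcCfDh p R b dG r (R + 2) l = 0 := by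
  unfold vcCfDh
  rw [if_neg (by omega)]

theorem vc_c0_Dh_out2 (p : ℕ → ℝ) (R : ℕ) (b : ℕ → ℝ) (dG : ℕ → ℕ → ℕ → ℝ) (r i : ℕ) : vcCfDh p R b dG r i (R + 2) = 0 := by
  unfold vcCfDh
  rw [if_neg (by omega)]

/-- the spectral transform of `vcCfDel` -/
theorem vc_c0_hatDel {p : ℕ → ℝ} {R : ℕ} (hM : VcMass p R) (b : ℕ → ℝ) (dG : ℕ → ℕ → ℕ → ℝ) (r : ℕ) {i l : ℕ} (hi : i ≤ R + 1) (hl : l ≤ R + 1) :
    vcHatG p R (vcCfDel p R b dG) r i l = 1 / (1 - b r * vcHatG p R dG r i l) := by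
  have h := vc_c0_hatG_tele hM (vcCfDh p R b dG) r i l hi hl
  rw [vc_c0_Dh_out1, vc_c0_Dh_out2, vc_c0_Dh_out2, vc_c0_Dh_in p R b dG r hi hl] at h
  rw [← sub_zero (1 / (1 - b r * vcHatG p R dG r i l)), ← sub_zero (1 / (1 - b r * vcHatG p R dG r i l) - 0), ← add_zero (_ - _ - _), ← h]
  rfl

theorem vc_c0_frac {x e Λ : ℝ} (hx0 : 0 ≤ x) (hx : x ≤ Λ) (he : 0 < e) (heΛ : e⁻¹ ≤ Λ) (hΛ : 1 ≤ Λ) :
    x / e ^ 2 ≤ Λ ^ 3 ∧ x / e ^ 2 + 2 * x ^ 2 / e ^ 3 ≤ 3 * Λ ^ 5 := by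
  have hi : 0 < e⁻¹ := inv_pos.2 he
  have hΛ0 : 0 < Λ := by linarith
  have a1 : x / e ^ 2 = x * (e⁻¹) ^ 2 := by rw [div_eq_mul_inv, inv_pow]
  have a2 : 2 * x ^ 2 / e ^ 3 = 2 * (x ^ 2 * (e⁻¹) ^ 3) := by rw [div_eq_mul_inv, inv_pow]; ring
  have b1 : x * (e⁻¹) ^ 2 ≤ Λ * Λ ^ 2 := mul_le_mul hx (pow_le_pow_left₀ hi.le heΛ 2) (by positivity) hΛ0.le
  have b2 : x ^ 2 * (e⁻¹) ^ 3 ≤ Λ ^ 2 * Λ ^ 3 := mul_le_mul (pow_le_pow_left₀ hx0 hx 2) (pow_le_pow_left₀ hi.le heΛ 3) (by positivity) (by positivity)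
  have b3 : Λ ^ 3 ≤ Λ ^ 5 := pow_le_pow_right₀ hΛ (by norm_num)
  rw [a1, a2]
  constructor
  · calc _ ≤ _ := b1
      _ = _ := by ring
  · nlinarith

namespace VcCoefM

variable {p : ℕ → ℝ} {R r0 : ℕ} {dK db b : ℕ → ℝ} {dG dP : ℕ → ℕ → ℕ → ℝ} {β bm e : ℝ}

/-- **hypothesis `h1` of `vc_inverse`** -/
theorem h1 (H : VcCoefM p R r0 dK db b dG dP β bm e) : ∀ r ∈ Icc r0 R, ∀ i ∈ Ioc r (R + 1), ∀ l ∈ Ioc r (R + 1),
    vcHatG p R (vcCfDel p R b dG) r i l * (1 - b r * vcHatG p R dG r i l) = 1 := by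
  intro r hr i hi l hl
  rw [Finset.mem_Ioc] at hi hl
  rw [vc_c0_hatDel H.mass b dG r hi.2 hl.2]
  have := H.G_gap hr hi.1 hl.1
  have h0 := H.e0
  have h2 : 0 < 1 - b r * vcHatG p R dG r i l := by linarith
  exact one_div_mul_cancel h2.ne'

/-- **bound of the child kernel**: `|δ r j j'| ≤ 3 Λ^7 dK_j dK_j'` for `r < j, j' ≤ R+1` (`dK (R+1) = 1`) -/
theorem del_abs (H : VcCoefM p R r0 dK db b dG dP β bm e) {r j j' : ℕ} (hr : r ∈ Icc r0 R) (hj : j ∈ Ioc r (R + 1)) (hj' : j' ∈ Ioc r (R + 1)) :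
    |vcCfDel p R b dG r j j'| ≤ 3 * vcCfLam R dK β bm e ^ 7 * (dK j * dK j') := by
  obtain ⟨L1, L2, L3, L4, L5, L6, L7⟩ := H.lam
  set Λ := vcCfLam R dK β bm e with hΛ
  set κ := vcCfKap R dK with hκ
  have hΛ0 : 0 < Λ := by linarith
  have hj2 := Finset.mem_Ioc.1 hj
  have hj2' := Finset.mem_Ioc.1 hj'
  have hpj := H.mass.pos j hj2.2
  have hpj' := H.mass.pos j' hj2'.2
  have hdj := H.dK0 j hj2.2
  have hdj' := H.dK0 j' hj2'.2
  have hb0 := H.b0 r hr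
  have hbΛ : b r ≤ Λ := (H.b1 r hr).trans L6
  obtain ⟨F1, F2⟩ := vc_c0_frac hb0 hbΛ H.e0 L7 L1
  have pw : ∀ {m n : ℕ}, m ≤ n → Λ ^ m ≤ Λ ^ n := fun h => pow_le_pow_right₀ L1 h
  unfold vcCfDel
  rw [abs_div, abs_of_pos (mul_pos hpj hpj'), div_le_iff₀ (mul_pos hpj hpj')]
  by_cases c1 : j ≤ R
  · by_cases c2 : j' ≤ R
    · -- both below the top
      rw [vc_c0_Dh_in p R b dG r hj2.2 hj2'.2, vc_c0_Dh_in p R b dG r (show j + 1 ≤ R + 1 by omega) hj2'.2,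
        vc_c0_Dh_in p R b dG r hj2.2 (show j' + 1 ≤ R + 1 by omega),
        vc_c0_Dh_in p R b dG r (show j + 1 ≤ R + 1 by omega) (show j' + 1 ≤ R + 1 by omega)]
      have hβκ : β * κ ≤ (1 + β) * κ := by nlinarith [H.kap_one]
      have q1 : 0 ≤ p j * dK j := mul_nonneg hpj.le hdj
      have q2 : 0 ≤ p j' * dK j' := mul_nonneg hpj'.le hdj'
      have key := inv_rk_mixed2 (b := b r) (e := e) (ci := (1 + β) * κ * (p j * dK j)) (cl := (1 + β) * κ * (p j' * dK j')) hb0 H.e0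
        (H.G_gap hr hj2.1 hj2'.1) (H.G_gap hr (show r < j + 1 by omega) hj2'.1) (H.G_gap hr hj2.1 (show r < j' + 1 by omega))
        (H.G_gap hr (show r < j + 1 by omega) (show r < j' + 1 by omega))
        ((H.G_left hr hj (show r < j' + 1 by omega)).trans (mul_le_mul_of_nonneg_right hβκ q1))
        ((H.G_right hr hj' hj2.1).trans (mul_le_mul_of_nonneg_right hβκ q2))
        ((H.G_right hr hj' (show r < j + 1 by omega)).trans (mul_le_mul_of_nonneg_right hβκ q2))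
        (by
          rw [vc_c0_hatG_mixed p R dG r j j' hj2.2 hj2'.2, abs_of_nonneg (H.G_term hr hj hj')]
          have g2 := H.G2 r hr j hj j' hj'
          have k1 := H.kap_one
          have b0 := H.β0
          have c0 : β ≤ ((1 + β) * κ) ^ 2 := by
            have : 1 + β ≤ (1 + β) * κ := by nlinarith
            nlinarith
          calc p j * p j' * dG r j j' ≤ p j * p j' * (β * dK j * dK j') := mul_le_mul_of_nonneg_left g2 (mul_pos hpj hpj').le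
            _ = β * ((p j * dK j) * (p j' * dK j')) := by ring
            _ ≤ ((1 + β) * κ) ^ 2 * ((p j * dK j) * (p j' * dK j')) := mul_le_mul_of_nonneg_right c0 (mul_nonneg q1 q2)
            _ = _ := by ring)
      refine key.trans ?_
      have c3 : ((1 + β) * κ) ^ 2 ≤ Λ ^ 2 := pow_le_pow_left₀ (by have := H.β0; have := H.kap_one; positivity) L5 2
      calc _ = (b r / e ^ 2 + 2 * b r ^ 2 / e ^ 3) * ((1 + β) * κ) ^ 2 * ((p j * dK j) * (p j' * dK j')) := by ring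
        _ ≤ (3 * Λ ^ 5) * Λ ^ 2 * ((p j * dK j) * (p j' * dK j')) := by
            refine mul_le_mul_of_nonneg_right ?_ (mul_nonneg q1 q2)
            exact mul_le_mul F2 c3 (by positivity) (by positivity)
        _ = _ := by ring
    · -- `j' = R + 1`
      have e' : j' = R + 1 := by omega
      subst e'
      rw [vc_c0_Dh_out2, vc_c0_Dh_out2, vc_c0_Dh_in p R b dG r hj2.2 le_rfl, vc_c0_Dh_in p R b dG r (show j + 1 ≤ R + 1 by omega) le_rfl,
        sub_zero, add_zero, H.dKtop, H.mass.top]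
      have key := inv_rk_mixed1 hb0 H.e0 (H.G_gap hr hj2.1 hj2'.1) (H.G_gap hr (show r < j + 1 by omega) hj2'.1) (H.G_left hr hj hj2'.1)
      refine key.trans ?_
      have q1 : 0 ≤ p j * dK j := mul_nonneg hpj.le hdj
      calc _ = (b r / e ^ 2) * (β * κ) * (p j * dK j) := by ring
        _ ≤ Λ ^ 3 * Λ * (p j * dK j) := by
            refine mul_le_mul_of_nonneg_right ?_ q1
            exact mul_le_mul F1 L3 (by have := H.β0; have := H.kap_one; positivity) (by positivity)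
        _ = Λ ^ 4 * (p j * dK j) := by ring
        _ ≤ 3 * Λ ^ 7 * (p j * dK j) := by
            refine mul_le_mul_of_nonneg_right ?_ q1
            have := pw (show 4 ≤ 7 by norm_num)
            have : 0 < Λ ^ 7 := by positivity
            linarith
        _ = _ := by ring
  · have e' : j = R + 1 := by omega
    subst e'
    by_cases c2 : j' ≤ R
    · rw [vc_c0_Dh_out1, vc_c0_Dh_out1, vc_c0_Dh_in p R b dG r le_rfl hj2'.2, vc_c0_Dh_in p R b dG r le_rfl (show j' + 1 ≤ R + 1 by omega),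
        sub_zero, add_zero, H.dKtop, H.mass.top]
      have key := inv_rk_mixed1 hb0 H.e0 (H.G_gap hr hj2.1 hj2'.1) (H.G_gap hr hj2.1 (show r < j' + 1 by omega)) (H.G_right hr hj' hj2.1)
      refine key.trans ?_
      have q1 : 0 ≤ p j' * dK j' := mul_nonneg hpj'.le hdj'
      calc _ = (b r / e ^ 2) * (β * κ) * (p j' * dK j') := by ring
        _ ≤ Λ ^ 3 * Λ * (p j' * dK j') := by
            refine mul_le_mul_of_nonneg_right ?_ q1
            exact mul_le_mul F1 L3 (by have := H.β0; have := H.kap_one; positivity) (by positivity)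
        _ = Λ ^ 4 * (p j' * dK j') := by ring
        _ ≤ 3 * Λ ^ 7 * (p j' * dK j') := by
            refine mul_le_mul_of_nonneg_right ?_ q1
            have := pw (show 4 ≤ 7 by norm_num)
            have : 0 < Λ ^ 7 := by positivity
            linarith
        _ = _ := by ring
    · have e' : j' = R + 1 := by omega
      subst e'
      rw [vc_c0_Dh_out1, vc_c0_Dh_out1, vc_c0_Dh_out2, vc_c0_Dh_in p R b dG r le_rfl le_rfl, sub_zero, sub_zero, add_zero, H.dKtop, H.mass.top]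
      have g := H.G_gap hr hj2.1 hj2.1
      have h0 := H.e0
      have : 0 < 1 - b r * vcHatG p R dG r (R + 1) (R + 1) := by linarith
      rw [abs_of_pos (by positivity), one_div]
      have i1 : (1 - b r * vcHatG p R dG r (R + 1) (R + 1))⁻¹ ≤ e⁻¹ := inv_anti₀ h0 g
      have := pw (show 1 ≤ 7 by norm_num)
      have : 0 < Λ ^ 7 := by positivity
      rw [pow_one] at *
      linarith

end VcCoefM

/-! ## 5. the sector equation for `A` (abstract index set, then the retained sheets) -/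

/-- `Â (diag ℓ + diag μ B̂ diag b) = - diag (1/ℓ) B̂ diag b`, entrywise -/
theorem vc_c0_A_eqn {ι : Type*} [Fintype ι] [DecidableEq ι] {Λ : ℝ} {d : ι → ι → ℝ} {b : ι → ℝ} {B : Matrix ι ι ℝ} {g μ : ι → ℝ}
    (h : L05rOk Λ d b B g μ) (r t : ι) :
    l05r_A b B g μ r t * (1 - b t * g t) + ∑ s, l05r_A b B g μ r s * μ s * B s t * b t = - (B r t * b t * l05r_u b g r) := by
  have hC := congrFun (congrFun (l05r_C_eq' B (l05r_w b g μ) h.psd h.w_nonneg) r) t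
  rw [Matrix.sub_apply, l05r_mul_diag_mul] at hC
  have e1 : l05r_A b B g μ r t * (1 - b t * g t) = - (l05r_C B (l05r_w b g μ) r t * b t * l05r_u b g r) := by
    unfold l05r_A
    have := h.u_mul t
    linear_combination (- (l05r_C B (l05r_w b g μ) r t * b t * l05r_u b g r)) * this
  have e2 : ∑ s, l05r_A b B g μ r s * μ s * B s t * b t
      = - (l05r_u b g r * b t * ∑ s, l05r_C B (l05r_w b g μ) r s * l05r_w b g μ s * B s t) := by
    rw [Finset.mul_sum, ← Finset.sum_neg_distrib]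
    refine Finset.sum_congr rfl fun s _ => ?_
    unfold l05r_A l05r_w
    ring
  rw [e1, e2]
  linear_combination (- (b t * l05r_u b g r)) * hC

theorem vc_c0_AN_eqn {r0 R : ℕ} {Λ : ℝ} {d : ↥(Icc r0 R) → ↥(Icc r0 R) → ℝ} {b : ℕ → ℝ} {B : ℕ → ℕ → ℝ} {g μ : ℕ → ℝ}
    (h : L05rOk (ι := ↥(Icc r0 R)) Λ d (fun s => b s) (Matrix.of fun s s' => B s s') (fun s => g s) (fun s => μ s))
    {r t : ℕ} (hr : r ∈ Icc r0 R) (ht : t ∈ Icc r0 R) :
    l05r_AN r0 R b B g μ r t * (1 - b t * g t) + ∑ s ∈ Icc r0 R, l05r_AN r0 R b B g μ r s * μ s * B s t * b t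
      = - (B r t * b t * (1 / (1 - b r * g r))) := by
  have key := vc_c0_A_eqn h ⟨r, hr⟩ ⟨t, ht⟩
  rw [L05rOkN.AN_eq r t hr ht, ← Finset.sum_coe_sort (Icc r0 R), one_div]
  refine Eq.trans ?_ key
  congr 1
  refine Finset.sum_congr rfl fun s _ => ?_
  rw [L05rOkN.AN_eq r s hr s.2]
  rfl

/-! ## 6. the sectors satisfy the hypotheses of the abstract resolvent -/

/-- the evaluation distance adapted to the pair of sectors `k, k+1`: only the rows `k-1, k` are compared finely -/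
noncomputable def vcCfDist (k : ℕ) (δk Λ : ℝ) (s s' : ℕ) : ℝ :=
  if s = s' then 0 else if (s = k ∧ s' + 1 = k) ∨ (s' = k ∧ s + 1 = k) then δk else 2 * Λ

theorem vc_c0_dist_eqns_cite : True := by
  have := @vcCfDist.eq_1
  trivial

theorem vc_c0_dist_lip {r0 R k : ℕ} {δk Λ c M : ℝ} (F : ℕ → ℝ) (hF : ∀ s ∈ Icc r0 R, |F s| ≤ M) (hM : M ≤ c * Λ)
    (hk : r0 < k → k ≤ R → |F k - F (k - 1)| ≤ c * δk) {s s' : ℕ} (hs : s ∈ Icc r0 R) (hs' : s' ∈ Icc r0 R) :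
    |F s - F s'| ≤ c * vcCfDist k δk Λ s s' := by
  unfold vcCfDist
  have m := Finset.mem_Icc.1 hs
  have m' := Finset.mem_Icc.1 hs'
  by_cases h1 : s = s'
  · rw [if_pos h1, h1, sub_self, abs_zero, mul_zero]
  rw [if_neg h1]
  by_cases h2 : (s = k ∧ s' + 1 = k) ∨ (s' = k ∧ s + 1 = k)
  · rw [if_pos h2]
    rcases h2 with ⟨a, a'⟩ | ⟨a, a'⟩
    · have e : s' = k - 1 := by omega
      rw [a, e]
      exact hk (by omega) (by omega)
    · have e : s = k - 1 := by omega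
      rw [a, e, abs_sub_comm]
      exact hk (by omega) (by omega)
  · rw [if_neg h2]
    calc |F s - F s'| ≤ |F s| + |F s'| := abs_sub _ _
      _ ≤ M + M := add_le_add (hF s hs) (hF s' hs')
      _ ≤ c * Λ + c * Λ := add_le_add hM hM
      _ = _ := by ring

namespace VcCoefM

variable {p : ℕ → ℝ} {R r0 : ℕ} {dK db b : ℕ → ℝ} {dG dP : ℕ → ℕ → ℕ → ℝ} {β bm e : ℝ}

theorem P_abs (H : VcCoefM p R r0 dK db b dG dP β bm e) {r t : ℕ} (hr : r ∈ Icc r0 R) (ht : t ∈ Icc r0 R) (j : ℕ) :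
    |vcHatP p R dP r t j| ≤ β * vcCfKap R dK := by
  unfold vcHatP
  calc _ ≤ ∑ s ∈ Icc j (R + 1), |p s * dP r t s| := Finset.abs_sum_le_sum_abs _ _
    _ = ∑ s ∈ Icc j (R + 1), p s * |dP r t s| :=
        Finset.sum_congr rfl fun s hs => by rw [abs_mul, abs_of_pos (H.mass.pos s (Finset.mem_Icc.1 hs).2)]
    _ ≤ _ := vc_c0_wsum H.mass dK H.dK0 (fun s => dP r t s) H.β0 j fun s hs => H.P3 r hr t ht s (Finset.mem_Icc.1 hs).2

theorem P_psd (H : VcCoefM p R r0 dK db b dG dP β bm e) (j : ℕ) (x : ℕ → ℝ) :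
    0 ≤ ∑ r ∈ Icc r0 R, ∑ t ∈ Icc r0 R, x r * vcHatP p R dP r t j * x t := by
  have e1 : ∑ r ∈ Icc r0 R, ∑ t ∈ Icc r0 R, x r * vcHatP p R dP r t j * x t
      = ∑ s ∈ Icc j (R + 1), p s * ∑ r ∈ Icc r0 R, ∑ t ∈ Icc r0 R, x r * dP r t s * x t := by
    unfold vcHatP
    calc _ = ∑ r ∈ Icc r0 R, ∑ s ∈ Icc j (R + 1), ∑ t ∈ Icc r0 R, p s * (x r * dP r t s * x t) := by
          refine Finset.sum_congr rfl fun r _ => ?_
          rw [Finset.sum_comm]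
          refine Finset.sum_congr rfl fun t _ => ?_
          rw [Finset.mul_sum, Finset.sum_mul]
          exact Finset.sum_congr rfl fun s _ => by ring
      _ = ∑ s ∈ Icc j (R + 1), ∑ r ∈ Icc r0 R, ∑ t ∈ Icc r0 R, p s * (x r * dP r t s * x t) := Finset.sum_comm
      _ = _ := by
          refine Finset.sum_congr rfl fun s _ => ?_
          rw [Finset.mul_sum]
          exact Finset.sum_congr rfl fun r _ => by rw [Finset.mul_sum]
  rw [e1]
  exact Finset.sum_nonneg fun s hs => mul_nonneg (H.mass.pos s (Finset.mem_Icc.1 hs).2).le (H.P2 s (Finset.mem_Icc.1 hs).2 x)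

end VcCoefM

namespace VcCoefM

variable {p : ℕ → ℝ} {R r0 : ℕ} {dK db b : ℕ → ℝ} {dG dP : ℕ → ℕ → ℕ → ℝ} {β bm e : ℝ}

theorem K_bd (H : VcCoefM p R r0 dK db b dG dP β bm e) (j : ℕ) {s : ℕ} (hs : s ∈ Icc r0 R) :
    0 ≤ vcHatK p R dG j s ∧ vcHatK p R dG j s ≤ β * vcCfKap R dK ^ 2 ∧ e ≤ 1 - b s * vcHatK p R dG j s := by
  unfold vcHatK
  have h1 : s < max j (s + 1) := lt_of_lt_of_le (Nat.lt_succ_self s) (le_max_right _ _)
  exact ⟨H.G_nonneg hs h1 (Nat.lt_succ_self s), H.G_le hs h1 (Nat.lt_succ_self s), H.G_gap hs h1 (Nat.lt_succ_self s)⟩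

/-- **the sector `j ∈ {k, k+1}` satisfies the hypotheses of the abstract resolvent**, with the distance adapted to `k` -/
theorem sector (H : VcCoefM p R r0 dK db b dG dP β bm e) (k j : ℕ) (hjk : j = k ∨ j = k + 1) :
    L05rOk (ι := ↥(Icc r0 R)) (vcCfLam R dK β bm e) (fun s s' => vcCfDist k (dK k + db k) (vcCfLam R dK β bm e) s s') (fun s => b s)
      (Matrix.of fun s s' => vcHatP p R dP s s' j) (fun s => vcHatK p R dG j s) (fun s => vcMu p j s) := by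
  obtain ⟨L1, L2, L3, L4, L5, L6, L7⟩ := H.lam
  set Λ := vcCfLam R dK β bm e with hΛ
  have hΛ0 : 0 < Λ := by linarith
  have hΛΛ : Λ ≤ Λ * Λ := by nlinarith
  have hfine : ∀ k', k' = k → r0 < k → k ≤ R → β * dK k' ≤ Λ * (dK k + db k) := by
    intro k' hk' _ h2
    subst hk'
    have a1 := H.dK0 k' (by omega)
    have a2 := H.db0 k' (by omega)
    nlinarith
  refine
    { one := L1
      sym := ?_
      psd := ?_
      diag := fun r => (le_abs_self _).trans ((H.P_abs r.2 r.2 j).trans L3)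
      lipB := fun r r' s => ?_
      g0 := fun s => (H.K_bd j s.2).1
      g1 := fun s => (H.K_bd j s.2).2.1.trans L4
      lipg := fun s s' => ?_
      mu0 := fun s => vc_c0_mu_nonneg H.mass j (Finset.mem_Icc.1 s.2).2
      mu1 := ?_
      gap := fun s => le_trans (inv_le_of_inv_le₀ H.e0 L7) (H.K_bd j s.2).2.2
      b0 := fun s => H.b0 _ s.2
      b1 := fun s => (H.b1 _ s.2).trans L6
      lipb := fun s s' => ?_ }
  · ext s s'
    simp only [Matrix.transpose_apply, Matrix.of_apply]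
    unfold vcHatP
    exact Finset.sum_congr rfl fun i hi => by rw [H.P1 _ s'.2 _ s.2 i (Finset.mem_Icc.1 hi).2]
  · intro x
    set x' : ℕ → ℝ := fun t => if ht : t ∈ Finset.Icc r0 R then x ⟨t, ht⟩ else 0 with hx'
    have hxx : ∀ i : ↥(Finset.Icc r0 R), x' i = x i := by
      intro i
      simp only [hx']
      rw [dif_pos i.2]
    have := H.P_psd j x'
    have e : x ⬝ᵥ ((Matrix.of fun (s s' : ↥(Finset.Icc r0 R)) => vcHatP p R dP s s' j) *ᵥ x)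
        = ∑ r ∈ Finset.Icc r0 R, ∑ t ∈ Finset.Icc r0 R, x' r * vcHatP p R dP r t j * x' t := by
      rw [← Finset.sum_coe_sort (Finset.Icc r0 R)]
      simp only [dotProduct, Matrix.mulVec, Matrix.of_apply]
      refine Finset.sum_congr rfl fun r _ => ?_
      rw [← Finset.sum_coe_sort (Finset.Icc r0 R), Finset.mul_sum]
      refine Finset.sum_congr rfl fun t _ => ?_
      rw [hxx, hxx]
      ring
    rw [e]
    exact this
  · simp only [Matrix.of_apply]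
    exact vc_c0_dist_lip (M := Λ) (fun i => vcHatP p R dP i s j) (fun i hi => (H.P_abs hi s.2 j).trans L3) hΛΛ
      (fun h1 h2 => (H.P5 k h1 h2 s s.2 j hjk).trans (hfine k rfl h1 h2)) r.2 r'.2
  · exact vc_c0_dist_lip (M := Λ) (fun i => vcHatK p R dG j i)
      (fun i hi => by rw [abs_of_nonneg (H.K_bd j hi).1]; exact (H.K_bd j hi).2.1.trans L4) hΛΛ
      (fun h1 h2 => (H.G4 k h1 h2 j hjk).trans (hfine k rfl h1 h2)) s.2 s'.2
  · rw [Finset.sum_coe_sort (Finset.Icc r0 R) (fun s => vcMu p j s)]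
    exact vc_c0_mu_sum H.mass r0 j
  · have := vc_c0_dist_lip (k := k) (δk := dK k + db k) (Λ := Λ) (c := 1) (M := Λ) b
      (fun i hi => by rw [abs_of_nonneg (H.b0 i hi)]; exact (H.b1 i hi).trans L6) (by rw [one_mul])
      (fun h1 h2 => by
        rw [one_mul]
        have := H.dK0 k (by omega)
        linarith [H.bv k h1 h2]) s.2 s'.2
    rwa [one_mul] at this

theorem Ah_in (p : ℕ → ℝ) (R r0 : ℕ) (b : ℕ → ℝ) (dG dP : ℕ → ℕ → ℕ → ℝ) {k : ℕ} (hk : k ≤ R + 1) (r t : ℕ) :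
    vcCfAh p R r0 b dG dP k r t
      = l05r_AN r0 R b (fun r t => vcHatP p R dP r t k) (fun s => vcHatK p R dG k s) (fun s => vcMu p k s) r t := by
  unfold vcCfAh
  rw [if_pos hk]

theorem Ah_out (p : ℕ → ℝ) (R r0 : ℕ) (b : ℕ → ℝ) (dG dP : ℕ → ℕ → ℕ → ℝ) (r t : ℕ) : vcCfAh p R r0 b dG dP (R + 2) r t = 0 := by
  unfold vcCfAh
  rw [if_neg (by omega)]

/-- `|A^k_rt| ≤ Λ^4` -/
theorem Ah_abs (H : VcCoefM p R r0 dK db b dG dP β bm e) (k r t : ℕ) : |vcCfAh p R r0 b dG dP k r t| ≤ vcCfLam R dK β bm e ^ 4 := by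
  have L1 := H.lam.1
  have h0 : 0 ≤ vcCfLam R dK β bm e ^ 4 := by positivity
  unfold vcCfAh
  split_ifs with hk
  · by_cases hrt : r ∈ Finset.Icc r0 R ∧ t ∈ Finset.Icc r0 R
    · rw [L05rOkN.AN_eq r t hrt.1 hrt.2]
      exact (H.sector k k (Or.inl rfl)).A_abs _ _
    · unfold l05r_AN
      rw [dif_neg hrt, abs_zero]
      exact h0
  · rw [abs_zero]
    exact h0

/-- the spectral transform of `vcCfA` -/
theorem hatA (H : VcCoefM p R r0 dK db b dG dP β bm e) (r t : ℕ) {k : ℕ} (hk : k ≤ R + 1) :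
    vcHatP p R (vcCfA p R r0 b dG dP) r t k = vcCfAh p R r0 b dG dP k r t := by
  have h := vc_c0_hatP_tele H.mass (vcCfAh p R r0 b dG dP) r t k hk
  rw [Ah_out, sub_zero] at h
  rw [← h]
  rfl

/-- **hypothesis `h2` of `vc_inverse`** -/
theorem h2 (H : VcCoefM p R r0 dK db b dG dP β bm e) : ∀ k ∈ range (R + 2), ∀ r ∈ Icc r0 R, ∀ t ∈ Icc r0 R,
    vcHatP p R (vcCfA p R r0 b dG dP) r t k * (1 - b t * vcHatK p R dG k t)
      + ∑ s ∈ Icc r0 R, vcHatP p R (vcCfA p R r0 b dG dP) r s k * vcMu p k s * vcHatP p R dP s t k * b t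
      = - (vcHatP p R dP r t k * b t * vcHatK p R (vcCfDel p R b dG) k r) := by
  intro k hk r hr t ht
  have hk' : k ≤ R + 1 := by have := Finset.mem_range.1 hk; omega
  have hrR := (Finset.mem_Icc.1 hr).2
  have e1 : vcHatK p R (vcCfDel p R b dG) k r = 1 / (1 - b r * vcHatK p R dG k r) := by
    unfold vcHatK
    exact vc_c0_hatDel H.mass b dG r (max_le hk' (by omega)) (by omega)
  rw [e1, H.hatA r t hk', Ah_in p R r0 b dG dP hk']
  have e2 : ∀ s, vcHatP p R (vcCfA p R r0 b dG dP) r s k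
      = l05r_AN r0 R b (fun r t => vcHatP p R dP r t k) (fun s => vcHatK p R dG k s) (fun s => vcMu p k s) r s :=
    fun s => by rw [H.hatA r s hk', Ah_in p R r0 b dG dP hk']
  simp only [e2]
  exact vc_c0_AN_eqn (H.sector k k (Or.inl rfl)) hr ht

end VcCoefM

/-! ## 7. the weighted difference of successive sectors and the bound of the row kernel -/

namespace VcCoefM

variable {p : ℕ → ℝ} {R r0 : ℕ} {dK db b : ℕ → ℝ} {dG dP : ℕ → ℕ → ℕ → ℝ} {β bm e : ℝ}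

theorem P_succ (p : ℕ → ℝ) (R : ℕ) (ψ : ℕ → ℕ → ℕ → ℝ) (r t : ℕ) {k : ℕ} (hk : k ≤ R + 1) :
    vcHatP p R ψ r t k = p k * ψ r t k + vcHatP p R ψ r t (k + 1) := by
  unfold vcHatP
  exact vc_c0_split _ k (R + 1) hk

/-- `|A^{k+1}_rt - A^k_rt| ≤ 30 Λ^11 p_k (dK_k + db_k + 1_{k = r0})`, `k ≤ R` -/
theorem Ah_diff (H : VcCoefM p R r0 dK db b dG dP β bm e) {k : ℕ} (hkR : k ≤ R) (r t : ℕ) :
    |vcCfAh p R r0 b dG dP (k + 1) r t - vcCfAh p R r0 b dG dP k r t|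
      ≤ 30 * vcCfLam R dK β bm e ^ 11 * (p k * (dK k + db k + if k = r0 then 1 else 0)) := by
  obtain ⟨L1, L2, L3, L4, L5, L6, L7⟩ := H.lam
  have h := H.sector k k (Or.inl rfl)
  have h' := H.sector k (k + 1) (Or.inr rfl)
  set Λ := vcCfLam R dK β bm e with hΛdef
  have hΛ : 0 < Λ := by linarith
  have hpk := (H.mass.pos k (by omega)).le
  have hdK := H.dK0 k (by omega)
  have hdb := H.db0 k (by omega)
  set δk := dK k + db k with hδk
  have hδ0 : 0 ≤ δk := by linarith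
  have hρ : 0 ≤ δk + (if k = r0 then (1 : ℝ) else 0) := by split_ifs <;> linarith
  rw [Ah_in p R r0 b dG dP (show k + 1 ≤ R + 1 by omega), Ah_in p R r0 b dG dP (show k ≤ R + 1 by omega)]
  by_cases hrt : r ∈ Finset.Icc r0 R ∧ t ∈ Finset.Icc r0 R
  swap
  · unfold l05r_AN
    rw [dif_neg hrt, dif_neg hrt, sub_zero, abs_zero]
    positivity
  rw [L05rOkN.AN_eq r t hrt.1 hrt.2, L05rOkN.AN_eq r t hrt.1 hrt.2]
  have hfine : β * vcCfKap R dK * (p k * dK k) ≤ Λ * (p k * δk) := by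
    have a1 : p k * dK k ≤ p k * δk := mul_le_mul_of_nonneg_left (by linarith) hpk
    exact mul_le_mul L3 a1 (mul_nonneg hpk hdK) hΛ.le
  have key := h.A_diff h' (εB := Λ * (p k * δk)) (εg := Λ * (p k * δk)) (P := p k * (δk + if k = r0 then 1 else 0))
    ?_ ?_ ?_ ⟨r, hrt.1⟩ ⟨t, hrt.2⟩
  · refine key.trans ?_
    have e : 30 * Λ ^ 11 * (p k * (δk + if k = r0 then 1 else 0))
        = 10 * Λ ^ 10 * (3 * Λ * (p k * (δk + if k = r0 then 1 else 0))) := by ring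
    rw [e]
    refine mul_le_mul_of_nonneg_left ?_ (by positivity)
    have h1 : p k * δk ≤ p k * (δk + if k = r0 then 1 else 0) := by
      refine mul_le_mul_of_nonneg_left ?_ hpk
      split_ifs <;> linarith
    have h2 : 0 ≤ p k * (δk + if k = r0 then 1 else 0) := mul_nonneg hpk hρ
    have h3 : p k * (δk + if k = r0 then 1 else 0) ≤ Λ * (p k * (δk + if k = r0 then 1 else 0)) := by
      nlinarith
    have h4 : Λ * (p k * δk) ≤ Λ * (p k * (δk + if k = r0 then 1 else 0)) := mul_le_mul_of_nonneg_left h1 hΛ.le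
    linarith
  · -- change of `B`
    intro s s'
    simp only [Matrix.of_apply]
    rw [P_succ p R dP s s' (show k ≤ R + 1 by omega), sub_add_cancel_right, abs_neg, abs_mul, abs_of_nonneg hpk]
    have a1 := H.P3 s s.2 s' s'.2 k (by omega)
    calc p k * |dP s s' k| ≤ p k * (β * dK k) := mul_le_mul_of_nonneg_left a1 hpk
      _ = β * (p k * dK k) := by ring
      _ ≤ Λ * (p k * δk) := mul_le_mul L2 (mul_le_mul_of_nonneg_left (by linarith) hpk) (mul_nonneg hpk hdK) hΛ.le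
  · -- change of the gaps
    intro s
    have hs := Finset.mem_Icc.1 s.2
    show |vcHatK p R dG (k + 1) s - vcHatK p R dG k s| ≤ _
    unfold vcHatK
    by_cases c : k ≤ (s : ℕ)
    · rw [max_eq_right (show k + 1 ≤ (s : ℕ) + 1 by omega), max_eq_right (show k ≤ (s : ℕ) + 1 by omega), sub_self, abs_zero]
      positivity
    · rw [max_eq_left (show (s : ℕ) + 1 ≤ k + 1 by omega), max_eq_left (show (s : ℕ) + 1 ≤ k by omega), abs_sub_comm]
      exact (H.G_left s.2 (Finset.mem_Ioc.2 ⟨by omega, by omega⟩) (Nat.lt_succ_self _)).trans hfine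
  · -- change of the sheet measure: two atoms
    intro φ M L hL hM hLip
    have hM0 : 0 ≤ M := (abs_nonneg _).trans (hM ⟨r, hrt.1⟩)
    have e1 : ∑ s : ↥(Finset.Icc r0 R), (vcMu p (k + 1) s - vcMu p k s) * φ s
        = p k * (∑ s : ↥(Finset.Icc r0 R), (if (s : ℕ) = k then (1 : ℝ) else 0) * φ s
          - ∑ s : ↥(Finset.Icc r0 R), (if (s : ℕ) + 1 = k then (1 : ℝ) else 0) * φ s) := by
      rw [← Finset.sum_sub_distrib, Finset.mul_sum]
      refine Finset.sum_congr rfl fun s _ => ?_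
      rw [vc_c0_mu_diff]
      ring
    rw [e1, abs_mul, abs_of_nonneg hpk, mul_assoc]
    refine mul_le_mul_of_nonneg_left ?_ hpk
    rcases lt_trichotomy k r0 with hk | hk | hk
    · have z1 : ∑ s : ↥(Finset.Icc r0 R), (if (s : ℕ) = k then (1 : ℝ) else 0) * φ s = 0 :=
        L05rOkN.sum_ind0 (fun s => s = k) (fun s hs => by rw [Finset.mem_Icc] at hs; omega) φ
      have z2 : ∑ s : ↥(Finset.Icc r0 R), (if (s : ℕ) + 1 = k then (1 : ℝ) else 0) * φ s = 0 :=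
        L05rOkN.sum_ind0 (fun s => s + 1 = k) (fun s hs => by rw [Finset.mem_Icc] at hs; omega) φ
      rw [z1, z2, sub_zero, abs_zero]
      positivity
    · have hkm : k ∈ Finset.Icc r0 R := Finset.mem_Icc.2 ⟨hk.ge, hkR⟩
      have z2 : ∑ s : ↥(Finset.Icc r0 R), (if (s : ℕ) + 1 = k then (1 : ℝ) else 0) * φ s = 0 :=
        L05rOkN.sum_ind0 (fun s => s + 1 = k) (fun s hs => by rw [Finset.mem_Icc] at hs; omega) φ
      rw [L05rOkN.sum_ind k hkm, z2, sub_zero, if_pos hk]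
      have := hM ⟨k, hkm⟩
      nlinarith
    · have hkm : k ∈ Finset.Icc r0 R := Finset.mem_Icc.2 ⟨hk.le, hkR⟩
      have hkm' : k - 1 ∈ Finset.Icc r0 R := Finset.mem_Icc.2 ⟨by omega, by omega⟩
      rw [L05rOkN.sum_ind k hkm, L05rOkN.sum_ind' k (by omega) hkm', if_neg (by omega), add_zero]
      have h1 := hLip ⟨k, hkm⟩ ⟨k - 1, hkm'⟩
      have h2 : vcCfDist k δk Λ k (k - 1) = δk := by
        unfold vcCfDist
        rw [if_neg (by omega), if_pos (Or.inl ⟨rfl, by omega⟩)]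
      simp only [h2] at h1
      nlinarith

/-- **bound of the row kernel**: `|a r t k| ≤ 30 Λ^11 (dK_k + db_k + 1_{k = r0})` for all `k ≤ R+1` (`dK (R+1) = 1`), all `r, t` -/
theorem a_abs (H : VcCoefM p R r0 dK db b dG dP β bm e) (r t : ℕ) {k : ℕ} (hk : k ≤ R + 1) :
    |vcCfA p R r0 b dG dP r t k| ≤ 30 * vcCfLam R dK β bm e ^ 11 * (dK k + db k + if k = r0 then 1 else 0) := by
  have L1 := H.lam.1
  have hpk := H.mass.pos k hk
  unfold vcCfA
  rw [abs_div, abs_of_pos hpk, div_le_iff₀ hpk]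
  by_cases c : k ≤ R
  · rw [abs_sub_comm]
    refine (H.Ah_diff c r t).trans (le_of_eq ?_)
    ring
  · have e' : k = R + 1 := by omega
    subst e'
    rw [Ah_out, sub_zero, H.mass.top, H.dKtop, mul_one]
    refine (H.Ah_abs (R + 1) r t).trans ?_
    have a1 := H.db0 (R + 1) le_rfl
    have a2 : (0 : ℝ) ≤ if R + 1 = r0 then 1 else 0 := by split_ifs <;> norm_num
    have a3 : vcCfLam R dK β bm e ^ 4 ≤ vcCfLam R dK β bm e ^ 11 := pow_le_pow_right₀ L1 (by norm_num)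
    have a4 : 0 < vcCfLam R dK β bm e ^ 11 := by positivity
    nlinarith

/-- `Λ` is polynomial in the data -/
theorem lam_le (H : VcCoefM p R r0 dK db b dG dP β bm e) : vcCfLam R dK β bm e ≤ (vcCfKap R dK + β + bm + e⁻¹) ^ 3 := by
  have h1 := H.kap_one
  have h2 := H.β0
  have h3 := H.bm0
  have h4 : 0 ≤ e⁻¹ := (inv_pos.2 H.e0).le
  unfold vcCfLam
  generalize vcCfKap R dK = κ at *
  generalize e⁻¹ = i at *
  set y := bm + i with hy
  have hy0 : 0 ≤ y := by positivity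
  have e : (κ + β + bm + i) ^ 3 = (κ + β) ^ 3 + 3 * (κ + β) ^ 2 * y + 3 * (κ + β) * y ^ 2 + y ^ 3 := by rw [hy]; ring
  have a1 : κ ≤ κ ^ 3 := by nlinarith [mul_nonneg (sub_nonneg.2 h1) (sub_nonneg.2 h1)]
  have a2 : κ + β * κ ^ 2 ≤ (κ + β) ^ 3 := by
    have : (κ + β) ^ 3 = κ ^ 3 + 3 * (β * κ ^ 2) + 3 * κ * β ^ 2 + β ^ 3 := by ring
    rw [this]
    have : 0 ≤ β * κ ^ 2 := by positivity
    have : 0 ≤ 3 * κ * β ^ 2 := by positivity
    have : 0 ≤ β ^ 3 := by positivity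
    linarith
  have a3 : y ≤ 3 * (κ + β) ^ 2 * y := by
    have : 1 ≤ (κ + β) ^ 2 := by nlinarith
    nlinarith
  have a4 : 0 ≤ 3 * (κ + β) * y ^ 2 := by positivity
  have a5 : 0 ≤ y ^ 3 := by positivity
  rw [e]
  have : κ * (1 + β * κ) + bm + i = κ + β * κ ^ 2 + y := by rw [hy]; ring
  rw [this]
  linarith

end VcCoefM

/-- **UNIT COEF, existential form** TEX[LL:inv:pair-inverse]: kernels `δ, a` with the hypotheses `h1`, `h2` of `vc_inverse` and the bounds, `C = 30 Λ^11`. -/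
theorem vc_coefM {p : ℕ → ℝ} {R r0 : ℕ} {dK db b : ℕ → ℝ} {dG dP : ℕ → ℕ → ℕ → ℝ} {β bm e : ℝ} (H : VcCoefM p R r0 dK db b dG dP β bm e) :
    ∃ δ a : ℕ → ℕ → ℕ → ℝ,
      (∀ r ∈ Icc r0 R, ∀ i ∈ Ioc r (R + 1), ∀ l ∈ Ioc r (R + 1), vcHatG p R δ r i l * (1 - b r * vcHatG p R dG r i l) = 1)
      ∧ (∀ k ∈ range (R + 2), ∀ r ∈ Icc r0 R, ∀ t ∈ Icc r0 R,
          vcHatP p R a r t k * (1 - b t * vcHatK p R dG k t)
            + ∑ s ∈ Icc r0 R, vcHatP p R a r s k * vcMu p k s * vcHatP p R dP s t k * b t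
            = - (vcHatP p R dP r t k * b t * vcHatK p R δ k r))
      ∧ (∀ r ∈ Icc r0 R, ∀ j ∈ Ioc r (R + 1), ∀ j' ∈ Ioc r (R + 1), |δ r j j'| ≤ 30 * vcCfLam R dK β bm e ^ 11 * (dK j * dK j'))
      ∧ (∀ r t k, k ≤ R + 1 → |a r t k| ≤ 30 * vcCfLam R dK β bm e ^ 11 * (dK k + db k + if k = r0 then 1 else 0)) := by
  refine ⟨vcCfDel p R b dG, vcCfA p R r0 b dG dP, H.h1, H.h2, ?_, fun r t k hk => H.a_abs r t hk⟩
  intro r hr j hj j' hj'
  refine (H.del_abs hr hj hj').trans ?_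
  have L1 := H.lam.1
  have a1 := H.dK0 j (Finset.mem_Ioc.1 hj).2
  have a2 := H.dK0 j' (Finset.mem_Ioc.1 hj').2
  refine mul_le_mul_of_nonneg_right ?_ (mul_nonneg a1 a2)
  have a3 : vcCfLam R dK β bm e ^ 7 ≤ vcCfLam R dK β bm e ^ 11 := pow_le_pow_right₀ L1 (by norm_num)
  have a4 : 0 < vcCfLam R dK β bm e ^ 11 := by positivity
  linarith

/-! ## 8. VERSION 2 (`vc_inverse` of `Inv/Alg.lean`): outputs on ALL sheets `r ≤ R`, inputs on the retained sheets `Icc r0 R`.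
Device: ALL sheets are treated as retained (`VcCoefM p R 0 ..`); a discarded sheet `s` is a sheet with `b s = 0` (MASKED multiplier: then the column `s` of `A^k` vanishes,
`vc_c0_A_zero`) or a DECOUPLED sheet (`dP s t k = 0`, e.g. the sheet `0` of the official chain, `m_0 = 0`).   The retained set `{b ≠ 0}` need not be an interval;
the jumps of the masked `b` (inside `db`) replace the indicator `1_{k = r0}`. -/

theorem vc_c0_Icc_zero (R : ℕ) : Icc 0 R = range (R + 1) := by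
  ext x
  simp

theorem vc_c0_AN_zero {r0 R : ℕ} {b : ℕ → ℝ} (B : ℕ → ℕ → ℝ) (g μ : ℕ → ℝ) (r : ℕ) {s : ℕ} (hs : b s = 0) :
    l05r_AN r0 R b B g μ r s = 0 := by
  by_cases h : r ∈ Finset.Icc r0 R ∧ s ∈ Finset.Icc r0 R
  · rw [L05rOkN.AN_eq r s h.1 h.2]
    unfold l05r_A
    simp [hs]
  · unfold l05r_AN
    rw [dif_neg h]

theorem vc_c0_Ah_zero (p : ℕ → ℝ) (R r0 : ℕ) {b : ℕ → ℝ} (dG dP : ℕ → ℕ → ℕ → ℝ) (k r : ℕ) {s : ℕ} (hs : b s = 0) :
    vcCfAh p R r0 b dG dP k r s = 0 := by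
  unfold vcCfAh
  split_ifs
  · exact vc_c0_AN_zero _ _ _ r hs
  · rfl

/-- the columns of the masked sheets vanish -/
theorem vc_c0_A_zero (p : ℕ → ℝ) (R r0 : ℕ) {b : ℕ → ℝ} (dG dP : ℕ → ℕ → ℕ → ℝ) (r k : ℕ) {s : ℕ} (hs : b s = 0) :
    vcCfA p R r0 b dG dP r s k = 0 := by
  unfold vcCfA
  rw [vc_c0_Ah_zero p R r0 dG dP k r hs, vc_c0_Ah_zero p R r0 dG dP (k + 1) r hs, sub_self, zero_div]

namespace VcCoefM

variable {p : ℕ → ℝ} {R : ℕ} {dK db b : ℕ → ℝ} {dG dP : ℕ → ℕ → ℕ → ℝ} {β bm e : ℝ}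

/-- **`h1` of `vc_inverse`, version 2** -/
theorem h1v2 (H : VcCoefM p R 0 dK db b dG dP β bm e) : ∀ r ∈ range (R + 1), ∀ i ∈ Ioc r (R + 1), ∀ l ∈ Ioc r (R + 1),
    vcHatG p R (vcCfDel p R b dG) r i l * (1 - b r * vcHatG p R dG r i l) = 1 := by
  intro r hr
  rw [← vc_c0_Icc_zero] at hr
  exact H.h1 r hr

/-- **`h2` of `vc_inverse`, version 2** (the sheets below `r0` are masked or decoupled) -/
theorem h2v2 (H : VcCoefM p R 0 dK db b dG dP β bm e) (r0 : ℕ) (hb : ∀ s < r0, b s = 0 ∨ ∀ t k, dP s t k = 0) :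
    ∀ k ∈ range (R + 2), ∀ r ∈ range (R + 1), ∀ t ∈ Icc r0 R,
    vcHatP p R (vcCfA p R 0 b dG dP) r t k * (1 - b t * vcHatK p R dG k t)
      + ∑ s ∈ Icc r0 R, vcHatP p R (vcCfA p R 0 b dG dP) r s k * vcMu p k s * vcHatP p R dP s t k * b t
      = - (vcHatP p R dP r t k * b t * vcHatK p R (vcCfDel p R b dG) k r) := by
  intro k hk r hr t ht
  rw [← vc_c0_Icc_zero] at hr
  have ht' : t ∈ Icc 0 R := Finset.mem_Icc.2 ⟨Nat.zero_le _, (Finset.mem_Icc.1 ht).2⟩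
  rw [← H.h2 k hk r hr t ht']
  congr 1
  refine Finset.sum_subset (Finset.Icc_subset_Icc_left (Nat.zero_le _)) fun s hs hs' => ?_
  have hs0 : s < r0 := by
    rw [Finset.mem_Icc] at hs hs'
    omega
  rcases hb s hs0 with h | h
  · have : vcHatP p R (vcCfA p R 0 b dG dP) r s k = 0 := by
      unfold vcHatP
      exact Finset.sum_eq_zero fun i _ => by rw [vc_c0_A_zero p R 0 dG dP r i h, mul_zero]
    rw [this]
    ring
  · have : vcHatP p R dP s t k = 0 := by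
      unfold vcHatP
      exact Finset.sum_eq_zero fun i _ => by rw [h t i, mul_zero]
    rw [this]
    ring

end VcCoefM

/-! ## 9. ARBITRARY INCOMING MASS `p 0` (official case `p 0 = 0`): the kernels for `vc_inverse0` -/

theorem vc_c0_hatP_upd (p : ℕ → ℝ) (c : ℝ) (R : ℕ) (ψ ψ' : ℕ → ℕ → ℕ → ℝ) (r t : ℕ) {k : ℕ} (hk : 1 ≤ k)
    (hψ : ∀ s, 1 ≤ s → ψ r t s = ψ' r t s) : vcHatP (Function.update p 0 c) R ψ r t k = vcHatP p R ψ' r t k := by
  unfold vcHatP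
  refine Finset.sum_congr rfl fun s hs => ?_
  have hs1 : 1 ≤ s := le_trans hk (Finset.mem_Icc.1 hs).1
  rw [Function.update_of_ne (by omega), hψ s hs1]

theorem vc_c0_hatG_upd (p : ℕ → ℝ) (c : ℝ) (R : ℕ) (γ : ℕ → ℕ → ℕ → ℝ) (r : ℕ) {i l : ℕ} (hi : 1 ≤ i) (hl : 1 ≤ l) :
    vcHatG (Function.update p 0 c) R γ r i l = vcHatG p R γ r i l := by
  unfold vcHatG
  refine Finset.sum_congr rfl fun j hj => Finset.sum_congr rfl fun j' hj' => ?_
  have h1 : 1 ≤ j := le_trans hi (Finset.mem_Icc.1 hj).1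
  have h2 : 1 ≤ j' := le_trans hl (Finset.mem_Icc.1 hj').1
  rw [Function.update_of_ne (by omega), Function.update_of_ne (by omega)]

theorem vc_c0_hatK_upd (p : ℕ → ℝ) (c : ℝ) (R : ℕ) (γ : ℕ → ℕ → ℕ → ℝ) (k r : ℕ) :
    vcHatK (Function.update p 0 c) R γ k r = vcHatK p R γ k r := by
  unfold vcHatK
  exact vc_c0_hatG_upd p c R γ r (le_trans (Nat.succ_le_succ (Nat.zero_le r)) (le_max_right _ _)) (Nat.succ_le_succ (Nat.zero_le r))

theorem vc_c0_mu_upd (p : ℕ → ℝ) (c : ℝ) (k : ℕ) {s : ℕ} (hs : 1 ≤ s) : vcMu (Function.update p 0 c) k s = vcMu p k s := by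
  unfold vcMu
  rw [Function.update_of_ne (by omega), Function.update_of_ne (by omega)]

/-- **DATA and HYPOTHESES, official form**: the incoming mass `p 0` is ARBITRARY (e.g. `0`), `1 ≤ r0`, `dP r t 0 = 0`, the sheets below `r0` masked or decoupled
(official use: `r0 = 1`, `dP 0 t k = 0`).   All sheets `r, t ≤ R`;  `dK (R+1) = 1`;  `db k ≥ |b k - b (k-1)|` for ALL `1 ≤ k ≤ R`; `b ≥ 0` ARBITRARY of bounded variation
(`b t = 0` on the sheets which are not retained: the jumps of the mask are inside `db`). -/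
structure VcCoef0 (p : ℕ → ℝ) (R r0 : ℕ) (dK db b : ℕ → ℝ) (dG dP : ℕ → ℕ → ℕ → ℝ) (β bm e : ℝ) : Prop where
  r0pos : 1 ≤ r0
  pos : ∀ k, 1 ≤ k → k ≤ R + 1 → 0 < p k
  mono : ∀ k, 1 ≤ k → k ≤ R → p k ≤ p (k + 1)
  top : p (R + 1) = 1
  dK0 : ∀ s ≤ R + 1, 0 ≤ dK s
  dKtop : dK (R + 1) = 1
  db0 : ∀ s ≤ R + 1, 0 ≤ db s
  β0 : 0 ≤ β
  e0 : 0 < e
  bm0 : 0 ≤ bm
  mask : ∀ s < r0, b s = 0 ∨ ∀ t k, dP s t k = 0
  b0 : ∀ r ≤ R, 0 ≤ b r
  b1 : ∀ r ≤ R, b r ≤ bm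
  bv : ∀ k, 1 ≤ k → k ≤ R → |b k - b (k - 1)| ≤ db k
  P0 : ∀ r t, dP r t 0 = 0
  P1 : ∀ r ≤ R, ∀ t ≤ R, ∀ s ≤ R + 1, dP r t s = dP t r s
  P2 : ∀ s ≤ R + 1, ∀ c : ℕ → ℝ, 0 ≤ ∑ r ∈ range (R + 1), ∑ t ∈ range (R + 1), c r * dP r t s * c t
  P3 : ∀ r ≤ R, ∀ t ≤ R, ∀ s ≤ R + 1, |dP r t s| ≤ β * dK s
  P5 : ∀ k, 1 ≤ k → k ≤ R → ∀ t ≤ R, ∀ j, j = k ∨ j = k + 1 →
    |vcHatP p R dP k t j - vcHatP p R dP (k - 1) t j| ≤ β * dK k
  G1 : ∀ r ≤ R, ∀ j ∈ Ioc r (R + 1), ∀ j' ∈ Ioc r (R + 1), 0 ≤ dG r j j'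
  G2 : ∀ r ≤ R, ∀ j ∈ Ioc r (R + 1), ∀ j' ∈ Ioc r (R + 1), dG r j j' ≤ β * dK j * dK j'
  G3 : ∀ r ≤ R, e ≤ 1 - b r * vcHatG p R dG r (r + 1) (r + 1)
  G4 : ∀ k, 1 ≤ k → k ≤ R → ∀ j, j = k ∨ j = k + 1 → |vcHatK p R dG j k - vcHatK p R dG j (k - 1)| ≤ β * dK k

/-- child kernel of the inverse, official form -/
noncomputable def vcCfDel0 (p : ℕ → ℝ) (R : ℕ) (b : ℕ → ℝ) (dG : ℕ → ℕ → ℕ → ℝ) : ℕ → ℕ → ℕ → ℝ :=
  vcCfDel (Function.update p 0 (p 1)) R b dG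

/-- row kernel of the inverse, official form (`a r t 0 = 0`) -/
noncomputable def vcCfA0 (p : ℕ → ℝ) (R : ℕ) (b : ℕ → ℝ) (dG dP : ℕ → ℕ → ℕ → ℝ) (r t k : ℕ) : ℝ :=
  if k = 0 then 0 else vcCfA (Function.update p 0 (p 1)) R 0 b dG dP r t k

theorem vc_c00_eqns_cite : True := by
  have := @vcCfDel0.eq_1
  have := @vcCfA0.eq_1
  trivial

namespace VcCoef0

variable {p : ℕ → ℝ} {R r0 : ℕ} {dK db b : ℕ → ℝ} {dG dP : ℕ → ℕ → ℕ → ℝ} {β bm e : ℝ}

/-- reduction to `VcCoefM` with the incoming mass `p 1` and all sheets retained -/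
theorem toCoef (H : VcCoef0 p R r0 dK db b dG dP β bm e) :
    VcCoefM (Function.update p 0 (p 1)) R 0 dK db b dG dP β bm e where
  mass :=
    { pos := fun k hk => by
        by_cases h : k = 0
        · subst h
          rw [Function.update_self]
          exact H.pos 1 le_rfl (by omega)
        · rw [Function.update_of_ne h]
          exact H.pos k (by omega) hk
      mono := fun k hk => by
        by_cases h : k = 0
        · subst h
          rw [Function.update_self, Function.update_of_ne (by omega)]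
        · rw [Function.update_of_ne h, Function.update_of_ne (by omega)]
          exact H.mono k (by omega) hk
      top := by
        rw [Function.update_of_ne (by omega)]
        exact H.top }
  dK0 := H.dK0
  dKtop := H.dKtop
  db0 := H.db0
  β0 := H.β0
  e0 := H.e0
  bm0 := H.bm0
  b0 := fun r hr => H.b0 r (Finset.mem_Icc.1 hr).2
  b1 := fun r hr => H.b1 r (Finset.mem_Icc.1 hr).2
  bv := fun k h1 h2 => H.bv k h1 h2
  P1 := fun r hr t ht => H.P1 r (Finset.mem_Icc.1 hr).2 t (Finset.mem_Icc.1 ht).2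
  P2 := fun s hs c => by
    rw [vc_c0_Icc_zero]
    exact H.P2 s hs c
  P3 := fun r hr t ht => H.P3 r (Finset.mem_Icc.1 hr).2 t (Finset.mem_Icc.1 ht).2
  P5 := fun k h1 h2 t ht j hj => by
    have hj1 : 1 ≤ j := by omega
    rw [vc_c0_hatP_upd p (p 1) R dP dP k t hj1 (fun _ _ => rfl), vc_c0_hatP_upd p (p 1) R dP dP (k - 1) t hj1 (fun _ _ => rfl)]
    exact H.P5 k h1 h2 t (Finset.mem_Icc.1 ht).2 j hj
  G1 := fun r hr => H.G1 r (Finset.mem_Icc.1 hr).2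
  G2 := fun r hr => H.G2 r (Finset.mem_Icc.1 hr).2
  G3 := fun r hr => by
    rw [vc_c0_hatG_upd p (p 1) R dG r (Nat.succ_le_succ (Nat.zero_le r)) (Nat.succ_le_succ (Nat.zero_le r))]
    exact H.G3 r (Finset.mem_Icc.1 hr).2
  G4 := fun k h1 h2 j hj => by
    rw [vc_c0_hatK_upd, vc_c0_hatK_upd]
    exact H.G4 k h1 h2 j hj

/-- `ha0` of `vc_inverse0` -/
theorem ha0 (p : ℕ → ℝ) (R : ℕ) (b : ℕ → ℝ) (dG dP : ℕ → ℕ → ℕ → ℝ) (r t : ℕ) : vcCfA0 p R b dG dP r t 0 = 0 := by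
  unfold vcCfA0
  rw [if_pos rfl]

/-- **`h1` of `vc_inverse0`** -/
theorem h1 (H : VcCoef0 p R r0 dK db b dG dP β bm e) : ∀ r ∈ range (R + 1), ∀ i ∈ Ioc r (R + 1), ∀ l ∈ Ioc r (R + 1),
    vcHatG p R (vcCfDel0 p R b dG) r i l * (1 - b r * vcHatG p R dG r i l) = 1 := by
  intro r hr i hi l hl
  have hi1 : 1 ≤ i := by have := (Finset.mem_Ioc.1 hi).1; omega
  have hl1 : 1 ≤ l := by have := (Finset.mem_Ioc.1 hl).1; omega
  have := H.toCoef.h1v2 r hr i hi l hl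
  rwa [vc_c0_hatG_upd p (p 1) R _ r hi1 hl1, vc_c0_hatG_upd p (p 1) R _ r hi1 hl1] at this

/-- **`h2` of `vc_inverse0`** -/
theorem h2 (H : VcCoef0 p R r0 dK db b dG dP β bm e) : ∀ k ∈ Icc 1 (R + 1), ∀ r ∈ range (R + 1), ∀ t ∈ Icc r0 R,
    vcHatP p R (vcCfA0 p R b dG dP) r t k * (1 - b t * vcHatK p R dG k t)
      + ∑ s ∈ Icc r0 R, vcHatP p R (vcCfA0 p R b dG dP) r s k * vcMu p k s * vcHatP p R dP s t k * b t
      = - (vcHatP p R dP r t k * b t * vcHatK p R (vcCfDel0 p R b dG) k r) := by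
  intro k hk r hr t ht
  have hk' := Finset.mem_Icc.1 hk
  have key := H.toCoef.h2v2 r0 H.mask k (Finset.mem_range.2 (by omega)) r hr t ht
  have eA : ∀ s, vcHatP (Function.update p 0 (p 1)) R (vcCfA (Function.update p 0 (p 1)) R 0 b dG dP) r s k
      = vcHatP p R (vcCfA0 p R b dG dP) r s k := fun s =>
    vc_c0_hatP_upd p (p 1) R _ _ r s hk'.1 fun i hi => by
      unfold vcCfA0
      rw [if_neg (by omega)]
  have eP : ∀ s t, vcHatP (Function.update p 0 (p 1)) R dP s t k = vcHatP p R dP s t k := fun s t =>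
    vc_c0_hatP_upd p (p 1) R dP dP s t hk'.1 fun _ _ => rfl
  simp only [eA, eP, vc_c0_hatK_upd] at key
  rw [← show vcHatK p R (vcCfDel (Function.update p 0 (p 1)) R b dG) k r = vcHatK p R (vcCfDel0 p R b dG) k r from rfl, ← key]
  congr 1
  refine Finset.sum_congr rfl fun s hs => ?_
  rw [vc_c0_mu_upd p (p 1) k (le_trans H.r0pos (Finset.mem_Icc.1 hs).1)]

/-- bound of the child kernel -/
theorem del_abs (H : VcCoef0 p R r0 dK db b dG dP β bm e) {r j j' : ℕ} (hr : r ≤ R) (hj : j ∈ Ioc r (R + 1)) (hj' : j' ∈ Ioc r (R + 1)) :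
    |vcCfDel0 p R b dG r j j'| ≤ 3 * vcCfLam R dK β bm e ^ 7 * (dK j * dK j') :=
  H.toCoef.del_abs (Finset.mem_Icc.2 ⟨Nat.zero_le _, hr⟩) hj hj'

/-- bound of the row kernel: NO indicator (the jump of the mask is inside `db r0`) -/
theorem a_abs (H : VcCoef0 p R r0 dK db b dG dP β bm e) (r t : ℕ) {k : ℕ} (hk : k ≤ R + 1) :
    |vcCfA0 p R b dG dP r t k| ≤ 30 * vcCfLam R dK β bm e ^ 11 * (dK k + db k) := by
  unfold vcCfA0
  have L1 := H.toCoef.lam.1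
  split_ifs with h
  · rw [abs_zero]
    have a1 := H.dK0 k hk
    have a2 := H.db0 k hk
    positivity
  · have := H.toCoef.a_abs r t hk
    rwa [if_neg h, add_zero] at this

/-- the columns of the sheets which are not retained vanish -/
theorem a_zero (p : ℕ → ℝ) (R : ℕ) {b : ℕ → ℝ} (dG dP : ℕ → ℕ → ℕ → ℝ) (r k : ℕ) {t : ℕ} (ht : b t = 0) : vcCfA0 p R b dG dP r t k = 0 := by
  unfold vcCfA0
  split_ifs
  · rfl
  · exact vc_c0_A_zero _ R 0 dG dP r k ht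

end VcCoef0

/-- **UNIT COEF, official form** TEX[LL:inv:pair-inverse]: kernels `δ, a` with `ha0`, `h1`, `h2` of `vc_inverse0` (`Inv/Alg.lean`) and the bounds, `C = 30 Λ^11`,
`Λ = vcCfLam R dK β bm e ≤ (κ + β + bm + 1/e)^3`, `κ = ∑_{s ≤ R+1} dK s`. -/
theorem vc_coef0 {p : ℕ → ℝ} {R r0 : ℕ} {dK db b : ℕ → ℝ} {dG dP : ℕ → ℕ → ℕ → ℝ} {β bm e : ℝ} (H : VcCoef0 p R r0 dK db b dG dP β bm e) :
    ∃ δ a : ℕ → ℕ → ℕ → ℝ,
      (∀ r t, a r t 0 = 0)
      ∧ (∀ r ∈ range (R + 1), ∀ i ∈ Ioc r (R + 1), ∀ l ∈ Ioc r (R + 1), vcHatG p R δ r i l * (1 - b r * vcHatG p R dG r i l) = 1)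
      ∧ (∀ k ∈ Icc 1 (R + 1), ∀ r ∈ range (R + 1), ∀ t ∈ Icc r0 R,
          vcHatP p R a r t k * (1 - b t * vcHatK p R dG k t)
            + ∑ s ∈ Icc r0 R, vcHatP p R a r s k * vcMu p k s * vcHatP p R dP s t k * b t
            = - (vcHatP p R dP r t k * b t * vcHatK p R δ k r))
      ∧ (∀ r ≤ R, ∀ j ∈ Ioc r (R + 1), ∀ j' ∈ Ioc r (R + 1), |δ r j j'| ≤ 30 * vcCfLam R dK β bm e ^ 11 * (dK j * dK j'))
      ∧ (∀ r t k, k ≤ R + 1 → |a r t k| ≤ 30 * vcCfLam R dK β bm e ^ 11 * (dK k + db k))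
      ∧ (∀ r t k, b t = 0 → a r t k = 0) := by
  refine ⟨vcCfDel0 p R b dG, vcCfA0 p R b dG dP, VcCoef0.ha0 p R b dG dP, H.h1, H.h2, ?_, fun r t k hk => H.a_abs r t hk,
    fun r t k ht => VcCoef0.a_zero p R dG dP r k ht⟩
  intro r hr j hj j' hj'
  refine (H.del_abs hr hj hj').trans ?_
  have L1 := H.toCoef.lam.1
  have a1 := H.dK0 j (Finset.mem_Ioc.1 hj).2
  have a2 := H.dK0 j' (Finset.mem_Ioc.1 hj').2
  refine mul_le_mul_of_nonneg_right ?_ (mul_nonneg a1 a2)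
  have a3 : vcCfLam R dK β bm e ^ 7 ≤ vcCfLam R dK β bm e ^ 11 := pow_le_pow_right₀ L1 (by norm_num)
  have a4 : 0 < vcCfLam R dK β bm e ^ 11 := by positivity
  linarith

end Claimed.Agent.R286
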