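import Claimed.Agent.R286.Inv.Arr

/-!
# Row 286 (S0533), LL Section 5, unit OPK: KERNEL FORM = BLOCK-SUM FORM      (head: helper20; prefix `vc_opk_`)

The cavity kernel of LL (A8) acts on a pair array `w` by a signed double sum over two FRESH labels `c, d`:
      `(M w)_ab = ∑_c ∑_d (1/2) κ(a,b,c,d) 1_{r0 ≤ lev(c,d) ≤ R} w_cd`.
`vcKopW p R r0 c d κ w` is this sum on the virtual tree (`a = 0`, `b = 1`; `w_cd = w ∘ vcPut c d`).
If the kernel has the form (W) of `L05_design_84.md` / `L04_PLAN_177.md`,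
      `κ = Γ_r(l_c0, l_d1) + Γ_r(l_d0, l_c1) + Φ_rt(l_c0) + Φ_rt(l_c1) + Φ_rt(l_d0) + Φ_rt(l_d1)`        (`vcKerW`; `Γ, Φ` = partial sums of `γ, ψ`),
then `vcKopW = vcOp p R r0 γ ψ`   (`vc_opk`),  for symmetric arrays which do not depend on the labels `c, d`.
`vc_opk_of_eq`: the same for any kernel which agrees with `vcKerW` on the configurations with `lev(0,1) ≤ R`, `lev(c,d) ≤ R` (this is what unit KER proves).

LAST SECTION = THE CONTRACT OF THE HEAD helper84 (his definitions and statements VERBATIM, all PROVED):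
`w` = pair array which uses the labels `< q` only (`VcLab q w`, `2 ≤ q`; labels `0, 1` = the pair `a, b`; `2 .. q-1` = old labels).   The fresh labels are `c = q`, `d = q + 1`.
      `vcKop p R q κ w x = ∑_c ∑_d κ(x, c, d) w_cd`         (signed sums: `c` attached to the old tree including `a, b`; then `d` to the tree including `c`)
* `vc_op_eq_kop` : `vcOp γ ψ = vcKop (vcKer γ ψ)`,
      `vcKer = ∑_{r < j ≤ lev(c,a), r < j' ≤ lev(d,b)} γ r j j' + 1_{r0 ≤ t ≤ R} (∑_{k ≤ lev(c,a)} ψ r t k + ∑_{k ≤ lev(c,b)} ψ r t k)`,  `r = lev(a,b)`, `t = lev(c,d)`.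
* `vc_opk_kop_W` : for SYMMETRIC `w`, `vcKop p R q (fun y => (1/2) κ y 1_{r0 ≤ lev(c,d) ≤ R}) w = vcOp γ ψ w` on the sheets `r0..R`, if `κ` = the kernel (W).
-/

set_option autoImplicit false

namespace Claimed.Agent.R286

open Finset

/-! ## definitions -/

/-- the configuration in which the labels `c, d` are read in the places `0, 1` -/
def vcPut (c d : ℕ) (x : VcX) : VcX := vcRel (Equiv.swap 0 c) (vcRel (Equiv.swap 1 d) x)

/-- `Φ_rt(n) = ∑_{s ≤ n} ψ r t s` -/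
def vcPhi (ψ : ℕ → ℕ → ℕ → ℝ) (r t n : ℕ) : ℝ := ∑ s ∈ range (n + 1), ψ r t s

/-- `Γ_r(n,n') = ∑_{r < j ≤ n, r < j' ≤ n'} γ r j j'` -/
def vcGam (γ : ℕ → ℕ → ℕ → ℝ) (r n n' : ℕ) : ℝ := ∑ j ∈ Ioc r n, ∑ j' ∈ Ioc r n', γ r j j'

/-- the kernel (W) -/
def vcKerW (R : ℕ) (γ ψ : ℕ → ℕ → ℕ → ℝ) (c d : ℕ) (x : VcX) : ℝ :=
  vcGam γ (vcLev R x 0 1) (vcLev R x c 0) (vcLev R x d 1) + vcGam γ (vcLev R x 0 1) (vcLev R x d 0) (vcLev R x c 1)
    + vcPhi ψ (vcLev R x 0 1) (vcLev R x c d) (vcLev R x c 0) + vcPhi ψ (vcLev R x 0 1) (vcLev R x c d) (vcLev R x c 1)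
    + vcPhi ψ (vcLev R x 0 1) (vcLev R x c d) (vcLev R x d 0) + vcPhi ψ (vcLev R x 0 1) (vcLev R x c d) (vcLev R x d 1)

/-- signed double sum over the labels `c, d` -/
noncomputable def vcDS (p : ℕ → ℝ) (R c d : ℕ) (F : VcX → ℝ) : VcX → ℝ := vcS p R c 0 (vcS p R d 0 F)

/-- the operator with kernel `κ / 2`, inputs on the sheets `r0, .., R` -/
noncomputable def vcKopW (p : ℕ → ℝ) (R r0 c d : ℕ) (κ : VcX → ℝ) (w : VcX → ℝ) : VcX → ℝ :=
  vcDS p R c d fun y => (1 / 2) * κ y * (if vcLev R y c d ∈ Icc r0 R then 1 else 0) * w (vcPut c d y)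

/-! ## unit OPK-1: general tools -/

/-- congruence: only the configurations which agree with `x` off the label `a` matter -/
theorem vc_opk_out_congr (ρ : ℕ → ℝ) (a : ℕ) (n : ℕ) : ∀ (j : ℕ) (F G : VcX → ℝ) (x : VcX),
    (∀ y : VcX, (∀ i : ℕ × ℕ, i.1 ≠ a → y i = x i) → F y = G y) → vcOut ρ a j n F x = vcOut ρ a j n G x := by
  induction n with
  | zero => intro j F G x h; exact h x fun _ _ => rfl
  | succ n ih =>
    intro j F G x h
    show vcI _ _ = vcI _ _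
    refine vc_I_congr (fun v => ih (j + 1) F G _ fun y hy => h y fun i hi => ?_) _
    rw [hy i hi, Function.update_of_ne (fun e => hi (by rw [e]))]

theorem vc_opk_S_congr (p : ℕ → ℝ) (R a j : ℕ) {F G : VcX → ℝ} (x : VcX)
    (h : ∀ y : VcX, (∀ i : ℕ × ℕ, i.1 ≠ a → y i = x i) → F y = G y) : vcS p R a j F x = vcS p R a j G x :=
  vc_opk_out_congr _ a _ j F G x h

theorem vc_opk_DS_congr (p : ℕ → ℝ) (R c d : ℕ) {F G : VcX → ℝ} (x : VcX)
    (h : ∀ y : VcX, (∀ i : ℕ × ℕ, i.1 ≠ c → i.1 ≠ d → y i = x i) → F y = G y) : vcDS p R c d F x = vcDS p R c d G x := by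
  refine vc_opk_S_congr p R c 0 x fun y hy => vc_opk_S_congr p R d 0 y fun z hz => h z fun i hc hd => ?_
  rw [hz i hd, hy i hc]

theorem VcA.DS {R : ℕ} {F : VcX → ℝ} (hF : VcA R F) (p : ℕ → ℝ) (c d : ℕ) : VcA R (vcDS p R c d F) := (hF.S p d 0).S p c 0

/-- linearity -/
theorem vc_opk_DS_sum {R : ℕ} {α : Type} (s : Finset α) (k : α → ℝ) {F : α → VcX → ℝ} (hF : ∀ i ∈ s, VcA R (F i)) (p : ℕ → ℝ) (c d : ℕ) :
    vcDS p R c d (fun y => ∑ i ∈ s, k i * F i y) = fun y => ∑ i ∈ s, k i * vcDS p R c d (F i) y := by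
  unfold vcDS
  rw [vc_S_sum s (fun i hi => (hF i hi).const_mul (k i)) p d 0]
  have e : (fun x => ∑ i ∈ s, vcS p R d 0 (fun y => k i * F i y) x) = fun x => ∑ i ∈ s, k i * vcS p R d 0 (F i) x := by
    funext x
    refine Finset.sum_congr rfl fun i hi => ?_
    rw [vc_S_const_mul (hF i hi) p d 0 (k i)]
  rw [e, vc_S_sum s (fun i hi => ((hF i hi).S p d 0).const_mul (k i)) p c 0]
  funext x
  refine Finset.sum_congr rfl fun i hi => ?_
  rw [vc_S_const_mul ((hF i hi).S p d 0) p c 0 (k i)]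

theorem vc_opk_DS_add {R : ℕ} {F G : VcX → ℝ} (hF : VcA R F) (hG : VcA R G) (p : ℕ → ℝ) (c d : ℕ) :
    vcDS p R c d (fun y => F y + G y) = fun y => vcDS p R c d F y + vcDS p R c d G y := by
  unfold vcDS
  rw [vc_S_add hF hG p d 0, vc_S_add (hF.S p d 0) (hG.S p d 0) p c 0]

theorem vc_opk_DS_const_mul {R : ℕ} {F : VcX → ℝ} (hF : VcA R F) (p : ℕ → ℝ) (c d : ℕ) (k : ℝ) :
    vcDS p R c d (fun y => k * F y) = fun y => k * vcDS p R c d F y := by
  unfold vcDS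
  rw [vc_S_const_mul hF p d 0 k, vc_S_const_mul (hF.S p d 0) p c 0 k]

/-- the double sum does not depend on the two labels -/
theorem vc_opk_DS_indL {R : ℕ} {F : VcX → ℝ} (hF : VcA R F) (p : ℕ → ℝ) (c d : ℕ) :
    VcIndL c (vcDS p R c d F) ∧ VcIndL d (vcDS p R c d F) := by
  refine ⟨fun j => vc_S_ind (hF.S p d 0) p c (Nat.zero_le j), fun j => ?_⟩
  exact (vc_S_ind hF p d (Nat.zero_le j)).S p R c 0

/-- **exchange of the two summation labels** -/
theorem vc_opk_DS_swap {R : ℕ} {F : VcX → ℝ} (hF : VcA R F) (p : ℕ → ℝ) (c d : ℕ) (x : VcX) :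
    vcDS p R c d (fun y => F (vcRel (Equiv.swap c d) y)) x = vcDS p R c d F x := by
  have e1 := vc_S_rel p R F (Equiv.swap c d) (Equiv.swap c d).injective c 0
  rw [Equiv.swap_apply_left] at e1
  have e2 := vc_S_rel p R (vcS p R c 0 F) (Equiv.swap c d) (Equiv.swap c d).injective d 0
  rw [Equiv.swap_apply_right] at e2
  unfold vcDS
  rw [e1, e2, vc_S_comm hF p d c 0 0]
  have hI := vc_opk_DS_indL hF p c d
  refine vc_arr_ind_congr (hF.DS p c d).toVcT _ _ fun i hi => ?_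
  by_cases h1 : i.1 = c
  · have : i = (c, i.2) := Prod.ext h1 rfl
    rw [this]; exact hI.1 i.2
  · by_cases h2 : i.1 = d
    · have : i = (d, i.2) := Prod.ext h2 rfl
      rw [this]; exact hI.2 i.2
    · exact absurd (by show x (Equiv.swap c d i.1, i.2) = x i; rw [Equiv.swap_apply_of_ne_of_ne h1 h2]) hi

/-- **block sum over a fresh label** = block sum on the label itself -/
theorem vc_opk_sub {p : ℕ → ℝ} {R : ℕ} {F : VcX → ℝ} (hF : VcA R F) {a c : ℕ} (hac : a ≠ c) (hFc : VcIndL c F) {k : ℕ}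
    (hk : k ≤ R + 1) :
    vcS p R c 0 (fun y => if vcBlk k y c a then F (vcRel (Equiv.swap a c) y) else 0) = vcS p R a k F := by
  funext x
  rw [vc_S_blk (hF.rel _) hac hk]
  have e1 := vc_S_rel p R F (Equiv.swap a c) (Equiv.swap a c).injective a k
  rw [Equiv.swap_apply_left] at e1
  rw [e1]
  refine vc_arr_ind_congr (hF.S p a k).toVcT _ _ fun i hi => ?_
  by_cases h1 : i.1 = a
  · have hia : i = (a, i.2) := Prod.ext h1 rfl
    by_cases h2 : i.2 < k
    · exfalso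
      apply hi
      show vcCopy k a c x (Equiv.swap a c i.1, i.2) = x i
      rw [h1, Equiv.swap_apply_left]
      unfold vcCopy
      rw [if_pos ⟨rfl, h2⟩]
      exact congrArg x hia.symm
    · rw [hia]
      exact vc_S_ind hF p a (by omega)
  · by_cases h2 : i.1 = c
    · have hic : i = (c, i.2) := Prod.ext h2 rfl
      rw [hic]
      exact (hFc i.2).S p R a k
    · exfalso
      apply hi
      show vcCopy k a c x (Equiv.swap a c i.1, i.2) = x i
      rw [Equiv.swap_apply_of_ne_of_ne h1 h2]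
      unfold vcCopy
      rw [if_neg (fun h => h2 h.1)]

theorem vc_opk_out_zero (ρ : ℕ → ℝ) (a : ℕ) (n : ℕ) : ∀ j, vcOut ρ a j n (fun _ => 0) = fun _ => 0 := by
  induction n with
  | zero => intro j; rfl
  | succ n ih =>
    intro j
    show vcU ρ (a, j) (vcOut ρ a (j + 1) n fun _ => 0) = _
    rw [ih]
    funext x
    show vcI _ (fun _ => 0) = 0
    rw [vc_I_const, mul_zero]

/-- a condition which does not see the label comes out -/
theorem vc_opk_S_ite (p : ℕ → ℝ) (R a j : ℕ) (P : VcX → Prop) [DecidablePred P]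
    (hP : ∀ x y : VcX, (∀ i : ℕ × ℕ, i.1 ≠ a → y i = x i) → (P y ↔ P x)) (H : VcX → ℝ) :
    vcS p R a j (fun y => if P y then H y else 0) = fun y => if P y then vcS p R a j H y else 0 := by
  funext x
  by_cases h : P x
  · rw [if_pos h]
    exact vc_opk_S_congr p R a j x fun y hy => if_pos ((hP x y hy).2 h)
  · rw [if_neg h]
    have e : vcS p R a j (fun y => if P y then H y else 0) x = vcS p R a j (fun _ => 0) x :=
      vc_opk_S_congr p R a j x fun y hy => if_neg fun h' => h ((hP x y hy).1 h')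
    rw [e]
    exact congrFun (vc_opk_out_zero _ a _ j) x

theorem vc_opk_rel_update (e : Equiv.Perm ℕ) (y : VcX) (a j v : ℕ) :
    vcRel e (Function.update y (e a, j) v) = Function.update (vcRel e y) (a, j) v := by
  funext i
  by_cases h : i = (a, j)
  · subst h
    simp [vcRel]
  · rw [Function.update_of_ne h]
    show Function.update y (e a, j) v (e i.1, i.2) = y (e i.1, i.2)
    rw [Function.update_of_ne]
    intro h'
    apply h
    have h1 := congrArg Prod.fst h'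
    have h2 := congrArg Prod.snd h'
    exact Prod.ext (e.injective h1) h2

/-- independence of a label after a relabelling -/
theorem vc_opk_ind_rel {F : VcX → ℝ} (e : Equiv.Perm ℕ) {a : ℕ} (h : VcIndL a F) : VcIndL (e a) (fun y => F (vcRel e y)) := by
  intro j y v
  show F (vcRel e (Function.update y (e a, j) v)) = F (vcRel e y)
  rw [vc_opk_rel_update]
  exact h j _ _

theorem vc_opk_blk_congr {k : ℕ} {x y : VcX} {a b : ℕ} (ha : ∀ j, y (a, j) = x (a, j)) (hb : ∀ j, y (b, j) = x (b, j)) :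
    vcBlk k y a b ↔ vcBlk k x a b := by
  unfold vcBlk
  simp only [ha, hb]

theorem vc_opk_lev_congr {R : ℕ} {x y : VcX} {a b : ℕ} (ha : ∀ j, y (a, j) = x (a, j)) (hb : ∀ j, y (b, j) = x (b, j)) :
    vcLev R y a b = vcLev R x a b :=
  vc_b2_lev_congr fun j _ => by rw [ha, hb]

/-! ## unit OPK-2: the three basic double sums -/

section terms

variable {p : ℕ → ℝ} {R : ℕ} {c d : ℕ}

theorem vc_opk_lev_put (hc : 2 ≤ c) (hd : 2 ≤ d) (hcd : c ≠ d) (y : VcX) : vcLev R (vcPut c d y) 0 1 = vcLev R y c d := by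
  unfold vcPut
  rw [vc_lev_rel, vc_lev_rel, Equiv.swap_apply_left, Equiv.swap_apply_of_ne_of_ne (by omega : (1:ℕ) ≠ 0) (by omega : (1:ℕ) ≠ c),
    Equiv.swap_apply_left, Equiv.swap_apply_of_ne_of_ne (by omega : c ≠ 1) hcd]

/-- inner sum: the label `d` over the `p_k`-block of the label `1` -/
theorem vc_opk_inner {G : VcX → ℝ} (hG : VcA R G) (hc : 2 ≤ c) (hd : 2 ≤ d) (hcd : c ≠ d) (hGd : VcIndL d G) {k : ℕ} (hk : k ≤ R + 1) :
    vcS p R d 0 (fun y => if vcBlk k y d 1 then G (vcPut c d y) else 0) = fun y => vcS p R 1 k G (vcRel (Equiv.swap 0 c) y) := by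
  have h1 : VcIndL d (fun z => G (vcRel (Equiv.swap 0 c) z)) := by
    have := vc_opk_ind_rel (Equiv.swap 0 c) hGd
    rwa [Equiv.swap_apply_of_ne_of_ne (by omega : d ≠ 0) (Ne.symm hcd)] at this
  have e1 := vc_opk_sub (p := p) (hG.rel (Equiv.swap 0 c)) (by omega : (1:ℕ) ≠ d) h1 hk
  have e2 := vc_S_rel p R G (Equiv.swap 0 c) (Equiv.swap 0 c).injective 1 k
  rw [Equiv.swap_apply_of_ne_of_ne (by omega : (1:ℕ) ≠ 0) (by omega : (1:ℕ) ≠ c)] at e2
  rw [← e2, ← e1]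
  rfl

/-- outer sum at the end `1` -/
theorem vc_opk_outer1 {F : VcX → ℝ} (hF : VcA R F) (hc : 2 ≤ c) (hFc : VcIndL c F) (hF1 : VcIndL 1 F) {k : ℕ} (hk : k ≤ R + 1) :
    vcS p R c 0 (fun y => if vcBlk k y c 1 then F (vcRel (Equiv.swap 0 c) y) else 0) = fun x => vcS p R 0 k F (vcSw x) := by
  have h1 : VcIndL c (fun z => F (vcSw z)) := by
    have := vc_opk_ind_rel (Equiv.swap 0 1) hFc
    rwa [Equiv.swap_apply_of_ne_of_ne (by omega : c ≠ 0) (by omega : c ≠ 1)] at this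
  have e1 := vc_opk_sub (p := p) hF.sw (by omega : (1:ℕ) ≠ c) h1 hk
  rw [← vc_S_sw, ← e1]
  congr 1
  funext y
  refine if_congr Iff.rfl ?_ rfl
  refine vc_arr_ind_congr hF.toVcT _ _ fun i hi => ?_
  by_cases h0 : i.1 = 0
  · exfalso
    apply hi
    show y (Equiv.swap 0 c i.1, i.2) = y (Equiv.swap 1 c (Equiv.swap 0 1 i.1), i.2)
    rw [h0]
    simp
  · by_cases h1 : i.1 = 1
    · have : i = (1, i.2) := Prod.ext h1 rfl
      rw [this]; exact hF1 i.2
    · by_cases h2 : i.1 = c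
      · have : i = (c, i.2) := Prod.ext h2 rfl
        rw [this]; exact hFc i.2
      · exfalso
        apply hi
        show y (Equiv.swap 0 c i.1, i.2) = y (Equiv.swap 1 c (Equiv.swap 0 1 i.1), i.2)
        rw [Equiv.swap_apply_of_ne_of_ne h0 h2, Equiv.swap_apply_of_ne_of_ne h0 h1, Equiv.swap_apply_of_ne_of_ne h1 h2]

variable {w : VcX → ℝ}

/-- (T1) `∑_{c ~_j a} ∑_{d ~_j' b} w_cd = (S_j ⊗ S_j' w)_ab` -/
theorem vc_opk_T1 (hw : VcA R w) (hc : 2 ≤ c) (hd : 2 ≤ d) (hcd : c ≠ d) (hwc : VcIndL c w) (hwd : VcIndL d w) {j j' : ℕ}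
    (hj : j ≤ R + 1) (hj' : j' ≤ R + 1) :
    vcDS p R c d (fun y => if vcBlk j y c 0 then (if vcBlk j' y d 1 then w (vcPut c d y) else 0) else 0)
      = vcS p R 0 j (vcS p R 1 j' w) := by
  unfold vcDS
  rw [vc_opk_S_ite p R d 0 (fun y => vcBlk j y c 0)
    (fun x y h => vc_opk_blk_congr (fun l => h (c, l) hcd) (fun l => h (0, l) (by show (0:ℕ) ≠ d; omega))),
    vc_opk_inner hw hc hd hcd hwd hj']
  exact vc_opk_sub (hw.S p 1 j') (by omega : (0:ℕ) ≠ c) (fun l => (hwc l).S p R 1 j') hj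

theorem vc_opk_row_inner (hw : VcA R w) (hc : 2 ≤ c) (hd : 2 ≤ d) (hcd : c ≠ d) (hwd : VcIndL d w) (t : ℕ) :
    vcS p R d 0 (fun y => if vcLev R y c d = t then w (vcPut c d y) else 0)
      = fun y => vcRow p R t w (vcRel (Equiv.swap 0 c) y) := by
  have hGd : VcIndL d (fun z => vcSh R t z * w z) := by
    intro l z v
    show vcSh R t (Function.update z (d, l) v) * w (Function.update z (d, l) v) = vcSh R t z * w z
    rw [hwd l z v]
    congr 1
    unfold vcSh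
    rw [vc_opk_lev_congr (x := z) (fun j => Function.update_of_ne (fun e => by have := congrArg Prod.fst e; simp at this; omega) _ _)
      (fun j => Function.update_of_ne (fun e => by have := congrArg Prod.fst e; simp at this; omega) _ _)]
  have e := vc_opk_inner (p := p) ((vc_A_sh R t).mul hw) hc hd hcd hGd (Nat.zero_le (R + 1))
  unfold vcRow
  rw [← e]
  congr 1
  funext y
  have hb : vcBlk 0 y d 1 := fun l hl => absurd hl (Nat.not_lt_zero l)
  rw [if_pos hb]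
  unfold vcSh
  rw [vc_opk_lev_put hc hd hcd]
  split_ifs <;> simp

theorem vc_opk_row_indc (hwc : VcIndL c w) (hc : 2 ≤ c) (t : ℕ) : VcIndL c (vcRow p R t w) := by
  intro l
  refine VcInd.S ?_ p R 1 0
  intro z v
  show vcSh R t (Function.update z (c, l) v) * w (Function.update z (c, l) v) = vcSh R t z * w z
  rw [hwc l z v]
  congr 1
  unfold vcSh
  rw [vc_opk_lev_congr (x := z) (fun j => Function.update_of_ne (fun e => by have := congrArg Prod.fst e; simp at this; omega) _ _)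
    (fun j => Function.update_of_ne (fun e => by have := congrArg Prod.fst e; simp at this; omega) _ _)]

/-- (T2) `∑_{c ~_k a} ∑_{d : cd on sheet t} w_cd = (S_k row_t w)_a` -/
theorem vc_opk_T2 (hw : VcA R w) (hc : 2 ≤ c) (hd : 2 ≤ d) (hcd : c ≠ d) (hwc : VcIndL c w) (hwd : VcIndL d w) {k : ℕ}
    (hk : k ≤ R + 1) (t : ℕ) :
    vcDS p R c d (fun y => if vcBlk k y c 0 then (if vcLev R y c d = t then w (vcPut c d y) else 0) else 0)
      = vcS p R 0 k (vcRow p R t w) := by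
  unfold vcDS
  rw [vc_opk_S_ite p R d 0 (fun y => vcBlk k y c 0)
    (fun x y h => vc_opk_blk_congr (fun l => h (c, l) hcd) (fun l => h (0, l) (by show (0:ℕ) ≠ d; omega))),
    vc_opk_row_inner hw hc hd hcd hwd t]
  exact vc_opk_sub (hw.row p t) (by omega : (0:ℕ) ≠ c) (vc_opk_row_indc hwc hc t) hk

/-- (T3) `∑_{c ~_k b} ∑_{d : cd on sheet t} w_cd = (S_k row_t w)_b` -/
theorem vc_opk_T3 (hw : VcA R w) (hc : 2 ≤ c) (hd : 2 ≤ d) (hcd : c ≠ d) (hwc : VcIndL c w) (hwd : VcIndL d w) {k : ℕ}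
    (hk : k ≤ R + 1) (t : ℕ) :
    vcDS p R c d (fun y => if vcBlk k y c 1 then (if vcLev R y c d = t then w (vcPut c d y) else 0) else 0)
      = fun x => vcS p R 0 k (vcRow p R t w) (vcSw x) := by
  unfold vcDS
  rw [vc_opk_S_ite p R d 0 (fun y => vcBlk k y c 1)
    (fun x y h => vc_opk_blk_congr (fun l => h (c, l) hcd) (fun l => h (1, l) (by show (1:ℕ) ≠ d; omega))),
    vc_opk_row_inner hw hc hd hcd hwd t]
  exact vc_opk_outer1 (hw.row p t) hc (vc_opk_row_indc hwc hc t) (vc_row_indL hw p t) hk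

end terms

/-! ## unit OPK-3: symmetrisation and assembly -/

section assembly

variable {p : ℕ → ℝ} {R : ℕ} {c d : ℕ} {w : VcX → ℝ}

theorem vc_opk_put_swap (hc : 2 ≤ c) (hd : 2 ≤ d) (hcd : c ≠ d) (y : VcX) :
    vcPut c d (vcRel (Equiv.swap c d) y) = vcSw (vcPut c d y) := by
  funext i
  show y (Equiv.swap c d (Equiv.swap 1 d (Equiv.swap 0 c i.1)), i.2) = y (Equiv.swap 1 d (Equiv.swap 0 c (Equiv.swap 0 1 i.1)), i.2)
  have : Equiv.swap c d (Equiv.swap 1 d (Equiv.swap 0 c i.1)) = Equiv.swap 1 d (Equiv.swap 0 c (Equiv.swap 0 1 i.1)) := by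
    by_cases h0 : i.1 = 0
    · rw [h0, Equiv.swap_apply_left, Equiv.swap_apply_left, Equiv.swap_apply_of_ne_of_ne (by omega : c ≠ 1) hcd,
        Equiv.swap_apply_left, Equiv.swap_apply_of_ne_of_ne (by omega : (1:ℕ) ≠ 0) (by omega : (1:ℕ) ≠ c), Equiv.swap_apply_left]
    · by_cases h1 : i.1 = 1
      · rw [h1, Equiv.swap_apply_right, Equiv.swap_apply_left, Equiv.swap_apply_of_ne_of_ne (by omega : (1:ℕ) ≠ 0) (by omega : (1:ℕ) ≠ c),
          Equiv.swap_apply_left, Equiv.swap_apply_right, Equiv.swap_apply_of_ne_of_ne (by omega : c ≠ 1) hcd]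
      · by_cases h2 : i.1 = c
        · rw [h2, Equiv.swap_apply_right, Equiv.swap_apply_of_ne_of_ne (by omega : (0:ℕ) ≠ 1) (by omega : (0:ℕ) ≠ d),
            Equiv.swap_apply_of_ne_of_ne (by omega : (0:ℕ) ≠ c) (by omega : (0:ℕ) ≠ d),
            Equiv.swap_apply_of_ne_of_ne (by omega : c ≠ 0) (by omega : c ≠ 1), Equiv.swap_apply_right,
            Equiv.swap_apply_of_ne_of_ne (by omega : (0:ℕ) ≠ 1) (by omega : (0:ℕ) ≠ d)]
        · by_cases h3 : i.1 = d
          · rw [h3, Equiv.swap_apply_of_ne_of_ne (by omega : d ≠ 0) (Ne.symm hcd), Equiv.swap_apply_right,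
              Equiv.swap_apply_of_ne_of_ne (by omega : (1:ℕ) ≠ c) (by omega : (1:ℕ) ≠ d),
              Equiv.swap_apply_of_ne_of_ne (by omega : d ≠ 0) (by omega : d ≠ 1),
              Equiv.swap_apply_of_ne_of_ne (by omega : d ≠ 0) (Ne.symm hcd), Equiv.swap_apply_right]
          · rw [Equiv.swap_apply_of_ne_of_ne h0 h2, Equiv.swap_apply_of_ne_of_ne h1 h3, Equiv.swap_apply_of_ne_of_ne h2 h3,
              Equiv.swap_apply_of_ne_of_ne h0 h1, Equiv.swap_apply_of_ne_of_ne h0 h2, Equiv.swap_apply_of_ne_of_ne h1 h3]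
  rw [this]

theorem VcA.put (hw : VcA R w) (c d : ℕ) : VcA R (fun y => w (vcPut c d y)) := (hw.rel (Equiv.swap 0 c)).rel (Equiv.swap 1 d)

/-- the weight may be read with the labels `c, d` exchanged -/
theorem vc_opk_DS_sym (hw : VcA R w) (hsym : ∀ x, w (vcSw x) = w x) (hc : 2 ≤ c) (hd : 2 ≤ d) (hcd : c ≠ d) {K : VcX → ℝ}
    (hK : VcA R K) (x : VcX) :
    vcDS p R c d (fun y => K (vcRel (Equiv.swap c d) y) * w (vcPut c d y)) x = vcDS p R c d (fun y => K y * w (vcPut c d y)) x := by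
  rw [← vc_opk_DS_swap (hK.mul (hw.put c d)) p c d x]
  congr 2
  funext y
  rw [vc_opk_put_swap hc hd hcd, hsym]

/-- the one-sided weight, at the fixed output sheet `r` -/
noncomputable def vcKh (R r0 : ℕ) (γ ψ : ℕ → ℕ → ℕ → ℝ) (c d r : ℕ) (y : VcX) : ℝ :=
  (∑ j ∈ Ioc r (R + 1), ∑ j' ∈ Ioc r (R + 1),
      γ r j j' * ((if vcBlk j y c 0 then 1 else 0) * (if vcBlk j' y d 1 then 1 else 0)))
    + ∑ t ∈ Icc r0 R, ∑ k ∈ range (R + 2),
      ψ r t k * (((if vcBlk k y c 0 then 1 else 0) + (if vcBlk k y c 1 then 1 else 0)) * (if vcLev R y c d = t then 1 else 0))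

theorem vc_opk_A_Kh (R r0 : ℕ) (γ ψ : ℕ → ℕ → ℕ → ℝ) (c d r : ℕ) : VcA R (vcKh R r0 γ ψ c d r) := by
  have h1 : VcA R (fun y => ∑ j ∈ Ioc r (R + 1), ∑ j' ∈ Ioc r (R + 1),
      γ r j j' * ((if vcBlk j y c 0 then (1:ℝ) else 0) * (if vcBlk j' y d 1 then 1 else 0))) :=
    VcA.sum _ fun j hj => VcA.sum _ fun j' hj' =>
      ((vc_A_blk R (Finset.mem_Ioc.1 hj).2 c 0 1 0).mul (vc_A_blk R (Finset.mem_Ioc.1 hj').2 d 1 1 0)).const_mul _
  have h2 : VcA R (fun y => ∑ t ∈ Icc r0 R, ∑ k ∈ range (R + 2),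
      ψ r t k * (((if vcBlk k y c 0 then (1:ℝ) else 0) + (if vcBlk k y c 1 then 1 else 0)) * (if vcLev R y c d = t then 1 else 0))) :=
    VcA.sum _ fun t _ => VcA.sum _ fun k hk =>
      (((vc_A_blk R (by have := Finset.mem_range.1 hk; omega) c 0 1 0).add
        (vc_A_blk R (by have := Finset.mem_range.1 hk; omega) c 1 1 0)).mul
        (vc_A_lev R c d fun n => if n = t then 1 else 0)).const_mul _
  exact h1.add h2

theorem vc_opk_gam_eq (γ : ℕ → ℕ → ℕ → ℝ) {R : ℕ} (r : ℕ) {n n' : ℕ} (hn : n ≤ R + 1) (hn' : n' ≤ R + 1) :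
    ∑ j ∈ Ioc r (R + 1), ∑ j' ∈ Ioc r (R + 1), γ r j j' * ((if j ≤ n then 1 else 0) * (if j' ≤ n' then 1 else 0)) = vcGam γ r n n' := by
  unfold vcGam
  have hs : ∀ m, m ≤ R + 1 → Ioc r m = (Ioc r (R + 1)).filter fun j => j ≤ m := by
    intro m hm
    ext j
    simp only [Finset.mem_Ioc, Finset.mem_filter]
    omega
  rw [hs n hn, hs n' hn', Finset.sum_filter]
  refine Finset.sum_congr rfl fun j _ => ?_
  by_cases hj : j ≤ n
  · simp only [if_pos hj, one_mul]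
    rw [Finset.sum_filter]
    refine Finset.sum_congr rfl fun j' _ => ?_
    split_ifs <;> simp
  · simp only [if_neg hj, zero_mul, mul_zero, Finset.sum_const_zero]

theorem vc_opk_phi_eq (ψ : ℕ → ℕ → ℕ → ℝ) {R : ℕ} (r t : ℕ) {n : ℕ} (hn : n ≤ R + 1) :
    ∑ k ∈ range (R + 2), ψ r t k * (if k ≤ n then 1 else 0) = vcPhi ψ r t n := by
  unfold vcPhi
  have hs : range (n + 1) = (range (R + 2)).filter fun k => k ≤ n := by
    ext k
    simp only [Finset.mem_range, Finset.mem_filter]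
    omega
  rw [hs, Finset.sum_filter]
  refine Finset.sum_congr rfl fun k _ => ?_
  split_ifs <;> simp

/-- evaluation of the one-sided weight -/
theorem vc_opk_Kh_eval (R r0 : ℕ) (γ ψ : ℕ → ℕ → ℕ → ℝ) (c d r : ℕ) (y : VcX) :
    vcKh R r0 γ ψ c d r y = vcGam γ r (vcLev R y c 0) (vcLev R y d 1)
      + if vcLev R y c d ∈ Icc r0 R then
          vcPhi ψ r (vcLev R y c d) (vcLev R y c 0) + vcPhi ψ r (vcLev R y c d) (vcLev R y c 1) else 0 := by
  unfold vcKh
  congr 1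
  · rw [← vc_opk_gam_eq γ r (vc_lev_le R y c 0) (vc_lev_le R y d 1)]
    refine Finset.sum_congr rfl fun j hj => Finset.sum_congr rfl fun j' hj' => ?_
    rw [if_congr (vc_le_lev (Finset.mem_Ioc.1 hj).2 y c 0) rfl rfl, if_congr (vc_le_lev (Finset.mem_Ioc.1 hj').2 y d 1) rfl rfl]
  · have e : ∀ t ∈ Icc r0 R, ∑ k ∈ range (R + 2),
        ψ r t k * (((if vcBlk k y c 0 then (1:ℝ) else 0) + (if vcBlk k y c 1 then 1 else 0)) * (if vcLev R y c d = t then 1 else 0))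
        = if vcLev R y c d = t then vcPhi ψ r t (vcLev R y c 0) + vcPhi ψ r t (vcLev R y c 1) else 0 := by
      intro t _
      by_cases ht : vcLev R y c d = t
      · simp only [if_pos ht, mul_one]
        rw [← vc_opk_phi_eq ψ r t (vc_lev_le R y c 0), ← vc_opk_phi_eq ψ r t (vc_lev_le R y c 1), ← Finset.sum_add_distrib]
        refine Finset.sum_congr rfl fun k hk => ?_
        have hk' : k ≤ R + 1 := by have := Finset.mem_range.1 hk; omega
        rw [if_congr (vc_le_lev hk' y c 0) rfl rfl, if_congr (vc_le_lev hk' y c 1) rfl rfl]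
        ring
      · simp only [if_neg ht, mul_zero, Finset.sum_const_zero]
    rw [Finset.sum_congr rfl e, Finset.sum_ite_eq]

/-- if `c` follows `0` and `d` follows `1` beyond the fork of `0, 1`, then `c, d` fork there too -/
theorem vc_opk_lev_fork {R : ℕ} (y : VcX) {c d : ℕ} (h1 : vcLev R y 0 1 < vcLev R y c 0) (h2 : vcLev R y 0 1 < vcLev R y d 1) :
    vcLev R y c d = vcLev R y 0 1 := by
  have u1 := vc_lev_ultra R y c 0 1
  have u2 := vc_lev_ultra R y c 1 d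
  have u3 := vc_lev_ultra R y 0 c d
  have u4 := vc_lev_ultra R y 0 d 1
  rw [vc_lev_symm R y 1 d] at u2
  rw [vc_lev_symm R y 0 c] at u3
  simp only [min_le_iff] at u1 u2 u3 u4
  omega

/-- the kernel (W), cut to the retained input sheets, is the symmetrised one-sided weight -/
theorem vc_opk_ker_eq {r0 : ℕ} (γ ψ : ℕ → ℕ → ℕ → ℝ) (hc : 2 ≤ c) (hd : 2 ≤ d) (y : VcX) (hy : vcLev R y 0 1 ∈ Icc r0 R) :
    vcKerW R γ ψ c d y * (if vcLev R y c d ∈ Icc r0 R then 1 else 0)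
      = vcKh R r0 γ ψ c d (vcLev R y 0 1) y + vcKh R r0 γ ψ c d (vcLev R y 0 1) (vcRel (Equiv.swap c d) y) := by
  rw [vc_opk_Kh_eval, vc_opk_Kh_eval]
  simp only [vc_lev_rel, Equiv.swap_apply_left, Equiv.swap_apply_right,
    Equiv.swap_apply_of_ne_of_ne (by omega : (0:ℕ) ≠ c) (by omega : (0:ℕ) ≠ d),
    Equiv.swap_apply_of_ne_of_ne (by omega : (1:ℕ) ≠ c) (by omega : (1:ℕ) ≠ d)]
  rw [vc_lev_symm R y d c]
  have g : ∀ c' d' : ℕ, vcLev R y c' d' = vcLev R y c d → ¬ vcLev R y c d ∈ Icc r0 R →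
      vcGam γ (vcLev R y 0 1) (vcLev R y c' 0) (vcLev R y d' 1) = 0 := by
    intro c' d' hcd' hn
    unfold vcGam
    by_cases h1 : vcLev R y 0 1 < vcLev R y c' 0
    · by_cases h2 : vcLev R y 0 1 < vcLev R y d' 1
      · exact absurd (by rw [← hcd', vc_opk_lev_fork y h1 h2]; exact hy) hn
      · rw [Finset.Ioc_eq_empty h2]
        simp
    · rw [Finset.Ioc_eq_empty h1]
      simp
  unfold vcKerW
  by_cases h : vcLev R y c d ∈ Icc r0 R
  · simp only [if_pos h]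
    ring
  · simp only [if_neg h]
    rw [g c d rfl h, g d c (vc_lev_symm R y d c) h]
    ring

theorem VcA.ite_blk {G : VcX → ℝ} (hG : VcA R G) {k : ℕ} (hk : k ≤ R + 1) (a b : ℕ) :
    VcA R (fun y => if vcBlk k y a b then G y else 0) := by
  have h := (vc_A_blk R hk a b 1 0).mul hG
  have e : (fun y => if vcBlk k y a b then G y else 0) = fun y => (if vcBlk k y a b then (1:ℝ) else 0) * G y := by
    funext y
    split_ifs <;> simp
  rw [e]
  exact h

theorem VcA.ite_lev {G : VcX → ℝ} (hG : VcA R G) (t a b : ℕ) :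
    VcA R (fun y => if vcLev R y a b = t then G y else 0) := by
  have h := (vc_A_lev R a b fun n => if n = t then 1 else 0).mul hG
  have e : (fun y => if vcLev R y a b = t then G y else 0) = fun y => (if vcLev R y a b = t then (1:ℝ) else 0) * G y := by
    funext y
    split_ifs <;> simp
  rw [e]
  exact h

/-- linearity + T1, T2, T3 -/
theorem vc_opk_half {r0 : ℕ} (γ ψ : ℕ → ℕ → ℕ → ℝ) (hw : VcA R w) (hc : 2 ≤ c) (hd : 2 ≤ d) (hcd : c ≠ d)
    (hwc : VcIndL c w) (hwd : VcIndL d w) (x : VcX) :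
    vcDS p R c d (fun y => vcKh R r0 γ ψ c d (vcLev R x 0 1) y * w (vcPut c d y)) x = vcOp p R r0 γ ψ w x := by
  set r := vcLev R x 0 1 with hr
  have hW := hw.put c d
  set t1 : ℕ × ℕ → VcX → ℝ := fun q y => if vcBlk q.1 y c 0 then (if vcBlk q.2 y d 1 then w (vcPut c d y) else 0) else 0 with ht1
  set t2 : ℕ × ℕ → VcX → ℝ := fun q y => if vcBlk q.2 y c 0 then (if vcLev R y c d = q.1 then w (vcPut c d y) else 0) else 0 with ht2
  set t3 : ℕ × ℕ → VcX → ℝ := fun q y => if vcBlk q.2 y c 1 then (if vcLev R y c d = q.1 then w (vcPut c d y) else 0) else 0 with ht3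
  have hA1 : ∀ q ∈ Ioc r (R + 1) ×ˢ Ioc r (R + 1), VcA R (t1 q) := fun q hq =>
    (hW.ite_blk (Finset.mem_Ioc.1 (Finset.mem_product.1 hq).2).2 d 1).ite_blk (Finset.mem_Ioc.1 (Finset.mem_product.1 hq).1).2 c 0
  have hk : ∀ q ∈ Icc r0 R ×ˢ range (R + 2), q.2 ≤ R + 1 := fun q hq => by
    have := Finset.mem_range.1 (Finset.mem_product.1 hq).2
    omega
  have hA2 : ∀ q ∈ Icc r0 R ×ˢ range (R + 2), VcA R (t2 q) := fun q hq => (hW.ite_lev q.1 c d).ite_blk (hk q hq) c 0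
  have hA3 : ∀ q ∈ Icc r0 R ×ˢ range (R + 2), VcA R (t3 q) := fun q hq => (hW.ite_lev q.1 c d).ite_blk (hk q hq) c 1
  have e0 : (fun y => vcKh R r0 γ ψ c d r y * w (vcPut c d y)) = fun y =>
      (∑ q ∈ Ioc r (R + 1) ×ˢ Ioc r (R + 1), γ r q.1 q.2 * t1 q y)
        + ((∑ q ∈ Icc r0 R ×ˢ range (R + 2), ψ r q.1 q.2 * t2 q y) + ∑ q ∈ Icc r0 R ×ˢ range (R + 2), ψ r q.1 q.2 * t3 q y) := by
    funext y
    unfold vcKh
    rw [Finset.sum_product, Finset.sum_product, Finset.sum_product, add_mul, Finset.sum_mul, Finset.sum_mul, ← Finset.sum_add_distrib]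
    congr 1
    · refine Finset.sum_congr rfl fun j _ => ?_
      rw [Finset.sum_mul]
      refine Finset.sum_congr rfl fun j' _ => ?_
      simp only [ht1]
      split_ifs <;> simp
    · refine Finset.sum_congr rfl fun t _ => ?_
      rw [Finset.sum_mul, ← Finset.sum_add_distrib]
      refine Finset.sum_congr rfl fun k _ => ?_
      simp only [ht2, ht3]
      split_ifs <;> simp <;> ring
  have s1 : VcA R (fun y => ∑ q ∈ Ioc r (R + 1) ×ˢ Ioc r (R + 1), γ r q.1 q.2 * t1 q y) :=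
    VcA.sum _ fun q hq => (hA1 q hq).const_mul _
  have s2 : VcA R (fun y => ∑ q ∈ Icc r0 R ×ˢ range (R + 2), ψ r q.1 q.2 * t2 q y) :=
    VcA.sum _ fun q hq => (hA2 q hq).const_mul _
  have s3 : VcA R (fun y => ∑ q ∈ Icc r0 R ×ˢ range (R + 2), ψ r q.1 q.2 * t3 q y) :=
    VcA.sum _ fun q hq => (hA3 q hq).const_mul _
  rw [e0, vc_opk_DS_add s1 (s2.add s3) p c d]
  show _ + vcDS p R c d _ x = _
  rw [vc_opk_DS_add s2 s3 p c d, vc_opk_DS_sum _ _ hA1 p c d, vc_opk_DS_sum _ _ hA2 p c d, vc_opk_DS_sum _ _ hA3 p c d]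
  show (∑ q ∈ Ioc r (R + 1) ×ˢ Ioc r (R + 1), γ r q.1 q.2 * vcDS p R c d (t1 q) x)
    + ((∑ q ∈ Icc r0 R ×ˢ range (R + 2), ψ r q.1 q.2 * vcDS p R c d (t2 q) x)
      + ∑ q ∈ Icc r0 R ×ˢ range (R + 2), ψ r q.1 q.2 * vcDS p R c d (t3 q) x) = _
  unfold vcOp
  rw [← hr, ← Finset.sum_add_distrib, Finset.sum_product, Finset.sum_product]
  congr 1
  · refine Finset.sum_congr rfl fun j hj => Finset.sum_congr rfl fun j' hj' => ?_
    rw [ht1]
    dsimp only
    rw [vc_opk_T1 hw hc hd hcd hwc hwd (Finset.mem_Ioc.1 hj).2 (Finset.mem_Ioc.1 hj').2]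
  · refine Finset.sum_congr rfl fun t _ => Finset.sum_congr rfl fun k hk' => ?_
    have hk2 : k ≤ R + 1 := by have := Finset.mem_range.1 hk'; omega
    rw [ht2, ht3]
    dsimp only
    rw [vc_opk_T2 hw hc hd hcd hwc hwd hk2 t, vc_opk_T3 hw hc hd hcd hwc hwd hk2 t]
    ring

/-- **OPK**: kernel form = block-sum form -/
theorem vc_opk {r0 : ℕ} (γ ψ : ℕ → ℕ → ℕ → ℝ) (hw : VcA R w) (hsym : ∀ x, w (vcSw x) = w x) (hc : 2 ≤ c) (hd : 2 ≤ d) (hcd : c ≠ d)
    (hwc : VcIndL c w) (hwd : VcIndL d w) (x : VcX) (hx : vcLev R x 0 1 ∈ Icc r0 R) :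
    vcKopW p R r0 c d (vcKerW R γ ψ c d) w x = vcOp p R r0 γ ψ w x := by
  set r := vcLev R x 0 1 with hr
  have hK := vc_opk_A_Kh R r0 γ ψ c d r
  have e1 : vcKopW p R r0 c d (vcKerW R γ ψ c d) w x
      = vcDS p R c d (fun y => (1 / 2) * (vcKh R r0 γ ψ c d r y * w (vcPut c d y)
          + vcKh R r0 γ ψ c d r (vcRel (Equiv.swap c d) y) * w (vcPut c d y))) x := by
    unfold vcKopW
    refine vc_opk_DS_congr p R c d x fun y hy => ?_
    have hl : vcLev R y 0 1 = r :=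
      vc_opk_lev_congr (fun j => hy (0, j) (by show (0:ℕ) ≠ c; omega) (by show (0:ℕ) ≠ d; omega))
        (fun j => hy (1, j) (by show (1:ℕ) ≠ c; omega) (by show (1:ℕ) ≠ d; omega))
    have h2 := vc_opk_ker_eq (c := c) (d := d) γ ψ hc hd y (by rw [hl]; exact hx)
    rw [hl] at h2
    rw [mul_assoc (1 / 2 : ℝ), h2]
    ring
  have hA1 : VcA R (fun y => vcKh R r0 γ ψ c d r y * w (vcPut c d y)) := hK.mul (hw.put c d)
  have hA2 : VcA R (fun y => vcKh R r0 γ ψ c d r (vcRel (Equiv.swap c d) y) * w (vcPut c d y)) :=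
    (hK.rel (Equiv.swap c d)).mul (hw.put c d)
  rw [e1, vc_opk_DS_const_mul (hA1.add hA2) p c d (1 / 2), vc_opk_DS_add hA1 hA2 p c d]
  show (1 / 2 : ℝ) * (_ + _) = _
  rw [vc_opk_DS_sym hw hsym hc hd hcd hK x, hr, vc_opk_half γ ψ hw hc hd hcd hwc hwd x]
  ring

/-- the same for any kernel which agrees with (W) on the relevant configurations (the output of unit KER) -/
theorem vc_opk_of_eq {r0 : ℕ} (γ ψ : ℕ → ℕ → ℕ → ℝ) {κ : VcX → ℝ}
    (hκ : ∀ y, vcLev R y 0 1 ≤ R → vcLev R y c d ≤ R → κ y = vcKerW R γ ψ c d y)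
    (hw : VcA R w) (hsym : ∀ x, w (vcSw x) = w x) (hc : 2 ≤ c) (hd : 2 ≤ d) (hcd : c ≠ d)
    (hwc : VcIndL c w) (hwd : VcIndL d w) (x : VcX) (hx : vcLev R x 0 1 ∈ Icc r0 R) :
    vcKopW p R r0 c d κ w x = vcOp p R r0 γ ψ w x := by
  rw [← vc_opk γ ψ hw hsym hc hd hcd hwc hwd x hx]
  unfold vcKopW
  refine vc_opk_DS_congr p R c d x fun y hy => ?_
  have hl : vcLev R y 0 1 = vcLev R x 0 1 :=
    vc_opk_lev_congr (fun j => hy (0, j) (by show (0:ℕ) ≠ c; omega) (by show (0:ℕ) ≠ d; omega))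
      (fun j => hy (1, j) (by show (1:ℕ) ≠ c; omega) (by show (1:ℕ) ≠ d; omega))
  by_cases h : vcLev R y c d ∈ Icc r0 R
  · rw [hκ y (by rw [hl]; exact (Finset.mem_Icc.1 hx).2) (Finset.mem_Icc.1 h).2]
  · rw [if_neg h]
    simp

end assembly

/-! ## THE CONTRACT OF THE HEAD (helper84): one-sided kernel, fresh labels `q, q + 1` -/

/-- `F` uses the labels `< q` only -/
def VcLab (q : ℕ) (F : VcX → ℝ) : Prop := ∀ i : ℕ × ℕ, q ≤ i.1 → VcInd i F

/-- the map of labels `0 ↦ c`, `1 ↦ d` -/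
def vcE2 (c d : ℕ) (v : ℕ) : ℕ := if v = 0 then c else if v = 1 then d else v

/-- read the pair from the labels `c, d` -/
def vcSub (c d : ℕ) (x : VcX) : VcX := vcRel (vcE2 c d) x

/-- kernel operator with the two fresh labels `q, q + 1` -/
noncomputable def vcKop (p : ℕ → ℝ) (R q : ℕ) (κ w : VcX → ℝ) : VcX → ℝ :=
  vcS p R q 0 (vcS p R (q + 1) 0 fun x => κ x * w (vcSub q (q + 1) x))

/-- the kernel of `vcOp p R r0 γ ψ` -/
noncomputable def vcKer (R r0 q : ℕ) (γ ψ : ℕ → ℕ → ℕ → ℝ) (x : VcX) : ℝ :=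
  (∑ j ∈ Ioc (vcLev R x 0 1) (vcLev R x q 0), ∑ j' ∈ Ioc (vcLev R x 0 1) (vcLev R x (q + 1) 1), γ (vcLev R x 0 1) j j')
    + if r0 ≤ vcLev R x q (q + 1) ∧ vcLev R x q (q + 1) ≤ R then
        (∑ k ∈ range (vcLev R x q 0 + 1), ψ (vcLev R x 0 1) (vcLev R x q (q + 1)) k)
          + ∑ k ∈ range (vcLev R x q 1 + 1), ψ (vcLev R x 0 1) (vcLev R x q (q + 1)) k
      else 0

/-- any function of the levels between finitely many labels is admissible -/
theorem vc_A_levs (R : ℕ) (L : List (ℕ × ℕ)) (f : List ℕ → ℝ) : VcA R (fun x => f (L.map fun ab => vcLev R x ab.1 ab.2)) := by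
  induction L generalizing f with
  | nil => exact VcA.const R (f [])
  | cons ab L ih =>
    have e : (fun x => f ((ab :: L).map fun ab => vcLev R x ab.1 ab.2))
        = fun x => ∑ n ∈ range (R + 2), (if vcLev R x ab.1 ab.2 = n then (1:ℝ) else 0) * f (n :: L.map fun ab => vcLev R x ab.1 ab.2) := by
      funext x
      rw [Finset.sum_eq_single (vcLev R x ab.1 ab.2)]
      · simp
      · intro n _ hn
        rw [if_neg (Ne.symm hn), zero_mul]
      · intro h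
        exact absurd (Finset.mem_range.2 (Nat.lt_succ_of_le (vc_lev_le R x ab.1 ab.2))) h
    rw [e]
    exact VcA.sum _ fun n _ => (vc_A_lev R ab.1 ab.2 fun m => if m = n then 1 else 0).mul (ih fun l => f (n :: l))

theorem vc_A_ker (R r0 q : ℕ) (γ ψ : ℕ → ℕ → ℕ → ℝ) : VcA R (vcKer R r0 q γ ψ) :=
  vc_A_levs R [(0, 1), (q, 0), (q + 1, 1), (q, q + 1), (q, 1)] fun l =>
    (∑ j ∈ Ioc (l.getD 0 0) (l.getD 1 0), ∑ j' ∈ Ioc (l.getD 0 0) (l.getD 2 0), γ (l.getD 0 0) j j')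
      + if r0 ≤ l.getD 3 0 ∧ l.getD 3 0 ≤ R then
          (∑ k ∈ range (l.getD 1 0 + 1), ψ (l.getD 0 0) (l.getD 3 0) k) + ∑ k ∈ range (l.getD 4 0 + 1), ψ (l.getD 0 0) (l.getD 3 0) k
        else 0

theorem VcLab.S {q : ℕ} {F : VcX → ℝ} (h : VcLab q F) (p : ℕ → ℝ) (R a j : ℕ) : VcLab q (vcS p R a j F) :=
  fun i hi => (h i hi).S p R a j

/-- a block sum written with a fresh label `c`:   `(S_j F)(a) = ∑_c 1{c ~_j a} F(c)` -/
theorem vc_S_fresh {R : ℕ} {F : VcX → ℝ} (hF : VcA R F) (p : ℕ → ℝ) {a c : ℕ} (hac : a ≠ c) (hc : VcIndL c F) {j : ℕ} (hj : j ≤ R + 1) :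
    vcS p R a j F = vcS p R c 0 fun x => if vcBlk j x c a then F (vcRel (fun v => if v = a then c else v) x) else 0 := by
  rw [← vc_opk_sub hF hac hc hj]
  congr 1
  funext y
  refine if_congr Iff.rfl ?_ rfl
  refine vc_arr_ind_congr hF.toVcT _ _ fun i hi => ?_
  by_cases h1 : i.1 = a
  · exfalso
    apply hi
    show y (Equiv.swap a c i.1, i.2) = y ((if i.1 = a then c else i.1), i.2)
    rw [if_pos h1, h1, Equiv.swap_apply_left]
  · by_cases h2 : i.1 = c
    · have : i = (c, i.2) := Prod.ext h2 rfl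
      rw [this]; exact hc i.2
    · exfalso
      apply hi
      show y (Equiv.swap a c i.1, i.2) = y ((if i.1 = a then c else i.1), i.2)
      rw [if_neg h1, Equiv.swap_apply_of_ne_of_ne h1 h2]

theorem VcLab.indL {q : ℕ} {F : VcX → ℝ} (h : VcLab q F) {c : ℕ} (hc : q ≤ c) : VcIndL c F := fun j => h (c, j) hc

/-- the two ways of reading the pair from fresh labels agree -/
theorem vc_opk_sub_put {R : ℕ} {w : VcX → ℝ} (hw : VcA R w) {c d : ℕ} (hc : 2 ≤ c) (hd : 2 ≤ d) (hcd : c ≠ d)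
    (hwc : VcIndL c w) (hwd : VcIndL d w) (y : VcX) : w (vcSub c d y) = w (vcPut c d y) := by
  refine vc_arr_ind_congr hw.toVcT _ _ fun i hi => ?_
  by_cases h2 : i.1 = c
  · have : i = (c, i.2) := Prod.ext h2 rfl
    rw [this]; exact hwc i.2
  · by_cases h3 : i.1 = d
    · have : i = (d, i.2) := Prod.ext h3 rfl
      rw [this]; exact hwd i.2
    · exfalso
      apply hi
      show y (vcE2 c d i.1, i.2) = y (Equiv.swap 1 d (Equiv.swap 0 c i.1), i.2)
      unfold vcE2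
      by_cases h0 : i.1 = 0
      · rw [if_pos h0, h0, Equiv.swap_apply_left, Equiv.swap_apply_of_ne_of_ne (by omega : c ≠ 1) hcd]
      · rw [if_neg h0, Equiv.swap_apply_of_ne_of_ne h0 h2]
        by_cases h1 : i.1 = 1
        · rw [if_pos h1, h1, Equiv.swap_apply_left]
        · rw [if_neg h1, Equiv.swap_apply_of_ne_of_ne h1 h3]

/-- the kernel of the head = the one-sided weight -/
theorem vc_opk_ker_Kh (R r0 q : ℕ) (γ ψ : ℕ → ℕ → ℕ → ℝ) (y : VcX) :
    vcKer R r0 q γ ψ y = vcKh R r0 γ ψ q (q + 1) (vcLev R y 0 1) y := by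
  rw [vc_opk_Kh_eval]
  unfold vcKer vcGam vcPhi
  congr 1
  exact if_congr Finset.mem_Icc.symm rfl rfl

/-- **KERNEL FORM** -/
theorem vc_op_eq_kop {R : ℕ} {w : VcX → ℝ} (hw : VcA R w) {q : ℕ} (hq : 2 ≤ q) (hlab : VcLab q w) (p : ℕ → ℝ) (r0 : ℕ)
    (γ ψ : ℕ → ℕ → ℕ → ℝ) (x : VcX) (_hx : vcLev R x 0 1 ≤ R) :
    vcOp p R r0 γ ψ w x = vcKop p R q (vcKer R r0 q γ ψ) w x := by
  have hwc : VcIndL q w := hlab.indL le_rfl
  have hwd : VcIndL (q + 1) w := hlab.indL (Nat.le_succ q)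
  rw [← vc_opk_half γ ψ hw hq (by omega : 2 ≤ q + 1) (by omega : q ≠ q + 1) hwc hwd x]
  refine vc_opk_DS_congr p R q (q + 1) x fun y hy => ?_
  have hl : vcLev R y 0 1 = vcLev R x 0 1 :=
    vc_opk_lev_congr (fun j => hy (0, j) (by show (0:ℕ) ≠ q; omega) (by show (0:ℕ) ≠ q + 1; omega))
      (fun j => hy (1, j) (by show (1:ℕ) ≠ q; omega) (by show (1:ℕ) ≠ q + 1; omega))
  rw [vc_opk_ker_Kh, hl, vc_opk_sub_put hw hq (by omega : 2 ≤ q + 1) (by omega : q ≠ q + 1) hwc hwd]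

theorem vc_opk_sw_update (x : VcX) {i : ℕ × ℕ} (h0 : i.1 ≠ 0) (h1 : i.1 ≠ 1) (v : ℕ) :
    vcSw (Function.update x i v) = Function.update (vcSw x) i v := by
  have := vc_opk_rel_update (Equiv.swap 0 1) x i.1 i.2 v
  rwa [Equiv.swap_apply_of_ne_of_ne h0 h1] at this

/-- the operators preserve the class of arrays which use the labels `< q` -/
theorem VcLab.op {q : ℕ} {w : VcX → ℝ} (h : VcLab q w) (hq : 2 ≤ q) (p : ℕ → ℝ) (R r0 : ℕ) (γ ψ : ℕ → ℕ → ℕ → ℝ) :
    VcLab q (vcOp p R r0 γ ψ w) := by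
  intro i hi x v
  have h0 : i.1 ≠ 0 := by omega
  have h1 : i.1 ≠ 1 := by omega
  have hl : vcLev R (Function.update x i v) 0 1 = vcLev R x 0 1 :=
    vc_opk_lev_congr (fun j => Function.update_of_ne (fun e => h0 (by rw [← e])) _ _)
      (fun j => Function.update_of_ne (fun e => h1 (by rw [← e])) _ _)
  have hrow : ∀ t, VcInd i (vcRow p R t w) := by
    intro t
    refine VcInd.S ?_ p R 1 0
    intro z u
    show vcSh R t (Function.update z i u) * w (Function.update z i u) = vcSh R t z * w z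
    rw [h i hi z u]
    congr 1
    unfold vcSh
    rw [vc_opk_lev_congr (x := z) (fun j => Function.update_of_ne (fun e => h0 (by rw [← e])) _ _)
      (fun j => Function.update_of_ne (fun e => h1 (by rw [← e])) _ _)]
  unfold vcOp
  rw [hl]
  congr 1
  · refine Finset.sum_congr rfl fun j _ => Finset.sum_congr rfl fun j' _ => ?_
    rw [((h i hi).S p R 1 j').S p R 0 j x v]
  · refine Finset.sum_congr rfl fun t _ => Finset.sum_congr rfl fun k _ => ?_
    rw [(hrow t).S p R 0 k x v, vc_opk_sw_update x h0 h1 v, (hrow t).S p R 0 k (vcSw x) v]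

/-- **the symmetric kernel (W) in the vocabulary of the head**: the cavity operator `∑_c ∑_d (1/2) κ 1_{ret} w_cd` is `vcOp γ ψ` -/
theorem vc_opk_kop_W {R : ℕ} {w : VcX → ℝ} (hw : VcA R w) (hsym : ∀ x, w (vcSw x) = w x) {q : ℕ} (hq : 2 ≤ q) (hlab : VcLab q w)
    (p : ℕ → ℝ) (r0 : ℕ) (γ ψ : ℕ → ℕ → ℕ → ℝ) {κ : VcX → ℝ}
    (hκ : ∀ y, vcLev R y 0 1 ≤ R → vcLev R y q (q + 1) ≤ R → κ y = vcKerW R γ ψ q (q + 1) y)
    (x : VcX) (hx : vcLev R x 0 1 ∈ Icc r0 R) :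
    vcKop p R q (fun y => (1 / 2) * κ y * (if vcLev R y q (q + 1) ∈ Icc r0 R then 1 else 0)) w x = vcOp p R r0 γ ψ w x := by
  have hwc : VcIndL q w := hlab.indL le_rfl
  have hwd : VcIndL (q + 1) w := hlab.indL (Nat.le_succ q)
  rw [← vc_opk_of_eq γ ψ hκ hw hsym hq (by omega : 2 ≤ q + 1) (by omega : q ≠ q + 1) hwc hwd x hx]
  refine vc_opk_DS_congr p R q (q + 1) x fun y _ => ?_
  rw [vc_opk_sub_put hw hq (by omega : 2 ≤ q + 1) (by omega : q ≠ q + 1) hwc hwd]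

/-! ## unit (E2): THE OPERATORS `vcOp` ON SHEET FUNCTIONS = formula (H2) at `k = 0`      (prefix `vc_ops_`)

For an input which depends on the sheet only, `w = f ∘ lev(0,1)`:
      `vcOp p R r0 γ ψ w = ĝ(r, r+1, r+1) f_r - ∑_{t ∈ [r0,R]} ψ̂(r,t,0) μ_t^0 f_t`,      `μ_t^0 = 2 (p_(t+1) - p_t)`          (`vc_ops_sheet`).
With `γ = dG`, `ψ = dP` of the cavity kernel this is LL (H2) at `k = 0`   ((E2) of `L05_design_84.md`; user: `Exit/PairLong`).
MASSES: only `p k ≠ 0` for `1 ≤ k ≤ R+1` and `p (R+1) = 1` are used: the incoming mass `p 0` is ARBITRARY (`0` allowed). -/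

theorem vc_ops_out_const {p : ℕ → ℝ} {R : ℕ} (hp : ∀ k, 1 ≤ k → k ≤ R + 1 → p k ≠ 0) (htop : p (R + 1) = 1) (a : ℕ) (c : ℝ) (n : ℕ) :
    ∀ j, j + n = R + 1 → vcOut (vcRho p) a j n (fun _ => c) = fun _ => p j * c := by
  induction n with
  | zero =>
    intro j hj
    funext x
    have : j = R + 1 := by omega
    show c = p j * c
    rw [this, htop, one_mul]
  | succ n ih =>
    intro j hj
    show vcU (vcRho p) (a, j) (vcOut (vcRho p) a (j + 1) n fun _ => c) = _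
    rw [ih (j + 1) (by omega)]
    funext x
    show vcI (vcRho p j) (fun _ => p (j + 1) * c) = p j * c
    rw [vc_I_const]
    have := hp (j + 1) (by omega) (by omega)
    unfold vcRho
    field_simp

/-- a block has mass `p j` -/
theorem vc_ops_S_const {p : ℕ → ℝ} {R : ℕ} (hp : ∀ k, 1 ≤ k → k ≤ R + 1 → p k ≠ 0) (htop : p (R + 1) = 1) (a : ℕ) {j : ℕ}
    (hj : j ≤ R + 1) (c : ℝ) : vcS p R a j (fun _ => c) = fun _ => p j * c :=
  vc_ops_out_const hp htop a c _ j (by omega)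

/-- the sheet `t` of a row has mass `p t - p (t+1)` -/
theorem vc_ops_row_const {p : ℕ → ℝ} {R : ℕ} (hp : ∀ k, 1 ≤ k → k ≤ R + 1 → p k ≠ 0) (htop : p (R + 1) = 1) {t : ℕ} (ht : t ≤ R) (c : ℝ) :
    vcRow p R t (fun _ => c) = fun _ => (p t - p (t + 1)) * c := by
  rw [vc_arr_row_eq (VcA.const R c) ht, vc_ops_S_const hp htop 1 (by omega : t ≤ R + 1), vc_ops_S_const hp htop 1 (by omega : t + 1 ≤ R + 1)]
  funext x
  ring

theorem vc_ops_row_lev {p : ℕ → ℝ} {R : ℕ} (hp : ∀ k, 1 ≤ k → k ≤ R + 1 → p k ≠ 0) (htop : p (R + 1) = 1) {t : ℕ} (ht : t ≤ R)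
    (f : ℕ → ℝ) : vcRow p R t (fun y => f (vcLev R y 0 1)) = fun _ => (p t - p (t + 1)) * f t := by
  rw [← vc_ops_row_const hp htop ht (f t)]
  unfold vcRow
  congr 1
  funext y
  unfold vcSh
  by_cases h : vcLev R y 0 1 = t
  · show _ * f (vcLev R y 0 1) = _ * f t
    rw [h]
  · rw [if_neg h, zero_mul, zero_mul]

theorem vc_ops_SS_lev {p : ℕ → ℝ} {R : ℕ} (hp : ∀ k, 1 ≤ k → k ≤ R + 1 → p k ≠ 0) (htop : p (R + 1) = 1) (f : ℕ → ℝ) (x : VcX)
    {j j' : ℕ} (hj : vcLev R x 0 1 < j) (hj' : vcLev R x 0 1 < j') (hjR : j ≤ R + 1) (hjR' : j' ≤ R + 1) :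
    vcS p R 0 j (vcS p R 1 j' fun y => f (vcLev R y 0 1)) x = p j * p j' * f (vcLev R x 0 1) := by
  set r := vcLev R x 0 1 with hr
  have hw : VcA R (fun y => f (vcLev R y 0 1)) := vc_A_lev R 0 1 f
  have hc : VcA R (fun _ : VcX => f r) := VcA.const R (f r)
  have e1 : ∀ y, vcLev R y 0 1 = r → vcS p R 1 j' (fun y => f (vcLev R y 0 1)) y = vcS p R 1 j' (fun _ => f r) y := fun y hy =>
    vc_S_congr_sheet hw hc p 1 hj' (fun z hz => by show f _ = f r; rw [hz]) y hy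
  rw [vc_S_congr_sheet (hw.S p 1 j') (hc.S p 1 j') p 0 hj e1 x hr.symm, vc_ops_S_const hp htop 1 hjR', vc_ops_S_const hp htop 0 hjR]
  ring

/-- **(E2)**: the operator on sheet functions -/
theorem vc_ops_sheet {p : ℕ → ℝ} {R : ℕ} (hp : ∀ k, 1 ≤ k → k ≤ R + 1 → p k ≠ 0) (htop : p (R + 1) = 1) (r0 : ℕ)
    (γ ψ : ℕ → ℕ → ℕ → ℝ) (f : ℕ → ℝ) (x : VcX) :
    vcOp p R r0 γ ψ (fun y => f (vcLev R y 0 1)) x
      = vcHatG p R γ (vcLev R x 0 1) (vcLev R x 0 1 + 1) (vcLev R x 0 1 + 1) * f (vcLev R x 0 1)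
        - ∑ t ∈ Icc r0 R, vcHatP p R ψ (vcLev R x 0 1) t 0 * vcMu p 0 t * f t := by
  set r := vcLev R x 0 1 with hr
  unfold vcOp vcHatG vcHatP
  rw [← hr, sub_eq_add_neg, ← Finset.sum_neg_distrib]
  have hI : Icc (r + 1) (R + 1) = Ioc r (R + 1) := by
    ext j
    simp only [Finset.mem_Icc, Finset.mem_Ioc]
    omega
  have hI0 : Icc 0 (R + 1) = range (R + 2) := by
    ext j
    simp only [Finset.mem_Icc, Finset.mem_range]
    omega
  rw [hI, hI0]
  congr 1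
  · rw [Finset.sum_mul]
    refine Finset.sum_congr rfl fun j hj => ?_
    rw [Finset.sum_mul]
    refine Finset.sum_congr rfl fun j' hj' => ?_
    rw [vc_ops_SS_lev hp htop f x (Finset.mem_Ioc.1 hj).1 (Finset.mem_Ioc.1 hj').1 (Finset.mem_Ioc.1 hj).2 (Finset.mem_Ioc.1 hj').2]
    ring
  · refine Finset.sum_congr rfl fun t ht => ?_
    rw [Finset.sum_mul, Finset.sum_mul, ← Finset.sum_neg_distrib]
    refine Finset.sum_congr rfl fun k hk => ?_
    rw [vc_ops_row_lev hp htop (Finset.mem_Icc.1 ht).2 f,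
      vc_ops_S_const hp htop 0 (by have := Finset.mem_range.1 hk; omega : k ≤ R + 1)]
    unfold vcMu
    rw [if_pos (Nat.zero_le _), if_pos (Nat.zero_le _)]
    ring

end Claimed.Agent.R286
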