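import Claimed.Agent.R286.Inv.ScT

/-!
# Row 286 (S0533), LL Section 5 (pair inverse), unit SCB, part 1b: ADJACENT ROWS OF `BET`, MASS-FREE  (P5')      (owner helper13; prefix `icp_`)

TEX[LL:inv:sector-response] (Lipschitz bounds of the row kernels in the evaluation time), in the form of `origin/helper177:notes/R286/L04_IFACE_177.md` sec. 2:
   **(P5')**   `|BET_(k,t)(i) - BET_(k-1,t)(i)| ≤ β dK_k`   for `1 ≤ k ≤ N`, `t ≤ N`, ALL levels `i`   (no masses: the tables are frozen when the weights are perturbed).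
EXITS: `icp_Bet_adj` (explicit: `14 a² v (2 + 2 a² v)`, any terminal mass), `ic_Bet_adj` (`∃ C`, `a ≤ 1`, shape of `IcScb`).
PROOF.  `n = k - 1`, `Cov_n` = covariance over the stage `n`.  In each of the 6 regimes the difference is a combination with coefficients `≤ 1` of the ATOMS
 (α) `q_(n+1) - q_n = E Var_n(m_(n+1))`;      (δ) `A(i; n+1, t) - A(i; n, t) = E[v · E_i mh_t²]`, `i ≤ n`;      (ζ) `Cat(t, j, n+1) - Cat(t, j, n) = E[m_t m_j v]`, `j ≤ n`;
 (γ) `Cat(n+1, j, i) - Cat(n, j, i) = E Cov_n(m_(n+1), G)`, `G = E_(n+1)[m_j E_j mh_i²]`, `n < j`;      (θ) `Cat(t, n+1, i) - Cat(t, n, i) = E[m_t Cov_n(m_(n+1), E_(n+1) mh_i²)]`, `t ≤ n < i`.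
 `v = E.[mh_(n+1)² - mh_n²] ∈ [0, a² q]` (`ict_Dl_le`);  covariances: (T3) `ict_cov_le` with the EXPLICIT Lipschitz constants of (T4) `ict_E_grad`: `m : a`, `E_j mh_i² : 4a`, `G : 7a`.
-/

set_option autoImplicit false

namespace Claimed.Agent.R286

open Finset

/-! ## 1. the function `G` -/

/-- `G_k = E_k[m_j E_j mh_i²]` -/
noncomputable def icpG (a : ℝ) (π : List (ℝ × ℝ)) (k j i : ℕ) : ℝ → ℝ := icE a π k j fun y => icM a π j y * icQ a π j i y

theorem icp_eqns_cite : True := by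
  have := @icpG.eq_1
  trivial

theorem icp_MQ_Bd (a : ℝ) (π : List (ℝ × ℝ)) (j i n : ℕ) : ScBd n (fun y => icM a π j y * icQ a π j i y) :=
  (ic_M_Bd a π j n).mul (ic_Q_Bd a π j i n)

theorem icp_G_Bd (a : ℝ) (π : List (ℝ × ℝ)) (k j i n : ℕ) : ScBd n (icpG a π k j i) := ic_E_Bd a π k j (icp_MQ_Bd a π j i n)

theorem icp_Q_abs {a : ℝ} (ha : a ≠ 0) (π : List (ℝ × ℝ)) (j i : ℕ) (y : ℝ) : |icQ a π j i y| ≤ 1 := by
  rw [abs_of_nonneg (ic_Q_nonneg a π j i y)]
  exact ic_Q_le_one ha π j i y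

theorem icp_MQ_abs {a : ℝ} (ha : a ≠ 0) (π : List (ℝ × ℝ)) (j i : ℕ) (y : ℝ) : |icM a π j y * icQ a π j i y| ≤ 1 := by
  rw [abs_mul]
  calc |icM a π j y| * |icQ a π j i y| ≤ 1 * 1 :=
        mul_le_mul (ic_M_abs_le ha π j y) (icp_Q_abs ha π j i y) (abs_nonneg _) zero_le_one
    _ = 1 := one_mul 1

theorem icp_G_abs {a : ℝ} (ha : a ≠ 0) (π : List (ℝ × ℝ)) (k j i : ℕ) (z : ℝ) : |icpG a π k j i z| ≤ 1 :=
  ic_E_abs_le a π k j (icp_MQ_Bd a π j i 0).2 (icp_MQ_abs ha π j i) z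

theorem icp_Q_deriv_le {a : ℝ} {π : List (ℝ × ℝ)} (h : IcAdm a π) (j i : ℕ) (z : ℝ) : |deriv (icQ a π j i) z| ≤ 4 * a := by
  have := ict_E_grad h j i (ic_S_Bd a π i 1) (M := 1) (M' := 2 * a) (fun z => by
    rw [abs_of_nonneg (ic_S_nonneg a π i z)]; exact ic_S_le_one h.pos.ne' π i z) (ict_S_deriv_le h i) z
  unfold icQ
  linarith

theorem icp_MQ_deriv_le {a : ℝ} {π : List (ℝ × ℝ)} (h : IcAdm a π) (j i : ℕ) (z : ℝ) :
    |deriv (fun y => icM a π j y * icQ a π j i y) z| ≤ 5 * a := by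
  have hd1 : HasDerivAt (icM a π j) (icX a π j z) z := ((ic_M_Bd a π j 1).2.1 z).hasDerivAt
  have hd2 : HasDerivAt (icQ a π j i) (deriv (icQ a π j i) z) z := ((ic_Q_Bd a π j i 1).2.1 z).hasDerivAt
  rw [(hd1.fun_mul hd2).deriv]
  have x0 := ict_X_pos h j z
  have x1 := ict_X_le h j z
  have b1 : |icX a π j z * icQ a π j i z| ≤ a * 1 := by
    rw [abs_mul, abs_of_pos x0]
    exact mul_le_mul x1 (icp_Q_abs h.pos.ne' π j i z) (abs_nonneg _) h.pos.le
  have b2 : |icM a π j z * deriv (icQ a π j i) z| ≤ 1 * (4 * a) := by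
    rw [abs_mul]
    exact mul_le_mul (ic_M_abs_le h.pos.ne' π j z) (icp_Q_deriv_le h j i z) (abs_nonneg _) zero_le_one
  calc _ ≤ |icX a π j z * icQ a π j i z| + |icM a π j z * deriv (icQ a π j i) z| := abs_add_le _ _
    _ ≤ a * 1 + 1 * (4 * a) := add_le_add b1 b2
    _ = 5 * a := by ring

/-- **(T4), explicit**: `G` is `7a`-Lipschitz -/
theorem icp_G_lip {a : ℝ} {π : List (ℝ × ℝ)} (h : IcAdm a π) (k j i : ℕ) (x y : ℝ) :
    |icpG a π k j i x - icpG a π k j i y| ≤ 7 * a * |x - y| := by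
  refine ict_lip_of_deriv (icp_G_Bd a π k j i 1).2.1 (fun z => ?_) x y
  have := ict_E_grad h k j (icp_MQ_Bd a π j i 1) (M := 1) (M' := 5 * a) (icp_MQ_abs h.pos.ne' π j i) (icp_MQ_deriv_le h j i) z
  unfold icpG
  linarith

/-! ## 2. the atoms -/

theorem icp_B_nonneg {a : ℝ} {π : List (ℝ × ℝ)} (h : IcAdm a π) (n : ℕ) : 0 ≤ a * a * ictq a π n :=
  mul_nonneg (mul_nonneg h.pos.le h.pos.le) (ict_q_nonneg h n)

theorem icp_q_mem {a : ℝ} (ha : a ≠ 0) (π : List (ℝ × ℝ)) (t : ℕ) : 0 ≤ icq a π t ∧ icq a π t ≤ 1 :=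
  ⟨ic_Q_nonneg a π 0 t 0, ic_Q_le_one ha π 0 t 0⟩

/-- (α) -/
theorem icp_q_diff {a : ℝ} {π : List (ℝ × ℝ)} (h : IcAdm a π) {n : ℕ} (hn : n < π.length) :
    0 ≤ icq a π (n + 1) - icq a π n ∧ icq a π (n + 1) - icq a π n ≤ a * a * ictq a π n := by
  have e : icq a π (n + 1) - icq a π n = icDl a π 0 (n + 1) 0 := by
    unfold icDl
    rw [Nat.add_sub_cancel]
    rfl
  rw [e]
  exact ⟨ict_Dl_nonneg h.pos.ne' π (Nat.succ_pos n) 0, ict_Dl_le h (Nat.zero_le n) hn 0⟩

theorem icp_Dl_abs {a : ℝ} {π : List (ℝ × ℝ)} (h : IcAdm a π) {r n : ℕ} (hr : r ≤ n) (hn : n < π.length) (z : ℝ) :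
    |icDl a π r (n + 1) z| ≤ a * a * ictq a π n := by
  rw [abs_of_nonneg (ict_Dl_nonneg h.pos.ne' π (by omega) z)]
  exact ict_Dl_le h hr hn z

theorem icp_A_symm (a : ℝ) (π : List (ℝ × ℝ)) (j r t : ℕ) : icA a π j r t = icA a π j t r := by
  unfold icA
  congr 1
  funext z
  ring

/-- (δ) -/
theorem icp_A_diff {a : ℝ} {π : List (ℝ × ℝ)} (h : IcAdm a π) {n i : ℕ} (hn : n < π.length) (hi : i ≤ n) (t : ℕ) :
    |icA a π i (n + 1) t - icA a π i n t| ≤ a * a * ictq a π n := by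
  unfold icA
  have h1 : ∀ r, ScBd 0 (fun z => icQ a π i r z * icQ a π i t z) := fun r => (ic_Q_Bd a π i r 0).mul (ic_Q_Bd a π i t 0)
  rw [← ict_Ex_sub a π i (h1 _).scE (h1 _).scE]
  refine ict_Ex_abs_le a π i ((h1 _).sub (h1 _)).2 fun z => ?_
  have e : icQ a π i (n + 1) z * icQ a π i t z - icQ a π i n z * icQ a π i t z = icDl a π i (n + 1) z * icQ a π i t z := by
    unfold icDl
    rw [Nat.add_sub_cancel]
    ring
  rw [e, abs_mul]
  calc |icDl a π i (n + 1) z| * |icQ a π i t z| ≤ (a * a * ictq a π n) * 1 :=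
        mul_le_mul (icp_Dl_abs h hi hn z) (icp_Q_abs h.pos.ne' π i t z) (abs_nonneg _) (icp_B_nonneg h n)
    _ = _ := mul_one _

/-- (ζ) -/
theorem icp_Cat_last {a : ℝ} {π : List (ℝ × ℝ)} (h : IcAdm a π) {n j : ℕ} (hn : n < π.length) (hj : j ≤ n) (t : ℕ) :
    |icCat a π t j (n + 1) - icCat a π t j n| ≤ a * a * ictq a π n := by
  unfold icCat
  have h1 : ∀ r, ScBd 0 (fun z => icM a π t z * icE a π t j (fun y => icM a π j y * icQ a π j r y) z) := fun r =>
    (ic_M_Bd a π t 0).mul (icp_G_Bd a π t j r 0)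
  rw [← ict_Ex_sub a π t (h1 _).scE (h1 _).scE]
  refine ict_Ex_abs_le a π t ((h1 _).sub (h1 _)).2 fun z => ?_
  have e : icE a π t j (fun y => icM a π j y * icQ a π j (n + 1) y) z - icE a π t j (fun y => icM a π j y * icQ a π j n y) z
      = icE a π t j (fun y => icM a π j y * icDl a π j (n + 1) y) z := by
    have := congrFun (ic_E_sub a π t j (icp_MQ_Bd a π j (n + 1) 0).scE (icp_MQ_Bd a π j n 0).scE) z
    rw [← this]
    congr 1
    funext y
    unfold icDl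
    rw [Nat.add_sub_cancel]
    ring
  have hb : |icE a π t j (fun y => icM a π j y * icDl a π j (n + 1) y) z| ≤ a * a * ictq a π n := by
    refine ic_E_abs_le a π t j ((ic_M_Bd a π j 0).mul (ict_Dl_Bd a π j (n + 1) 0)).2 (fun y => ?_) z
    rw [abs_mul]
    calc |icM a π j y| * |icDl a π j (n + 1) y| ≤ 1 * (a * a * ictq a π n) :=
          mul_le_mul (ic_M_abs_le h.pos.ne' π j y) (icp_Dl_abs h hj hn y) (abs_nonneg _) zero_le_one
      _ = _ := one_mul _
  rw [← mul_sub, e, abs_mul]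
  calc |icM a π t z| * _ ≤ 1 * (a * a * ictq a π n) :=
        mul_le_mul (ic_M_abs_le h.pos.ne' π t z) hb (abs_nonneg _) zero_le_one
    _ = _ := one_mul _

/-- (γ) -/
theorem icp_Cat_first {a : ℝ} {π : List (ℝ × ℝ)} (h : IcAdm a π) {n j : ℕ} (hn : n < π.length) (hj : n + 1 ≤ j) (i : ℕ) :
    |icCat a π (n + 1) j i - icCat a π n j i| ≤ 7 * (a * a * ictq a π n) := by
  have hM := ic_M_Bd a π (n + 1) 0
  have hG := icp_G_Bd a π (n + 1) j i 0
  have e1 : icCat a π (n + 1) j i = icEx a π n (icT a π n (fun z => icM a π (n + 1) z * icpG a π (n + 1) j i z)) :=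
    ict_Ex_succ a hn _
  have e2 : icCat a π n j i = icEx a π n (fun z => icT a π n (icM a π (n + 1)) z * icT a π n (icpG a π (n + 1) j i) z) := by
    rw [ic_M_step a hn]
    unfold icCat icpG
    rw [← ic_E_succ a (by omega : n < j) hn]
  rw [e1, e2, ← ict_Ex_sub a π n (ic_T_Bd a π n (hM.mul hG)).scE ((ic_T_Bd a π n hM).mul (ic_T_Bd a π n hG)).scE]
  refine ict_Ex_abs_le a π n ((ic_T_Bd a π n (hM.mul hG)).sub ((ic_T_Bd a π n hM).mul (ic_T_Bd a π n hG))).2 fun z => ?_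
  have h7 : 0 ≤ 7 * a := by have := h.pos; positivity
  have := ict_cov_le h n hM.scE hG.scE h.pos.le h7 (ict_M_lip h (n + 1)) (icp_G_lip h (n + 1) j i) z
  unfold icCov at this
  refine this.trans (le_of_eq ?_)
  unfold ictq
  ring

/-- (θ) -/
theorem icp_Cat_mid {a : ℝ} {π : List (ℝ × ℝ)} (h : IcAdm a π) {n t i : ℕ} (hn : n < π.length) (ht : t ≤ n) (hi : n + 1 ≤ i) :
    |icCat a π t (n + 1) i - icCat a π t n i| ≤ 4 * (a * a * ictq a π n) := by
  unfold icCat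
  have h1 : ∀ r, ScBd 0 (fun z => icM a π t z * icE a π t r (fun y => icM a π r y * icQ a π r i y) z) := fun r =>
    (ic_M_Bd a π t 0).mul (icp_G_Bd a π t r i 0)
  rw [← ict_Ex_sub a π t (h1 _).scE (h1 _).scE]
  refine ict_Ex_abs_le a π t ((h1 _).sub (h1 _)).2 fun z => ?_
  have e := ic_E_cov a ht hn (ic_M_Bd a π (n + 1) 0) (ic_Q_Bd a π (n + 1) i 0) z
  rw [ic_M_step a hn, ic_Q_step a hn (by omega)] at e
  have h4 : 0 ≤ 4 * a := by have := h.pos; positivity
  have hb : |icE a π t n (icCov a π n (icM a π (n + 1)) (icQ a π (n + 1) i)) z| ≤ 4 * (a * a * ictq a π n) := by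
    refine ic_E_abs_le a π t n (ic_cov_Bd a π n (ic_M_Bd a π (n + 1) 0) (ic_Q_Bd a π (n + 1) i 0)).2 (fun y => ?_) z
    refine (ict_cov_le h n (ic_M_Bd a π (n + 1) 0).scE (ic_Q_Bd a π (n + 1) i 0).scE h.pos.le h4 (ict_M_lip h (n + 1))
      (ict_Q_lip h (n + 1) i) y).trans (le_of_eq ?_)
    unfold ictq
    ring
  rw [← mul_sub, e, abs_mul]
  calc |icM a π t z| * _ ≤ 1 * (4 * (a * a * ictq a π n)) :=
        mul_le_mul (ic_M_abs_le h.pos.ne' π t z) hb (abs_nonneg _) zero_le_one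
    _ = _ := one_mul _

/-! ## 3. the three regimes of `BET` on closed ranges -/

theorem icp_Cat_rr (a : ℝ) {π : List (ℝ × ℝ)} {r : ℕ} (hr : r ≤ π.length) (t : ℕ) : icCat a π r r t = icA a π r r t := by
  unfold icCat icA
  rw [ic_E_self, ic_Q_self, ic_S_of_le a hr]
  congr 1
  funext z
  ring

theorem icp_Bet0_low (a : ℝ) (π : List (ℝ × ℝ)) {r t j : ℕ} (hj : j ≤ r) :
    icBet0 a π r t j = (icA a π j r t - icq a π r * icq a π t) / 4 := by
  unfold icBet0
  rw [if_pos hj]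

theorem icp_Bet0_mid (a : ℝ) {π : List (ℝ × ℝ)} {r t j : ℕ} (hr : r ≤ π.length) (hrj : r ≤ j) (hjt : j ≤ t) :
    icBet0 a π r t j = (icCat a π r r t - icq a π r * icq a π t) / 4 + (icCat a π r j t - icCat a π r r t) / 2 := by
  unfold icBet0
  rcases Nat.lt_or_ge r j with h | h
  · rw [if_neg (by omega), if_pos hjt]
  · have : j = r := le_antisymm h hrj
    subst this
    rw [if_pos le_rfl, icp_Cat_rr a hr]
    ring

theorem icp_Bet0_high (a : ℝ) {π : List (ℝ × ℝ)} {r t j : ℕ} (hr : r ≤ π.length) (hrt : r ≤ t) (htj : t ≤ j) :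
    icBet0 a π r t j = (icCat a π r r t - icq a π r * icq a π t) / 4 + (icCat a π r t t - icCat a π r r t) / 2
      + (icCat a π r t j - icCat a π r t t) := by
  rcases Nat.lt_or_ge t j with h | h
  · unfold icBet0
    rw [if_neg (by omega), if_neg (by omega)]
  · have : j = t := le_antisymm h htj
    subst this
    rw [icp_Bet0_mid a hr hrt le_rfl]
    ring

/-! ## 4. (P5') -/

/-- **(P5'), explicit, any terminal mass, all levels** -/
theorem icp_Bet_adj {a : ℝ} {π : List (ℝ × ℝ)} (h : IcAdm a π) {n t : ℕ} (hn : n < π.length) (ht : t ≤ π.length) (i : ℕ) :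
    |icBet a π (n + 1) t i - icBet a π n t i| ≤ 14 * (a * a * ictq a π n) := by
  set B := a * a * ictq a π n with hB
  have hB0 : 0 ≤ B := icp_B_nonneg h n
  obtain ⟨q0, q1⟩ := icp_q_mem h.pos.ne' π t
  obtain ⟨d0, d1⟩ := icp_q_diff h hn
  -- the product `(q_(n+1) - q_n) q_t`
  have y0 : 0 ≤ (icq a π (n + 1) - icq a π n) * icq a π t := mul_nonneg d0 q0
  have y1 : (icq a π (n + 1) - icq a π n) * icq a π t ≤ B := by nlinarith
  unfold icBet
  rcases Nat.lt_or_ge n t with hnt | hnt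
  · -- `n + 1 ≤ t`
    rw [min_eq_left (by omega : n + 1 ≤ t), max_eq_right (by omega : n + 1 ≤ t), min_eq_left hnt.le, max_eq_right hnt.le]
    have g1 := abs_le.1 (icp_Cat_first h hn (le_refl (n + 1)) t)
    have t1 := abs_le.1 (icp_Cat_mid h hn (le_refl n) (by omega : n + 1 ≤ t))
    rcases Nat.lt_or_ge n i with hi | hi
    · rcases Nat.lt_or_ge t i with hti | hti
      · -- high / high
        rw [icp_Bet0_high a (by omega) (by omega : n + 1 ≤ t) hti.le, icp_Bet0_high a hn.le hnt.le hti.le]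
        have g2 := abs_le.1 (icp_Cat_first h hn (by omega : n + 1 ≤ t) t)
        have g3 := abs_le.1 (icp_Cat_first h hn (by omega : n + 1 ≤ t) i)
        rw [abs_le]
        constructor <;> nlinarith [g1.1, g1.2, t1.1, t1.2, g2.1, g2.2, g3.1, g3.2]
      · -- mid / mid
        rw [icp_Bet0_mid a (by omega) (by omega : n + 1 ≤ i) hti, icp_Bet0_mid a hn.le hi.le hti]
        have g2 := abs_le.1 (icp_Cat_first h hn (by omega : n + 1 ≤ i) t)
        rw [abs_le]
        constructor <;> nlinarith [g1.1, g1.2, t1.1, t1.2, g2.1, g2.2]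
    · -- low / low
      rw [icp_Bet0_low a π (by omega : i ≤ n + 1), icp_Bet0_low a π hi]
      have a1 := abs_le.1 (icp_A_diff h hn hi t)
      rw [abs_le]
      constructor <;> nlinarith [a1.1, a1.2]
  · -- `t ≤ n`
    rw [min_eq_right (by omega : t ≤ n + 1), max_eq_left (by omega : t ≤ n + 1), min_eq_right hnt, max_eq_left hnt]
    have z1 := abs_le.1 (icp_Cat_last h hn hnt t)
    rcases Nat.lt_or_ge n i with hi | hi
    · -- high / high
      rw [icp_Bet0_high a ht (by omega : t ≤ n + 1) (by omega : n + 1 ≤ i), icp_Bet0_high a ht hnt hi.le]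
      have t1 := abs_le.1 (icp_Cat_mid h hn hnt (le_refl (n + 1)))
      have z2 := abs_le.1 (icp_Cat_last h hn (le_refl n) t)
      have t2 := abs_le.1 (icp_Cat_mid h hn hnt (by omega : n + 1 ≤ i))
      rw [abs_le]
      constructor <;> nlinarith [z1.1, z1.2, t1.1, t1.2, z2.1, z2.2, t2.1, t2.2]
    · rcases Nat.lt_or_ge t i with hti | hti
      · -- mid / mid
        rw [icp_Bet0_mid a ht hti.le (by omega : i ≤ n + 1), icp_Bet0_mid a ht hti.le hi]
        have z2 := abs_le.1 (icp_Cat_last h hn hi t)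
        rw [abs_le]
        constructor <;> nlinarith [z1.1, z1.2, z2.1, z2.2]
      · -- low / low
        rw [icp_Bet0_low a π hti, icp_Bet0_low a π hti, icp_A_symm a π i t (n + 1), icp_A_symm a π i t n]
        have a1 := abs_le.1 (icp_A_diff h hn (by omega : i ≤ n) t)
        rw [abs_le]
        constructor <;> nlinarith [a1.1, a1.2]

/-- **(P5')** adjacent rows of `BET`, all levels, no masses -/
theorem ic_Bet_adj : ∃ C : ℝ, 1 ≤ C ∧ ∀ (a : ℝ) (π : List (ℝ × ℝ)), IcAdm a π → a ≤ 1 → ∀ k t i : ℕ, 1 ≤ k → k ≤ π.length →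
    t ≤ π.length → |icBet a π k t i - icBet a π (k - 1) t i| ≤ C * (1 + icK π π.length) * icRho π k := by
  refine ⟨28, by norm_num, fun a π h ha1 k t i hk1 hkN ht => ?_⟩
  obtain ⟨n, rfl⟩ : ∃ n, k = n + 1 := ⟨k - 1, by omega⟩
  rw [Nat.add_sub_cancel]
  have hn : n < π.length := by omega
  have h1 := icp_Bet_adj h hn ht i
  have h2 := ict_q_le h ha1 hn
  have hq := ict_q_nonneg h n
  have h3 : a * a ≤ 1 := by nlinarith [h.pos]
  calc |icBet a π (n + 1) t i - icBet a π n t i| ≤ 14 * (a * a * ictq a π n) := h1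
    _ ≤ 14 * (1 * ictq a π n) := by
        exact mul_le_mul_of_nonneg_left (mul_le_mul_of_nonneg_right h3 hq) (by norm_num)
    _ ≤ 14 * (1 * (2 * (1 + icK π π.length) * icRho π (n + 1))) := by
        exact mul_le_mul_of_nonneg_left (mul_le_mul_of_nonneg_left h2 zero_le_one) (by norm_num)
    _ = 28 * (1 + icK π π.length) * icRho π (n + 1) := by ring

end Claimed.Agent.R286
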