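import Claimed.Agent.R286.Inv.ScT
import Claimed.Agent.R286.Inv.ScP

/-!
# Row 286 (S0533), LL Section 5 (pair inverse), unit SCB, part 2: THE ROW KERNEL (P1)-(P5), (E3), (E4) and the EXIT      (owner helper51; prefix `ic`)

TEX[LL:inv:sector-response] (positivity of `B^k`, weighted differences, Lipschitz bounds in the evaluation time, `|B^0_rt| ≲ K_min`), in the DISCRETE form of
`origin/helper84:notes/R286/L05_design_84.md` (SCB) = sec. 4 of `origin/helper177:notes/R286/L04_PLAN_177.md`.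
Vocabulary: `Inv/ScChain.lean` (helper19), `Inv/ScT.lean`.   `N = π.length`, `bk^k_rt = icBk a π k r t`, `B^k_rt = icBB a π k r t`, `c_r(i,l) = icC a π r i l`, `g_r^{il} = icG a π r i l`.
DICTIONARY with `Inv/Arr.lean`: `dP r t s = icBk a π s r t`, `dG = icC a π`, `vcHatP (icP a π) N dP r t k = icBB a π k r t`, `vcHatG (icP a π) N dG = icG a π`, `vcHatK .. k r = icGk a π k r`.
EXIT: `ic_scb : ∃ β0, ∀ a π, IcAdm a π → a ≤ 1 → IcScb (β0 * (1 + K_N) ^ 2) a π`.
-/

set_option autoImplicit false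

namespace Claimed.Agent.R286

open Finset

/-- the package delivered by the scalar side -/
structure IcScb (β a : ℝ) (π : List (ℝ × ℝ)) : Prop where
  /-- (P1) symmetry -/
  P1 : ∀ k r t, icBk a π k r t = icBk a π k t r
  /-- the sheet `0` is decoupled (`m_0 = 0`) -/
  Prow0 : ∀ k t, icBk a π k 0 t = 0
  /-- (P2) every `bk^k` is a covariance matrix -/
  P2 : ∀ k, k ≤ π.length + 1 → ∀ c : ℕ → ℝ,
    0 ≤ ∑ r ∈ range (π.length + 1), ∑ t ∈ range (π.length + 1), c r * c t * icBk a π k r t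
  /-- (P3) -/
  P3 : ∀ k r t, k ≤ π.length → r ≤ π.length → t ≤ π.length → |icBk a π k r t| ≤ β * icRho π k
  P3' : ∀ r t, r ≤ π.length → t ≤ π.length → |icBk a π (π.length + 1) r t| ≤ β
  /-- (P5) adjacent rows of `B^j`, `j ∈ {k, k+1}` -/
  P5 : ∀ k t j, 1 ≤ k → k ≤ π.length → t ≤ π.length → (j = k ∨ j = k + 1) →
    |icBB a π j k t - icBB a π j (k - 1) t| ≤ β * icRho π k
  /-- (P5') MASS FREE: adjacent rows of `BET` (gives (P5) for ANY monotone weights: `ic_BB_adj_w`) -/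
  P5' : ∀ k t i, 1 ≤ k → k ≤ π.length → t ≤ π.length → |icBet a π k t i - icBet a π (k - 1) t i| ≤ β * icRho π k
  /-- (G1) -/
  G1 : ∀ r i l, r ≤ π.length → 0 ≤ icC a π r i l
  G1' : ∀ r i l, icC a π r i l = icC a π r l i
  /-- (G2) -/
  G2 : ∀ r i l, r < i → r < l → i ≤ π.length → l ≤ π.length → icC a π r i l ≤ β * icRho π i * icRho π l
  G2' : ∀ r i, r < i → i ≤ π.length → icC a π r i (π.length + 1) ≤ β * icRho π i
  G2'' : ∀ r, icC a π r (π.length + 1) (π.length + 1) ≤ β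
  /-- (G4) adjacent sheets of the child multiplier seen by the sectors `j ∈ {k, k+1}` -/
  G4 : ∀ k j, 1 ≤ k → k ≤ π.length → (j = k ∨ j = k + 1) → |icGk a π j k - icGk a π j (k - 1)| ≤ β * icRho π k
  /-- (G4') MASS FREE: adjacent sheets of the tails `icTl t i l = ∑_{i' ≥ i, l' ≥ l} c_t(i',l')` -/
  G4' : ∀ j i l, 1 ≤ j → j ≤ π.length → j < i → j < l → |icTl a π j i l - icTl a π (j - 1) i l| ≤ β * icRho π j
  /-- (G5) -/
  G5 : ∀ t, icTl a π t (t + 1) (t + 1) ≤ 1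
  /-- (E1) the top child multiplier is `E χ_r²` (so that (G3) is the gap of the paper) -/
  E1 : ∀ r, r ≤ π.length → icG a π r (r + 1) (r + 1) = icEx a π r fun z => icX a π r z ^ 2
  /-- `0 ≤ g_r^{il} ≤ E χ_r²` -/
  E1' : ∀ r i l, r ≤ π.length → r < i → r < l → 0 ≤ icG a π r i l ∧ icG a π r i l ≤ icG a π r (r + 1) (r + 1)
  /-- (E3) the post kernel gains the earlier time -/
  E3 : ∀ r t, r ≤ π.length → t ≤ π.length → |icBB a π 0 r t| ≤ β * icK π (min r t)
  /-- (E4) -/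
  E4 : ∀ k r t, r ≤ π.length → t ≤ π.length → |icBB a π k r t| ≤ β

/-! ## 1. the kernels seen from an arbitrary depth -/

/-- `E_i[Var_n(mh_(n+1))]` -/
noncomputable def ickV (a : ℝ) (π : List (ℝ × ℝ)) (n i : ℕ) : ℝ → ℝ := icE a π i n (icVn a π n)

/-- `E_i[Cov_n(mh_(n+1), X_t)]`, `X_t = m_t mh_(n+1)` (`t ≤ n`), `E_(n+1)(m_t²)/2` (`t > n`) -/
noncomputable def ickA (a : ℝ) (π : List (ℝ × ℝ)) (n i t : ℕ) : ℝ → ℝ :=
  if t ≤ n then icE a π i t (fun y => icM a π t y * ickV a π n t y)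
  else icE a π i n (icCov a π n (icM a π (n + 1)) (fun y => 2⁻¹ * icQ a π (n + 1) t y))

/-- `E_i[Cov_n(X_r, X_t)]`, `r ≤ t` -/
noncomputable def ickD0 (a : ℝ) (π : List (ℝ × ℝ)) (n i r t : ℕ) : ℝ → ℝ :=
  if r ≤ n then icE a π i r (fun y => icM a π r y * ickA a π n r t y)
  else icE a π i n (icCov a π n (fun y => 2⁻¹ * icQ a π (n + 1) r y) (fun y => 2⁻¹ * icQ a π (n + 1) t y))

/-- `E_i[Cov_n(X_r, X_t)]` -/
noncomputable def ickD (a : ℝ) (π : List (ℝ × ℝ)) (n i r t : ℕ) : ℝ → ℝ := ickD0 a π n i (min r t) (max r t)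

theorem ic_scB_eqns_cite : True := by
  have := @ickV.eq_1
  have := @ickA.eq_1
  have := @ickD0.eq_1
  have := @ickD.eq_1
  trivial

theorem ic_kV_Bd (a : ℝ) (π : List (ℝ × ℝ)) (n i m : ℕ) : ScBd m (ickV a π n i) := ic_E_Bd a π i n (ic_Vn_Bd a π n m)

theorem ic_kA_Bd (a : ℝ) (π : List (ℝ × ℝ)) (n i t m : ℕ) : ScBd m (ickA a π n i t) := by
  unfold ickA
  split_ifs
  · exact ic_E_Bd a π i t ((ic_M_Bd a π t m).mul (ic_kV_Bd a π n t m))
  · exact ic_E_Bd a π i n (ic_cov_Bd a π n (ic_M_Bd a π _ m) ((ic_Q_Bd a π _ _ m).const_mul _))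

theorem ic_kD0_Bd (a : ℝ) (π : List (ℝ × ℝ)) (n i r t m : ℕ) : ScBd m (ickD0 a π n i r t) := by
  unfold ickD0
  split_ifs
  · exact ic_E_Bd a π i r ((ic_M_Bd a π r m).mul (ic_kA_Bd a π n r t m))
  · exact ic_E_Bd a π i n (ic_cov_Bd a π n ((ic_Q_Bd a π _ _ m).const_mul _) ((ic_Q_Bd a π _ _ m).const_mul _))

theorem ic_kD_Bd (a : ℝ) (π : List (ℝ × ℝ)) (n i r t m : ℕ) : ScBd m (ickD a π n i r t) := ic_kD0_Bd a π n i _ _ m

/-! ### recursion in the starting depth -/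

theorem ic_kV_succ (a : ℝ) {π : List (ℝ × ℝ)} {n i : ℕ} (hi : i < n) (hn : n ≤ π.length) :
    ickV a π n i = icT a π i (ickV a π n (i + 1)) :=
  ic_E_succ a hi (lt_of_lt_of_le hi hn) _

theorem ic_kA_self (a : ℝ) (π : List (ℝ × ℝ)) {n i : ℕ} (hi : i ≤ n) :
    ickA a π n i i = fun y => icM a π i y * ickV a π n i y := by
  unfold ickA
  rw [if_pos hi, ic_E_self]

theorem ic_kA_succ (a : ℝ) {π : List (ℝ × ℝ)} {n i t : ℕ} (hi : i < n) (hn : n ≤ π.length) (hit : i < t) :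
    ickA a π n i t = icT a π i (ickA a π n (i + 1) t) := by
  unfold ickA
  split_ifs
  · exact ic_E_succ a hit (lt_of_lt_of_le hi hn) _
  · exact ic_E_succ a hi (lt_of_lt_of_le hi hn) _

theorem ic_kD0_self (a : ℝ) (π : List (ℝ × ℝ)) {n i : ℕ} (hi : i ≤ n) (t : ℕ) :
    ickD0 a π n i i t = fun y => icM a π i y * ickA a π n i t y := by
  unfold ickD0
  rw [if_pos hi, ic_E_self]

theorem ic_kD0_succ (a : ℝ) {π : List (ℝ × ℝ)} {n i r : ℕ} (hi : i < n) (hn : n ≤ π.length) (hir : i < r) (t : ℕ) :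
    ickD0 a π n i r t = icT a π i (ickD0 a π n (i + 1) r t) := by
  unfold ickD0
  split_ifs
  · exact ic_E_succ a hir (lt_of_lt_of_le hi hn) _
  · exact ic_E_succ a hi (lt_of_lt_of_le hi hn) _

/-! ### the increments of `BET` are these kernels -/

theorem ic_Ex_sub (a : ℝ) (π : List (ℝ × ℝ)) (j : ℕ) {φ ψ : ℝ → ℝ} (hφ : ScBd 0 φ) (hψ : ScBd 0 ψ) :
    icEx a π j φ - icEx a π j ψ = icEx a π j (fun z => φ z - ψ z) := by
  unfold icEx
  rw [ic_E_sub a π 0 j hφ.scE hψ.scE]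

theorem ic_Cat_rr (a : ℝ) {π : List (ℝ × ℝ)} {r : ℕ} (hr : r ≤ π.length) (t : ℕ) : icCat a π r r t = icA a π r r t := by
  unfold icCat icA
  rw [ic_E_self, ic_Q_self, ic_S_of_le a hr]
  congr 1
  funext z
  ring

theorem ic_Bet0_mid (a : ℝ) {π : List (ℝ × ℝ)} {r t j : ℕ} (hr : r ≤ π.length) (hrj : r ≤ j) (hjt : j ≤ t) :
    icBet0 a π r t j = (icCat a π r r t - icq a π r * icq a π t) / 4 + (icCat a π r j t - icCat a π r r t) / 2 := by
  unfold icBet0
  rcases Nat.lt_or_ge r j with h | h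
  · rw [if_neg (by omega), if_pos hjt]
  · have : j = r := le_antisymm h hrj
    subst this
    rw [if_pos le_rfl, ic_Cat_rr a hr]
    ring

theorem ic_Bet0_high (a : ℝ) {π : List (ℝ × ℝ)} {r t j : ℕ} (hr : r ≤ π.length) (hrt : r ≤ t) (htj : t ≤ j) :
    icBet0 a π r t j = (icCat a π r r t - icq a π r * icq a π t) / 4 + (icCat a π r t t - icCat a π r r t) / 2
      + (icCat a π r t j - icCat a π r t t) := by
  rcases Nat.lt_or_ge t j with h | h
  · unfold icBet0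
    rw [if_neg (by omega), if_neg (by omega)]
  · have : j = t := le_antisymm h htj
    subst this
    rw [ic_Bet0_mid a hr hrt le_rfl]
    ring

theorem ic_Bet0_diff (a : ℝ) {π : List (ℝ × ℝ)} {r t n : ℕ} (hrt : r ≤ t) (ht : t ≤ π.length) (hn : n ≤ π.length) :
    icBet0 a π r t (n + 1) - icBet0 a π r t n = ickD0 a π n 0 r t 0 := by
  have hr : r ≤ π.length := hrt.trans ht
  rcases Nat.lt_or_ge n r with h1 | h1
  · -- `n + 1 ≤ r`
    have hnN : n < π.length := lt_of_lt_of_le h1 hr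
    have hnt : n < t := lt_of_lt_of_le h1 hrt
    unfold icBet0 ickD0
    rw [if_pos (by omega), if_pos (by omega), if_neg (by omega)]
    have e1 : icCov a π n (fun y => 2⁻¹ * icQ a π (n + 1) r y) (fun y => 2⁻¹ * icQ a π (n + 1) t y)
        = fun z => 4⁻¹ * icCov a π n (icQ a π (n + 1) r) (icQ a π (n + 1) t) z := by
      funext z
      rw [ic_cov_const_mul_left, ic_cov_const_mul_right]
      ring
    rw [e1, ic_E_const_mul]
    beta_reduce
    rw [← ic_E_cov a (Nat.zero_le n) hnN (ic_Q_Bd a π _ _ 0) (ic_Q_Bd a π _ _ 0),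
      ic_Q_step a hnN h1, ic_Q_step a hnN hnt]
    unfold icA icEx
    ring
  · rcases Nat.lt_or_ge n t with h2 | h2
    · -- `r ≤ n < t`
      have hnN : n < π.length := lt_of_lt_of_le h2 ht
      rw [ic_Bet0_mid a hr (by omega) (by omega : n + 1 ≤ t), ic_Bet0_mid a hr h1 h2.le]
      unfold ickD0 ickA
      rw [if_pos h1, if_neg (by omega)]
      have e1 : icCov a π n (icM a π (n + 1)) (fun y => 2⁻¹ * icQ a π (n + 1) t y)
          = fun z => 2⁻¹ * icCov a π n (icM a π (n + 1)) (icQ a π (n + 1) t) z := by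
        funext z
        rw [ic_cov_const_mul_right]
      rw [e1, ic_E_const_mul]
      have e2 : (fun y => icM a π r y * (2⁻¹ * icE a π r n (icCov a π n (icM a π (n + 1)) (icQ a π (n + 1) t)) y))
          = fun y => 2⁻¹ * (icM a π r y * icE a π r (n + 1) (fun y => icM a π (n + 1) y * icQ a π (n + 1) t y) y
              - icM a π r y * icE a π r n (fun y => icM a π n y * icQ a π n t y) y) := by
        funext y
        rw [← ic_E_cov a h1 hnN (ic_M_Bd a π _ 0) (ic_Q_Bd a π _ _ 0), ic_M_step a hnN, ic_Q_step a hnN h2]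
        ring
      rw [e2, ic_E_const_mul, ic_E_sub a π 0 r
        ((ic_M_Bd a π r 0).mul (ic_E_Bd a π r (n + 1) ((ic_M_Bd a π _ 0).mul (ic_Q_Bd a π _ _ 0)))).scE
        ((ic_M_Bd a π r 0).mul (ic_E_Bd a π r n ((ic_M_Bd a π _ 0).mul (ic_Q_Bd a π _ _ 0)))).scE]
      unfold icCat icEx
      ring
    · -- `t ≤ n`
      rw [ic_Bet0_high a hr hrt (by omega : t ≤ n + 1), ic_Bet0_high a hr hrt h2]
      unfold ickD0 ickA ickV
      rw [if_pos h1, if_pos h2]
      have e1 : icE a π t n (icVn a π n) = fun y => icQ a π t (n + 1) y - icQ a π t n y := by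
        have : icVn a π n = fun z => icQ a π n (n + 1) z - icS a π n z := by
          funext z; unfold icVn; rw [ic_S_of_le a hn]
        rw [this, ic_E_sub a π t n (ic_Q_Bd a π _ _ 0).scE (ic_S_Bd a π n 0).scE, ic_Q_tower a π h2 (Nat.le_succ n)]
        rfl
      rw [e1]
      have e2 : (fun y => icM a π t y * (icQ a π t (n + 1) y - icQ a π t n y))
          = fun y => icM a π t y * icQ a π t (n + 1) y - icM a π t y * icQ a π t n y := by
        funext y; ring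
      rw [e2, ic_E_sub a π r t ((ic_M_Bd a π _ 0).mul (ic_Q_Bd a π _ _ 0)).scE ((ic_M_Bd a π _ 0).mul (ic_Q_Bd a π _ _ 0)).scE]
      have e3 : (fun y => icM a π r y * (icE a π r t (fun y => icM a π t y * icQ a π t (n + 1) y) y
            - icE a π r t (fun y => icM a π t y * icQ a π t n y) y))
          = fun y => icM a π r y * icE a π r t (fun y => icM a π t y * icQ a π t (n + 1) y) y
            - icM a π r y * icE a π r t (fun y => icM a π t y * icQ a π t n y) y := by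
        funext y; ring
      rw [e3, ic_E_sub a π 0 r
        ((ic_M_Bd a π r 0).mul (ic_E_Bd a π r t ((ic_M_Bd a π _ 0).mul (ic_Q_Bd a π _ _ 0)))).scE
        ((ic_M_Bd a π r 0).mul (ic_E_Bd a π r t ((ic_M_Bd a π _ 0).mul (ic_Q_Bd a π _ _ 0)))).scE]
      unfold icCat icEx
      ring

/-- **representation**: `bk^(n+1)_rt = E[Cov_n(X_r, X_t)]` -/
theorem ic_Bk_eq (a : ℝ) {π : List (ℝ × ℝ)} {r t n : ℕ} (hr : r ≤ π.length) (ht : t ≤ π.length) (hn : n ≤ π.length) :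
    icBk a π (n + 1) r t = ickD a π n 0 r t 0 := by
  unfold icBk icBet ickD
  rw [if_neg (Nat.succ_ne_zero n), Nat.add_sub_cancel]
  exact ic_Bet0_diff a (min_le_max) (max_le hr ht) hn

/-! ## 2. (P2): every `bk^k` is a covariance matrix -/

theorem ic_kD_symm (a : ℝ) (π : List (ℝ × ℝ)) (n i r t : ℕ) : ickD a π n i r t = ickD a π n i t r := by
  unfold ickD
  rw [min_comm, max_comm]

/-- `∑_{t ≥ j} c_t E_i[Cov_n(mh_(n+1), X_t)]` -/
noncomputable def icSA (a : ℝ) (π : List (ℝ × ℝ)) (n : ℕ) (c : ℕ → ℝ) (i j : ℕ) : ℝ → ℝ :=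
  fun z => ∑ t ∈ Icc j π.length, c t * ickA a π n i t z

/-- `∑_{r,t ≥ j} c_r c_t E_i[Cov_n(X_r, X_t)]` -/
noncomputable def icSD (a : ℝ) (π : List (ℝ × ℝ)) (n : ℕ) (c : ℕ → ℝ) (i j : ℕ) : ℝ → ℝ :=
  fun z => ∑ r ∈ Icc j π.length, ∑ t ∈ Icc j π.length, c r * c t * ickD a π n i r t z

/-- the quadratic form `E_i[Var_n(x mh_(n+1) + ∑_{t ≥ j} c_t X_t)]` -/
noncomputable def icFm (a : ℝ) (π : List (ℝ × ℝ)) (n : ℕ) (c : ℕ → ℝ) (i j : ℕ) (x : ℝ) : ℝ → ℝ :=
  fun z => x ^ 2 * ickV a π n i z + 2 * x * icSA a π n c i j z + icSD a π n c i j z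

theorem ic_psd_eqns_cite : True := by
  have := @icSA.eq_1
  have := @icSD.eq_1
  have := @icFm.eq_1
  trivial

theorem ic_SA_Bd (a : ℝ) (π : List (ℝ × ℝ)) (n : ℕ) (c : ℕ → ℝ) (i j m : ℕ) : ScBd m (icSA a π n c i j) :=
  ic_Bd_sum _ fun t _ => (ic_kA_Bd a π n i t m).const_mul _

theorem ic_SD_Bd (a : ℝ) (π : List (ℝ × ℝ)) (n : ℕ) (c : ℕ → ℝ) (i j m : ℕ) : ScBd m (icSD a π n c i j) :=
  ic_Bd_sum _ fun r _ => ic_Bd_sum _ fun t _ => (ic_kD_Bd a π n i r t m).const_mul _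

theorem ic_Fm_Bd (a : ℝ) (π : List (ℝ × ℝ)) (n : ℕ) (c : ℕ → ℝ) (i j : ℕ) (x : ℝ) (m : ℕ) : ScBd m (icFm a π n c i j x) :=
  (((ic_kV_Bd a π n i m).const_mul _).add ((ic_SA_Bd a π n c i j m).const_mul _)).add (ic_SD_Bd a π n c i j m)

/-- peeling the sheet `i` -/
theorem ic_Fm_peel (a : ℝ) (π : List (ℝ × ℝ)) {n : ℕ} (c : ℕ → ℝ) {i : ℕ} (hi : i ≤ n) (hiN : i ≤ π.length) (x z : ℝ) :
    icFm a π n c i i x z = icFm a π n c i (i + 1) (x + c i * icM a π i z) z := by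
  have hni : i ∉ Icc (i + 1) π.length := by simp
  have eA : ickA a π n i i z = icM a π i z * ickV a π n i z := congrFun (ic_kA_self a π hi) z
  have eD1 : ∀ t, i ≤ t → ickD a π n i i t z = icM a π i z * ickA a π n i t z := by
    intro t ht
    unfold ickD
    rw [min_eq_left ht, max_eq_right ht]
    exact congrFun (ic_kD0_self a π hi t) z
  have eD2 : ∀ t, i ≤ t → ickD a π n i t i z = icM a π i z * ickA a π n i t z := by
    intro t ht
    rw [ic_kD_symm]; exact eD1 t ht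
  unfold icFm icSA icSD
  rw [← Finset.insert_Icc_add_one_left_eq_Icc hiN, Finset.sum_insert hni, Finset.sum_insert hni, Finset.sum_insert hni]
  have h1 : ∑ t ∈ Icc (i + 1) π.length, c i * c t * ickD a π n i i t z
      = c i * icM a π i z * ∑ t ∈ Icc (i + 1) π.length, c t * ickA a π n i t z := by
    rw [Finset.mul_sum]
    refine Finset.sum_congr rfl fun t ht => ?_
    rw [eD1 t (by have := (Finset.mem_Icc.1 ht).1; omega)]
    ring
  have h2 : ∑ r ∈ Icc (i + 1) π.length, ∑ t ∈ insert i (Icc (i + 1) π.length), c r * c t * ickD a π n i r t z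
      = c i * icM a π i z * ∑ t ∈ Icc (i + 1) π.length, c t * ickA a π n i t z
        + ∑ r ∈ Icc (i + 1) π.length, ∑ t ∈ Icc (i + 1) π.length, c r * c t * ickD a π n i r t z := by
    rw [Finset.mul_sum, ← Finset.sum_add_distrib]
    refine Finset.sum_congr rfl fun r hr => ?_
    rw [Finset.sum_insert hni, eD2 r (by have := (Finset.mem_Icc.1 hr).1; omega)]
    ring
  rw [h1, h2, eD1 i le_rfl, eA]
  ring

/-- one stage backwards -/
theorem ic_Fm_step (a : ℝ) {π : List (ℝ × ℝ)} {n : ℕ} (c : ℕ → ℝ) {i : ℕ} (hi : i < n) (hn : n ≤ π.length) (x : ℝ) :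
    icFm a π n c i (i + 1) x = icT a π i (icFm a π n c (i + 1) (i + 1) x) := by
  have e1 : icSA a π n c i (i + 1) = icT a π i (icSA a π n c (i + 1) (i + 1)) := by
    unfold icSA
    rw [ic_T_sum a π i _ fun t _ => (ic_kA_Bd a π n (i + 1) t 0).const_mul _]
    funext z
    refine Finset.sum_congr rfl fun t ht => ?_
    rw [ic_T_const_mul, ic_kA_succ a hi hn (by have := (Finset.mem_Icc.1 ht).1; omega)]
  have e2 : icSD a π n c i (i + 1) = icT a π i (icSD a π n c (i + 1) (i + 1)) := by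
    unfold icSD
    rw [ic_T_sum a π i _ fun r _ => ic_Bd_sum _ fun t _ => (ic_kD_Bd a π n (i + 1) r t 0).const_mul _]
    funext z
    refine Finset.sum_congr rfl fun r hr => ?_
    rw [ic_T_sum a π i _ fun t _ => (ic_kD_Bd a π n (i + 1) r t 0).const_mul _]
    refine Finset.sum_congr rfl fun t ht => ?_
    rw [ic_T_const_mul]
    unfold ickD
    rw [ic_kD0_succ a hi hn (by
      have := (Finset.mem_Icc.1 ht).1
      have := (Finset.mem_Icc.1 hr).1
      exact lt_min (by omega) (by omega))]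
  unfold icFm
  rw [ic_T_add a π i (((ic_kV_Bd a π n (i + 1) 0).const_mul _).add ((ic_SA_Bd a π n c (i + 1) (i + 1) 0).const_mul _))
      (ic_SD_Bd a π n c (i + 1) (i + 1) 0),
    ic_T_add a π i ((ic_kV_Bd a π n (i + 1) 0).const_mul _) ((ic_SA_Bd a π n c (i + 1) (i + 1) 0).const_mul _),
    ic_T_const_mul, ic_T_const_mul, ← e1, ← e2, ← ic_kV_succ a hi hn]

theorem ic_kD_base (a : ℝ) (π : List (ℝ × ℝ)) {n r t : ℕ} (hr : n < r) (ht : n < t) :
    ickD a π n n r t = icCov a π n (fun y => 2⁻¹ * icQ a π (n + 1) r y) (fun y => 2⁻¹ * icQ a π (n + 1) t y) := by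
  unfold ickD ickD0
  rw [if_neg (by have := lt_min hr ht; omega), ic_E_self]
  rcases le_total r t with h | h
  · rw [min_eq_left h, max_eq_right h]
  · rw [min_eq_right h, max_eq_left h, ic_cov_symm]

theorem ic_kA_base (a : ℝ) (π : List (ℝ × ℝ)) {n t : ℕ} (ht : n < t) :
    ickA a π n n t = icCov a π n (icM a π (n + 1)) (fun y => 2⁻¹ * icQ a π (n + 1) t y) := by
  unfold ickA
  rw [if_neg (by omega), ic_E_self]

/-- the last stage is a variance -/
theorem ic_Fm_base (a : ℝ) {π : List (ℝ × ℝ)} {n : ℕ} (hn : n < π.length) (c : ℕ → ℝ) (x z : ℝ) :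
    icFm a π n c n (n + 1) x z
      = icCov a π n (fun y => x * icM a π (n + 1) y + ∑ t ∈ Icc (n + 1) π.length, c t * (2⁻¹ * icQ a π (n + 1) t y))
          (fun y => x * icM a π (n + 1) y + ∑ t ∈ Icc (n + 1) π.length, c t * (2⁻¹ * icQ a π (n + 1) t y)) z := by
  have hM : ScBd 0 (icM a π (n + 1)) := ic_M_Bd a π _ 0
  have hxM : ScBd 0 (fun y => x * icM a π (n + 1) y) := hM.const_mul x
  have hh : ∀ t, ScBd 0 (fun y => 2⁻¹ * icQ a π (n + 1) t y) := fun t => (ic_Q_Bd a π _ _ 0).const_mul _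
  have hch : ∀ t ∈ Icc (n + 1) π.length, ScBd 0 (fun y => c t * (2⁻¹ * icQ a π (n + 1) t y)) := fun t _ => (hh t).const_mul _
  have hG : ScBd 0 (fun y => ∑ t ∈ Icc (n + 1) π.length, c t * (2⁻¹ * icQ a π (n + 1) t y)) := ic_Bd_sum _ hch
  have hlt : ∀ t ∈ Icc (n + 1) π.length, n < t := fun t ht => by have := (Finset.mem_Icc.1 ht).1; omega
  have p1 : icCov a π n (fun y => x * icM a π (n + 1) y) (fun y => x * icM a π (n + 1) y) z
      = x * (x * icCov a π n (icM a π (n + 1)) (icM a π (n + 1)) z) := by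
    rw [ic_cov_const_mul_left, ic_cov_const_mul_right]
  have p2 : icCov a π n (fun y => ∑ t ∈ Icc (n + 1) π.length, c t * (2⁻¹ * icQ a π (n + 1) t y))
        (fun y => x * icM a π (n + 1) y) z
      = x * ∑ t ∈ Icc (n + 1) π.length, icCov a π n (icM a π (n + 1)) (fun y => c t * (2⁻¹ * icQ a π (n + 1) t y)) z := by
    rw [ic_cov_const_mul_right, ic_cov_symm, ic_cov_sum_right a π n _ hM hch]
  have p3 : icCov a π n (fun y => x * icM a π (n + 1) y)
        (fun y => ∑ t ∈ Icc (n + 1) π.length, c t * (2⁻¹ * icQ a π (n + 1) t y)) z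
      = x * ∑ t ∈ Icc (n + 1) π.length, icCov a π n (icM a π (n + 1)) (fun y => c t * (2⁻¹ * icQ a π (n + 1) t y)) z := by
    rw [ic_cov_const_mul_left, ic_cov_sum_right a π n _ hM hch]
  rw [ic_cov_add_right a π n (hxM.add hG) hxM hG, ic_cov_add_left a π n hxM hxM hG, ic_cov_add_left a π n hG hxM hG,
    p1, p2, p3, ic_cov_sum_right a π n _ hG hch]
  unfold icFm icSA icSD ickV
  rw [ic_E_self, ic_Vn_eq_cov a hn]
  have e1 : ∑ t ∈ Icc (n + 1) π.length, c t * ickA a π n n t z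
      = ∑ t ∈ Icc (n + 1) π.length, icCov a π n (icM a π (n + 1)) (fun y => c t * (2⁻¹ * icQ a π (n + 1) t y)) z :=
    Finset.sum_congr rfl fun t ht => by
      rw [ic_kA_base a π (hlt t ht), ic_cov_const_mul_right a π n _ (fun y => 2⁻¹ * icQ a π (n + 1) t y) (c t) z]
  have e2 : ∑ r ∈ Icc (n + 1) π.length, ∑ t ∈ Icc (n + 1) π.length, c r * c t * ickD a π n n r t z
      = ∑ t ∈ Icc (n + 1) π.length, icCov a π n (fun y => ∑ t ∈ Icc (n + 1) π.length, c t * (2⁻¹ * icQ a π (n + 1) t y))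
          (fun y => c t * (2⁻¹ * icQ a π (n + 1) t y)) z := by
    rw [Finset.sum_comm]
    refine Finset.sum_congr rfl fun t ht => ?_
    rw [ic_cov_sum_left a π n _ (hch t ht) hch]
    refine Finset.sum_congr rfl fun r hr => ?_
    rw [ic_kD_base a π (hlt r hr) (hlt t ht), ic_cov_const_mul_right a π n _ (fun y => 2⁻¹ * icQ a π (n + 1) t y) (c t) z,
      ic_cov_const_mul_left a π n (fun y => 2⁻¹ * icQ a π (n + 1) r y) _ (c r) z]
    ring
  rw [e1, e2]
  ring

theorem ic_Fm_nonneg {a : ℝ} (ha : a ≠ 0) {π : List (ℝ × ℝ)} {n : ℕ} (hn : n ≤ π.length) (c : ℕ → ℝ) :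
    ∀ d i : ℕ, i + d = n → ∀ x z : ℝ, 0 ≤ icFm a π n c i i x z := by
  intro d
  induction d with
  | zero =>
    intro i hi x z
    have hi' : i = n := by omega
    subst hi'
    rw [ic_Fm_peel a π c le_rfl hn]
    rcases Nat.lt_or_ge i π.length with h | h
    · rw [ic_Fm_base a h]
      exact ic_cov_self_nonneg a π i (((ic_M_Bd a π _ 0).const_mul _).add
        (ic_Bd_sum _ fun t _ => ((ic_Q_Bd a π _ _ 0).const_mul _).const_mul _)) z
    · unfold icFm icSA icSD ickV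
      rw [Finset.Icc_eq_empty (by omega), ic_E_self]
      simp only [Finset.sum_empty, mul_zero, add_zero]
      exact mul_nonneg (sq_nonneg _) (ic_Vn_nonneg ha hn z)
  | succ d ih =>
    intro i hi x z
    rw [ic_Fm_peel a π c (by omega) (by omega), ic_Fm_step a c (by omega) hn]
    exact ic_T_nonneg a π i (ic_Fm_Bd a π n c _ _ _ 0) (fun y => ih (i + 1) (by omega) _ y) z

/-! ## the row kernel -/

/-- (P1) -/
theorem ic_Bk_symm (a : ℝ) (π : List (ℝ × ℝ)) (k r t : ℕ) : icBk a π k r t = icBk a π k t r := by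
  unfold icBk icBet
  rw [min_comm r t, max_comm r t]

theorem ic_Ex_zero (a : ℝ) (π : List (ℝ × ℝ)) (φ : ℝ → ℝ) : icEx a π 0 φ = φ 0 := by
  unfold icEx
  rw [ic_E_self]

theorem ic_Bet0_row0 {a : ℝ} (ha : a ≠ 0) (π : List (ℝ × ℝ)) (t j : ℕ) : icBet0 a π 0 t j = 0 := by
  have hS : icS a π 0 0 = 0 := by
    rw [ic_S_of_le a (Nat.zero_le _)]
    show icM a π 0 0 ^ 2 = 0
    rw [ic_M_zero ha]; ring
  have hq : icq a π 0 = 0 := by
    unfold icq
    rw [ic_Ex_zero, hS]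
  have hC : ∀ j i, icCat a π 0 j i = 0 := by
    intro j i
    unfold icCat
    rw [ic_Ex_zero, ic_M_zero ha, zero_mul]
  have hA : icA a π 0 0 t = 0 := by
    unfold icA
    rw [ic_Ex_zero, ic_Q_self, hS, zero_mul]
  unfold icBet0
  split_ifs with h1 h2
  · have : j = 0 := by omega
    subst this
    rw [hA, hq]; ring
  · simp only [hC, hq]; ring
  · simp only [hC, hq]; ring

/-- the sheet `0` is decoupled -/
theorem ic_Bk_row0 {a : ℝ} {π : List (ℝ × ℝ)} (h : IcAdm a π) (k t : ℕ) : icBk a π k 0 t = 0 := by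
  unfold icBk icBet
  rw [Nat.zero_min, Nat.zero_max, ic_Bet0_row0 h.pos.ne', ic_Bet0_row0 h.pos.ne']
  simp

/-- (P2) -/
theorem ic_Bk_psd {a : ℝ} {π : List (ℝ × ℝ)} (h : IcAdm a π) {k : ℕ} (hk : k ≤ π.length + 1) (c : ℕ → ℝ) :
    0 ≤ ∑ r ∈ range (π.length + 1), ∑ t ∈ range (π.length + 1), c r * c t * icBk a π k r t := by
  rcases Nat.eq_zero_or_pos k with h0 | h0
  · subst h0
    refine Finset.sum_nonneg fun r _ => Finset.sum_nonneg fun t _ => ?_
    unfold icBk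
    rw [if_pos rfl, mul_zero]
  · obtain ⟨n, rfl⟩ : ∃ n, k = n + 1 := ⟨k - 1, by omega⟩
    have hn : n ≤ π.length := by omega
    have key := ic_Fm_nonneg (ne_of_gt h.1) hn c n 0 (by omega) 0 0
    have e : icFm a π n c 0 0 0 0
        = ∑ r ∈ range (π.length + 1), ∑ t ∈ range (π.length + 1), c r * c t * icBk a π (n + 1) r t := by
      unfold icFm icSD
      rw [Nat.range_succ_eq_Icc_zero]
      simp only [ne_eq, OfNat.ofNat_ne_zero, not_false_eq_true, zero_pow, zero_mul, mul_zero, zero_add]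
      refine Finset.sum_congr rfl fun r hr => Finset.sum_congr rfl fun t ht => ?_
      rw [ic_Bk_eq a (Finset.mem_Icc.1 hr).2 (Finset.mem_Icc.1 ht).2 hn]
    rw [← e]
    exact key

/-! ### (P3): sup bounds of the kernels from the sup bounds of the stage covariances (helper110) -/

theorem ic_kV_abs_le (a : ℝ) (π : List (ℝ × ℝ)) {n : ℕ} {B : ℝ} (hV : ∀ z, |icVn a π n z| ≤ B) (i : ℕ) (z : ℝ) :
    |ickV a π n i z| ≤ B :=
  ic_E_abs_le a π i n (ic_Vn_Bd a π n 0).2 hV z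

theorem ic_M_mul_abs_le {a : ℝ} (ha : a ≠ 0) (π : List (ℝ × ℝ)) (j : ℕ) {φ : ℝ → ℝ} {B : ℝ} (hφ : ∀ z, |φ z| ≤ B) (z : ℝ) :
    |icM a π j z * φ z| ≤ B := by
  rw [abs_mul]
  calc |icM a π j z| * |φ z| ≤ 1 * |φ z| := mul_le_mul_of_nonneg_right (ic_M_abs_le ha π j z) (abs_nonneg _)
    _ = |φ z| := one_mul _
    _ ≤ B := hφ z

theorem ic_kA_abs_le {a : ℝ} (ha : a ≠ 0) (π : List (ℝ × ℝ)) {n t : ℕ} {B : ℝ} (hV : ∀ z, |icVn a π n z| ≤ B)
    (hA : n < t → ∀ z, |icCov a π n (icM a π (n + 1)) (fun y => 2⁻¹ * icQ a π (n + 1) t y) z| ≤ B) (i : ℕ) (z : ℝ) :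
    |ickA a π n i t z| ≤ B := by
  unfold ickA
  split_ifs with h
  · exact ic_E_abs_le a π i t ((ic_M_Bd a π t 0).mul (ic_kV_Bd a π n t 0)).2
      (ic_M_mul_abs_le ha π t (ic_kV_abs_le a π hV t)) z
  · exact ic_E_abs_le a π i n (ic_cov_Bd a π n (ic_M_Bd a π _ 0) ((ic_Q_Bd a π _ _ 0).const_mul _)).2 (hA (by omega)) z

theorem ic_kD0_abs_le {a : ℝ} (ha : a ≠ 0) (π : List (ℝ × ℝ)) {n r t : ℕ} {B : ℝ} (hV : ∀ z, |icVn a π n z| ≤ B)
    (hA : n < t → ∀ z, |icCov a π n (icM a π (n + 1)) (fun y => 2⁻¹ * icQ a π (n + 1) t y) z| ≤ B)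
    (hD : n < r → ∀ z, |icCov a π n (fun y => 2⁻¹ * icQ a π (n + 1) r y) (fun y => 2⁻¹ * icQ a π (n + 1) t y) z| ≤ B)
    (i : ℕ) (z : ℝ) : |ickD0 a π n i r t z| ≤ B := by
  unfold ickD0
  split_ifs with h
  · exact ic_E_abs_le a π i r ((ic_M_Bd a π r 0).mul (ic_kA_Bd a π n r t 0)).2
      (ic_M_mul_abs_le ha π r (ic_kA_abs_le ha π hV hA r)) z
  · exact ic_E_abs_le a π i n
      (ic_cov_Bd a π n ((ic_Q_Bd a π _ _ 0).const_mul _) ((ic_Q_Bd a π _ _ 0).const_mul _)).2 (hD (by omega)) z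

/-- (P3) -/
theorem ic_Bk_le : ∃ C : ℝ, 1 ≤ C ∧ ∀ (a : ℝ) (π : List (ℝ × ℝ)), IcAdm a π → a ≤ 1 → ∀ r t : ℕ, r ≤ π.length → t ≤ π.length →
    (∀ k, k ≤ π.length → |icBk a π k r t| ≤ C * (1 + icK π π.length) * icRho π k) ∧ |icBk a π (π.length + 1) r t| ≤ 1 := by
  obtain ⟨K, hK1, HK⟩ := ic_tau 1
  have hK0 : 0 ≤ K := zero_le_one.trans hK1
  have hK3 : 1 ≤ K ^ 3 := one_le_pow₀ hK1
  have hKK3 : K ≤ K ^ 3 := by
    calc K = K ^ 1 := (pow_one K).symm
      _ ≤ K ^ 3 := pow_le_pow_right₀ hK1 (by norm_num)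
  refine ⟨4 * (K ^ 3 * K ^ 3), by nlinarith, fun a π h ha1 r t hr ht => ?_⟩
  have ha : a ≠ 0 := h.pos.ne'
  obtain ⟨HM, HE⟩ := HK a π h ha1
  have hM : ∀ j, ScN 1 (K ^ 3) (icM a π j) := fun j => (HM j).weaken hKK3
  have hS : ∀ i, ScN 1 (2 * (K * K)) (icS a π i) := by
    intro i
    unfold icS
    split_ifs
    · have := (HM i).mul (HM i)
      rw [pow_one] at this
      simpa only [sq] using this
    · refine (ScN.const 1 (1 : ℝ)).weaken ?_
      rw [abs_one]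
      nlinarith
  have hQ : ∀ j i, ScN 1 (K ^ 3) (fun y => 2⁻¹ * icQ a π j i y) := by
    intro j i
    refine ((HE j i _ _ (hS i)).const_mul (2⁻¹ : ℝ)).weaken (le_of_eq ?_)
    rw [abs_of_pos (by norm_num : (0 : ℝ) < 2⁻¹)]
    ring
  constructor
  · intro k hk
    rcases Nat.eq_zero_or_pos k with rfl | hk0
    · have e1 : icBk a π 0 r t = 0 := by unfold icBk; rw [if_pos rfl]
      have e2 : icRho π 0 = 0 := by unfold icRho; rw [if_pos rfl]
      rw [e1, e2, abs_zero, mul_zero]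
    · obtain ⟨n, rfl⟩ : ∃ n, k = n + 1 := ⟨k - 1, by omega⟩
      have hn : n < π.length := hk
      have e2 : icRho π (n + 1) = icVr π n := by
        unfold icRho; rw [if_neg (Nat.succ_ne_zero n), Nat.add_sub_cancel]
      have hv : 0 ≤ icVr π n := ict_Vr_nonneg h n
      have hvK : icVr π n ≤ icK π π.length :=
        Finset.single_le_sum (f := fun i => icVr π i) (fun i _ => ict_Vr_nonneg h i) (Finset.mem_range.2 hn)
      have key : 2 * K ^ 3 * K ^ 3 * (icVr π n * (1 + 2 * icVr π n))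
          ≤ 4 * (K ^ 3 * K ^ 3) * (1 + icK π π.length) * icVr π n := by
        have h1 : icVr π n * (1 + 2 * icVr π n) ≤ icVr π n * (2 * (1 + icK π π.length)) :=
          mul_le_mul_of_nonneg_left (by linarith) hv
        calc 2 * K ^ 3 * K ^ 3 * (icVr π n * (1 + 2 * icVr π n))
            ≤ 2 * K ^ 3 * K ^ 3 * (icVr π n * (2 * (1 + icK π π.length))) :=
              mul_le_mul_of_nonneg_left h1 (by positivity)
          _ = 4 * (K ^ 3 * K ^ 3) * (1 + icK π π.length) * icVr π n := by ring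
      rw [ic_Bk_eq a hr ht hn.le, e2]
      unfold ickD
      refine ic_kD0_abs_le ha π (fun z => ?_) (fun _ z => ?_) (fun _ z => ?_) 0 0
      · rw [ic_Vn_eq_cov a hn]
        exact (ic_cov_abs_le h ha1 hn (hM _) (hM _) z).trans key
      · exact (ic_cov_abs_le h ha1 hn (hM _) (hQ _ _) z).trans key
      · exact (ic_cov_abs_le h ha1 hn (hQ _ _) (hQ _ _) z).trans key
  · rw [ic_Bk_eq a hr ht le_rfl]
    unfold ickD
    refine ic_kD0_abs_le ha π (fun z => ?_) (fun h1 => ?_) (fun h1 => ?_) 0 0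
    · rw [ic_Vn_top, abs_le]
      have h1 := ic_M_sq_le ha π π.length z
      have h2 := sq_nonneg (icM a π π.length z)
      constructor <;> linarith
    · exact absurd h1 (by have := max_le hr ht; omega)
    · exact absurd h1 (by have := (min_le_left r t).trans hr; omega)

/-! ## (P5') adjacent rows of `BET`, MASS FREE (177's IFACE sec. 2); (P5) for arbitrary monotone weights by Abel summation -/

/-- ONE constant for all the first order norms used in (P5') -/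
theorem ic_N1 : ∃ L : ℝ, 1 ≤ L ∧ ∀ (a : ℝ) (π : List (ℝ × ℝ)), IcAdm a π → a ≤ 1 →
    (∀ j, ScN 1 L (icM a π j)) ∧ (∀ j, ScN 1 L (icS a π j)) ∧ (∀ j i, ScN 1 L (icQ a π j i)) ∧
    (∀ k j i, ScN 1 L (icE a π k j (fun y => icM a π j y * icQ a π j i y))) := by
  obtain ⟨K, hK, T⟩ := ic_tau 1
  have hK2 : 1 ≤ K * K := by nlinarith
  have h1 : K ≤ 2 ^ 1 * (K * K) := by nlinarith
  have h2 : 2 ^ 1 * (K * K) ≤ K * (2 ^ 1 * (K * K)) := by nlinarith
  have h3 : K * (2 ^ 1 * (K * K)) ≤ K * (2 ^ 1 * (K * (K * (2 ^ 1 * (K * K))))) := by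
    have : 2 ^ 1 * (K * K) ≤ 2 ^ 1 * (K * (K * (2 ^ 1 * (K * K)))) := by nlinarith [mul_nonneg (by linarith : (0:ℝ) ≤ K * K) (by linarith : (0:ℝ) ≤ K * K - 1)]
    exact mul_le_mul_of_nonneg_left this (by linarith)
  refine ⟨K * (2 ^ 1 * (K * (K * (2 ^ 1 * (K * K))))), by linarith, fun a π h ha => ?_⟩
  obtain ⟨TM, TE⟩ := T a π h ha
  have hS : ∀ j, ScN 1 (2 ^ 1 * (K * K)) (icS a π j) := by
    intro j
    by_cases hj : j ≤ π.length
    · rw [ic_S_of_le a hj, show (fun z => icM a π j z ^ 2) = fun z => icM a π j z * icM a π j z from funext fun z => sq _]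
      exact (TM j).mul (TM j)
    · rw [ic_S_of_lt a (by omega)]
      exact (ScN.const 1 1).weaken (by rw [abs_one]; linarith)
  have hQ : ∀ j i, ScN 1 (K * (2 ^ 1 * (K * K))) (icQ a π j i) := fun j i => TE j i _ _ (hS i)
  exact ⟨fun j => (TM j).weaken (by linarith), fun j => (hS j).weaken (by linarith), fun j i => (hQ j i).weaken h3,
    fun k j i => TE k j _ _ ((TM j).mul (hQ j i))⟩

/-- the stage covariance under `E` -/
theorem ic_Ex_cov (a : ℝ) {π : List (ℝ × ℝ)} {κ : ℕ} (hκ : κ < π.length) {f g : ℝ → ℝ} (hf : ScBd 0 f) (hg : ScBd 0 g) :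
    icEx a π (κ + 1) (fun y => f y * g y) - icEx a π κ (fun y => icT a π κ f y * icT a π κ g y)
      = icEx a π κ (icCov a π κ f g) :=
  ic_E_cov a (Nat.zero_le κ) hκ hf hg 0

/-- `|E[u Cov_κ(f,g)]| ≤ 2 Lf Lg w`, `|u| ≤ 1` -/
theorem ic_Ex_mul_cov_le {a : ℝ} {π : List (ℝ × ℝ)} (h : IcAdm a π) (ha1 : a ≤ 1) {κ : ℕ} (hκ : κ < π.length) {f g u : ℝ → ℝ}
    {Lf Lg : ℝ} (hf : ScN 1 Lf f) (hg : ScN 1 Lg g) (hu : Continuous u) (hu1 : ∀ z, |u z| ≤ 1) :
    |icEx a π κ (fun z => u z * icCov a π κ f g z)| ≤ 2 * Lf * Lg * (icVr π κ * (1 + 2 * icVr π κ)) := by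
  refine icg_Ex_abs_le a π κ (φ := fun z => u z * icCov a π κ f g z)
    (hu.mul (ic_cov_Bd a π κ hf.scBd.of_succ hg.scBd.of_succ).2) fun z => ?_
  rw [abs_mul]
  calc |u z| * |icCov a π κ f g z| ≤ 1 * |icCov a π κ f g z| := mul_le_mul_of_nonneg_right (hu1 z) (abs_nonneg _)
    _ = |icCov a π κ f g z| := one_mul _
    _ ≤ _ := ic_cov_abs_le h ha1 hκ hf hg z

theorem ic_Ex_cov_le {a : ℝ} {π : List (ℝ × ℝ)} (h : IcAdm a π) (ha1 : a ≤ 1) {κ : ℕ} (hκ : κ < π.length) {f g : ℝ → ℝ}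
    {Lf Lg : ℝ} (hf : ScN 1 Lf f) (hg : ScN 1 Lg g) :
    |icEx a π κ (icCov a π κ f g)| ≤ 2 * Lf * Lg * (icVr π κ * (1 + 2 * icVr π κ)) :=
  icg_Ex_abs_le a π κ (ic_cov_Bd a π κ hf.scBd.of_succ hg.scBd.of_succ).2 fun z => ic_cov_abs_le h ha1 hκ hf hg z

/-- `E_i mh_(κ+1)² - E_i mh_κ² = E_i Var_κ` -/
theorem ic_Q_sub (a : ℝ) {π : List (ℝ × ℝ)} {i κ : ℕ} (hi : i ≤ κ) (hκ : κ ≤ π.length) (z : ℝ) :
    icQ a π i (κ + 1) z - icQ a π i κ z = ickV a π κ i z := by
  have : icVn a π κ = fun z => icQ a π κ (κ + 1) z - icS a π κ z := by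
    funext z; unfold icVn; rw [ic_S_of_le a hκ]
  unfold ickV
  rw [this, ic_E_sub a π i κ (ic_Q_Bd a π _ _ 0).scE (ic_S_Bd a π κ 0).scE, ic_Q_tower a π hi (Nat.le_succ κ)]
  rfl

theorem ic_kV_le {a : ℝ} {π : List (ℝ × ℝ)} (h : IcAdm a π) (ha1 : a ≤ 1) {κ : ℕ} (hκ : κ < π.length) {L : ℝ}
    (hM : ScN 1 L (icM a π (κ + 1))) (i : ℕ) (z : ℝ) : |ickV a π κ i z| ≤ 2 * L * L * (icVr π κ * (1 + 2 * icVr π κ)) :=
  ic_kV_abs_le a π (fun y => by rw [ic_Vn_eq_cov a hκ]; exact ic_cov_abs_le h ha1 hκ hM hM y) i z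

/-! **(P5')** `ic_Bet_adj` (same statement) is PROVED in `Inv/ScP.lean` (helper13; explicit form `icp_Bet_adj`). -/

theorem ic_Vr_le_K {a : ℝ} {π : List (ℝ × ℝ)} (h : IcAdm a π) {κ : ℕ} (hκ : κ < π.length) : icVr π κ ≤ icK π π.length :=
  Finset.single_le_sum (f := fun i => icVr π i) (fun i _ => ict_Vr_nonneg h i) (Finset.mem_range.2 hκ)

/-- Abel summation against monotone weights -/
theorem ic_abel {p d : ℕ → ℝ} {β : ℝ} {j : ℕ} (hd : ∀ s, |d s| ≤ β) (hp : 0 ≤ p j) :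
    ∀ e : ℕ, (∀ s, j ≤ s → s < j + e → p s ≤ p (s + 1)) →
      |∑ s ∈ Icc j (j + e), p s * (d s - d (s - 1)) - p (j + e) * d (j + e)| ≤ p (j + e) * β := by
  intro e
  induction e with
  | zero =>
    intro _
    rw [add_zero, Finset.Icc_self, Finset.sum_singleton]
    have : p j * (d j - d (j - 1)) - p j * d j = - (p j * d (j - 1)) := by ring
    rw [this, abs_neg, abs_mul, abs_of_nonneg hp]
    exact mul_le_mul_of_nonneg_left (hd _) hp
  | succ e ih =>
    intro hm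
    have ih' := ih fun s h1 h2 => hm s h1 (by omega)
    have hstep := hm (j + e) (by omega) (by omega)
    rw [← add_assoc, Finset.sum_Icc_succ_top (by omega), Nat.add_sub_cancel]
    have e1 : ∑ s ∈ Icc j (j + e), p s * (d s - d (s - 1)) + p (j + e + 1) * (d (j + e + 1) - d (j + e))
          - p (j + e + 1) * d (j + e + 1)
        = (∑ s ∈ Icc j (j + e), p s * (d s - d (s - 1)) - p (j + e) * d (j + e)) - (p (j + e + 1) - p (j + e)) * d (j + e) := by
      ring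
    rw [e1]
    have h2 : |(p (j + e + 1) - p (j + e)) * d (j + e)| ≤ (p (j + e + 1) - p (j + e)) * β := by
      rw [abs_mul, abs_of_nonneg (sub_nonneg.2 hstep)]
      exact mul_le_mul_of_nonneg_left (hd _) (sub_nonneg.2 hstep)
    calc _ ≤ |∑ s ∈ Icc j (j + e), p s * (d s - d (s - 1)) - p (j + e) * d (j + e)|
          + |(p (j + e + 1) - p (j + e)) * d (j + e)| := abs_sub _ _
      _ ≤ p (j + e) * β + (p (j + e + 1) - p (j + e)) * β := add_le_add ih' h2
      _ = _ := by ring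

/-- **(P5) for ARBITRARY monotone weights** (frozen tables): consequence of (P5') -/
theorem ic_BB_adj_w {a : ℝ} {π : List (ℝ × ℝ)} {k t : ℕ} {β : ℝ}
    (hβ : ∀ i, |icBet a π k t i - icBet a π (k - 1) t i| ≤ β) (p : ℕ → ℝ) {j : ℕ} (hj1 : 1 ≤ j) (hj : j ≤ π.length + 1)
    (hp : 0 ≤ p j) (hm : ∀ s, j ≤ s → s ≤ π.length → p s ≤ p (s + 1)) :
    |∑ s ∈ Icc j (π.length + 1), p s * icBk a π s k t - ∑ s ∈ Icc j (π.length + 1), p s * icBk a π s (k - 1) t|
      ≤ 2 * p (π.length + 1) * β := by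
  obtain ⟨e, he⟩ : ∃ e, π.length + 1 = j + e := ⟨π.length + 1 - j, by omega⟩
  have h1 := ic_abel (p := p) (d := fun i => icBet a π k t i - icBet a π (k - 1) t i) hβ hp e
    (fun s h1 h2 => hm s h1 (by omega))
  rw [← he] at h1
  have hpN : 0 ≤ p (π.length + 1) := by
    have : ∀ e' : ℕ, j + e' ≤ π.length + 1 → 0 ≤ p (j + e') := by
      intro e'
      induction e' with
      | zero => intro _; exact hp
      | succ e' ih => intro h; exact (ih (by omega)).trans (hm (j + e') (by omega) (by omega))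
    rw [he]; exact this e (by omega)
  have e2 : ∑ s ∈ Icc j (π.length + 1), p s * icBk a π s k t - ∑ s ∈ Icc j (π.length + 1), p s * icBk a π s (k - 1) t
      = ∑ s ∈ Icc j (π.length + 1), p s * ((icBet a π k t s - icBet a π (k - 1) t s)
          - (icBet a π k t (s - 1) - icBet a π (k - 1) t (s - 1))) := by
    rw [← Finset.sum_sub_distrib]
    refine Finset.sum_congr rfl fun s hs => ?_
    have hs0 : s ≠ 0 := by have := (Finset.mem_Icc.1 hs).1; omega
    unfold icBk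
    rw [if_neg hs0, if_neg hs0]
    ring
  rw [e2]
  have h3 := hβ (π.length + 1)
  have h4 : |p (π.length + 1) * (icBet a π k t (π.length + 1) - icBet a π (k - 1) t (π.length + 1))| ≤ p (π.length + 1) * β := by
    rw [abs_mul, abs_of_nonneg hpN]
    exact mul_le_mul_of_nonneg_left h3 hpN
  have h5 := abs_le.1 h1
  have h6 := abs_le.1 h4
  rw [abs_le]
  constructor <;> linarith [h5.1, h5.2, h6.1, h6.2]

theorem ic_Ms_mono {a : ℝ} {π : List (ℝ × ℝ)} (h : IcAdm a π) (j : ℕ) : icMs a π j ≤ icMs a π (j + 1) := by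
  rcases Nat.lt_or_ge (j + 1) π.length with h1 | h1
  · unfold icMs
    rw [List.getElem?_eq_getElem h1, List.getElem?_eq_getElem (by omega : j < π.length)]
    exact (List.pairwise_iff_getElem.1 h.inc) j (j + 1) (by omega) h1 (Nat.lt_succ_self j)
  · rw [ict_Ms_top a h1]
    exact (ict_Ms_mem h j).2

/-- (P5) -/
theorem ic_BB_adj : ∃ C : ℝ, 1 ≤ C ∧ ∀ (a : ℝ) (π : List (ℝ × ℝ)), IcAdm a π → a ≤ 1 → ∀ k t j : ℕ, 1 ≤ k → k ≤ π.length →
    t ≤ π.length → (j = k ∨ j = k + 1) →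
    |icBB a π j k t - icBB a π j (k - 1) t| ≤ C * (1 + icK π π.length) * icRho π k := by
  obtain ⟨C, hC, H⟩ := ic_Bet_adj
  refine ⟨2 * C, by linarith, fun a π h ha k t j hk hkN ht hj => ?_⟩
  have hP : ∀ s, 1 ≤ s → icP a π s = icMs a π (s - 1) := fun s hs => by unfold icP; rw [if_neg (by omega)]
  have h1 := ic_BB_adj_w (fun i => H a π h ha k t i hk hkN ht) (icP a π) (j := j) (by omega) (by omega)
    (by rw [hP j (by omega)]; exact (ict_Ms_mem h _).1)
    (fun s hs _ => by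
      rw [hP s (by omega), hP (s + 1) (by omega), Nat.add_sub_cancel]
      have := ic_Ms_mono h (s - 1)
      rwa [Nat.sub_add_cancel (by omega)] at this)
  unfold icBB
  refine h1.trans ?_
  have h2 : icP a π (π.length + 1) ≤ 1 := by
    rw [hP _ (by omega)]; exact (ict_Ms_mem h _).2.trans ha
  have hK0 : 0 ≤ icK π π.length := Finset.sum_nonneg fun i _ => ict_Vr_nonneg h i
  have hρ0 : 0 ≤ icRho π k := by unfold icRho; split_ifs; exacts [le_rfl, ict_Vr_nonneg h _]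
  have h3 : 0 ≤ C * (1 + icK π π.length) * icRho π k := mul_nonneg (mul_nonneg (by linarith) (by linarith)) hρ0
  calc 2 * icP a π (π.length + 1) * (C * (1 + icK π π.length) * icRho π k)
      = icP a π (π.length + 1) * (2 * (C * (1 + icK π π.length) * icRho π k)) := by ring
    _ ≤ 1 * (2 * (C * (1 + icK π π.length) * icRho π k)) := mul_le_mul_of_nonneg_right h2 (by linarith)
    _ = 2 * C * (1 + icK π π.length) * icRho π k := by ring

theorem ic_Rho_nonneg {a : ℝ} {π : List (ℝ × ℝ)} (h : IcAdm a π) (k : ℕ) : 0 ≤ icRho π k := by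
  unfold icRho
  split_ifs
  · exact le_rfl
  · exact ict_Vr_nonneg h _

theorem ic_K_nonneg {a : ℝ} {π : List (ℝ × ℝ)} (h : IcAdm a π) (k : ℕ) : 0 ≤ icK π k :=
  Finset.sum_nonneg fun i _ => ict_Vr_nonneg h i

/-- derivative of one stage -/
theorem ic_T_deriv (a : ℝ) (π : List (ℝ × ℝ)) (j : ℕ) {φ : ℝ → ℝ} (hφ : ScBd 1 φ) :
    deriv (icT a π j φ) = fun z => icT a π j (deriv φ) z + icMs a π j * icCov a π j φ (icM a π (j + 1)) z := by
  unfold icT icCov icT icM
  rw [sc_tr_deriv_eq (ic_F_BI a π (j + 1) 1) hφ.scE]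

/-- Abel sum of the conditional variances: `∑_{n ≥ j} p_(n+1) E_j Var_n(mh_(n+1)) = χ_j` -/
theorem ic_kV_abel {a : ℝ} (ha : a ≠ 0) (π : List (ℝ × ℝ)) : ∀ (d j : ℕ), j + d = π.length → ∀ z,
    ∑ n ∈ Icc j π.length, icMs a π n * ickV a π n j z = icX a π j z := by
  intro d
  induction d with
  | zero =>
    intro j hj z
    have : j = π.length := by omega
    subst this
    rw [Finset.Icc_self, Finset.sum_singleton, ict_Ms_top a le_rfl, ic_X_top ha le_rfl]
    unfold ickV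
    rw [ic_E_self, ic_Vn_top]
  | succ d ih =>
    intro j hj z
    have hjN : j < π.length := by omega
    rw [← Finset.sum_Ioc_add_eq_sum_Icc hjN.le, ← Finset.Icc_add_one_left_eq_Ioc, ic_X_succ a hjN]
    have e1 : ickV a π j j = icCov a π j (icM a π (j + 1)) (icM a π (j + 1)) := by
      unfold ickV
      rw [ic_E_self, ic_Vn_eq_cov a hjN]
    have e2 : icX a π (j + 1) = fun y => ∑ n ∈ Icc (j + 1) π.length, icMs a π n * ickV a π n (j + 1) y :=
      funext fun y => (ih (j + 1) (by omega) y).symm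
    rw [e1, e2, ic_T_sum a π j _ fun n _ => (ic_kV_Bd a π n (j + 1) 0).const_mul _]
    congr 1
    refine Finset.sum_congr rfl fun n hn => ?_
    rw [ic_T_const_mul, ic_kV_succ a (by have := (mem_Icc.1 hn).1; omega) (mem_Icc.1 hn).2]

/-- Abel sum of the mixed kernels: `∑_{n ≥ j} p_(n+1) E_j Cov_n(mh_(n+1), X_t) = ∂_z E_j(m_t²) / 2` -/
theorem ic_kA_abel {a : ℝ} (ha : a ≠ 0) (π : List (ℝ × ℝ)) {t : ℕ} (ht : t ≤ π.length) : ∀ (d j : ℕ), j + d = t → ∀ z,
    ∑ n ∈ Icc j π.length, icMs a π n * ickA a π n j t z = 2⁻¹ * deriv (icQ a π j t) z := by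
  intro d
  induction d with
  | zero =>
    intro j hj z
    have : j = t := by omega
    subst this
    have e : ∀ n ∈ Icc j π.length, icMs a π n * ickA a π n j j z = icM a π j z * (icMs a π n * ickV a π n j z) := by
      intro n hn
      rw [ic_kA_self a π (mem_Icc.1 hn).1]
      ring
    rw [Finset.sum_congr rfl e, ← Finset.mul_sum, ic_kV_abel ha π (π.length - j) j (by omega), ic_Q_self, ic_S_of_le a ht]
    have hd : HasDerivAt (icM a π j) (icX a π j z) z := ((ic_M_Bd a π j 1).2.1 z).hasDerivAt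
    rw [(hd.fun_pow 2).deriv]
    simp
    ring
  | succ d ih =>
    intro j hj z
    have hjt : j < t := by omega
    have hjN : j < π.length := by omega
    rw [← Finset.sum_Ioc_add_eq_sum_Icc hjN.le, ← Finset.Icc_add_one_left_eq_Ioc, ← ic_Q_step a hjN hjt, ic_T_deriv a π j (ic_Q_Bd a π _ _ 1)]
    have e1 : ickA a π j j t = fun z => 2⁻¹ * icCov a π j (icQ a π (j + 1) t) (icM a π (j + 1)) z := by
      unfold ickA
      rw [if_neg (by omega), ic_E_self]
      funext z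
      rw [ic_cov_const_mul_right, ic_cov_symm]
    have e2 : deriv (icQ a π (j + 1) t) = fun y => 2 * ∑ n ∈ Icc (j + 1) π.length, icMs a π n * ickA a π n (j + 1) t y :=
      funext fun y => by rw [ih (j + 1) (by omega) y]; ring
    rw [e1, e2, ic_T_const_mul, ic_T_sum a π j _ fun n _ => (ic_kA_Bd a π n (j + 1) t 0).const_mul _]
    have e3 : ∀ n ∈ Icc (j + 1) π.length, icMs a π n * ickA a π n j t z
        = icT a π j (fun y => icMs a π n * ickA a π n (j + 1) t y) z := by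
      intro n hn
      rw [ic_T_const_mul, ic_kA_succ a (by have := (mem_Icc.1 hn).1; omega) (mem_Icc.1 hn).2 hjt]
    rw [Finset.sum_congr rfl e3]
    ring

/-- covariance along the chain, telescoped over the stages -/
theorem ic_E_cov_tel {a : ℝ} {π : List (ℝ × ℝ)} (h : IcAdm a π) (ha1 : a ≤ 1) {A B : ℝ} (z : ℝ) : ∀ r : ℕ, r ≤ π.length →
    ∀ f g : ℝ → ℝ, (∀ n, n ≤ r → ScN 1 A (icE a π n r f)) → (∀ n, n ≤ r → ScN 1 B (icE a π n r g)) →
    |icE a π 0 r (fun y => f y * g y) z - icE a π 0 r f z * icE a π 0 r g z|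
      ≤ 2 * A * B * ∑ n ∈ range r, icVr π n * (1 + 2 * icVr π n) := by
  intro r
  induction r with
  | zero =>
    intro _ f g _ _
    simp [ic_E_self]
  | succ r ih =>
    intro hr f g hf hg
    have hrN : r < π.length := hr
    have hf0 : ScN 1 A f := by have := hf (r + 1) le_rfl; rwa [ic_E_self] at this
    have hg0 : ScN 1 B g := by have := hg (r + 1) le_rfl; rwa [ic_E_self] at this
    have h1 := ic_E_cov a (Nat.zero_le r) hrN hf0.scBd.of_succ hg0.scBd.of_succ z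
    have h2 := ih hrN.le (icT a π r f) (icT a π r g)
      (fun n hn => by rw [← ic_E_step a hrN, ic_E_tower a π hn (Nat.le_succ r)]; exact hf n (by omega))
      (fun n hn => by rw [← ic_E_step a hrN, ic_E_tower a π hn (Nat.le_succ r)]; exact hg n (by omega))
    have h3 : |icE a π 0 r (icCov a π r f g) z| ≤ 2 * A * B * (icVr π r * (1 + 2 * icVr π r)) :=
      ic_E_abs_le a π 0 r (ic_cov_Bd a π r hf0.scBd.of_succ hg0.scBd.of_succ).2
        (fun y => ic_cov_abs_le h ha1 hrN hf0 hg0 y) z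
    rw [← ic_E_succ' a (Nat.zero_le r) hrN, ← ic_E_succ' a (Nat.zero_le r) hrN] at h2
    rw [Finset.sum_range_succ, mul_add]
    have h2' := abs_le.1 h2
    have h3' := abs_le.1 h3
    rw [abs_le]
    constructor <;> linarith [h2'.1, h2'.2, h3'.1, h3'.2]

theorem ic_BB_split (a : ℝ) (π : List (ℝ × ℝ)) {r : ℕ} (hr : r ≤ π.length) (t : ℕ) :
    icBB a π 0 r t = ∑ n ∈ range r, icMs a π n * icBk a π (n + 1) r t + ∑ n ∈ Icc r π.length, icMs a π n * icBk a π (n + 1) r t := by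
  unfold icBB
  have e1 : Icc 0 (π.length + 1) = range (π.length + 1 + 1) := by
    ext x; simp only [mem_Icc, mem_range]; omega
  have e2 : Icc r π.length = Ico r (π.length + 1) := by
    ext x; simp only [mem_Icc, mem_Ico]; omega
  rw [e1, Finset.sum_range_succ', e2, Finset.sum_range_add_sum_Ico _ (by omega : r ≤ π.length + 1)]
  have : icP a π 0 = 0 := by simp [icP]
  rw [this, zero_mul, add_zero]
  refine Finset.sum_congr rfl fun n _ => ?_
  simp [icP]

theorem ic_BB_min_aux : ∃ C : ℝ, 1 ≤ C ∧ ∀ (a : ℝ) (π : List (ℝ × ℝ)), IcAdm a π → a ≤ 1 → ∀ r t : ℕ, r ≤ t → t ≤ π.length →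
    |icBB a π 0 r t| ≤ C * (1 + icK π π.length) * icK π r := by
  obtain ⟨C1, hC1, H1⟩ := ic_Bk_le
  obtain ⟨K1, hK1, T1⟩ := ic_tau 1
  obtain ⟨K2, hK2, T2⟩ := ic_tau 2
  have hB0 : 0 ≤ K1 * (|(2:ℝ)⁻¹| * (K2 * (2 ^ 2 * (K2 * K2)))) := by positivity
  refine ⟨C1 + 4 * K1 * (K1 * (|(2:ℝ)⁻¹| * (K2 * (2 ^ 2 * (K2 * K2))))), by nlinarith, fun a π h ha r t hrt ht => ?_⟩
  set B := K1 * (|(2:ℝ)⁻¹| * (K2 * (2 ^ 2 * (K2 * K2)))) with hB
  have ha0 : a ≠ 0 := h.pos.ne'
  have hr : r ≤ π.length := hrt.trans ht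
  have hv := ict_Vr_nonneg h
  have hKN := ic_K_nonneg h π.length
  have hKr := ic_K_nonneg h r
  rw [ic_BB_split a π hr]
  -- the low sectors
  have p1 : |∑ n ∈ range r, icMs a π n * icBk a π (n + 1) r t| ≤ C1 * (1 + icK π π.length) * icK π r := by
    refine (Finset.abs_sum_le_sum_abs _ _).trans ?_
    unfold icK
    rw [Finset.mul_sum]
    refine Finset.sum_le_sum fun n hn => ?_
    have hn' : n + 1 ≤ π.length := by have := mem_range.1 hn; omega
    have h1 := (H1 a π h ha r t hr ht).1 (n + 1) hn'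
    have h2 : icRho π (n + 1) = icVr π n := by simp [icRho]
    rw [h2] at h1
    have h3 := ict_Ms_mem h n
    rw [abs_mul, abs_of_nonneg h3.1]
    calc icMs a π n * |icBk a π (n + 1) r t| ≤ 1 * |icBk a π (n + 1) r t| :=
          mul_le_mul_of_nonneg_right (h3.2.trans ha) (abs_nonneg _)
      _ ≤ _ := by rw [one_mul]; exact h1
  -- the high sectors
  have e1 : ∑ n ∈ Icc r π.length, icMs a π n * icBk a π (n + 1) r t
      = icE a π 0 r (fun y => icM a π r y * (2⁻¹ * deriv (icQ a π r t) y)) 0 := by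
    have e2 : (fun y => icM a π r y * (2⁻¹ * deriv (icQ a π r t) y))
        = fun y => ∑ n ∈ Icc r π.length, icMs a π n * (icM a π r y * ickA a π n r t y) := by
      funext y
      rw [← ic_kA_abel ha0 π ht (t - r) r (by omega) y, Finset.mul_sum]
      exact Finset.sum_congr rfl fun n _ => by ring
    rw [e2, ic_E_sum a π 0 r _ fun n _ => ((ic_M_Bd a π r 0).mul (ic_kA_Bd a π n r t 0)).const_mul _]
    refine Finset.sum_congr rfl fun n hn => ?_
    rw [ic_E_const_mul, ic_Bk_eq a hr ht (mem_Icc.1 hn).2]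
    unfold ickD ickD0
    rw [min_eq_left hrt, max_eq_right hrt, if_pos (mem_Icc.1 hn).1]
  have hg : ScN 1 (|(2:ℝ)⁻¹| * (K2 * (2 ^ 2 * (K2 * K2)))) (fun y => 2⁻¹ * deriv (icQ a π r t) y) := by
    refine ScN.const_mul _ (ScN.der ?_)
    unfold icQ
    refine (T2 a π h ha).2 r t _ _ ?_
    rw [ic_S_of_le a ht]
    have := ((T2 a π h ha).1 t).mul ((T2 a π h ha).1 t)
    simpa [sq] using this
  have p2 := ic_E_cov_tel h ha (A := K1) (B := B) 0 r hr (icM a π r) (fun y => 2⁻¹ * deriv (icQ a π r t) y)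
    (fun n hn => by rw [ic_M_mart a π hn]; exact (T1 a π h ha).1 n)
    (fun n _ => (T1 a π h ha).2 n r _ _ hg)
  rw [ic_M_mart a π (Nat.zero_le r), ic_M_zero ha0, zero_mul, sub_zero, ← e1] at p2
  have p3 : ∑ n ∈ range r, icVr π n * (1 + 2 * icVr π n) ≤ 2 * (1 + icK π π.length) * icK π r := by
    unfold icK
    rw [Finset.mul_sum]
    refine Finset.sum_le_sum fun n hn => ?_
    have h1 : icVr π n ≤ ∑ i ∈ range π.length, icVr π i :=
      Finset.single_le_sum (f := fun i => icVr π i) (fun i _ => hv i) (mem_range.2 (by have := mem_range.1 hn; omega))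
    nlinarith [hv n]
  have p4 : 2 * K1 * B * ∑ n ∈ range r, icVr π n * (1 + 2 * icVr π n) ≤ 2 * K1 * B * (2 * (1 + icK π π.length) * icK π r) :=
    mul_le_mul_of_nonneg_left p3 (by positivity)
  calc _ ≤ _ := abs_add_le _ _
    _ ≤ C1 * (1 + icK π π.length) * icK π r + 2 * K1 * B * (2 * (1 + icK π π.length) * icK π r) := add_le_add p1 (p2.trans p4)
    _ = _ := by ring

/-- (E3) -/
theorem ic_BB_min : ∃ C : ℝ, 1 ≤ C ∧ ∀ (a : ℝ) (π : List (ℝ × ℝ)), IcAdm a π → a ≤ 1 → ∀ r t : ℕ, r ≤ π.length → t ≤ π.length →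
    |icBB a π 0 r t| ≤ C * (1 + icK π π.length) * icK π (min r t) := by
  obtain ⟨C, hC, H⟩ := ic_BB_min_aux
  refine ⟨C, hC, fun a π h ha r t hr ht => ?_⟩
  rcases le_total r t with hrt | htr
  · rw [min_eq_left hrt]; exact H a π h ha r t hrt ht
  · have e : icBB a π 0 r t = icBB a π 0 t r := by
      unfold icBB
      exact Finset.sum_congr rfl fun k _ => by rw [ic_Bk_symm]
    rw [min_eq_right htr, e]; exact H a π h ha t r htr hr

theorem ic_P_mem {a : ℝ} {π : List (ℝ × ℝ)} (h : IcAdm a π) (k : ℕ) : 0 ≤ icP a π k ∧ icP a π k ≤ a := by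
  unfold icP
  split_ifs
  · exact ⟨le_rfl, h.pos.le⟩
  · exact ict_Ms_mem h _

theorem ic_Rho_sum (π : List (ℝ × ℝ)) (n : ℕ) : ∑ k ∈ range (n + 1), icRho π k = icK π n := by
  rw [Finset.sum_range_succ']
  simp [icRho, icK]

/-- (E4) -/
theorem ic_BB_le : ∃ C : ℝ, 1 ≤ C ∧ ∀ (a : ℝ) (π : List (ℝ × ℝ)), IcAdm a π → a ≤ 1 → ∀ k r t : ℕ, r ≤ π.length → t ≤ π.length →
    |icBB a π k r t| ≤ C * (1 + icK π π.length) ^ 2 := by
  obtain ⟨C, hC, H⟩ := ic_Bk_le
  refine ⟨C, hC, fun a π h ha k r t hr ht => ?_⟩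
  have hK := ic_K_nonneg h π.length
  have hb : ∀ k', |icP a π k' * icBk a π k' r t| ≤ |icBk a π k' r t| := by
    intro k'
    have h3 := ic_P_mem h k'
    rw [abs_mul, abs_of_nonneg h3.1]
    calc icP a π k' * |icBk a π k' r t| ≤ 1 * |icBk a π k' r t| :=
          mul_le_mul_of_nonneg_right (h3.2.trans ha) (abs_nonneg _)
      _ = _ := one_mul _
  have hsub : Icc k (π.length + 1) ⊆ range (π.length + 1 + 1) := fun x hx => by
    rw [mem_Icc] at hx; rw [mem_range]; omega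
  unfold icBB
  calc |∑ k' ∈ Icc k (π.length + 1), icP a π k' * icBk a π k' r t|
      ≤ ∑ k' ∈ Icc k (π.length + 1), |icP a π k' * icBk a π k' r t| := Finset.abs_sum_le_sum_abs _ _
    _ ≤ ∑ k' ∈ range (π.length + 1 + 1), |icP a π k' * icBk a π k' r t| :=
        Finset.sum_le_sum_of_subset_of_nonneg hsub fun _ _ _ => abs_nonneg _
    _ ≤ ∑ k' ∈ range (π.length + 1 + 1), |icBk a π k' r t| := Finset.sum_le_sum fun k' _ => hb k'
    _ = ∑ k' ∈ range (π.length + 1), |icBk a π k' r t| + |icBk a π (π.length + 1) r t| := Finset.sum_range_succ _ _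
    _ ≤ ∑ k' ∈ range (π.length + 1), C * (1 + icK π π.length) * icRho π k' + 1 :=
        add_le_add (Finset.sum_le_sum fun k' hk' => (H a π h ha r t hr ht).1 k' (by have := mem_range.1 hk'; omega))
          (H a π h ha r t hr ht).2
    _ = C * (1 + icK π π.length) * icK π π.length + 1 := by rw [← Finset.mul_sum, ic_Rho_sum]
    _ ≤ C * (1 + icK π π.length) ^ 2 := by nlinarith

/-- **EXIT of the unit SCB** -/
theorem ic_scb : ∃ β0 : ℝ, 1 ≤ β0 ∧ ∀ (a : ℝ) (π : List (ℝ × ℝ)), IcAdm a π → a ≤ 1 →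
    IcScb (β0 * (1 + icK π π.length) ^ 2) a π := by
  obtain ⟨C1, hC1, H1⟩ := ic_Bk_le
  obtain ⟨C2, hC2, H2⟩ := ic_BB_adj
  obtain ⟨C3, hC3, H3⟩ := ic_BB_min
  obtain ⟨C4, hC4, H4⟩ := ic_BB_le
  obtain ⟨C5, hC5, H5⟩ := ic_C_le
  obtain ⟨C6, hC6, H6⟩ := ic_Gk_adj
  obtain ⟨C7, hC7, H7⟩ := ic_Bet_adj
  obtain ⟨C8, hC8, H8⟩ := ic_Tl_adj
  refine ⟨C1 + C2 + C3 + C4 + C5 + C6 + C7 + C8, by linarith, fun a π h ha => ?_⟩
  set κ := 1 + icK π π.length with hκ
  have hκ1 : 1 ≤ κ := by have := ic_K_nonneg h π.length; linarith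
  have hκ2 : κ ≤ κ ^ 2 := by nlinarith
  set β := (C1 + C2 + C3 + C4 + C5 + C6 + C7 + C8) * κ ^ 2 with hβ
  have key : ∀ C : ℝ, 0 ≤ C → C ≤ C1 + C2 + C3 + C4 + C5 + C6 + C7 + C8 → C * κ ≤ β ∧ C * κ ^ 2 ≤ β ∧ 1 ≤ β := by
    intro C h0 hC
    have h2 : C * κ ^ 2 ≤ β := mul_le_mul_of_nonneg_right hC (by positivity)
    refine ⟨(mul_le_mul_of_nonneg_left hκ2 h0).trans h2, h2, ?_⟩
    have : (1:ℝ) * 1 ≤ (C1 + C2 + C3 + C4 + C5 + C6 + C7 + C8) * κ ^ 2 := mul_le_mul (by linarith) (by nlinarith) zero_le_one (by linarith)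
    linarith
  have k1 := key C1 (by linarith) (by linarith)
  have k2 := key C2 (by linarith) (by linarith)
  have k3 := key C3 (by linarith) (by linarith)
  have k4 := key C4 (by linarith) (by linarith)
  have k5 := key C5 (by linarith) (by linarith)
  have k6 := key C6 (by linarith) (by linarith)
  have k7 := key C7 (by linarith) (by linarith)
  have k8 := key C8 (by linarith) (by linarith)
  have hρ := ic_Rho_nonneg h
  refine ⟨ic_Bk_symm a π, ic_Bk_row0 h, fun k hk c => ic_Bk_psd h hk c, ?_, ?_, ?_, ?_, fun r i l hr => ic_C_nonneg h hr i l,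
    ic_C_symm a π, ?_, ?_, ?_, ?_, ?_, ic_Tl_top h, fun r hr => ic_G_top h hr, fun r i l hr hi hl => ic_G_mem h hr hi hl, ?_, ?_⟩
  · intro k r t hk hr ht
    exact ((H1 a π h ha r t hr ht).1 k hk).trans (mul_le_mul_of_nonneg_right k1.1 (hρ k))
  · intro r t hr ht
    exact ((H1 a π h ha r t hr ht).2).trans k1.2.2
  · intro k t j hk hk' ht hj
    exact (H2 a π h ha k t j hk hk' ht hj).trans (mul_le_mul_of_nonneg_right k2.1 (hρ k))
  · intro k t i hk hk' ht
    exact (H7 a π h ha k t i hk hk' ht).trans (mul_le_mul_of_nonneg_right k7.1 (hρ k))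
  · intro r i l hi hl hi' hl'
    exact ((H5 a π h ha r i l hi hl).1 hi' hl').trans
      (mul_le_mul_of_nonneg_right (mul_le_mul_of_nonneg_right k5.2.1 (hρ i)) (hρ l))
  · intro r i hi hi'
    exact ((H5 a π h ha r i i hi hi).2.1 hi').trans (mul_le_mul_of_nonneg_right k5.1 (hρ i))
  · intro r
    rcases Nat.lt_or_ge r (π.length + 1) with hr | hr
    · exact ((H5 a π h ha r _ _ hr hr).2.2).trans k5.2.2
    · have : icC a π r (π.length + 1) (π.length + 1) = 0 := by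
        unfold icC icGam
        rw [if_neg (by omega), if_neg (by omega), if_neg (by omega), if_neg (by omega)]
        ring
      rw [this]; linarith [k5.2.2]
  · intro k j hk hk' hj
    exact (H6 a π h ha k j hk hk' hj).trans (mul_le_mul_of_nonneg_right k6.1 (hρ k))
  · intro j i l hj hj' hi hl
    exact (H8 a π h ha j i l hj hj' hi hl).trans (mul_le_mul_of_nonneg_right k8.1 (hρ j))
  · intro r t hr ht
    exact (H3 a π h ha r t hr ht).trans (mul_le_mul_of_nonneg_right k3.1 (ic_K_nonneg h _))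
  · intro k r t hr ht
    exact (H4 a π h ha k r t hr ht).trans k4.2.1

end Claimed.Agent.R286
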