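import Claimed.Agent.R286.Inv.Alg
import Claimed.Agent.R286.Inv.ResolvA
import Claimed.Agent.R286.Inv.ResKit
import Claimed.Agent.R286.Inv.ScB
import Claimed.Agent.R286.Inv.Coef0
import Claimed.Agent.R286.Inv.Opk

/-!
# Row 286 (S0533), LL Section 5 (pair inverse), unit COEF: THE KERNELS OF THE INVERSE AND THEIR BOUNDS      (owner + prover helper17; 0 own sorry; prefix `vc_cf_`, `VcCoef`, `ic_cf_`)

Design: `origin/helper84:notes/R286/L05_design_84.md`, paragraph COEF.      TEX[LL:inv:pair-inverse] l.236-345 (additive resolvent, weighted differences, child multipliers).      INST[InvSec], INST[L05rOkN], INST[L05rFam]: closed HERE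
(`InvSec` of `Inv/KDiff`, `L05rFam` of `Inv/ResolvA` ask the adjacent Lipschitz bounds in ALL sectors: NOT delivered by SCB; `L05rOkN` is instantiated sector by sector with an evaluation distance adapted to `k`: `VcCoef.okN'`).

* `VcCoef p R r0 dK b dG dP β e` = masses (`p k > 0`, monotone for `1 ≤ k ≤ R + 1`, `p (R+1) = 1`, `p 0` ARBITRARY) + (P0)-(P5), (G1)-(G4) of the design; `Plow`: the sheets `< r0` are decoupled (`r0 = 1`: `IcScb.Prow0`);
  the gap (G3) on ALL sheets `r ≤ R` (put `b = 0` on the sheets which are not retained; the jump is paid in `|b k - b (k-1)|`).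
* KERNELS (explicit): `vcCd p R dG b r j j'` (child; mixed difference of `D = 1/(1 - b ĝ)` over `p_j p_j'`),   `vcCa p R r0 dG dP b r t k = (A^k_rt - A^(k+1)_rt) / p_k`, `A^k = vcAk` = `l05r_AN` of 123.
* `VcCoef.h1`, `VcCoef.h2`, `VcCoef.Ca_zero` = the hypotheses of `vc_inverse0`;      **`VcCoef.inverse`**: `vcOp p R r0 vcCd (- vcCa) (vcL p R r0 dG dP b w) x = w x`.
* SIZES, ONE constant `Λ` (`VcCoef.Sz`: `1 ≤ Λ`, `β (1 + K_R)² ≤ Λ`, `b ≤ Λ`, `1/Λ ≤ e`):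
  `Cd_le : |vcCd r j j'| ≤ 3 Λ^7 dK j dK j'`,  `Cd_le_top : |vcCd r j (R+1)| ≤ Λ^4 dK j`,  `Cd_le_top2 : |vcCd r (R+1) (R+1)| ≤ Λ`,  `Cd_symm`;
  `Ca_abs : |vcCa r t k| ≤ 30 Λ^11 (dK k + |b k - b (k-1)| + 1_{k = r0})` (`1 ≤ k ≤ R`),  `Ca_abs_top : |vcCa r t (R+1)| ≤ Λ^4`,  `Ca_of_b` (`b t = 0 ⟹ 0`), `Ca_of_not` (outside `[r0,R]²`).
* **MASS-FREE FORM** (IFACE of 177, sec. 3; for COEF at `(p_eps, frozen tables)`): `VcCoefH R p rho b dG dP L` (P5' on `vcPhi dP`, G4' on the tails `vcTl R dG`, sizes `≤ L`, gap `1/L`; (G5) not needed);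
  `VcCoefH.toCoef : VcCoef p R 1 rho b dG dP (5 L²) (1/L)` (Abel: `vc_cf_abel`, `vc_cf_P5`, `vc_cf_G4`),   `VcCoefH.sz : H.toCoef.Sz (20 L⁴)`.      `VcCoef` = `VcCoefB` (base) + (P5), (G4).
  **`ic_coefH`** = the instance of `VcCoefH` on the tables `icC 1 π`, `icBk 1 π` for ANY weights `p` (gap = hypothesis AT `p`);   `vc_cf_hatG_mono`, `vc_cf_hatG_lip` (`|ĝ_p' - ĝ_p| ≤ 2 ε tail`): the gap under a perturbation of the weights.
* **INSTANCE** `ic_coef : IcAdm 1 π → IcScb β 1 π → positive masses → gap `1 - b_r E χ_r² ≥ e` → VcCoef (icP 1 π) π.length 1 (icRho π) b (icC 1 π) (fun r t s => icBk 1 π s r t) β e`.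
-/

set_option autoImplicit false

namespace Claimed.Agent.R286

open Finset

/-! ## 0. finite sums -/

theorem vc_cf_tele (f : ℕ → ℝ) {k n : ℕ} (h : k ≤ n + 1) : ∑ s ∈ Icc k n, (f s - f (s + 1)) = f k - f (n + 1) := by
  induction n with
  | zero =>
    interval_cases k
    · simp
    · simp
  | succ n ih =>
    rcases Nat.lt_or_ge k (n + 2) with h1 | h1
    · rw [Finset.sum_Icc_succ_top (by omega), ih (by omega)]; ring
    · have : k = n + 2 := by omega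
      subst this
      rw [Finset.Icc_eq_empty (by omega)]; simp

theorem vc_cf_bot (f : ℕ → ℝ) {k n : ℕ} (h : k ≤ n) : ∑ s ∈ Icc k n, f s = f k + ∑ s ∈ Icc (k + 1) n, f s := by
  rw [← insert_Icc_add_one_left_eq_Icc h, sum_insert (by simp)]

theorem vc_cf_sub_range (f : ℕ → ℝ) (hf : ∀ s, 0 ≤ f s) (k n : ℕ) : ∑ s ∈ Icc k n, f s ≤ ∑ s ∈ range (n + 1), f s :=
  sum_le_sum_of_subset_of_nonneg (fun s hs => by rw [mem_Icc] at hs; rw [mem_range]; omega) fun s _ _ => hf s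

/-- extended increments: `dK j` for `j ≤ R`, `1` at the terminal level -/
noncomputable def vcDk (R : ℕ) (dK : ℕ → ℝ) (j : ℕ) : ℝ := if j ≤ R then dK j else 1

/-- `K_R` -/
noncomputable def vcKt (R : ℕ) (dK : ℕ → ℝ) : ℝ := ∑ j ∈ range (R + 1), dK j

theorem vc_cf_sum_dk (R : ℕ) (dK : ℕ → ℝ) : ∑ j ∈ range (R + 2), vcDk R dK j = 1 + vcKt R dK := by
  rw [sum_range_succ, add_comm]
  congr 1
  · simp [vcDk]
  · refine sum_congr rfl fun j hj => ?_
    rw [mem_range] at hj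
    simp only [vcDk]; rw [if_pos (by omega)]

/-- **hypotheses of the unit COEF, base part** (design of helper84): masses, (P0)-(P3), (G1)-(G3) -/
structure VcCoefB (p : ℕ → ℝ) (R r0 : ℕ) (dK b : ℕ → ℝ) (dG dP : ℕ → ℕ → ℕ → ℝ) (β e : ℝ) : Prop where
  r0_pos : 1 ≤ r0
  ppos : ∀ k, 1 ≤ k → k ≤ R + 1 → 0 < p k
  pmono : ∀ k, 1 ≤ k → k ≤ R → p k ≤ p (k + 1)
  ptop : p (R + 1) = 1
  dK0 : ∀ k, 0 ≤ dK k
  β1 : 1 ≤ β
  e0 : 0 < e
  b0 : ∀ r, r ≤ R → 0 ≤ b r
  P0 : ∀ r t, dP r t 0 = 0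
  Plow : ∀ r, r < r0 → ∀ t s, dP r t s = 0
  P1 : ∀ r t s, dP r t s = dP t r s
  P2 : ∀ s, s ≤ R + 1 → ∀ c : ℕ → ℝ, 0 ≤ ∑ r ∈ range (R + 1), ∑ t ∈ range (R + 1), c r * c t * dP r t s
  P3 : ∀ r t s, r ≤ R → t ≤ R → s ≤ R → |dP r t s| ≤ β * dK s
  P3' : ∀ r t, r ≤ R → t ≤ R → |dP r t (R + 1)| ≤ β
  G1 : ∀ r j j', r ≤ R → 0 ≤ dG r j j'
  G1' : ∀ r j j', dG r j j' = dG r j' j
  G2 : ∀ r j j', r < j → r < j' → j ≤ R → j' ≤ R → dG r j j' ≤ β * dK j * dK j'
  G2' : ∀ r j, r < j → j ≤ R → dG r j (R + 1) ≤ β * dK j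
  G2'' : ∀ r, dG r (R + 1) (R + 1) ≤ β
  G3 : ∀ r, r ≤ R → e ≤ 1 - b r * vcHatG p R dG r (r + 1) (r + 1)

/-- **hypotheses of the unit COEF**: base part + (P5), (G4) = adjacent rows `k - 1, k` in the two sectors `j ∈ {k, k+1}` -/
structure VcCoef (p : ℕ → ℝ) (R r0 : ℕ) (dK b : ℕ → ℝ) (dG dP : ℕ → ℕ → ℕ → ℝ) (β e : ℝ) : Prop extends VcCoefB p R r0 dK b dG dP β e where
  P5 : ∀ k t j, 1 ≤ k → k ≤ R → t ≤ R → (j = k ∨ j = k + 1) → |vcHatP p R dP k t j - vcHatP p R dP (k - 1) t j| ≤ β * dK k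
  G4 : ∀ k j, 1 ≤ k → k ≤ R → (j = k ∨ j = k + 1) → |vcHatK p R dG j k - vcHatK p R dG j (k - 1)| ≤ β * dK k

/-- the partial sum `∑_{j' ≥ l} p_j' dG r j j'` -/
noncomputable def vcTG (p : ℕ → ℝ) (R : ℕ) (dG : ℕ → ℕ → ℕ → ℝ) (r j l : ℕ) : ℝ := ∑ j' ∈ Icc l (R + 1), p j' * dG r j j'

/-- `D_r^{il} = 1 / (1 - b_r ĝ_r^{il})`, `0` beyond the terminal level -/
noncomputable def vcDD (p : ℕ → ℝ) (R : ℕ) (dG : ℕ → ℕ → ℕ → ℝ) (b : ℕ → ℝ) (r i l : ℕ) : ℝ :=
  if i ≤ R + 1 ∧ l ≤ R + 1 then 1 / (1 - b r * vcHatG p R dG r i l) else 0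

/-- **the child kernel of the inverse** -/
noncomputable def vcCd (p : ℕ → ℝ) (R : ℕ) (dG : ℕ → ℕ → ℕ → ℝ) (b : ℕ → ℝ) (r j j' : ℕ) : ℝ :=
  (vcDD p R dG b r j j' - vcDD p R dG b r (j + 1) j' - vcDD p R dG b r j (j' + 1) + vcDD p R dG b r (j + 1) (j' + 1)) / (p j * p j')

theorem vc_cf_eqns_cite : True := by
  have := @vcDk.eq_1
  have := @vcKt.eq_1
  have := @vcTG.eq_1
  have := @vcDD.eq_1
  have := @vcCd.eq_1
  trivial

namespace VcCoefB

variable {p : ℕ → ℝ} {R r0 : ℕ} {dK b : ℕ → ℝ} {dG dP : ℕ → ℕ → ℕ → ℝ} {β e : ℝ}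

theorem p_le (H : VcCoefB p R r0 dK b dG dP β e) : ∀ k, 1 ≤ k → k ≤ R + 1 → p k ≤ 1 := by
  have key : ∀ n k, 1 ≤ k → k + n = R + 1 → p k ≤ 1 := by
    intro n
    induction n with
    | zero => intro k _ hk; rw [show k = R + 1 by omega, H.ptop]
    | succ n ih => intro k h1 hk; exact (H.pmono k h1 (by omega)).trans (ih (k + 1) (by omega) (by omega))
  intro k h1 h2
  exact key (R + 1 - k) k h1 (by omega)

theorem dk_nonneg (H : VcCoefB p R r0 dK b dG dP β e) (j : ℕ) : 0 ≤ vcDk R dK j := by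
  unfold vcDk; split_ifs
  · exact H.dK0 j
  · norm_num

theorem kt_nonneg (H : VcCoefB p R r0 dK b dG dP β e) : 0 ≤ vcKt R dK := sum_nonneg fun j _ => H.dK0 j

theorem β0 (H : VcCoefB p R r0 dK b dG dP β e) : 0 < β := lt_of_lt_of_le one_pos H.β1

/-- (G2) in uniform form -/
theorem G2u (H : VcCoefB p R r0 dK b dG dP β e) {r j j' : ℕ} (hj : r < j) (hj' : r < j') (h1 : j ≤ R + 1) (h2 : j' ≤ R + 1) :
    dG r j j' ≤ β * vcDk R dK j * vcDk R dK j' := by
  unfold vcDk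
  rcases Nat.lt_or_ge R j with a | a <;> rcases Nat.lt_or_ge R j' with a' | a'
  · rw [if_neg (by omega), if_neg (by omega), show j = R + 1 by omega, show j' = R + 1 by omega]
    simpa using H.G2'' r
  · rw [if_neg (by omega), if_pos a', show j = R + 1 by omega, H.G1']
    simpa using H.G2' r j' hj' a'
  · rw [if_pos a, if_neg (by omega), show j' = R + 1 by omega]
    simpa using H.G2' r j hj a
  · rw [if_pos a, if_pos a']
    exact H.G2 r j j' hj hj' a a'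

/-- (P3) in uniform form -/
theorem P3u (H : VcCoefB p R r0 dK b dG dP β e) {r t s : ℕ} (hr : r ≤ R) (ht : t ≤ R) (hs : s ≤ R + 1) :
    |dP r t s| ≤ β * vcDk R dK s := by
  unfold vcDk
  rcases Nat.lt_or_ge R s with a | a
  · rw [if_neg (by omega), show s = R + 1 by omega]
    simpa using H.P3' r t hr ht
  · rw [if_pos a]
    exact H.P3 r t s hr ht a

theorem TG_nonneg (H : VcCoefB p R r0 dK b dG dP β e) {r l : ℕ} (hr : r ≤ R) (j : ℕ) (hl : 1 ≤ l) : 0 ≤ vcTG p R dG r j l :=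
  sum_nonneg fun j' hj' => by
    rw [mem_Icc] at hj'
    exact mul_nonneg (H.ppos j' (by omega) hj'.2).le (H.G1 r j j' hr)

theorem TG_le (H : VcCoefB p R r0 dK b dG dP β e) {r j l : ℕ} (hr : r ≤ R) (hj : r < j) (hj' : j ≤ R + 1) (hl : r < l) :
    vcTG p R dG r j l ≤ β * vcDk R dK j * (1 + vcKt R dK) := by
  have h0 := H.β0
  have h1 := H.dk_nonneg j
  calc vcTG p R dG r j l ≤ ∑ j' ∈ Icc l (R + 1), β * vcDk R dK j * vcDk R dK j' := by
        refine sum_le_sum fun j' hj'' => ?_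
        rw [mem_Icc] at hj''
        have a1 := H.G2u hj (show r < j' by omega) hj' hj''.2
        have a2 := H.p_le j' (by omega) hj''.2
        have a3 := H.G1 r j j' hr
        have a4 := (H.ppos j' (by omega) hj''.2).le
        nlinarith
    _ ≤ ∑ j' ∈ range (R + 1 + 1), β * vcDk R dK j * vcDk R dK j' :=
        vc_cf_sub_range _ (fun s => mul_nonneg (mul_nonneg h0.le h1) (H.dk_nonneg s)) _ _
    _ = β * vcDk R dK j * (1 + vcKt R dK) := by rw [← mul_sum, vc_cf_sum_dk]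

theorem hatG_eq (p : ℕ → ℝ) (R : ℕ) (dG : ℕ → ℕ → ℕ → ℝ) (r i l : ℕ) :
    vcHatG p R dG r i l = ∑ j ∈ Icc i (R + 1), p j * vcTG p R dG r j l := by
  unfold vcHatG vcTG
  refine sum_congr rfl fun j _ => ?_
  rw [mul_sum]
  exact sum_congr rfl fun j' _ => by ring

theorem hatG_symm (H : VcCoefB p R r0 dK b dG dP β e) (r i l : ℕ) : vcHatG p R dG r i l = vcHatG p R dG r l i := by
  unfold vcHatG
  rw [sum_comm]
  refine sum_congr rfl fun j _ => sum_congr rfl fun j' _ => ?_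
  rw [H.G1' r j' j]; ring

/-- first difference in the first index -/
theorem hatG_diff (p : ℕ → ℝ) (R : ℕ) (dG : ℕ → ℕ → ℕ → ℝ) (r : ℕ) {i : ℕ} (hi : i ≤ R + 1) (l : ℕ) :
    vcHatG p R dG r i l - vcHatG p R dG r (i + 1) l = p i * vcTG p R dG r i l := by
  rw [hatG_eq, hatG_eq, vc_cf_bot _ hi]; ring

theorem TG_diff (p : ℕ → ℝ) (R : ℕ) (dG : ℕ → ℕ → ℕ → ℝ) (r j : ℕ) {l : ℕ} (hl : l ≤ R + 1) :
    vcTG p R dG r j l - vcTG p R dG r j (l + 1) = p l * dG r j l := by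
  unfold vcTG
  rw [vc_cf_bot _ hl]; ring

theorem hatG_nonneg (H : VcCoefB p R r0 dK b dG dP β e) {r i l : ℕ} (hr : r ≤ R) (hi : 1 ≤ i) (hl : 1 ≤ l) : 0 ≤ vcHatG p R dG r i l := by
  rw [hatG_eq]
  refine sum_nonneg fun j hj => ?_
  rw [mem_Icc] at hj
  exact mul_nonneg (H.ppos j (by omega) hj.2).le (H.TG_nonneg hr j hl)

/-- monotonicity in the first index -/
theorem hatG_anti (H : VcCoefB p R r0 dK b dG dP β e) {r i i' l : ℕ} (hr : r ≤ R) (hi : 1 ≤ i) (hii : i ≤ i') (hl : 1 ≤ l) :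
    vcHatG p R dG r i' l ≤ vcHatG p R dG r i l := by
  rw [hatG_eq, hatG_eq]
  refine sum_le_sum_of_subset_of_nonneg (Icc_subset_Icc hii le_rfl) fun j hj _ => ?_
  rw [mem_Icc] at hj
  exact mul_nonneg (H.ppos j (by omega) hj.2).le (H.TG_nonneg hr j hl)

theorem hatG_le_top (H : VcCoefB p R r0 dK b dG dP β e) {r i l : ℕ} (hr : r ≤ R) (hi : r < i) (hl : r < l) :
    vcHatG p R dG r i l ≤ vcHatG p R dG r (r + 1) (r + 1) := by
  calc vcHatG p R dG r i l ≤ vcHatG p R dG r (r + 1) l := H.hatG_anti hr (by omega) hi (by omega)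
    _ = vcHatG p R dG r l (r + 1) := H.hatG_symm _ _ _
    _ ≤ vcHatG p R dG r (r + 1) (r + 1) := H.hatG_anti hr (by omega) hl (by omega)

/-- the gap on all child sectors -/
theorem gap (H : VcCoefB p R r0 dK b dG dP β e) {r i l : ℕ} (hr : r ≤ R) (hi : r < i) (hl : r < l) :
    e ≤ 1 - b r * vcHatG p R dG r i l := by
  have h1 := H.G3 r hr
  have h2 := mul_le_mul_of_nonneg_left (H.hatG_le_top hr hi hl) (H.b0 r hr)
  linarith

theorem hatG_le (H : VcCoefB p R r0 dK b dG dP β e) {r i l : ℕ} (hr : r ≤ R) (hi : r < i) (hl : r < l) :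
    vcHatG p R dG r i l ≤ β * (1 + vcKt R dK) ^ 2 := by
  have h0 := H.β0
  have hk := H.kt_nonneg
  rw [hatG_eq]
  calc ∑ j ∈ Icc i (R + 1), p j * vcTG p R dG r j l ≤ ∑ j ∈ Icc i (R + 1), β * (1 + vcKt R dK) * vcDk R dK j := by
        refine sum_le_sum fun j hj => ?_
        rw [mem_Icc] at hj
        have a1 := H.TG_le hr (show r < j by omega) hj.2 hl
        have a2 := H.p_le j (by omega) hj.2
        have a3 := H.TG_nonneg hr j (show 1 ≤ l by omega)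
        have a4 := (H.ppos j (by omega) hj.2).le
        nlinarith
    _ ≤ ∑ j ∈ range (R + 1 + 1), β * (1 + vcKt R dK) * vcDk R dK j :=
        vc_cf_sub_range _ (fun s => mul_nonneg (by positivity) (H.dk_nonneg s)) _ _
    _ = β * (1 + vcKt R dK) ^ 2 := by rw [← mul_sum, vc_cf_sum_dk]; ring


/-! ## 2. the child kernel -/

theorem DD_eq (p : ℕ → ℝ) (R : ℕ) (dG : ℕ → ℕ → ℕ → ℝ) (b : ℕ → ℝ) (r : ℕ) {i l : ℕ} (hi : i ≤ R + 1) (hl : l ≤ R + 1) :
    vcDD p R dG b r i l = 1 / (1 - b r * vcHatG p R dG r i l) := by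
  unfold vcDD; rw [if_pos ⟨hi, hl⟩]

theorem DD_top1 (p : ℕ → ℝ) (R : ℕ) (dG : ℕ → ℕ → ℕ → ℝ) (b : ℕ → ℝ) (r l : ℕ) : vcDD p R dG b r (R + 1 + 1) l = 0 := by
  unfold vcDD; rw [if_neg (by omega)]

theorem DD_top2 (p : ℕ → ℝ) (R : ℕ) (dG : ℕ → ℕ → ℕ → ℝ) (b : ℕ → ℝ) (r i : ℕ) : vcDD p R dG b r i (R + 1 + 1) = 0 := by
  unfold vcDD; rw [if_neg (by omega)]

/-- the spectral transform of `vcCd` is `D` -/
theorem hatG_Cd (H : VcCoefB p R r0 dK b dG dP β e) (r : ℕ) {i l : ℕ} (hi : 1 ≤ i) (hl : 1 ≤ l) (hi' : i ≤ R + 1) (hl' : l ≤ R + 1) :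
    vcHatG p R (vcCd p R dG b) r i l = vcDD p R dG b r i l := by
  unfold vcHatG
  have h1 : ∀ j ∈ Icc i (R + 1), ∑ j' ∈ Icc l (R + 1), p j * p j' * vcCd p R dG b r j j'
      = vcDD p R dG b r j l - vcDD p R dG b r (j + 1) l := by
    intro j hj
    rw [mem_Icc] at hj
    have hpj := (H.ppos j (by omega) hj.2).ne'
    have h2 : ∀ j' ∈ Icc l (R + 1), p j * p j' * vcCd p R dG b r j j'
        = (fun s => vcDD p R dG b r j s - vcDD p R dG b r (j + 1) s) j' - (fun s => vcDD p R dG b r j s - vcDD p R dG b r (j + 1) s) (j' + 1) := by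
      intro j' hj'
      rw [mem_Icc] at hj'
      have hpj' := (H.ppos j' (by omega) hj'.2).ne'
      unfold vcCd
      field_simp
      ring
    rw [sum_congr rfl h2, vc_cf_tele _ (by omega)]
    simp only [DD_top2, sub_self, sub_zero]
  rw [sum_congr rfl h1, vc_cf_tele (fun s => vcDD p R dG b r s l) (by omega), DD_top1, sub_zero]

/-- **`h1` of `vc_inverse`** -/
theorem h1 (H : VcCoefB p R r0 dK b dG dP β e) : ∀ r ∈ range (R + 1), ∀ i ∈ Ioc r (R + 1), ∀ l ∈ Ioc r (R + 1),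
    vcHatG p R (vcCd p R dG b) r i l * (1 - b r * vcHatG p R dG r i l) = 1 := by
  intro r hr i hi l hl
  rw [mem_range] at hr
  rw [mem_Ioc] at hi hl
  rw [H.hatG_Cd r (by omega) (by omega) hi.2 hl.2, DD_eq p R dG b r hi.2 hl.2]
  have := lt_of_lt_of_le H.e0 (H.gap (show r ≤ R by omega) hi.1 hl.1)
  field_simp

/-- `vcHatK` of the inverse child kernel is `1 / ℓ_r^k` -/
theorem hatK_Cd (H : VcCoefB p R r0 dK b dG dP β e) {k r : ℕ} (hk : k ≤ R + 1) (hr : r ≤ R) :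
    vcHatK p R (vcCd p R dG b) k r = (1 - b r * vcHatK p R dG k r)⁻¹ := by
  unfold vcHatK
  rw [H.hatG_Cd r (by omega) (by omega) (by omega) (by omega), DD_eq p R dG b r (by omega) (by omega), one_div]

theorem Cd_symm (H : VcCoefB p R r0 dK b dG dP β e) (r j j' : ℕ) : vcCd p R dG b r j j' = vcCd p R dG b r j' j := by
  have hs : ∀ i l, vcDD p R dG b r i l = vcDD p R dG b r l i := by
    intro i l
    unfold vcDD
    rw [H.hatG_symm r i l]
    simp only [and_comm]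
  unfold vcCd
  rw [hs j j', hs (j + 1) j', hs j (j' + 1), hs (j + 1) (j' + 1), mul_comm (p j)]
  ring

/-- the bounds of the inverse child kernel, explicit constants -/
theorem Cd_abs (H : VcCoefB p R r0 dK b dG dP β e) {r j j' : ℕ} (hr : r ≤ R) (hj : r < j) (hj' : r < j') (h1 : j ≤ R) (h2 : j' ≤ R) :
    |vcCd p R dG b r j j'| ≤ (b r / e ^ 2 + 2 * b r ^ 2 / e ^ 3) * (β * (1 + vcKt R dK)) ^ 2 * (dK j * dK j') := by
  have hpj := H.ppos j (by omega) (by omega)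
  have hpj' := H.ppos j' (by omega) (by omega)
  have hβ := H.β1
  have hk := H.kt_nonneg
  have hdj := H.dK0 j
  have hdj' := H.dK0 j'
  have dkj : vcDk R dK j = dK j := by unfold vcDk; rw [if_pos h1]
  have dkj' : vcDk R dK j' = dK j' := by unfold vcDk; rw [if_pos h2]
  set M := β * (1 + vcKt R dK) with hM
  have hM1 : 1 ≤ M := by rw [hM]; nlinarith
  -- differences of `ĝ`
  have d1 : ∀ l, r < l → |vcHatG p R dG r j l - vcHatG p R dG r (j + 1) l| ≤ p j * (M * dK j) := by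
    intro l hl
    rw [hatG_diff p R dG r (by omega) l, abs_of_nonneg (mul_nonneg hpj.le (H.TG_nonneg hr j (by omega)))]
    refine mul_le_mul_of_nonneg_left ?_ hpj.le
    have := H.TG_le hr hj (by omega) hl
    rw [dkj] at this
    calc _ ≤ _ := this
      _ = M * dK j := by rw [hM]; ring
  have d2 : ∀ i, r < i → |vcHatG p R dG r i j' - vcHatG p R dG r i (j' + 1)| ≤ p j' * (M * dK j') := by
    intro i hi
    rw [H.hatG_symm r i j', H.hatG_symm r i (j' + 1), hatG_diff p R dG r (by omega) i,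
      abs_of_nonneg (mul_nonneg hpj'.le (H.TG_nonneg hr j' (by omega)))]
    refine mul_le_mul_of_nonneg_left ?_ hpj'.le
    have := H.TG_le hr hj' (by omega) hi
    rw [dkj'] at this
    calc _ ≤ _ := this
      _ = M * dK j' := by rw [hM]; ring
  have d3 : |vcHatG p R dG r j j' - vcHatG p R dG r (j + 1) j' - vcHatG p R dG r j (j' + 1) + vcHatG p R dG r (j + 1) (j' + 1)|
      ≤ p j * (M * dK j) * (p j' * (M * dK j')) := by
    have e1 : vcHatG p R dG r j j' - vcHatG p R dG r (j + 1) j' - vcHatG p R dG r j (j' + 1) + vcHatG p R dG r (j + 1) (j' + 1)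
        = p j * (p j' * dG r j j') := by
      have a1 := hatG_diff p R dG r (show j ≤ R + 1 by omega) j'
      have a2 := hatG_diff p R dG r (show j ≤ R + 1 by omega) (j' + 1)
      have a3 := TG_diff p R dG r j (show j' ≤ R + 1 by omega)
      calc _ = (vcHatG p R dG r j j' - vcHatG p R dG r (j + 1) j') - (vcHatG p R dG r j (j' + 1) - vcHatG p R dG r (j + 1) (j' + 1)) := by ring
        _ = p j * (vcTG p R dG r j j' - vcTG p R dG r j (j' + 1)) := by rw [a1, a2]; ring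
        _ = _ := by rw [a3]
    rw [e1, abs_of_nonneg (mul_nonneg hpj.le (mul_nonneg hpj'.le (H.G1 r j j' hr)))]
    have a4 := H.G2 r j j' hj hj' h1 h2
    have a5 : β * dK j * dK j' ≤ M * dK j * (M * dK j') := by
      have : β ≤ M * M := by
        have : β ≤ M := by rw [hM]; nlinarith
        nlinarith
      calc β * dK j * dK j' = β * (dK j * dK j') := by ring
        _ ≤ M * M * (dK j * dK j') := mul_le_mul_of_nonneg_right this (mul_nonneg hdj hdj')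
        _ = _ := by ring
    calc p j * (p j' * dG r j j') ≤ p j * (p j' * (M * dK j * (M * dK j'))) :=
          mul_le_mul_of_nonneg_left (mul_le_mul_of_nonneg_left (a4.trans a5) hpj'.le) hpj.le
      _ = _ := by ring
  have key := inv_rk_mixed2 (H.b0 r hr) H.e0 (H.gap hr hj hj') (H.gap hr (show r < j + 1 by omega) hj')
    (H.gap hr hj (show r < j' + 1 by omega)) (H.gap hr (show r < j + 1 by omega) (show r < j' + 1 by omega))
    (d1 (j' + 1) (by omega)) (d2 j hj) (d2 (j + 1) (by omega)) d3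
  unfold vcCd
  rw [DD_eq p R dG b r (by omega) (by omega), DD_eq p R dG b r (by omega) (by omega), DD_eq p R dG b r (by omega) (by omega),
    DD_eq p R dG b r (by omega) (by omega), abs_div, abs_of_pos (mul_pos hpj hpj'), div_le_iff₀ (mul_pos hpj hpj')]
  refine key.trans (le_of_eq ?_)
  ring

theorem Cd_abs_top (H : VcCoefB p R r0 dK b dG dP β e) {r j : ℕ} (hr : r ≤ R) (hj : r < j) (h1 : j ≤ R) :
    |vcCd p R dG b r j (R + 1)| ≤ b r / e ^ 2 * β * dK j := by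
  have hpj := H.ppos j (by omega) (by omega)
  have d1 : |vcHatG p R dG r j (R + 1) - vcHatG p R dG r (j + 1) (R + 1)| ≤ p j * (β * dK j) := by
    rw [hatG_diff p R dG r (by omega) (R + 1), abs_of_nonneg (mul_nonneg hpj.le (H.TG_nonneg hr j (by omega)))]
    refine mul_le_mul_of_nonneg_left ?_ hpj.le
    unfold vcTG
    rw [Icc_self, sum_singleton, H.ptop, one_mul]
    exact H.G2' r j hj h1
  have key := inv_rk_mixed1 (H.b0 r hr) H.e0 (H.gap hr hj (show r < R + 1 by omega)) (H.gap hr (show r < j + 1 by omega) (show r < R + 1 by omega)) d1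
  unfold vcCd
  rw [DD_top2, DD_top2, DD_eq p R dG b r (by omega) le_rfl, DD_eq p R dG b r (by omega) le_rfl, H.ptop, mul_one, sub_zero, add_zero,
    abs_div, abs_of_pos hpj, div_le_iff₀ hpj]
  refine key.trans (le_of_eq ?_)
  ring

theorem Cd_abs_top2 (H : VcCoefB p R r0 dK b dG dP β e) {r : ℕ} (hr : r ≤ R) : |vcCd p R dG b r (R + 1) (R + 1)| ≤ 1 / e := by
  unfold vcCd
  rw [DD_top2, DD_top2, DD_top1, DD_eq p R dG b r le_rfl le_rfl, H.ptop, mul_one, sub_zero, sub_zero, add_zero, div_one]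
  obtain ⟨a0, a1⟩ := inv_rk_F_bd H.e0 (H.gap hr (show r < R + 1 by omega) (show r < R + 1 by omega))
  rw [abs_of_pos a0]
  exact a1

end VcCoefB


/-! ## 3. the row kernel -/

/-- the row identity of the additive inverse (no division by `μ`) -/
theorem L05rOk.A_row {ι : Type} [Fintype ι] [DecidableEq ι] {Λ : ℝ} {d : ι → ι → ℝ} {b : ι → ℝ} {B : Matrix ι ι ℝ} {g μ : ι → ℝ}
    (h : L05rOk Λ d b B g μ) (r t : ι) :
    l05r_A b B g μ r t * (1 - b t * g t) + ∑ s, l05r_A b B g μ r s * μ s * B s t * b t = - (B r t * b t * l05r_u b g r) := by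
  have h1 := congrFun (congrFun (l05r_C_eq' B (l05r_w b g μ) h.psd h.w_nonneg) r) t
  rw [Matrix.sub_apply, l05r_mul_diag_mul] at h1
  have h2 := h.u_mul t
  unfold l05r_A
  set C := l05r_C B (l05r_w b g μ) with hC
  have e1 : ∑ s, -(C r s * b s * (l05r_u b g r * l05r_u b g s)) * μ s * B s t * b t
      = - (l05r_u b g r * b t) * ∑ s, C r s * l05r_w b g μ s * B s t := by
    rw [mul_sum]
    refine sum_congr rfl fun s _ => ?_
    unfold l05r_w
    ring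
  rw [e1]
  have e2 : ∑ s, C r s * l05r_w b g μ s * B s t = B r t - C r t := by linarith
  rw [e2]
  calc -(C r t * b t * (l05r_u b g r * l05r_u b g t)) * (1 - b t * g t) + -(l05r_u b g r * b t) * (B r t - C r t)
      = -(C r t * b t * l05r_u b g r) * (l05r_u b g t * (1 - b t * g t)) + -(l05r_u b g r * b t) * (B r t - C r t) := by ring
    _ = _ := by rw [h2]; ring

/-- the same on the retained sheets -/
theorem L05rOkN.AN_row {r0 R : ℕ} {Λ : ℝ} {δ b : ℕ → ℝ} {B : ℕ → ℕ → ℝ} {g μ : ℕ → ℝ} (h : L05rOkN r0 R Λ δ b B g μ)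
    {r t : ℕ} (hr : r ∈ Icc r0 R) (ht : t ∈ Icc r0 R) :
    l05r_AN r0 R b B g μ r t * (1 - b t * g t) + ∑ s ∈ Icc r0 R, l05r_AN r0 R b B g μ r s * μ s * B s t * b t
      = - (B r t * b t * (1 - b r * g r)⁻¹) := by
  have h1 := h.toOk.A_row ⟨r, hr⟩ ⟨t, ht⟩
  rw [← Finset.sum_coe_sort (Icc r0 R), L05rOkN.AN_eq r t hr ht]
  have e : ∀ s : ↥(Icc r0 R), l05r_AN r0 R b B g μ r s = l05r_A (ι := ↥(Icc r0 R)) (fun s => b s) (Matrix.of fun s s' => B s s')
      (fun s => g s) (fun s => μ s) ⟨r, hr⟩ s := fun s => L05rOkN.AN_eq r s hr s.2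
  simp only [e]
  exact h1

theorem l05r_AN_zero_of_b {r0 R : ℕ} {b : ℕ → ℝ} {B : ℕ → ℕ → ℝ} {g μ : ℕ → ℝ} {t : ℕ} (ht : b t = 0) (r : ℕ) :
    l05r_AN r0 R b B g μ r t = 0 := by
  unfold l05r_AN
  split_ifs with h
  · unfold l05r_A
    simp [ht]
  · rfl

theorem l05r_AN_zero_of_not {r0 R : ℕ} {b : ℕ → ℝ} {B : ℕ → ℕ → ℝ} {g μ : ℕ → ℝ} {r t : ℕ} (h : ¬ (r ∈ Icc r0 R ∧ t ∈ Icc r0 R)) :
    l05r_AN r0 R b B g μ r t = 0 := by
  unfold l05r_AN
  rw [dif_neg h]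

/-- `A^k_rt` (`1 ≤ k ≤ R + 1`; `0` otherwise) -/
noncomputable def vcAk (p : ℕ → ℝ) (R r0 : ℕ) (dG dP : ℕ → ℕ → ℕ → ℝ) (b : ℕ → ℝ) (k r t : ℕ) : ℝ :=
  if 1 ≤ k ∧ k ≤ R + 1 then
    l05r_AN r0 R b (fun r t => vcHatP p R dP r t k) (fun t => vcHatK p R dG k t) (vcMu p k) r t
  else 0

/-- **the row kernel of the inverse**: `a r t k = (A^k_rt - A^(k+1)_rt) / p_k` -/
noncomputable def vcCa (p : ℕ → ℝ) (R r0 : ℕ) (dG dP : ℕ → ℕ → ℕ → ℝ) (b : ℕ → ℝ) (r t k : ℕ) : ℝ :=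
  if k = 0 then 0 else (vcAk p R r0 dG dP b k r t - vcAk p R r0 dG dP b (k + 1) r t) / p k

theorem vc_cf_eqns_cite2 : True := by
  have := @vcAk.eq_1
  have := @vcCa.eq_1
  trivial

theorem vc_mu_eq (p : ℕ → ℝ) (k t : ℕ) : vcMu p k t = l05r_mu p k t := by
  unfold vcMu l05r_mu; ring

namespace VcCoefB

variable {p : ℕ → ℝ} {R r0 : ℕ} {dK b : ℕ → ℝ} {dG dP : ℕ → ℕ → ℕ → ℝ} {β e : ℝ}

theorem hatP_symm (H : VcCoefB p R r0 dK b dG dP β e) (r t k : ℕ) : vcHatP p R dP r t k = vcHatP p R dP t r k := by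
  unfold vcHatP
  exact sum_congr rfl fun s _ => by rw [H.P1]

theorem hatP_abs (H : VcCoefB p R r0 dK b dG dP β e) {r t k : ℕ} (hr : r ≤ R) (ht : t ≤ R) (hk : 1 ≤ k) :
    |vcHatP p R dP r t k| ≤ β * (1 + vcKt R dK) := by
  have h0 := H.β0
  unfold vcHatP
  calc |∑ s ∈ Icc k (R + 1), p s * dP r t s| ≤ ∑ s ∈ Icc k (R + 1), |p s * dP r t s| := abs_sum_le_sum_abs _ _
    _ ≤ ∑ s ∈ Icc k (R + 1), β * vcDk R dK s := by
        refine sum_le_sum fun s hs => ?_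
        rw [mem_Icc] at hs
        have a1 := H.P3u hr ht hs.2
        have a2 := H.p_le s (by omega) hs.2
        have a4 := (H.ppos s (by omega) hs.2).le
        rw [abs_mul, abs_of_nonneg a4]
        nlinarith [abs_nonneg (dP r t s)]
    _ ≤ ∑ s ∈ range (R + 1 + 1), β * vcDk R dK s := vc_cf_sub_range _ (fun s => mul_nonneg h0.le (H.dk_nonneg s)) _ _
    _ = β * (1 + vcKt R dK) := by rw [← mul_sum, vc_cf_sum_dk]

theorem hatP_diff (p : ℕ → ℝ) (R : ℕ) (dP : ℕ → ℕ → ℕ → ℝ) (r t : ℕ) {k : ℕ} (hk : k ≤ R + 1) :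
    vcHatP p R dP r t k - vcHatP p R dP r t (k + 1) = p k * dP r t k := by
  unfold vcHatP
  rw [vc_cf_bot _ hk]; ring

theorem hatP_low (H : VcCoefB p R r0 dK b dG dP β e) {r : ℕ} (hr : r < r0) (t k : ℕ) : vcHatP p R dP r t k = 0 := by
  unfold vcHatP
  exact sum_eq_zero fun s _ => by rw [H.Plow r hr, mul_zero]

theorem hatP_psd (H : VcCoefB p R r0 dK b dG dP β e) {k : ℕ} (hk : 1 ≤ k) (x : ℕ → ℝ) :
    0 ≤ ∑ r ∈ Icc r0 R, ∑ t ∈ Icc r0 R, x r * vcHatP p R dP r t k * x t := by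
  have hsub : Icc r0 R ⊆ range (R + 1) := fun s hs => by rw [mem_Icc] at hs; rw [mem_range]; omega
  have key : ∀ s, s ≤ R + 1 → 0 ≤ ∑ r ∈ Icc r0 R, ∑ t ∈ Icc r0 R, x r * x t * dP r t s := by
    intro s hs
    have h1 := H.P2 s hs (fun r => if r ∈ Icc r0 R then x r else 0)
    have e : ∑ r ∈ range (R + 1), ∑ t ∈ range (R + 1), (if r ∈ Icc r0 R then x r else 0) * (if t ∈ Icc r0 R then x t else 0) * dP r t s
        = ∑ r ∈ Icc r0 R, ∑ t ∈ Icc r0 R, x r * x t * dP r t s := by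
      rw [← sum_subset hsub]
      · refine sum_congr rfl fun r hr => ?_
        rw [← sum_subset hsub]
        · refine sum_congr rfl fun t ht => ?_
          rw [if_pos hr, if_pos ht]
        · intro t _ ht
          rw [if_neg ht]; ring
      · intro r _ hr
        refine sum_eq_zero fun t _ => ?_
        rw [if_neg hr]; ring
    rwa [e] at h1
  have e2 : ∑ r ∈ Icc r0 R, ∑ t ∈ Icc r0 R, x r * vcHatP p R dP r t k * x t
      = ∑ s ∈ Icc k (R + 1), p s * ∑ r ∈ Icc r0 R, ∑ t ∈ Icc r0 R, x r * x t * dP r t s := by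
    unfold vcHatP
    calc ∑ r ∈ Icc r0 R, ∑ t ∈ Icc r0 R, x r * (∑ s ∈ Icc k (R + 1), p s * dP r t s) * x t
        = ∑ r ∈ Icc r0 R, ∑ t ∈ Icc r0 R, ∑ s ∈ Icc k (R + 1), p s * (x r * x t * dP r t s) := by
          refine sum_congr rfl fun r _ => sum_congr rfl fun t _ => ?_
          rw [mul_sum, sum_mul]
          exact sum_congr rfl fun s _ => by ring
      _ = ∑ r ∈ Icc r0 R, ∑ s ∈ Icc k (R + 1), ∑ t ∈ Icc r0 R, p s * (x r * x t * dP r t s) :=
          sum_congr rfl fun r _ => sum_comm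
      _ = ∑ s ∈ Icc k (R + 1), ∑ r ∈ Icc r0 R, ∑ t ∈ Icc r0 R, p s * (x r * x t * dP r t s) := sum_comm
      _ = _ := by
          refine sum_congr rfl fun s _ => ?_
          rw [mul_sum]
          exact sum_congr rfl fun r _ => by rw [mul_sum]
  rw [e2]
  refine sum_nonneg fun s hs => ?_
  rw [mem_Icc] at hs
  exact mul_nonneg (H.ppos s (by omega) hs.2).le (key s hs.2)

theorem hatK_nonneg (H : VcCoefB p R r0 dK b dG dP β e) (k : ℕ) {s : ℕ} (hs : s ≤ R) : 0 ≤ vcHatK p R dG k s :=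
  H.hatG_nonneg hs (by omega) (by omega)

theorem hatK_le (H : VcCoefB p R r0 dK b dG dP β e) (k : ℕ) {s : ℕ} (hs : s ≤ R) : vcHatK p R dG k s ≤ β * (1 + vcKt R dK) ^ 2 :=
  H.hatG_le hs (by omega) (by omega)

theorem hatK_gap (H : VcCoefB p R r0 dK b dG dP β e) (k : ℕ) {s : ℕ} (hs : s ≤ R) : e ≤ 1 - b s * vcHatK p R dG k s :=
  H.gap hs (by omega) (by omega)

/-- change of the child multiplier with the sector -/
theorem hatK_diff (H : VcCoefB p R r0 dK b dG dP β e) {k s : ℕ} (hk1 : 1 ≤ k) (hk : k ≤ R) (hs : s ≤ R) :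
    |vcHatK p R dG (k + 1) s - vcHatK p R dG k s| ≤ β * (1 + vcKt R dK) * (p k * dK k) := by
  have h0 := H.β0
  have hkt := H.kt_nonneg
  have hpk := (H.ppos k hk1 (by omega)).le
  unfold vcHatK
  rcases Nat.lt_or_ge s k with h | h
  · rw [max_eq_left (by omega), max_eq_left (by omega), abs_sub_comm, hatG_diff p R dG s (by omega) (s + 1),
      abs_of_nonneg (mul_nonneg hpk (H.TG_nonneg hs k (by omega)))]
    have a1 := H.TG_le hs h (by omega) (show s < s + 1 by omega)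
    have dkk : vcDk R dK k = dK k := by unfold vcDk; rw [if_pos hk]
    rw [dkk] at a1
    calc p k * vcTG p R dG s k (s + 1) ≤ p k * (β * dK k * (1 + vcKt R dK)) := mul_le_mul_of_nonneg_left a1 hpk
      _ = _ := by ring
  · rw [max_eq_right (by omega), max_eq_right (by omega), sub_self, abs_zero]
    have := H.dK0 k
    positivity

theorem mu_nonneg (H : VcCoefB p R r0 dK b dG dP β e) (k : ℕ) {s : ℕ} (hs : s ∈ Icc r0 R) : 0 ≤ vcMu p k s := by
  rw [mem_Icc] at hs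
  have h1 := H.r0_pos
  have a1 := H.pmono s (by omega) hs.2
  have a2 := (H.ppos (s + 1) (by omega) (by omega)).le
  unfold vcMu
  by_cases c1 : k ≤ s
  · rw [if_pos c1, if_pos (by omega)]; linarith
  · rw [if_neg c1]
    split_ifs <;> linarith

theorem mu_sum (H : VcCoefB p R r0 dK b dG dP β e) (k : ℕ) : ∑ s ∈ Icc r0 R, vcMu p k s ≤ 2 := by
  rcases Nat.lt_or_ge (R + 1) r0 with h | h
  · rw [Icc_eq_empty (by omega), sum_empty]; norm_num
  · have h1 := H.r0_pos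
    have e1 : ∀ s ∈ Icc r0 R, vcMu p k s = (fun t => -(p t + if k ≤ t then p t else 0)) s - (fun t => -(p t + if k ≤ t then p t else 0)) (s + 1) := by
      intro s _
      unfold vcMu
      ring
    rw [sum_congr rfl e1, vc_cf_tele _ h]
    have a1 := (H.ppos r0 h1 h).le
    simp only [H.ptop]
    split_ifs <;> linarith

/-- one additive sector satisfies the hypotheses of `Inv/ResolvA.lean`; the three adjacent Lipschitz bounds are left as hypotheses -/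
theorem okN (H : VcCoefB p R r0 dK b dG dP β e) {Λ : ℝ} (hΛ : 1 ≤ Λ) (hβ : β * (1 + vcKt R dK) ^ 2 ≤ Λ) (hb : ∀ r, r ≤ R → b r ≤ Λ) (he : Λ⁻¹ ≤ e)
    {j : ℕ} (hj : 1 ≤ j) (dl : ℕ → ℝ) (hdl : ∀ i, 0 ≤ dl i)
    (hB : ∀ i, r0 < i → i ≤ R → ∀ s ∈ Icc r0 R, |vcHatP p R dP i s j - vcHatP p R dP (i - 1) s j| ≤ Λ * dl i)
    (hg : ∀ i, r0 < i → i ≤ R → |vcHatK p R dG j i - vcHatK p R dG j (i - 1)| ≤ Λ * dl i)
    (hbl : ∀ i, r0 < i → i ≤ R → |b i - b (i - 1)| ≤ dl i) :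
    L05rOkN r0 R Λ dl b (fun r t => vcHatP p R dP r t j) (fun t => vcHatK p R dG j t) (vcMu p j) where
  one := hΛ
  δ0 := hdl
  sym := fun r _ t _ => H.hatP_symm r t j
  psd := H.hatP_psd hj
  diag := fun r hr => by
    rw [mem_Icc] at hr
    have h1 := (le_abs_self _).trans (H.hatP_abs hr.2 hr.2 hj)
    have h2 := H.kt_nonneg
    have h3 := H.β0
    nlinarith
  lipB := hB
  g0 := fun s hs => H.hatK_nonneg j (mem_Icc.1 hs).2
  g1 := fun s hs => (H.hatK_le j (mem_Icc.1 hs).2).trans hβ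
  lipg := hg
  mu0 := fun s hs => H.mu_nonneg j hs
  mu1 := H.mu_sum j
  gap := fun s hs => he.trans (H.hatK_gap j (mem_Icc.1 hs).2)
  b0 := fun s hs => H.b0 s (mem_Icc.1 hs).2
  b1 := fun s hs => hb s (mem_Icc.1 hs).2
  lipb := hbl


/-- the size hypotheses: ONE constant -/
structure Sz (H : VcCoefB p R r0 dK b dG dP β e) (Λ : ℝ) : Prop where
  one : 1 ≤ Λ
  hβ : β * (1 + vcKt R dK) ^ 2 ≤ Λ
  hb : ∀ r, r ≤ R → b r ≤ Λ
  he : Λ⁻¹ ≤ e

/-- the evaluation distance adapted to the sector `k`: the true one at `i = k`, a trivial one elsewhere -/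
noncomputable def dl (_H : VcCoefB p R r0 dK b dG dP β e) (Λ : ℝ) (k i : ℕ) : ℝ := if i = k then dK k + |b k - b (k - 1)| else 2 * Λ

theorem β_le (H : VcCoefB p R r0 dK b dG dP β e) {Λ : ℝ} (S : H.Sz Λ) : β * (1 + vcKt R dK) ≤ Λ := by
  have h2 := H.kt_nonneg
  have h3 := H.β0
  refine le_trans ?_ S.hβ
  have : 1 + vcKt R dK ≤ (1 + vcKt R dK) ^ 2 := by nlinarith
  exact mul_le_mul_of_nonneg_left this h3.le

theorem β_le' (H : VcCoefB p R r0 dK b dG dP β e) {Λ : ℝ} (S : H.Sz Λ) : β ≤ Λ := by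
  have h2 := H.kt_nonneg
  have h3 := H.β0
  have := H.β_le S
  nlinarith

end VcCoefB

namespace VcCoef

open VcCoefB

variable {p : ℕ → ℝ} {R r0 : ℕ} {dK b : ℕ → ℝ} {dG dP : ℕ → ℕ → ℕ → ℝ} {β e : ℝ}

/-- the sectors `j ∈ {k, k+1}` with the distance adapted to `k` (`k = 0`: no adjacent bound is used) -/
theorem okN' (H : VcCoef p R r0 dK b dG dP β e) {Λ : ℝ} (S : H.Sz Λ) {k j : ℕ} (hj1 : 1 ≤ j) (hj : j = k ∨ j = k + 1) :
    L05rOkN r0 R Λ (H.dl Λ k) b (fun r t => vcHatP p R dP r t j) (fun t => vcHatK p R dG j t) (vcMu p j) := by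
  have hΛ := S.one
  have h1 := H.r0_pos
  refine H.okN S.one S.hβ S.hb S.he hj1 (H.dl Λ k) ?_ ?_ ?_ ?_
  · intro i
    unfold dl
    split_ifs
    · have := H.dK0 k
      positivity
    · linarith
  · intro i hi hiR s hs
    rw [mem_Icc] at hs
    unfold dl
    split_ifs with c
    · subst c
      have a1 := H.P5 i s j (by omega) hiR hs.2 hj
      have a2 := H.β_le' S
      have a3 := H.dK0 i
      calc _ ≤ β * dK i := a1
        _ ≤ Λ * dK i := mul_le_mul_of_nonneg_right a2 a3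
        _ ≤ Λ * (dK i + |b i - b (i - 1)|) := mul_le_mul_of_nonneg_left (by linarith [abs_nonneg (b i - b (i - 1))]) (by linarith)
    · have a1 := (H.hatP_abs hiR hs.2 hj1).trans (H.β_le S)
      have a2 := (H.hatP_abs (show i - 1 ≤ R by omega) hs.2 hj1).trans (H.β_le S)
      calc _ ≤ |vcHatP p R dP i s j| + |vcHatP p R dP (i - 1) s j| := abs_sub _ _
        _ ≤ Λ + Λ := add_le_add a1 a2
        _ ≤ Λ * (2 * Λ) := by nlinarith
  · intro i hi hiR
    unfold dl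
    split_ifs with c
    · subst c
      have a1 := H.G4 i j (by omega) hiR hj
      have a2 := H.β_le' S
      have a3 := H.dK0 i
      calc _ ≤ β * dK i := a1
        _ ≤ Λ * dK i := mul_le_mul_of_nonneg_right a2 a3
        _ ≤ Λ * (dK i + |b i - b (i - 1)|) := mul_le_mul_of_nonneg_left (by linarith [abs_nonneg (b i - b (i - 1))]) (by linarith)
    · have a1 := (H.hatK_le j hiR).trans S.hβ
      have a2 := (H.hatK_le j (show i - 1 ≤ R by omega)).trans S.hβ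
      have a3 := H.hatK_nonneg j hiR
      have a4 := H.hatK_nonneg j (show i - 1 ≤ R by omega)
      rw [abs_le]
      constructor <;> nlinarith
  · intro i hi hiR
    unfold dl
    split_ifs with c
    · subst c
      linarith [H.dK0 i]
    · have a1 := S.hb i hiR
      have a2 := S.hb (i - 1) (by omega)
      have a3 := H.b0 i hiR
      have a4 := H.b0 (i - 1) (by omega)
      rw [abs_le]
      constructor <;> linarith

theorem Ak_eq (p : ℕ → ℝ) (R r0 : ℕ) (dG dP : ℕ → ℕ → ℕ → ℝ) (b : ℕ → ℝ) {k : ℕ} (h1 : 1 ≤ k) (h2 : k ≤ R + 1) (r t : ℕ) :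
    vcAk p R r0 dG dP b k r t = l05r_AN r0 R b (fun r t => vcHatP p R dP r t k) (fun t => vcHatK p R dG k t) (vcMu p k) r t := by
  unfold vcAk; rw [if_pos ⟨h1, h2⟩]

theorem Ak_top (p : ℕ → ℝ) (R r0 : ℕ) (dG dP : ℕ → ℕ → ℕ → ℝ) (b : ℕ → ℝ) (r t : ℕ) : vcAk p R r0 dG dP b (R + 1 + 1) r t = 0 := by
  unfold vcAk; rw [if_neg (by omega)]

theorem Ak_abs (H : VcCoef p R r0 dK b dG dP β e) {Λ : ℝ} (S : H.Sz Λ) (k r t : ℕ) : |vcAk p R r0 dG dP b k r t| ≤ Λ ^ 4 := by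
  unfold vcAk
  split_ifs with h
  · exact (H.okN' S h.1 (Or.inl rfl)).AN_abs r t
  · rw [abs_zero]
    have := S.one
    positivity

/-- **the weighted difference** `|A^(k+1) - A^k| ≤ 30 Λ^11 p_k (dK_k + |b_k - b_(k-1)| + 1_{k = r0})`, from (P5), (G4) at the two sectors `k, k+1` only -/
theorem Ak_diff (H : VcCoef p R r0 dK b dG dP β e) {Λ : ℝ} (S : H.Sz Λ) {k : ℕ} (hk1 : 1 ≤ k) (hk : k ≤ R) (r t : ℕ) :
    |vcAk p R r0 dG dP b (k + 1) r t - vcAk p R r0 dG dP b k r t|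
      ≤ 30 * Λ ^ 11 * (p k * (dK k + |b k - b (k - 1)| + if k = r0 then 1 else 0)) := by
  have hΛ := S.one
  have hpk := (H.ppos k hk1 (by omega)).le
  have hdl : H.dl Λ k k = dK k + |b k - b (k - 1)| := by unfold dl; rw [if_pos rfl]
  have hdk := H.dK0 k
  have hle : p k * dK k ≤ p k * H.dl Λ k k := by
    rw [hdl]; exact mul_le_mul_of_nonneg_left (by linarith [abs_nonneg (b k - b (k - 1))]) hpk
  have key := (H.okN' S hk1 (Or.inl rfl)).AN_diff (H.okN' S (show 1 ≤ k + 1 by omega) (Or.inr rfl)) k hk (p k) hpk ?_ ?_ ?_ r t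
  · rw [Ak_eq p R r0 dG dP b (by omega) (by omega), Ak_eq p R r0 dG dP b hk1 (by omega)]
    rw [hdl] at key
    exact key
  · intro r' hr' t' ht'
    rw [mem_Icc] at hr' ht'
    rw [abs_sub_comm, hatP_diff p R dP r' t' (by omega), abs_mul, abs_of_nonneg hpk]
    have a1 := H.P3 r' t' k hr'.2 ht'.2 hk
    have a2 := H.β_le' S
    calc p k * |dP r' t' k| ≤ p k * (β * dK k) := mul_le_mul_of_nonneg_left a1 hpk
      _ = β * (p k * dK k) := by ring
      _ ≤ Λ * (p k * dK k) := mul_le_mul_of_nonneg_right a2 (mul_nonneg hpk hdk)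
      _ ≤ Λ * (p k * H.dl Λ k k) := mul_le_mul_of_nonneg_left hle (by linarith)
  · intro s hs
    rw [mem_Icc] at hs
    have a1 := H.hatK_diff hk1 hk hs.2
    have a2 := H.β_le S
    calc _ ≤ β * (1 + vcKt R dK) * (p k * dK k) := a1
      _ ≤ Λ * (p k * dK k) := mul_le_mul_of_nonneg_right a2 (mul_nonneg hpk hdk)
      _ ≤ Λ * (p k * H.dl Λ k k) := mul_le_mul_of_nonneg_left hle (by linarith)
  · intro t' _
    rw [vc_mu_eq, vc_mu_eq]
    exact l05r_mu_diff p k t'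

theorem Ca_zero (p : ℕ → ℝ) (R r0 : ℕ) (dG dP : ℕ → ℕ → ℕ → ℝ) (b : ℕ → ℝ) (r t : ℕ) : vcCa p R r0 dG dP b r t 0 = 0 := by
  unfold vcCa; rw [if_pos rfl]

/-- the spectral transform of `vcCa` is `A^k` -/
theorem hatP_Ca (H : VcCoef p R r0 dK b dG dP β e) (r t : ℕ) {k : ℕ} (hk1 : 1 ≤ k) (hk : k ≤ R + 1) :
    vcHatP p R (vcCa p R r0 dG dP b) r t k = vcAk p R r0 dG dP b k r t := by
  unfold vcHatP
  have h1 : ∀ s ∈ Icc k (R + 1), p s * vcCa p R r0 dG dP b r t s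
      = (fun s => vcAk p R r0 dG dP b s r t) s - (fun s => vcAk p R r0 dG dP b s r t) (s + 1) := by
    intro s hs
    rw [mem_Icc] at hs
    have hps := (H.ppos s (by omega) hs.2).ne'
    unfold vcCa
    rw [if_neg (by omega)]
    field_simp
  rw [sum_congr rfl h1, vc_cf_tele _ (by omega), Ak_top, sub_zero]

/-- **`h2` of `vc_inverse0`** -/
theorem h2 (H : VcCoef p R r0 dK b dG dP β e) : ∀ k ∈ Icc 1 (R + 1), ∀ r ∈ range (R + 1), ∀ t ∈ Icc r0 R,
    vcHatP p R (vcCa p R r0 dG dP b) r t k * (1 - b t * vcHatK p R dG k t)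
      + ∑ s ∈ Icc r0 R, vcHatP p R (vcCa p R r0 dG dP b) r s k * vcMu p k s * vcHatP p R dP s t k * b t
      = - (vcHatP p R dP r t k * b t * vcHatK p R (vcCd p R dG b) k r) := by
  intro k hk r hr t ht
  rw [mem_Icc] at hk
  rw [mem_range] at hr
  simp only [H.hatP_Ca r _ hk.1 hk.2, Ak_eq p R r0 dG dP b hk.1 hk.2]
  rw [H.hatK_Cd hk.2 (by omega)]
  by_cases hr0 : r0 ≤ r
  · -- a size constant exists
    obtain ⟨Λ, S⟩ : ∃ Λ, H.Sz Λ := by
      refine ⟨1 + β * (1 + vcKt R dK) ^ 2 + (∑ r ∈ range (R + 1), |b r|) + e⁻¹, ?_, ?_, ?_, ?_⟩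
      · have a1 := H.β0
        have a2 : 0 ≤ ∑ r ∈ range (R + 1), |b r| := sum_nonneg fun _ _ => abs_nonneg _
        have a3 := inv_pos.2 H.e0
        have a4 : 0 ≤ β * (1 + vcKt R dK) ^ 2 := by positivity
        linarith
      · have a2 : 0 ≤ ∑ r ∈ range (R + 1), |b r| := sum_nonneg fun _ _ => abs_nonneg _
        have a3 := inv_pos.2 H.e0
        linarith
      · intro r' hr'
        have a1 := H.β0
        have a2 : |b r'| ≤ ∑ r ∈ range (R + 1), |b r| :=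
          single_le_sum (f := fun r => |b r|) (fun _ _ => abs_nonneg _) (mem_range.2 (by omega))
        have a3 := inv_pos.2 H.e0
        have a4 : 0 ≤ β * (1 + vcKt R dK) ^ 2 := by positivity
        have a5 := le_abs_self (b r')
        linarith
      · have a1 := H.β0
        have a2 : 0 ≤ ∑ r ∈ range (R + 1), |b r| := sum_nonneg fun _ _ => abs_nonneg _
        have a3 := inv_pos.2 H.e0
        have a4 : 0 ≤ β * (1 + vcKt R dK) ^ 2 := by positivity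
        rw [inv_le_comm₀ (by linarith) H.e0]
        linarith
    exact (H.okN' S hk.1 (Or.inl rfl)).AN_row (mem_Icc.2 ⟨hr0, by omega⟩) ht
  · have hn : ∀ s, ¬ (r ∈ Icc r0 R ∧ s ∈ Icc r0 R) := fun s h => hr0 (mem_Icc.1 h.1).1
    simp only [l05r_AN_zero_of_not (hn _), H.hatP_low (show r < r0 by omega)]
    simp

theorem Ca_abs (H : VcCoef p R r0 dK b dG dP β e) {Λ : ℝ} (S : H.Sz Λ) {k : ℕ} (hk1 : 1 ≤ k) (hk : k ≤ R) (r t : ℕ) :
    |vcCa p R r0 dG dP b r t k| ≤ 30 * Λ ^ 11 * (dK k + |b k - b (k - 1)| + if k = r0 then 1 else 0) := by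
  have hpk := H.ppos k hk1 (by omega)
  unfold vcCa
  rw [if_neg (by omega), abs_div, abs_of_pos hpk, div_le_iff₀ hpk, abs_sub_comm]
  refine (H.Ak_diff S hk1 hk r t).trans (le_of_eq ?_)
  ring

theorem Ca_abs_top (H : VcCoef p R r0 dK b dG dP β e) {Λ : ℝ} (S : H.Sz Λ) (r t : ℕ) : |vcCa p R r0 dG dP b r t (R + 1)| ≤ Λ ^ 4 := by
  unfold vcCa
  rw [if_neg (by omega), Ak_top, sub_zero, H.ptop, div_one]
  exact H.Ak_abs S _ r t

/-- only the retained rows are read -/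
theorem Ca_of_b (p : ℕ → ℝ) (R r0 : ℕ) (dG dP : ℕ → ℕ → ℕ → ℝ) {b : ℕ → ℝ} {t : ℕ} (ht : b t = 0) (r k : ℕ) : vcCa p R r0 dG dP b r t k = 0 := by
  have h : ∀ k, vcAk p R r0 dG dP b k r t = 0 := by
    intro k
    unfold vcAk
    split_ifs
    · exact l05r_AN_zero_of_b ht r
    · rfl
  unfold vcCa
  rw [h, h]
  simp

theorem Ca_of_not (p : ℕ → ℝ) (R r0 : ℕ) (dG dP : ℕ → ℕ → ℕ → ℝ) (b : ℕ → ℝ) {r t : ℕ} (hn : ¬ (r ∈ Icc r0 R ∧ t ∈ Icc r0 R)) (k : ℕ) :
    vcCa p R r0 dG dP b r t k = 0 := by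
  have h : ∀ k, vcAk p R r0 dG dP b k r t = 0 := by
    intro k
    unfold vcAk
    split_ifs
    · exact l05r_AN_zero_of_not hn
    · rfl
  unfold vcCa
  rw [h, h]
  simp

end VcCoef


namespace VcCoef

variable {p : ℕ → ℝ} {R r0 : ℕ} {dK b : ℕ → ℝ} {dG dP : ℕ → ℕ → ℕ → ℝ} {β e : ℝ}

theorem inv_e_le (H : VcCoef p R r0 dK b dG dP β e) {Λ : ℝ} (S : H.Sz Λ) : 1 / e ≤ Λ := by
  have h1 : 0 < Λ := lt_of_lt_of_le one_pos S.one
  rw [one_div, inv_le_comm₀ H.e0 h1]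
  exact S.he

/-- the child kernel with ONE constant -/
theorem Cd_le (H : VcCoef p R r0 dK b dG dP β e) {Λ : ℝ} (S : H.Sz Λ) {r j j' : ℕ} (hr : r ≤ R) (hj : r < j) (hj' : r < j') (h1 : j ≤ R) (h2 : j' ≤ R) :
    |vcCd p R dG b r j j'| ≤ 3 * Λ ^ 7 * (dK j * dK j') := by
  refine (H.Cd_abs hr hj hj' h1 h2).trans (mul_le_mul_of_nonneg_right ?_ (mul_nonneg (H.dK0 j) (H.dK0 j')))
  have hΛ := S.one
  have a1 := H.inv_e_le S
  have a2 := S.hb r hr
  have a3 := H.b0 r hr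
  have a4 := H.β_le S
  have a5 : 0 ≤ β * (1 + vcKt R dK) := mul_nonneg H.β0.le (by linarith [H.kt_nonneg])
  have a6 : 0 < 1 / e := by have := H.e0; positivity
  have e1 : b r / e ^ 2 + 2 * b r ^ 2 / e ^ 3 = b r * (1 / e) ^ 2 + 2 * b r ^ 2 * (1 / e) ^ 3 := by
    have := H.e0.ne'
    field_simp
  rw [e1]
  have b1 : b r * (1 / e) ^ 2 ≤ Λ * Λ ^ 2 := mul_le_mul a2 (pow_le_pow_left₀ a6.le a1 2) (by positivity) (by linarith)
  have b2 : b r ^ 2 * (1 / e) ^ 3 ≤ Λ ^ 2 * Λ ^ 3 := mul_le_mul (pow_le_pow_left₀ a3 a2 2) (pow_le_pow_left₀ a6.le a1 3) (by positivity) (by positivity)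
  have b3 : (β * (1 + vcKt R dK)) ^ 2 ≤ Λ ^ 2 := pow_le_pow_left₀ a5 a4 2
  have b4 : Λ ^ 3 ≤ Λ ^ 5 := pow_le_pow_right₀ hΛ (by norm_num)
  calc (b r * (1 / e) ^ 2 + 2 * b r ^ 2 * (1 / e) ^ 3) * (β * (1 + vcKt R dK)) ^ 2
      ≤ (3 * Λ ^ 5) * Λ ^ 2 := by
        refine mul_le_mul ?_ b3 (by positivity) (by positivity)
        nlinarith
    _ = 3 * Λ ^ 7 := by ring

theorem Cd_le_top (H : VcCoef p R r0 dK b dG dP β e) {Λ : ℝ} (S : H.Sz Λ) {r j : ℕ} (hr : r ≤ R) (hj : r < j) (h1 : j ≤ R) :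
    |vcCd p R dG b r j (R + 1)| ≤ Λ ^ 4 * dK j := by
  refine (H.Cd_abs_top hr hj h1).trans (mul_le_mul_of_nonneg_right ?_ (H.dK0 j))
  have hΛ := S.one
  have a1 := H.inv_e_le S
  have a2 := S.hb r hr
  have a3 := H.b0 r hr
  have a4 := H.β_le' S
  have a6 : 0 < 1 / e := by have := H.e0; positivity
  have e1 : b r / e ^ 2 * β = b r * (1 / e) ^ 2 * β := by
    have := H.e0.ne'
    field_simp
  rw [e1]
  have b1 : b r * (1 / e) ^ 2 ≤ Λ * Λ ^ 2 := mul_le_mul a2 (pow_le_pow_left₀ a6.le a1 2) (by positivity) (by linarith)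
  calc b r * (1 / e) ^ 2 * β ≤ (Λ * Λ ^ 2) * Λ := mul_le_mul b1 a4 H.β0.le (by positivity)
    _ = Λ ^ 4 := by ring

theorem Cd_le_top2 (H : VcCoef p R r0 dK b dG dP β e) {Λ : ℝ} (S : H.Sz Λ) {r : ℕ} (hr : r ≤ R) : |vcCd p R dG b r (R + 1) (R + 1)| ≤ Λ :=
  (H.Cd_abs_top2 hr).trans (H.inv_e_le S)

/-- **EXIT of the unit COEF, part 1: the exact inverse with the explicit kernels `vcCd`, `vcCa`** (official incoming mass: `p 0` arbitrary) -/
theorem inverse (H : VcCoef p R r0 dK b dG dP β e) {w : VcX → ℝ} (hw : VcA R w) (hsym : ∀ x, w (vcSw x) = w x) (x : VcX) (hx : vcLev R x 0 1 ≤ R) :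
    vcOp p R r0 (vcCd p R dG b) (fun r t k => - vcCa p R r0 dG dP b r t k) (vcL p R r0 dG dP b w) x = w x :=
  vc_inverse0 H.r0_pos H.ppos H.pmono H.ptop dG dP (vcCd p R dG b) (vcCa p R r0 dG dP b) b H.G1' H.P0
    (Ca_zero p R r0 dG dP b) H.h1 H.h2 hw hsym x hx

end VcCoef

/-! ## 4b. BRIDGE to the form `VcCoef0` of `Inv/Coef0.lean` (helper123), which `Inv/Main.lean` (helper84) consumes      (inserted by helper123) -/

/-- `VcCoef` (17) with the sizes `Sz Λ` gives `VcCoef0` with `dK := vcDk R dK` (`1` at the terminal level), `db k := |b k - b (k-1)|`, `bm := Λ` -/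
theorem VcCoef.toCoef0 {p : ℕ → ℝ} {R r0 : ℕ} {dK b : ℕ → ℝ} {dG dP : ℕ → ℕ → ℕ → ℝ} {β e Λ : ℝ}
    (H : VcCoef p R r0 dK b dG dP β e) (S : H.Sz Λ) :
    VcCoef0 p R r0 (vcDk R dK) (fun k => |b k - b (k - 1)|) b dG dP β Λ e where
  r0pos := H.r0_pos
  pos := H.ppos
  mono := H.pmono
  top := H.ptop
  dK0 := fun s _ => H.dk_nonneg s
  dKtop := by unfold vcDk; rw [if_neg (by omega)]
  db0 := fun s _ => abs_nonneg _
  β0 := H.β0.le
  e0 := H.e0
  bm0 := le_trans zero_le_one S.one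
  mask := fun s hs => Or.inr fun t k => H.Plow s hs t k
  b0 := fun r hr => H.b0 r hr
  b1 := fun r hr => S.hb r hr
  bv := fun k _ _ => le_rfl
  P0 := H.P0
  P1 := fun r _ t _ s _ => H.P1 r t s
  P2 := fun s hs c => by
    refine le_trans (H.P2 s hs c) (le_of_eq ?_)
    exact Finset.sum_congr rfl fun r _ => Finset.sum_congr rfl fun t _ => by ring
  P3 := fun r hr t ht s hs => H.P3u hr ht hs
  P5 := fun k h1 h2 t ht j hj => by
    have := H.P5 k t j h1 h2 ht hj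
    unfold vcDk
    rwa [if_pos h2]
  G1 := fun r hr j _ j' _ => H.G1 r j j' hr
  G2 := fun r _ j hj j' hj' => H.G2u (Finset.mem_Ioc.1 hj).1 (Finset.mem_Ioc.1 hj').1 (Finset.mem_Ioc.1 hj).2 (Finset.mem_Ioc.1 hj').2
  G3 := fun r hr => H.G3 r hr
  G4 := fun k h1 h2 j hj => by
    have := H.G4 k j h1 h2 hj
    unfold vcDk
    rwa [if_pos h2]

/-- `κ = 1 + K_R` -/
theorem vc_c0_kap_dk (R : ℕ) (dK : ℕ → ℝ) : vcCfKap R (vcDk R dK) = 1 + vcKt R dK := vc_cf_sum_dk R dK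

/-! ## 5. the instance on the scalar chain -/

theorem ic_cf_Ms_top (a : ℝ) (π : List (ℝ × ℝ)) {j : ℕ} (hj : π.length ≤ j) : icMs a π j = a := by
  unfold icMs
  rw [List.getElem?_eq_none hj]; rfl

theorem ic_cf_Ms_lt (a : ℝ) (π : List (ℝ × ℝ)) {j : ℕ} (hj : j < π.length) : icMs a π j = (π[j]).1 := by
  unfold icMs
  rw [List.getElem?_eq_getElem hj]; rfl

theorem ic_cf_Vr_nonneg {a : ℝ} {π : List (ℝ × ℝ)} (h : IcAdm a π) (j : ℕ) : 0 ≤ icVr π j := by
  unfold icVr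
  rcases Nat.lt_or_ge j π.length with hj | hj
  · rw [List.getElem?_eq_getElem hj]
    exact (h.adm _ (List.getElem_mem hj)).2.2
  · rw [List.getElem?_eq_none hj]; exact le_rfl

theorem ic_cf_Ms_mono {a : ℝ} {π : List (ℝ × ℝ)} (h : IcAdm a π) (j : ℕ) : icMs a π j ≤ icMs a π (j + 1) := by
  rcases Nat.lt_or_ge (j + 1) π.length with hj | hj
  · rw [ic_cf_Ms_lt a π hj, ic_cf_Ms_lt a π (by omega)]
    exact List.pairwise_iff_getElem.1 h.inc j (j + 1) (by omega) hj (by omega)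
  · rw [ic_cf_Ms_top a π hj]
    rcases Nat.lt_or_ge j π.length with hj' | hj'
    · rw [ic_cf_Ms_lt a π hj']
      exact (h.adm _ (List.getElem_mem hj')).2.1
    · rw [ic_cf_Ms_top a π hj']

/-- **INSTANCE**: the scalar chain with terminal mass `1` and positive masses satisfies the hypotheses of COEF (`r0 = 1`: the sheet `0` is decoupled).
The gap is the gap of the paper: `1 - b_r E χ_r² ≥ e`. -/
theorem ic_coef {π : List (ℝ × ℝ)} {β e : ℝ} {b : ℕ → ℝ} (hA : IcAdm 1 π) (hS : IcScb β 1 π) (hβ : 1 ≤ β)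
    (hpos : ∀ j, j < π.length → 0 < icMs 1 π j) (he : 0 < e) (hb : ∀ r, r ≤ π.length → 0 ≤ b r)
    (hgap : ∀ r, r ≤ π.length → e ≤ 1 - b r * icEx 1 π r fun z => icX 1 π r z ^ 2) :
    VcCoef (icP 1 π) π.length 1 (icRho π) b (icC 1 π) (fun r t s => icBk 1 π s r t) β e where
  r0_pos := le_rfl
  ppos := fun k h1 h2 => by
    unfold icP
    rw [if_neg (by omega)]
    rcases Nat.lt_or_ge (k - 1) π.length with h | h
    · exact hpos _ h
    · rw [ic_cf_Ms_top 1 π h]; exact one_pos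
  pmono := fun k h1 _ => by
    unfold icP
    rw [if_neg (by omega), if_neg (by omega)]
    have := ic_cf_Ms_mono hA (k - 1)
    rwa [show k - 1 + 1 = k + 1 - 1 by omega] at this
  ptop := by
    unfold icP
    rw [if_neg (by omega)]
    exact ic_cf_Ms_top 1 π (by omega)
  dK0 := fun k => by
    unfold icRho
    split_ifs
    · exact le_rfl
    · exact ic_cf_Vr_nonneg hA _
  β1 := hβ
  e0 := he
  b0 := hb
  P0 := fun r t => by unfold icBk; rw [if_pos rfl]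
  Plow := fun r hr t s => by
    have : r = 0 := by omega
    subst this
    exact hS.Prow0 s t
  P1 := fun r t s => hS.P1 s r t
  P2 := fun s hs c => hS.P2 s hs c
  P3 := fun r t s hr ht hs => hS.P3 s r t hs hr ht
  P3' := fun r t hr ht => hS.P3' r t hr ht
  P5 := fun k t j h1 h2 ht hj => hS.P5 k t j h1 h2 ht hj
  G1 := fun r j j' hr => hS.G1 r j j' hr
  G1' := fun r j j' => hS.G1' r j j'
  G2 := fun r j j' h1 h2 h3 h4 => hS.G2 r j j' h1 h2 h3 h4
  G2' := fun r j h1 h2 => hS.G2' r j h1 h2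
  G2'' := fun r => hS.G2'' r
  G3 := fun r hr => by
    have := hgap r hr
    rw [← hS.E1 r hr] at this
    exact this
  G4 := fun k j h1 h2 hj => hS.G4 k j h1 h2 hj


/-! ## 6. MASS-FREE hypotheses (IFACE of helper177, sec. 3): (P5), (G4) for ANY monotone weights by Abel summation -/

/-- Abel summation against monotone weights -/
theorem vc_cf_abel (p F : ℕ → ℝ) {M : ℝ} {I : ℕ} (hp0 : 0 ≤ p I) : ∀ n, I ≤ n → (∀ s, I ≤ s → s < n → p s ≤ p (s + 1)) →
    (∀ s, I ≤ s → s ≤ n → |F s| ≤ M) → |∑ s ∈ Icc I n, p s * (F s - F (s + 1)) + p n * F (n + 1)| ≤ p n * M := by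
  intro n hn
  induction n, hn using Nat.le_induction with
  | base =>
    intro _ hF
    rw [Icc_self, sum_singleton]
    have e : p I * (F I - F (I + 1)) + p I * F (I + 1) = p I * F I := by ring
    rw [e, abs_mul, abs_of_nonneg hp0]
    exact mul_le_mul_of_nonneg_left (hF I le_rfl le_rfl) hp0
  | succ n hn ih =>
    intro hp hF
    have h1 := ih (fun s h1 h2 => hp s h1 (by omega)) (fun s h1 h2 => hF s h1 (by omega))
    have h2 := hp n hn (by omega)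
    have h3 := hF (n + 1) (by omega) le_rfl
    rw [sum_Icc_succ_top (by omega)]
    have e : ∑ s ∈ Icc I n, p s * (F s - F (s + 1)) + p (n + 1) * (F (n + 1) - F (n + 1 + 1)) + p (n + 1) * F (n + 1 + 1)
        = (∑ s ∈ Icc I n, p s * (F s - F (s + 1)) + p n * F (n + 1)) + (p (n + 1) - p n) * F (n + 1) := by ring
    rw [e]
    calc _ ≤ |∑ s ∈ Icc I n, p s * (F s - F (s + 1)) + p n * F (n + 1)| + |(p (n + 1) - p n) * F (n + 1)| := abs_add_le _ _
      _ ≤ p n * M + (p (n + 1) - p n) * M := by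
          refine add_le_add h1 ?_
          rw [abs_mul, abs_of_nonneg (by linarith)]
          exact mul_le_mul_of_nonneg_left h3 (by linarith)
      _ = p (n + 1) * M := by ring

/-- the tails of a child table -/
noncomputable def vcTl (R : ℕ) (dG : ℕ → ℕ → ℕ → ℝ) (t i l : ℕ) : ℝ := ∑ i' ∈ Icc i (R + 1), ∑ l' ∈ Icc l (R + 1), dG t i' l'

theorem vc_cf_eqns_cite3 : True := by
  have := @vcTl.eq_1
  trivial

theorem vc_cf_Tl_top1 (R : ℕ) (dG : ℕ → ℕ → ℕ → ℝ) (t l : ℕ) : vcTl R dG t (R + 1 + 1) l = 0 := by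
  unfold vcTl; rw [Icc_eq_empty (by omega), sum_empty]

theorem vc_cf_Tl_top2 (R : ℕ) (dG : ℕ → ℕ → ℕ → ℝ) (t i : ℕ) : vcTl R dG t i (R + 1 + 1) = 0 := by
  unfold vcTl; rw [Icc_eq_empty (show ¬ R + 1 + 1 ≤ R + 1 by omega)]; simp

/-- the table is the mixed difference of its tails -/
theorem vc_cf_Tl_mixed (R : ℕ) (dG : ℕ → ℕ → ℕ → ℝ) (t : ℕ) {i l : ℕ} (hi : i ≤ R + 1) (hl : l ≤ R + 1) :
    (vcTl R dG t i l - vcTl R dG t i (l + 1)) - (vcTl R dG t (i + 1) l - vcTl R dG t (i + 1) (l + 1)) = dG t i l := by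
  unfold vcTl
  rw [vc_cf_bot (fun i' => ∑ l' ∈ Icc l (R + 1), dG t i' l') hi, vc_cf_bot (fun i' => ∑ l' ∈ Icc (l + 1) (R + 1), dG t i' l') hi,
    vc_cf_bot (fun l' => dG t i l') hl]
  ring

theorem vc_cf_Phi_diff (ψ : ℕ → ℕ → ℕ → ℝ) (r t : ℕ) {s : ℕ} (hs : 1 ≤ s) : vcPhi ψ r t s - vcPhi ψ r t (s - 1) = ψ r t s := by
  obtain ⟨s', rfl⟩ : ∃ s', s = s' + 1 := ⟨s - 1, by omega⟩
  unfold vcPhi
  rw [Nat.add_sub_cancel, sum_range_succ _ (s' + 1)]
  ring

/-- (P5) for monotone weights from the mass-free (P5') -/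
theorem vc_cf_P5 {p : ℕ → ℝ} {R : ℕ} (hpos : ∀ k, 1 ≤ k → k ≤ R + 1 → 0 < p k) (hmono : ∀ k, 1 ≤ k → k ≤ R → p k ≤ p (k + 1)) (htop : p (R + 1) = 1)
    (dP : ℕ → ℕ → ℕ → ℝ) {r r' t : ℕ} {M : ℝ} (h : ∀ i, i ≤ R + 1 → |vcPhi dP r t i - vcPhi dP r' t i| ≤ M) {j : ℕ} (hj1 : 1 ≤ j) (hj : j ≤ R + 1) :
    |vcHatP p R dP r t j - vcHatP p R dP r' t j| ≤ 2 * M := by
  set F : ℕ → ℝ := fun s => -(vcPhi dP r t (s - 1) - vcPhi dP r' t (s - 1)) with hF
  have e : vcHatP p R dP r t j - vcHatP p R dP r' t j = ∑ s ∈ Icc j (R + 1), p s * (F s - F (s + 1)) := by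
    unfold vcHatP
    rw [← sum_sub_distrib]
    refine sum_congr rfl fun s hs => ?_
    rw [mem_Icc] at hs
    have a1 := vc_cf_Phi_diff dP r t (show 1 ≤ s by omega)
    have a2 := vc_cf_Phi_diff dP r' t (show 1 ≤ s by omega)
    simp only [hF, Nat.add_sub_cancel]
    rw [← a1, ← a2]; ring
  have hFb : ∀ s, s ≤ R + 1 + 1 → |F s| ≤ M := by
    intro s hs
    simp only [hF, abs_neg]
    exact h (s - 1) (by omega)
  have key := vc_cf_abel p F (M := M) (hpos j hj1 hj).le (R + 1) hj (fun s h1 h2 => hmono s (by omega) (by omega)) (fun s _ h2 => hFb s (by omega))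
  rw [htop, one_mul, one_mul] at key
  have h2 := hFb (R + 1 + 1) le_rfl
  rw [e]
  calc |∑ s ∈ Icc j (R + 1), p s * (F s - F (s + 1))|
      = |(∑ s ∈ Icc j (R + 1), p s * (F s - F (s + 1)) + F (R + 1 + 1)) - F (R + 1 + 1)| := by congr 1; ring
    _ ≤ |∑ s ∈ Icc j (R + 1), p s * (F s - F (s + 1)) + F (R + 1 + 1)| + |F (R + 1 + 1)| := abs_sub _ _
    _ ≤ M + M := add_le_add key h2
    _ = 2 * M := by ring

/-- adjacent sheets of `ĝ` for monotone weights from the mass-free (G4') -/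
theorem vc_cf_G4 {p : ℕ → ℝ} {R : ℕ} (hpos : ∀ k, 1 ≤ k → k ≤ R + 1 → 0 < p k) (hmono : ∀ k, 1 ≤ k → k ≤ R → p k ≤ p (k + 1)) (htop : p (R + 1) = 1)
    (dG : ℕ → ℕ → ℕ → ℝ) {t t' I J : ℕ} {M : ℝ} (hI1 : 1 ≤ I) (hJ1 : 1 ≤ J) (hI : I ≤ R + 1) (hJ : J ≤ R + 1)
    (h : ∀ i l, I ≤ i → J ≤ l → i ≤ R + 1 → l ≤ R + 1 → |vcTl R dG t i l - vcTl R dG t' i l| ≤ M) :
    |vcHatG p R dG t I J - vcHatG p R dG t' I J| ≤ M := by
  set Δ : ℕ → ℕ → ℝ := fun i l => vcTl R dG t i l - vcTl R dG t' i l with hΔ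
  set F : ℕ → ℝ := fun i => ∑ l ∈ Icc J (R + 1), p l * (Δ i l - Δ i (l + 1)) with hF
  have e : vcHatG p R dG t I J - vcHatG p R dG t' I J = ∑ i ∈ Icc I (R + 1), p i * (F i - F (i + 1)) := by
    unfold vcHatG
    rw [← sum_sub_distrib]
    refine sum_congr rfl fun i hi => ?_
    rw [mem_Icc] at hi
    simp only [hF]
    rw [← sum_sub_distrib, ← sum_sub_distrib, mul_sum]
    refine sum_congr rfl fun l hl => ?_
    rw [mem_Icc] at hl
    have a1 := vc_cf_Tl_mixed R dG t hi.2 hl.2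
    have a2 := vc_cf_Tl_mixed R dG t' hi.2 hl.2
    simp only [hΔ]
    rw [← a1, ← a2]; ring
  have hFb : ∀ i, I ≤ i → i ≤ R + 1 → |F i| ≤ M := by
    intro i h1 h2
    have key := vc_cf_abel p (Δ i) (M := M) (hpos J hJ1 hJ).le (R + 1) hJ (fun s h1 h2 => hmono s (by omega) (by omega))
      (fun s a1 a2 => h i s h1 a1 h2 a2)
    have z : Δ i (R + 1 + 1) = 0 := by simp only [hΔ, vc_cf_Tl_top2, sub_self]
    rw [z, mul_zero, add_zero, htop, one_mul] at key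
    exact key
  have hFz : F (R + 1 + 1) = 0 := by
    simp only [hF, hΔ, vc_cf_Tl_top1, sub_self, mul_zero, sum_const_zero]
  have key := vc_cf_abel p F (M := M) (hpos I hI1 hI).le (R + 1) hI (fun s h1 h2 => hmono s (by omega) (by omega)) hFb
  rw [hFz, mul_zero, add_zero, htop, one_mul] at key
  rw [e]
  exact key


theorem VcCoefB.mono {p : ℕ → ℝ} {R r0 : ℕ} {dK b : ℕ → ℝ} {dG dP : ℕ → ℕ → ℕ → ℝ} {β β' e : ℝ} (H : VcCoefB p R r0 dK b dG dP β e) (h : β ≤ β') :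
    VcCoefB p R r0 dK b dG dP β' e where
  r0_pos := H.r0_pos
  ppos := H.ppos
  pmono := H.pmono
  ptop := H.ptop
  dK0 := H.dK0
  β1 := H.β1.trans h
  e0 := H.e0
  b0 := H.b0
  P0 := H.P0
  Plow := H.Plow
  P1 := H.P1
  P2 := H.P2
  P3 := fun r t s hr ht hs => (H.P3 r t s hr ht hs).trans (mul_le_mul_of_nonneg_right h (H.dK0 s))
  P3' := fun r t hr ht => (H.P3' r t hr ht).trans h
  G1 := H.G1
  G1' := H.G1'
  G2 := fun r j j' h1 h2 h3 h4 => (H.G2 r j j' h1 h2 h3 h4).trans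
    (mul_le_mul_of_nonneg_right (mul_le_mul_of_nonneg_right h (H.dK0 j)) (H.dK0 j'))
  G2' := fun r j h1 h2 => (H.G2' r j h1 h2).trans (mul_le_mul_of_nonneg_right h (H.dK0 j))
  G2'' := fun r => (H.G2'' r).trans h
  G3 := H.G3

/-- **the hypotheses of COEF in MASS-FREE form** (IFACE of helper177, sec. 3): weights `p` (any monotone positive weights, `p (R+1) = 1`, `p 0` arbitrary), FROZEN tables `dG`, `dP`, ONE constant `L`.
`r0 = 1`.   (G5) of the IFACE is not needed. -/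
structure VcCoefH (R : ℕ) (p rho b : ℕ → ℝ) (dG dP : ℕ → ℕ → ℕ → ℝ) (L : ℝ) : Prop where
  one : 1 ≤ L
  ppos : ∀ k, 1 ≤ k → k ≤ R + 1 → 0 < p k
  pmono : ∀ k, 1 ≤ k → k ≤ R → p k ≤ p (k + 1)
  ptop : p (R + 1) = 1
  rho0 : ∀ k, 0 ≤ rho k
  b0 : ∀ r, r ≤ R → 0 ≤ b r
  P0 : ∀ r t, dP r t 0 = 0
  P1 : ∀ r t s, dP r t s = dP t r s
  Prow0 : ∀ t s, dP 0 t s = 0
  P2 : ∀ s, s ≤ R + 1 → ∀ c : ℕ → ℝ, 0 ≤ ∑ r ∈ range (R + 1), ∑ t ∈ range (R + 1), c r * c t * dP r t s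
  P3 : ∀ r t s, r ≤ R → t ≤ R → s ≤ R → |dP r t s| ≤ L * rho s
  P3' : ∀ r t, r ≤ R → t ≤ R → |dP r t (R + 1)| ≤ L
  P5' : ∀ k t i, 1 ≤ k → k ≤ R → t ≤ R → i ≤ R + 1 → |vcPhi dP k t i - vcPhi dP (k - 1) t i| ≤ L * rho k
  G1 : ∀ r j j', r ≤ R → 0 ≤ dG r j j'
  G1' : ∀ r j j', dG r j j' = dG r j' j
  G2 : ∀ r j j', r < j → r < j' → j ≤ R → j' ≤ R → dG r j j' ≤ L * rho j * rho j'
  G2' : ∀ r j, r < j → j ≤ R → dG r j (R + 1) ≤ L * rho j
  G2'' : ∀ r, dG r (R + 1) (R + 1) ≤ L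
  G4' : ∀ j i l, 1 ≤ j → j ≤ R → j < i → j < l → i ≤ R + 1 → l ≤ R + 1 → |vcTl R dG j i l - vcTl R dG (j - 1) i l| ≤ L * rho j
  sK : ∑ k ∈ range (R + 1), rho k ≤ L
  sb : ∀ t, t ≤ R → b t ≤ L
  vb : ∑ t ∈ range R, |b (t + 1) - b t| ≤ L
  gap : ∀ r, r ≤ R → L⁻¹ ≤ 1 - b r * vcHatG p R dG r (r + 1) (r + 1)

namespace VcCoefH

variable {R : ℕ} {p rho b : ℕ → ℝ} {dG dP : ℕ → ℕ → ℕ → ℝ} {L : ℝ}

theorem toBase (H : VcCoefH R p rho b dG dP L) : VcCoefB p R 1 rho b dG dP L L⁻¹ where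
  r0_pos := le_rfl
  ppos := H.ppos
  pmono := H.pmono
  ptop := H.ptop
  dK0 := H.rho0
  β1 := H.one
  e0 := inv_pos.2 (lt_of_lt_of_le one_pos H.one)
  b0 := H.b0
  P0 := H.P0
  Plow := fun r hr t s => by
    have : r = 0 := by omega
    subst this
    exact H.Prow0 t s
  P1 := H.P1
  P2 := H.P2
  P3 := H.P3
  P3' := H.P3'
  G1 := H.G1
  G1' := H.G1'
  G2 := H.G2
  G2' := H.G2'
  G2'' := H.G2''
  G3 := H.gap

theorem L_le (H : VcCoefH R p rho b dG dP L) : L ≤ 5 * L ^ 2 := by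
  have := H.one
  nlinarith

/-- **mass-free ⟹ the hypotheses of COEF**, `β = 5 L²`, `e = 1 / L`, `r0 = 1` -/
theorem toCoef (H : VcCoefH R p rho b dG dP L) : VcCoef p R 1 rho b dG dP (5 * L ^ 2) L⁻¹ where
  toVcCoefB := H.toBase.mono H.L_le
  P5 := fun k t j h1 h2 ht hj => by
    have hL := H.one
    have hr := H.rho0 k
    have key := vc_cf_P5 H.ppos H.pmono H.ptop dP (r := k) (r' := k - 1) (t := t) (M := L * rho k) (fun i hi => H.P5' k t i h1 h2 ht hi)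
      (j := j) (by omega) (by omega)
    refine key.trans ?_
    have : 2 * L ≤ 5 * L ^ 2 := by nlinarith
    calc 2 * (L * rho k) = 2 * L * rho k := by ring
      _ ≤ 5 * L ^ 2 * rho k := mul_le_mul_of_nonneg_right this hr
  G4 := fun k j h1 h2 hj => by
    have hL := H.one
    have hr := H.rho0 k
    have HB := H.toBase
    have hkt : vcKt R rho ≤ L := H.sK
    have hkt0 := HB.kt_nonneg
    have hpk := (H.ppos k h1 (by omega)).le
    have hpk1 := HB.p_le k h1 (by omega)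
    have dkk : vcDk R rho k = rho k := by unfold vcDk; rw [if_pos h2]
    have hT : ∀ l, k - 1 < l → 0 ≤ p k * vcTG p R dG (k - 1) k l ∧ p k * vcTG p R dG (k - 1) k l ≤ 2 * L ^ 2 * rho k := by
      intro l hl
      have a1 := HB.TG_nonneg (show k - 1 ≤ R by omega) k (show 1 ≤ l by omega)
      have a2 := HB.TG_le (show k - 1 ≤ R by omega) (show k - 1 < k by omega) (by omega) hl
      rw [dkk] at a2
      refine ⟨mul_nonneg hpk a1, ?_⟩
      calc p k * vcTG p R dG (k - 1) k l ≤ 1 * (L * rho k * (1 + vcKt R rho)) := mul_le_mul hpk1 a2 a1 (by norm_num)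
        _ = L * (1 + vcKt R rho) * rho k := by ring
        _ ≤ 2 * L ^ 2 * rho k := by
            refine mul_le_mul_of_nonneg_right ?_ hr
            nlinarith
    have a1 : |vcHatG p R dG k (k + 1) (k + 1) - vcHatG p R dG (k - 1) (k + 1) (k + 1)| ≤ L * rho k :=
      vc_cf_G4 H.ppos H.pmono H.ptop dG (by omega) (by omega) (by omega) (by omega)
        (fun i l hi hl hi' hl' => H.G4' k i l h1 h2 (by omega) (by omega) hi' hl')
    have a2 := VcCoefB.hatG_diff p R dG (k - 1) (show k ≤ R + 1 by omega) (k + 1)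
    have a3 := VcCoefB.hatG_diff p R dG (k - 1) (show k ≤ R + 1 by omega) k
    have a4 := HB.hatG_symm (k - 1) (k + 1) k
    have t2 := hT (k + 1) (by omega)
    have t3 := hT k (by omega)
    have e1 : k - 1 + 1 = k := by omega
    have hfin : L * rho k + 2 * (2 * L ^ 2 * rho k) ≤ 5 * L ^ 2 * rho k := by
      have : L * rho k ≤ L ^ 2 * rho k := mul_le_mul_of_nonneg_right (by nlinarith) hr
      linarith
    unfold vcHatK
    rw [e1]
    rw [abs_le] at a1 ⊢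
    rcases hj with rfl | rfl
    · rw [max_eq_right (by omega), max_self]
      constructor <;> linarith [a1.1, a1.2, t2.1, t2.2, t3.1, t3.2]
    · rw [max_self, max_eq_left (by omega)]
      constructor <;> linarith [a1.1, a1.2, t2.1, t2.2, t3.1, t3.2]

/-- the size constant -/
theorem sz (H : VcCoefH R p rho b dG dP L) : H.toCoef.Sz (20 * L ^ 4) where
  one := by
    have := H.one
    have : 1 ≤ L ^ 4 := one_le_pow₀ this
    linarith
  hβ := by
    have hL := H.one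
    have hkt : vcKt R rho ≤ L := H.sK
    have hkt0 := H.toBase.kt_nonneg
    have h1 : (1 + vcKt R rho) ^ 2 ≤ (2 * L) ^ 2 := pow_le_pow_left₀ (by linarith) (by linarith) 2
    calc 5 * L ^ 2 * (1 + vcKt R rho) ^ 2 ≤ 5 * L ^ 2 * (2 * L) ^ 2 := mul_le_mul_of_nonneg_left h1 (by positivity)
      _ = 20 * L ^ 4 := by ring
  hb := fun r hr => by
    have hL := H.one
    have h1 : L ≤ L ^ 4 := by
      calc L = L ^ 1 := (pow_one L).symm
        _ ≤ L ^ 4 := pow_le_pow_right₀ hL (by norm_num)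
    linarith [H.sb r hr, pow_pos (lt_of_lt_of_le one_pos hL) 4]
  he := by
    have hL := H.one
    have h1 : L ≤ L ^ 4 := by
      calc L = L ^ 1 := (pow_one L).symm
        _ ≤ L ^ 4 := pow_le_pow_right₀ hL (by norm_num)
    exact inv_anti₀ (by linarith) (by linarith [pow_pos (lt_of_lt_of_le one_pos hL) 4])

end VcCoefH


/-! ## 7. the mass-free instance on the scalar chain: ANY weights, FROZEN tables -/

theorem ic_cf_Phi (a : ℝ) (π : List (ℝ × ℝ)) (r t n : ℕ) :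
    vcPhi (fun r t s => icBk a π s r t) r t n = icBet a π r t n - icBet a π r t 0 := by
  unfold vcPhi
  induction n with
  | zero => simp [icBk]
  | succ n ih =>
    rw [sum_range_succ, ih]
    show icBet a π r t n - icBet a π r t 0 + icBk a π (n + 1) r t = _
    unfold icBk
    rw [if_neg (by omega), Nat.add_sub_cancel]
    ring

theorem ic_cf_sum_rho (π : List (ℝ × ℝ)) (n : ℕ) : ∑ k ∈ range (n + 1), icRho π k = icK π n := by
  rw [sum_range_succ']
  unfold icRho icK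
  simp

/-- **INSTANCE, MASS-FREE FORM**: the tables of the chain with terminal mass `1`, ANY positive monotone weights `p` (`p (N+1) = 1`, `p 0` arbitrary), the gap as a hypothesis AT THE WEIGHTS `p`. -/
theorem ic_coefH {π : List (ℝ × ℝ)} {β L : ℝ} {p b : ℕ → ℝ} (hA : IcAdm 1 π) (hS : IcScb β 1 π)
    (ppos : ∀ k, 1 ≤ k → k ≤ π.length + 1 → 0 < p k) (pmono : ∀ k, 1 ≤ k → k ≤ π.length → p k ≤ p (k + 1)) (ptop : p (π.length + 1) = 1)
    (hL : 1 ≤ L) (hβ : 2 * β ≤ L) (hK : icK π π.length ≤ L) (hb0 : ∀ r, r ≤ π.length → 0 ≤ b r) (hb : ∀ t, t ≤ π.length → b t ≤ L)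
    (hvb : ∑ t ∈ range π.length, |b (t + 1) - b t| ≤ L)
    (hgap : ∀ r, r ≤ π.length → L⁻¹ ≤ 1 - b r * vcHatG p π.length (icC 1 π) r (r + 1) (r + 1)) :
    VcCoefH π.length p (icRho π) b (icC 1 π) (fun r t s => icBk 1 π s r t) L := by
  have hrho : ∀ k, 0 ≤ icRho π k := fun k => by
    unfold icRho
    split_ifs
    · exact le_rfl
    · exact ic_cf_Vr_nonneg hA _
  have hβ0 : 0 ≤ β := (abs_nonneg _).trans (hS.P3' 0 0 (Nat.zero_le _) (Nat.zero_le _))
  have hβL : β ≤ L := by linarith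
  exact
  { one := hL
    ppos := ppos
    pmono := pmono
    ptop := ptop
    rho0 := hrho
    b0 := hb0
    P0 := fun r t => by unfold icBk; rw [if_pos rfl]
    P1 := fun r t s => hS.P1 s r t
    Prow0 := fun t s => hS.Prow0 s t
    P2 := fun s hs c => hS.P2 s hs c
    P3 := fun r t s hr ht hs => (hS.P3 s r t hs hr ht).trans (mul_le_mul_of_nonneg_right hβL (hrho s))
    P3' := fun r t hr ht => (hS.P3' r t hr ht).trans hβL
    P5' := fun k t i h1 h2 ht _ => by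
      rw [ic_cf_Phi, ic_cf_Phi]
      have a1 := hS.P5' k t i h1 h2 ht
      have a2 := hS.P5' k t 0 h1 h2 ht
      have e : icBet 1 π k t i - icBet 1 π k t 0 - (icBet 1 π (k - 1) t i - icBet 1 π (k - 1) t 0)
          = (icBet 1 π k t i - icBet 1 π (k - 1) t i) - (icBet 1 π k t 0 - icBet 1 π (k - 1) t 0) := by ring
      rw [e]
      calc _ ≤ |icBet 1 π k t i - icBet 1 π (k - 1) t i| + |icBet 1 π k t 0 - icBet 1 π (k - 1) t 0| := abs_sub _ _
        _ ≤ β * icRho π k + β * icRho π k := add_le_add a1 a2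
        _ = 2 * β * icRho π k := by ring
        _ ≤ L * icRho π k := mul_le_mul_of_nonneg_right hβ (hrho k)
    G1 := fun r j j' hr => hS.G1 r j j' hr
    G1' := fun r j j' => hS.G1' r j j'
    G2 := fun r j j' h1 h2 h3 h4 => (hS.G2 r j j' h1 h2 h3 h4).trans
      (mul_le_mul_of_nonneg_right (mul_le_mul_of_nonneg_right hβL (hrho j)) (hrho j'))
    G2' := fun r j h1 h2 => (hS.G2' r j h1 h2).trans (mul_le_mul_of_nonneg_right hβL (hrho j))
    G2'' := fun r => (hS.G2'' r).trans hβL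
    G4' := fun j i l h1 h2 hi hl _ _ => (hS.G4' j i l h1 h2 hi hl).trans (mul_le_mul_of_nonneg_right hβL (hrho j))
    sK := by rw [ic_cf_sum_rho]; exact hK
    sb := hb
    vb := hvb
    gap := hgap }

/-! ## 8. the gap under a perturbation of the weights -/

/-- `ĝ` is monotone in the weights -/
theorem vc_cf_hatG_mono {p p' : ℕ → ℝ} {R : ℕ} {dG : ℕ → ℕ → ℕ → ℝ} {r i l : ℕ} (hG : ∀ j j', 0 ≤ dG r j j')
    (h0 : ∀ k, 1 ≤ k → k ≤ R + 1 → 0 ≤ p k) (h : ∀ k, 1 ≤ k → k ≤ R + 1 → p k ≤ p' k) (hi : 1 ≤ i) (hl : 1 ≤ l) :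
    vcHatG p R dG r i l ≤ vcHatG p' R dG r i l := by
  unfold vcHatG
  refine sum_le_sum fun j hj => sum_le_sum fun j' hj' => ?_
  rw [mem_Icc] at hj hj'
  refine mul_le_mul_of_nonneg_right ?_ (hG j j')
  exact mul_le_mul (h j (by omega) hj.2) (h j' (by omega) hj'.2) (h0 j' (by omega) hj'.2) ((h0 j (by omega) hj.2).trans (h j (by omega) hj.2))

/-- `ĝ` is Lipschitz in the weights (sup distance), with the constant `2 ×` the tail -/
theorem vc_cf_hatG_lip {p p' : ℕ → ℝ} {R : ℕ} {dG : ℕ → ℕ → ℕ → ℝ} {r i l : ℕ} {ε : ℝ} (hG : ∀ j j', 0 ≤ dG r j j')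
    (h1 : ∀ k, 1 ≤ k → k ≤ R + 1 → |p k| ≤ 1) (h1' : ∀ k, 1 ≤ k → k ≤ R + 1 → |p' k| ≤ 1)
    (h : ∀ k, 1 ≤ k → k ≤ R + 1 → |p' k - p k| ≤ ε) (hi : 1 ≤ i) (hl : 1 ≤ l) :
    |vcHatG p' R dG r i l - vcHatG p R dG r i l| ≤ 2 * ε * vcTl R dG r i l := by
  unfold vcHatG vcTl
  rw [← sum_sub_distrib, mul_sum]
  refine (abs_sum_le_sum_abs _ _).trans (sum_le_sum fun j hj => ?_)
  rw [← sum_sub_distrib, mul_sum]
  refine (abs_sum_le_sum_abs _ _).trans (sum_le_sum fun j' hj' => ?_)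
  rw [mem_Icc] at hj hj'
  have e : p' j * p' j' * dG r j j' - p j * p j' * dG r j j' = ((p' j - p j) * p' j' + p j * (p' j' - p j')) * dG r j j' := by ring
  rw [e, abs_mul, abs_of_nonneg (hG j j')]
  refine mul_le_mul_of_nonneg_right ?_ (hG j j')
  have a1 := h j (by omega) hj.2
  have a2 := h j' (by omega) hj'.2
  have a3 := h1' j' (by omega) hj'.2
  have a4 := h1 j (by omega) hj.2
  have hε : 0 ≤ ε := (abs_nonneg _).trans a1
  calc |(p' j - p j) * p' j' + p j * (p' j' - p j')| ≤ |(p' j - p j) * p' j'| + |p j * (p' j' - p j')| := abs_add_le _ _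
    _ = |p' j - p j| * |p' j'| + |p j| * |p' j' - p j'| := by rw [abs_mul, abs_mul]
    _ ≤ ε * 1 + 1 * ε := add_le_add (mul_le_mul a1 a3 (abs_nonneg _) hε) (mul_le_mul a4 a2 (abs_nonneg _) (by norm_num))
    _ = 2 * ε := by ring

end Claimed.Agent.R286
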