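import Claimed.Agent.R286.Inv.Blk

/-!
# Row 286 (S0533), LL Section 5: PAIR ARRAYS, ROW SUMS, THE EXACT INVERSE      (head: helper84)

A PAIR ARRAY is an admissible function `w : VcX → ℝ` (`VcA R w`); the pair is (label `0`, label `1`); all other labels are OLD labels
(parameters: `w` may depend on the whole genealogy with them).    `vcSw` exchanges the labels `0, 1`.
* `vcSh R t` = indicator of the sheet `t`;      `vcRow p R t w` = `(row_t w)_a = ∑_{d : ad on sheet t} w_ad` (a function of the label `0`).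
* `vcOp p R r0 γ ψ` = the operator with CHILD KERNEL `γ` and ROW KERNEL `ψ`, in block-sum form:   for `ab` on the sheet `r`
     `(Op w)_ab = ∑_{j,j' ∈ (r,R+1]} γ r j j' (S_j ⊗ S_j' w)_ab + ∑_{t ∈ [r0,R]} ∑_{k ≤ R+1} ψ r t k ((S_k row_t w)_a + (S_k row_t w)_b)`.
  The cavity kernel `M` of LL (A8) is `vcOp dG dP` (unit KER), its inverse is again of this form (`vc_inverse`).
* spectral transforms (Abel sums): `vcHatG`, `vcHatP`;  on `E_k = P_k - P_(k-1)`, `P_k = S_k / p_k`, the radial operator `∑_s ψ s S_s` is the scalar `∑_{s ≥ k} p_s ψ s`.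
NUMERICAL CHECK of `vc_inverse` and of the form of `vcOp` (random kernels, random arrays with 2 old labels, R = 2, all r0): agreement 1e-14.
-/

set_option autoImplicit false

namespace Claimed.Agent.R286

open Finset

/-- indicator of the sheet `t` for the pair `(0, 1)` -/
noncomputable def vcSh (R t : ℕ) (x : VcX) : ℝ := if vcLev R x 0 1 = t then 1 else 0

/-- exchange of the labels `0` and `1` -/
def vcSw (x : VcX) : VcX := vcRel (Equiv.swap 0 1) x

/-- row sum on the sheet `t` -/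
noncomputable def vcRow (p : ℕ → ℝ) (R t : ℕ) (w : VcX → ℝ) : VcX → ℝ := vcS p R 1 0 fun x => vcSh R t x * w x

/-! ## unit ARR: relations between block sums, sheets and rows -/

theorem vc_sw_sw (x : VcX) : vcSw (vcSw x) = x := by
  funext i
  show x (Equiv.swap 0 1 (Equiv.swap 0 1 i.1), i.2) = x i
  rw [Equiv.swap_apply_self]

theorem vc_lev_sw (R : ℕ) (x : VcX) : vcLev R (vcSw x) 0 1 = vcLev R x 0 1 := by
  unfold vcSw
  rw [vc_lev_rel, Equiv.swap_apply_left, Equiv.swap_apply_right, vc_lev_symm]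

theorem vc_sh_sw (R t : ℕ) (x : VcX) : vcSh R t (vcSw x) = vcSh R t x := by
  unfold vcSh
  rw [vc_lev_sw]

theorem vc_A_sh (R t : ℕ) : VcA R (vcSh R t) := vc_A_lev R 0 1 fun n => if n = t then 1 else 0

theorem VcA.sw {R : ℕ} {w : VcX → ℝ} (hw : VcA R w) : VcA R (fun x => w (vcSw x)) := hw.rel _

theorem VcA.row {R : ℕ} {w : VcX → ℝ} (hw : VcA R w) (p : ℕ → ℝ) (t : ℕ) : VcA R (vcRow p R t w) :=
  ((vc_A_sh R t).mul hw).S p 1 0

/-- the row sum does not depend on the label `1` -/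
theorem vc_row_indL {R : ℕ} {w : VcX → ℝ} (hw : VcA R w) (p : ℕ → ℝ) (t : ℕ) : VcIndL 1 (vcRow p R t w) :=
  fun j => vc_S_ind ((vc_A_sh R t).mul hw) p 1 (Nat.zero_le j)

theorem vc_sh_ind {R t : ℕ} {i : ℕ × ℕ} (hi : t < i.2) : VcInd i (vcSh R t) := by
  intro x y
  unfold vcSh
  exact if_congr (vc_lev_update hi x y 0 1) rfl rfl

/-- the sheet indicator commutes with the block sums below the sheet -/
theorem vc_S_sh {R : ℕ} {w : VcX → ℝ} (hw : VcA R w) (p : ℕ → ℝ) (a : ℕ) {r j : ℕ} (hj : r < j) :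
    vcS p R a j (fun x => vcSh R r x * w x) = fun x => vcSh R r x * vcS p R a j w x :=
  vc_S_mul_left hw p a j fun _ hi _ => vc_sh_ind (lt_of_lt_of_le hj hi)

/-- block sums below the sheet only see the values of the array on the sheet -/
theorem vc_S_congr_sheet {R : ℕ} {w w' : VcX → ℝ} (hw : VcA R w) (hw' : VcA R w') (p : ℕ → ℝ) (a : ℕ) {r j : ℕ} (hj : r < j)
    (h : ∀ x, vcLev R x 0 1 = r → w x = w' x) (x : VcX) (hx : vcLev R x 0 1 = r) :
    vcS p R a j w x = vcS p R a j w' x := by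
  have e : (fun x => vcSh R r x * w x) = fun x => vcSh R r x * w' x := by
    funext y
    by_cases hy : vcLev R y 0 1 = r
    · rw [h y hy]
    · simp [vcSh, hy]
  have h1 := congrFun (vc_S_sh hw p a hj) x
  have h2 := congrFun (vc_S_sh hw' p a hj) x
  rw [e] at h1
  rw [h1] at h2
  simpa [vcSh, hx] using h2

/-- swap-equivariance of the block sums -/
theorem vc_S_sw (p : ℕ → ℝ) (R j : ℕ) (w : VcX → ℝ) :
    vcS p R 1 j (fun x => w (vcSw x)) = fun x => vcS p R 0 j w (vcSw x) := by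
  have := vc_S_rel p R w (Equiv.swap 0 1) (Equiv.swap 0 1).injective 0 j
  rwa [Equiv.swap_apply_left] at this

theorem vc_S_sw' (p : ℕ → ℝ) (R j : ℕ) (w : VcX → ℝ) :
    vcS p R 0 j (fun x => w (vcSw x)) = fun x => vcS p R 1 j w (vcSw x) := by
  have := vc_S_rel p R w (Equiv.swap 0 1) (Equiv.swap 0 1).injective 1 j
  rwa [Equiv.swap_apply_right] at this

/-- (A4) row sum of a child average -/
theorem vc_row_SS {p : ℕ → ℝ} {R : ℕ} (hM : VcMass p R) {w : VcX → ℝ} (hw : VcA R w) {t i l : ℕ}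
    (hi : t < i) (hl : t < l) (hi' : i ≤ R + 1) (hl' : l ≤ R + 1) :
    vcRow p R t (vcS p R 0 i (vcS p R 1 l w)) = fun x => p l * vcS p R 0 i (vcRow p R t w) x := by
  have hsw : VcA R (fun x => vcSh R t x * w x) := (vc_A_sh R t).mul hw
  unfold vcRow
  rw [← vc_S_sh (hw.S p 1 l) p 0 hi, ← vc_S_sh hw p 1 hl, vc_S_comm (hsw.S p 1 l) p 1 0 0 i,
    vc_S_S hM hsw 1 (Nat.zero_le _) hl', Nat.zero_max, Nat.zero_min]
  exact vc_S_const_mul (hsw.S p 1 0) p 0 i (p l)

/-- a tame function takes the same value at two configurations which differ only in coordinates it does not depend on -/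
theorem vc_arr_ind_congr {F : VcX → ℝ} (hF : VcT F) (x x' : VcX) (h : ∀ i, x i ≠ x' i → VcInd i F) : F x = F x' := by
  classical
  obtain ⟨W, hW⟩ := hF.fin
  have key : ∀ s : Finset (ℕ × ℕ), F (fun i => if i ∈ s then x' i else x i) = F x := by
    intro s
    induction s using Finset.induction_on with
    | empty => simp
    | insert k s hk ih =>
      have e : (fun i => if i ∈ insert k s then x' i else x i)
          = Function.update (fun i => if i ∈ s then x' i else x i) k (x' k) := by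
        funext i
        by_cases hik : i = k
        · subst hik
          simp
        · rw [Function.update_of_ne hik]
          simp [Finset.mem_insert, hik]
      rw [e]
      by_cases hx : x k = x' k
      · rw [← ih]
        congr 1
        funext i
        by_cases hik : i = k
        · subst hik
          simp [hk, hx]
        · rw [Function.update_of_ne hik]
      · rw [h k hx, ih]
  rw [← key W]
  exact hW _ _ fun i hi => by simp [hi]

/-- the sheet indicator as a difference of block indicators -/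
theorem vc_arr_sh_eq {R t : ℕ} (ht : t ≤ R) (x : VcX) :
    vcSh R t x = (if vcBlk t x 1 0 then (1:ℝ) else 0) - if vcBlk (t + 1) x 1 0 then (1:ℝ) else 0 := by
  have h1 := vc_le_lev (R := R) (k := t) (by omega) x 1 0
  have h2 := vc_le_lev (R := R) (k := t + 1) (by omega) x 1 0
  unfold vcSh
  rw [vc_lev_symm R x 0 1]
  by_cases ha : vcBlk (t + 1) x 1 0
  · have hb : vcBlk t x 1 0 := vc_b2_blk_anti (Nat.le_succ t) ha
    have := h2.2 ha
    rw [if_pos ha, if_pos hb, if_neg (by omega)]; simp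
  · rw [if_neg ha]
    have h3 : ¬ t + 1 ≤ vcLev R x 1 0 := fun h => ha (h2.1 h)
    by_cases hb : vcBlk t x 1 0
    · have := h1.2 hb
      rw [if_pos hb, if_pos (by omega)]; simp
    · have h4 : ¬ t ≤ vcLev R x 1 0 := fun h => hb (h1.1 h)
      rw [if_neg hb, if_neg (by omega)]; simp

/-- row sum in terms of the DELTA lemma -/
theorem vc_arr_row_eq {p : ℕ → ℝ} {R : ℕ} {G : VcX → ℝ} (hG : VcA R G) {t : ℕ} (ht : t ≤ R) :
    vcRow p R t G = fun x => vcS p R 1 t G (vcCopy t 0 1 x) - vcS p R 1 (t + 1) G (vcCopy (t + 1) 0 1 x) := by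
  have e : (fun x => vcSh R t x * G x)
      = fun x => (if vcBlk t x 1 0 then G x else 0) - if vcBlk (t + 1) x 1 0 then G x else 0 := by
    funext x
    rw [vc_arr_sh_eq ht]
    split_ifs <;> simp
  have a1 : VcA R (fun x => if vcBlk t x 1 0 then G x else 0) := by
    have := (vc_A_blk R (k := t) (by omega) 1 0 1 0).mul hG
    refine cast (congrArg (VcA R) ?_) this
    funext x; split_ifs <;> simp
  have a2 : VcA R (fun x => if vcBlk (t + 1) x 1 0 then G x else 0) := by
    have := (vc_A_blk R (k := t + 1) (by omega) 1 0 1 0).mul hG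
    refine cast (congrArg (VcA R) ?_) this
    funext x; split_ifs <;> simp
  unfold vcRow
  rw [e, vc_S_sub a1 a2, vc_S_blk hG (by decide : (0:ℕ) ≠ 1) (by omega : t ≤ R + 1),
    vc_S_blk hG (by decide : (0:ℕ) ≠ 1) (by omega : t + 1 ≤ R + 1)]

/-- (A6a) row sum of a function of the first leaf: the sheet `t` of a row has mass `p t - p (t+1)` -/
theorem vc_row_fst {p : ℕ → ℝ} {R : ℕ} (hM : VcMass p R) {F : VcX → ℝ} (hF : VcA R F) (h1 : VcIndL 1 F) {t : ℕ} (ht : t ≤ R) :
    vcRow p R t F = fun x => (p t - p (t + 1)) * F x := by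
  rw [vc_arr_row_eq hF ht, vc_S_of_ind hM 1 (by omega : t ≤ R + 1) fun i _ _ => h1 i,
    vc_S_of_ind hM 1 (by omega : t + 1 ≤ R + 1) fun i _ _ => h1 i]
  funext x
  have c1 : F (vcCopy t 0 1 x) = F x := by
    refine vc_arr_ind_congr hF.toVcT _ _ fun i hi => ?_
    have : i.1 = 1 := by
      by_contra hne
      apply hi
      show (if i.1 = 1 ∧ i.2 < t then x (0, i.2) else x i) = x i
      rw [if_neg fun h => hne h.1]
    have e : i = (1, i.2) := Prod.ext this rfl
    rw [e]; exact h1 i.2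
  have c2 : F (vcCopy (t + 1) 0 1 x) = F x := by
    refine vc_arr_ind_congr hF.toVcT _ _ fun i hi => ?_
    have : i.1 = 1 := by
      by_contra hne
      apply hi
      show (if i.1 = 1 ∧ i.2 < t + 1 then x (0, i.2) else x i) = x i
      rw [if_neg fun h => hne h.1]
    have e : i = (1, i.2) := Prod.ext this rfl
    rw [e]; exact h1 i.2
  show p t * F (vcCopy t 0 1 x) - p (t + 1) * F (vcCopy (t + 1) 0 1 x) = (p t - p (t + 1)) * F x
  rw [c1, c2]; ring

/-- (A6b) row sum of a function of the second leaf -/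
theorem vc_row_snd {p : ℕ → ℝ} {R : ℕ} (hM : VcMass p R) {F : VcX → ℝ} (hF : VcA R F) (h1 : VcIndL 1 F) {t : ℕ} (ht : t ≤ R) :
    vcRow p R t (fun x => F (vcSw x)) = fun x => vcS p R 0 t F x - vcS p R 0 (t + 1) F x := by
  rw [vc_arr_row_eq hF.sw ht, vc_S_sw, vc_S_sw]
  have key : ∀ k x, vcS p R 0 k F (vcSw (vcCopy k 0 1 x)) = vcS p R 0 k F x := by
    intro k x
    refine vc_arr_ind_congr (hF.S p 0 k).toVcT _ _ fun i hi => ?_
    by_cases h1i : i.1 = 1
    · have e : i = (1, i.2) := Prod.ext h1i rfl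
      rw [e]; exact (h1 i.2).S p R 0 k
    · by_cases h0i : i.1 = 0
      · have e : i = (0, i.2) := Prod.ext h0i rfl
        by_cases hk : i.2 < k
        · exfalso
          apply hi
          show (if Equiv.swap 0 1 i.1 = 1 ∧ i.2 < k then x (0, i.2) else x (Equiv.swap 0 1 i.1, i.2)) = x i
          rw [h0i, Equiv.swap_apply_left, if_pos ⟨rfl, hk⟩, ← e]
        · rw [e]; exact vc_S_ind hF p 0 (not_lt.1 hk)
      · exfalso
        apply hi
        show (if Equiv.swap 0 1 i.1 = 1 ∧ i.2 < k then x (0, i.2) else x (Equiv.swap 0 1 i.1, i.2)) = x i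
        rw [Equiv.swap_apply_of_ne_of_ne h0i h1i, if_neg fun h => h1i h.1]
  funext x
  show vcS p R 0 t F (vcSw (vcCopy t 0 1 x)) - vcS p R 0 (t + 1) F (vcSw (vcCopy (t + 1) 0 1 x)) = _
  rw [key, key]

/-- (A5) child averages of a function of one leaf -/
theorem vc_S1_fst {p : ℕ → ℝ} {R : ℕ} (hM : VcMass p R) {F : VcX → ℝ} (h1 : VcIndL 1 F) {l : ℕ} (hl : l ≤ R + 1) :
    vcS p R 1 l F = fun x => p l * F x :=
  vc_S_of_ind hM 1 hl fun i _ _ => h1 i

/-! ## the operators -/

/-- operator with child kernel `γ r j j'` and row kernel `ψ r t k`; retained sheets `[r0, R]` -/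
noncomputable def vcOp (p : ℕ → ℝ) (R r0 : ℕ) (γ ψ : ℕ → ℕ → ℕ → ℝ) (w : VcX → ℝ) : VcX → ℝ := fun x =>
  (∑ j ∈ Ioc (vcLev R x 0 1) (R + 1), ∑ j' ∈ Ioc (vcLev R x 0 1) (R + 1),
      γ (vcLev R x 0 1) j j' * vcS p R 0 j (vcS p R 1 j' w) x)
    + ∑ t ∈ Icc r0 R, ∑ k ∈ range (R + 2),
      ψ (vcLev R x 0 1) t k * (vcS p R 0 k (vcRow p R t w) x + vcS p R 0 k (vcRow p R t w) (vcSw x))

/-- spectral transform of a child kernel -/
noncomputable def vcHatG (p : ℕ → ℝ) (R : ℕ) (γ : ℕ → ℕ → ℕ → ℝ) (r i l : ℕ) : ℝ :=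
  ∑ j ∈ Icc i (R + 1), ∑ j' ∈ Icc l (R + 1), p j * p j' * γ r j j'

/-- spectral transform of a row kernel -/
noncomputable def vcHatP (p : ℕ → ℝ) (R : ℕ) (ψ : ℕ → ℕ → ℕ → ℝ) (r t k : ℕ) : ℝ :=
  ∑ s ∈ Icc k (R + 1), p s * ψ r t s

/-- `μ_t^k = - d_t^k` of LL 05: `2 s_t` (`k ≤ t`), `s_t + p_(t+1)` (`k = t+1`), `s_t` (`k > t+1`), `s_t = p_(t+1) - p_t` -/
noncomputable def vcMu (p : ℕ → ℝ) (k t : ℕ) : ℝ :=
  p (t + 1) - p t + (if k ≤ t + 1 then p (t + 1) else 0) - (if k ≤ t then p t else 0)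

/-- the child multiplier seen by the sector `k` on the sheet `r` -/
noncomputable def vcHatK (p : ℕ → ℝ) (R : ℕ) (γ : ℕ → ℕ → ℕ → ℝ) (k r : ℕ) : ℝ := vcHatG p R γ r (max k (r + 1)) (r + 1)

/-- LL (H1): `w ↦ w - M (b w)` -/
noncomputable def vcL (p : ℕ → ℝ) (R r0 : ℕ) (dG dP : ℕ → ℕ → ℕ → ℝ) (b : ℕ → ℝ) (w : VcX → ℝ) : VcX → ℝ := fun x =>
  w x - vcOp p R r0 dG dP (fun y => b (vcLev R y 0 1) * w y) x

theorem VcA.op {R : ℕ} {w : VcX → ℝ} (hw : VcA R w) (p : ℕ → ℝ) (r0 : ℕ) (γ ψ : ℕ → ℕ → ℕ → ℝ) : VcA R (vcOp p R r0 γ ψ w) := by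
  have e : vcOp p R r0 γ ψ w = fun x =>
      (∑ j ∈ range (R + 2), ∑ j' ∈ range (R + 2),
        (fun n => if n < j ∧ n < j' then γ n j j' else 0) (vcLev R x 0 1) * vcS p R 0 j (vcS p R 1 j' w) x)
      + ∑ t ∈ Icc r0 R, ∑ k ∈ range (R + 2),
        (fun n => ψ n t k) (vcLev R x 0 1) * (vcS p R 0 k (vcRow p R t w) x + vcS p R 0 k (vcRow p R t w) (vcSw x)) := by
    funext x
    unfold vcOp
    congr 1
    have hsub : Ioc (vcLev R x 0 1) (R + 1) ⊆ range (R + 2) := fun j hj => by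
      rw [mem_Ioc] at hj; rw [mem_range]; omega
    rw [← Finset.sum_subset hsub]
    · refine Finset.sum_congr rfl fun j hj => ?_
      rw [← Finset.sum_subset hsub]
      · refine Finset.sum_congr rfl fun j' hj' => ?_
        rw [mem_Ioc] at hj hj'
        simp only [if_pos (And.intro hj.1 hj'.1)]
      · intro j' h1 h2
        rw [mem_range] at h1; rw [mem_Ioc] at h2
        have : ¬ (vcLev R x 0 1 < j ∧ vcLev R x 0 1 < j') := fun h => h2 ⟨h.2, by omega⟩
        simp only [if_neg this, zero_mul]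
    · intro j h1 h2
      rw [mem_range] at h1; rw [mem_Ioc] at h2
      refine Finset.sum_eq_zero fun j' _ => ?_
      have : ¬ (vcLev R x 0 1 < j ∧ vcLev R x 0 1 < j') := fun h => h2 ⟨h.1, by omega⟩
      simp only [if_neg this, zero_mul]
  rw [e]
  refine VcA.add ?_ ?_
  · refine VcA.sum _ fun j _ => VcA.sum _ fun j' _ => ?_
    exact (vc_A_lev R 0 1 (fun n => if n < j ∧ n < j' then γ n j j' else 0)).mul ((hw.S p 1 j').S p 0 j)
  · refine VcA.sum _ fun t _ => VcA.sum _ fun k _ => ?_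
    exact (vc_A_lev R 0 1 (fun n => ψ n t k)).mul (((hw.row p t).S p 0 k).add ((hw.row p t).S p 0 k).sw)

/-- `vcOut` only sees the cardinalities of the integrated levels -/
theorem vc_out_congr_rho {ρ ρ' : ℕ → ℝ} (a : ℕ) (F : VcX → ℝ) (n : ℕ) :
    ∀ j, (∀ i, j ≤ i → ρ i = ρ' i) → vcOut ρ a j n F = vcOut ρ' a j n F := by
  induction n with
  | zero => exact fun _ _ => rfl
  | succ n ih =>
    intro j h
    show vcU ρ (a, j) (vcOut ρ a (j + 1) n F) = vcU ρ' (a, j) (vcOut ρ' a (j + 1) n F)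
    rw [ih (j + 1) fun i hi => h i (by omega)]
    funext x
    unfold vcU
    rw [h j le_rfl]

/-- the block sums `S_j`, `j ≥ 1`, do not see the incoming mass `p 0` -/
theorem vc_S_congr_mass {p p' : ℕ → ℝ} (h : ∀ k, 1 ≤ k → p k = p' k) (R a : ℕ) {j : ℕ} (hj : 1 ≤ j) (F : VcX → ℝ) :
    vcS p R a j F = vcS p' R a j F := by
  unfold vcS
  refine vc_out_congr_rho a F _ j fun i hi => ?_
  unfold vcRho
  rw [h i (by omega), h (i + 1) (by omega)]

/-- the rows on the sheets `t ≥ 1` do not see the incoming mass `p 0` -/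
theorem vc_row_congr_mass {p p' : ℕ → ℝ} (h : ∀ k, 1 ≤ k → p k = p' k) {R : ℕ} {w : VcX → ℝ} (hw : VcA R w) {t : ℕ} (ht : 1 ≤ t) :
    vcRow p R t w = vcRow p' R t w := by
  rcases Nat.lt_or_ge R t with htR | htR
  · rcases Nat.eq_or_lt_of_le htR with e | htR'
    · -- `t = R + 1`: the two labels coincide
      have e1 : (fun x => vcSh R t x * w x) = fun x => if vcBlk (R + 1) x 1 0 then w x else 0 := by
        funext x
        have h1 := vc_le_lev (R := R) (k := R + 1) le_rfl x 1 0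
        have h2 := vc_lev_le R x 1 0
        unfold vcSh
        rw [vc_lev_symm R x 0 1, ← e]
        by_cases hb : vcBlk (R + 1) x 1 0
        · have := h1.2 hb
          rw [if_pos hb, if_pos (by omega), one_mul]
        · have h3 : ¬ R + 1 ≤ vcLev R x 1 0 := fun h' => hb (h1.1 h')
          rw [if_neg hb, if_neg (by omega), zero_mul]
      unfold vcRow
      rw [e1, vc_S_blk hw (by decide : (0:ℕ) ≠ 1) le_rfl, vc_S_blk hw (by decide : (0:ℕ) ≠ 1) le_rfl,
        vc_S_top p le_rfl, vc_S_top p' le_rfl]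
    · -- `t > R + 1`: empty sheet
      have e1 : (fun x => vcSh R t x * w x) = fun x => (0 : ℝ) * w x := by
        funext x
        have h2 := vc_lev_le R x 0 1
        unfold vcSh
        rw [if_neg (by omega)]
      unfold vcRow
      rw [e1, vc_S_const_mul hw, vc_S_const_mul hw]
      funext x
      simp
  · rw [vc_arr_row_eq hw htR, vc_arr_row_eq hw htR, vc_S_congr_mass h R 1 ht, vc_S_congr_mass h R 1 (by omega : 1 ≤ t + 1)]

-- `vc_inverse`, `vc_inverse0`: see `Inv/Alg.lean` (unit ALG, helper122)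

end Claimed.Agent.R286
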