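import Claimed.Agent.R286.L02.Defs
import Claimed.Agent.R286.Sc.GenDefs

/-!
# Row 286 (S0533), LL Section 5 (pair inverse): VOCABULARY OF THE TWO EXITS      (OWNER helper177, head of package L04; section head helper84; ADV helper51; prefix `pk`)

source: LL 05-inverse.tex l.9-52 (pair functions, (H1)), l.215-260 ((H2)).      DEFINITIONS ONLY.      Users: LL06 l.568-634, LL08 l.1508-1545, l.1589-1612.

FINE LEVEL: a fixed fine path `P : LlStp` (`N = P.length` stages), terminal mass `a`, context `X = llJs n a P tl` (`L02/Defs`, ruling of helper136: THE jet context; signed calculus and trees of `Defs/Tr`: `IsTr N q τ`, `trSumK`, `trAbsK`).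
* OLD LABELS `0 .. q0-1`; THE PAIR = the labels `q0, q0+1`.   A PAIR FUNCTION over `q0` old labels is ONE function `U : JtTopo → ℝ` of the topology on the labels `< q0 + 2`
  (`PkFn`: it reads the entries `< q0 + 2` only, and it is symmetric in the pair).   "`u_{cd}` at the topology `τ'`" `= U (pkPull q0 c d τ')`:
  the old labels are kept, the pair slots are read at `c, d`, all other labels are forgotten (LL: "ignores any unused extra labels").
  The pair may coincide with old labels (`τ q0 x = N + 1`): "`ab` using old labels" is a special case.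
* `pkL X q0 b U` = (H1): `u_{ab} - ∑_{cd} M_{ab,cd} b_{cd} u_{cd}`, `cd` = two labels `q0+2, q0+3` attached by the SIGNED rule to the tree on `q0 + 2` labels, distinct leaves (`X.off`),
  `M` = (A8) `= X.Mker`.
* RETAINED LEVELS: no separate datum.   The multiplier is `b : ℕ → ℝ` (function of the sheet `t = τ c d ≤ N`), **`b t = 0` on the sheets which are not retained**
  (the jump at the threshold is counted in `var b`).
* `pkX2 a P t = E χ_t²`, `χ_t = V_zz(K_t, Z_{K_t})`, in the vocabulary of the scalar block: `scM2 (scLC a) (pkPi P) (llCumK P t)`  (terminal mass `a`: `V(K_top, z) = a⁻¹ log cosh (a z)`).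
* `PkMul a P b Λ`: all the data of the "polynomial bounds" of LL Section 5 are `≤ Λ`: `1, a, a⁻¹, K_top, sup b, var b, e⁻¹`.
-/

set_option autoImplicit false

namespace Claimed.Agent.R286

/-- the scalar profile (mass, variance) of the reference clock `K` of a fine LL path -/
def pkPi (P : LlStp) : List (ℝ × ℝ) := P.map fun e => (e.m, e.dK)

/-- `E χ_t²` at the sheet `t` (pairs which share `t` stages) -/
noncomputable def pkX2 (a : ℝ) (P : LlStp) (t : ℕ) : ℝ := scM2 (scLC a) (pkPi P) (llCumK P t)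

/-- the pair slots `q0, q0 + 1` are read at the labels `c, d` -/
def pkSub (q0 c d : ℕ) (x : ℕ) : ℕ := if x = q0 then c else if x = q0 + 1 then d else x

/-- the topology seen by the pair `c d` (and the old labels) -/
def pkPull (q0 c d : ℕ) (τ : JtTopo) : JtTopo := fun x y => τ (pkSub q0 c d x) (pkSub q0 c d y)

/-- a symmetric pair function over `q0` old labels -/
structure PkFn (q0 : ℕ) (U : JtTopo → ℝ) : Prop where
  uses : ∀ τ τ' : JtTopo, (∀ x y, x < q0 + 2 → y < q0 + 2 → τ x y = τ' x y) → U τ = U τ'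
  symm : ∀ τ : JtTopo, U (pkPull q0 (q0 + 1) q0 τ) = U τ

/-- the linear cavity sum `∑_{cd} M_{ab,cd} w_{cd}` : `ab = (q0, q0+1)`, `cd = (q0+2, q0+3)` distinct leaves, signed attachment -/
noncomputable def pkM {S : Type} (X : JtCtx S) (q0 : ℕ) (w : JtTopo → ℝ) (τ : JtTopo) : ℝ :=
  X.sumK 2 (q0 + 2) τ fun τ' => X.off (q0 + 2) 1 τ' * X.Mker (q0 + 4) (q0 + 2) q0 (q0 + 1) τ' * w τ'

/-- **(H1)** `u_{ab} - ∑_{cd} M_{ab,cd} b_{cd} u_{cd}` -/
noncomputable def pkL {S : Type} (X : JtCtx S) (q0 : ℕ) (b : ℕ → ℝ) (U : JtTopo → ℝ) (τ : JtTopo) : ℝ :=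
  U τ - pkM X q0 (fun τ' => b (τ' (q0 + 2) (q0 + 3)) * U (pkPull q0 (q0 + 2) (q0 + 3) τ')) τ

/-- the multiplier and the sizes -/
structure PkMul (a : ℝ) (P : LlStp) (b : ℕ → ℝ) (Λ : ℝ) : Prop where
  one : 1 ≤ Λ
  a_le : a ≤ Λ
  a_inv : a⁻¹ ≤ Λ
  top : llCumK P P.length ≤ Λ
  nonneg : ∀ t, 0 ≤ b t
  sup : ∀ t, t ≤ P.length → b t ≤ Λ
  var : ∑ t ∈ Finset.range P.length, |b (t + 1) - b t| ≤ Λ
  gap : ∀ t, t ≤ P.length → Λ⁻¹ ≤ 1 - b t * pkX2 a P t

open Classical in
/-- the rows of (H1) which the inverse reads at an output on the sheet `r`: distinct leaves, on the sheet `r` or on a retained sheet -/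
noncomputable def pkRet (N : ℕ) (b : ℕ → ℝ) (r t : ℕ) : ℝ := if t ≤ N ∧ (t = r ∨ b t ≠ 0) then 1 else 0

theorem pk_defs_eqns_cite : True := by
  have := @pkPi.eq_1
  have := @pkX2.eq_1
  have := @pkSub.eq_1
  have := @pkPull.eq_1
  have := @pkM.eq_1
  have := @pkL.eq_1
  have := @pkRet.eq_1
  trivial

end Claimed.Agent.R286
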