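import Claimed.Agent.R286.Inv.ScChain
import Claimed.Agent.R286.Sc.Tau
import Claimed.Agent.R286.Sc.Bound1

/-!
# Row 286 (S0533), LL Section 5 (pair inverse), unit SCB, part 1: TOOLS (T3), (T4) and the CHILD KERNEL (G1)-(G4), (E1)
head of SCB: helper51;   OWNER / PROVER of this file: helper13 (ruling of 177, 02:59Z).   Prove IN PLACE, helpers above the statement, prefix `ic`.
Vocabulary: `Inv/ScChain.lean` (helper19).   Plan: `origin/helper84:notes/R286/L05_design_84.md` (SCB), `origin/helper177:notes/R286/L04_PLAN_177.md` sec. 4.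
`N = π.length`;  depth `k ≥ 1` is reached through the stage `k - 1`: `dK_k = icVr π (k-1) = icRho π k`;  `K_k = icK π k`.   Terminal masses `0 < a ≤ 1`: ALL CONSTANTS ABSOLUTE.
TEX[LL:inv:sector-response] (child multipliers: `0 ≤ g ≤ E χ²`, single and mixed weighted differences).
SKETCHES.
 (T3) `E_tilt (y-z)² = v + v² m T(F'' + m F'²) ≤ v (1 + 2 v)` (Stein twice: `sc_stein`; `0 ≤ F'' ≤ a`, `|F'| ≤ 1`: `ScAd`, `Sc/Bound1`);  `Cov(f,g) = T(f₀ g₀) - T f₀ T g₀`, `f₀ = f - f(z)`, `|f₀(y)| ≤ L |y - z|`.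
 (T4) `sc_tau_P`, `sc_tau_V` at `a := 1` (`ScAdm a π → ScAdm 1 π`); the terminal datum: `deriv (scLC a) = fun z => tanh (a z)`, `ScN n A (tanh)` ⟹ `ScN n A (fun z => tanh (a z))` for `|a| ≤ 1`; `icE` = `scP` of a sublist.
 (G)  `v_i := icDl r i = E_r[mh_i² - mh_(i-1)²] = E_r Var_(i-1)(mh_i) ≥ 0`, `≤ C dK_i`;  `icC r i l = E[v_i v_l]`;  `∑_{i' ≥ i} p_i' v_i' = E_r χ_(i-1)` (`ic_X_succ`, `ic_X_top`).
 (G4) `E χ_k² - E χ_(k-1)² = E Var_k(χ_k) - E[(χ_(k-1) - T χ_k)(χ_(k-1) + T χ_k)]`, `χ_(k-1) - T χ_k = p_k Var_k(m_k)`;  `E χ_k² - E[χ_(k-1) T χ_k]` likewise.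
TOOLS PROVED HERE (helper13, prefix `ict_`, GENERAL continuation `F`, profile `π`, any terminal mass):
 (T3) `ict_heat_stein`, `ict_tr_stein` (Stein), `ict_tr_xi2` : `E_tilt (Y - z)² ≤ s (1 + m L √s)²`, `ict_tr_xi2'` : `≤ s (2 + 2 m² L² s)`  (`L = sup |F'|`), `ict_tr_var`, `ict_tr_cov_sq_le` (Cauchy-Schwarz), `ict_tr_cov`.
 (T4) `ict_grad` : `|∂_z scP F π φ| ≤ sup |φ'| + 2 a L sup |φ|` (EXPLICIT);  all orders, uniformly in `a ∈ (0, a0]` : `ict_tau_LC`, `ict_tau_M`, `ict_tau_E`.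
-/

set_option autoImplicit false

namespace Claimed.Agent.R286

section IctTools

open MeasureTheory ProbabilityTheory Filter Topology Set

/-! ## (T3) one tilted Gaussian step -/

/-- Stein's lemma for the heat kernel: `E[(Y - z) h(Y)] = s E[h'(Y)]`, `Y = z + √s g` -/
theorem ict_heat_stein {h : ℝ → ℝ} (hh : ScE 1 h) {s : ℝ} (hs : 0 ≤ s) (z : ℝ) :
    scHeat s (fun y => (y - z) * h y) z = s * scHeat s (deriv h) z := by
  unfold scHeat
  have hf : ScE 1 (fun g => h (Real.sqrt s * g + z)) := hh.comp_affine _ _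
  have h1 := sc_stein hf
  have hd : deriv (fun g => h (Real.sqrt s * g + z)) = fun g => Real.sqrt s * deriv h (z + Real.sqrt s * g) := by
    funext g
    have ha : HasDerivAt (fun g : ℝ => Real.sqrt s * g + z) (Real.sqrt s) g := by
      simpa using ((hasDerivAt_id g).const_mul (Real.sqrt s)).add_const z
    have hb : HasDerivAt h (deriv h (Real.sqrt s * g + z)) (Real.sqrt s * g + z) := (hh.differentiable _).hasDerivAt
    have := (hb.comp g ha).deriv
    rw [show (fun g => h (Real.sqrt s * g + z)) = h ∘ fun g : ℝ => Real.sqrt s * g + z from rfl, this, add_comm z]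
    ring
  rw [hd, integral_const_mul] at h1
  have e : (fun g : ℝ => (z + Real.sqrt s * g - z) * h (z + Real.sqrt s * g))
      = fun g => Real.sqrt s * (g * h (Real.sqrt s * g + z)) := by
    funext g
    rw [add_comm z]; ring
  rw [e, integral_const_mul, h1, ← mul_assoc, Real.mul_self_sqrt hs]

/-- Stein's lemma for the tilted step -/
theorem ict_tr_stein {F φ : ℝ → ℝ} (hF : ScB 1 F) (hφ : ScE 1 φ) (m : ℝ) {s : ℝ} (hs : 0 ≤ s) (z : ℝ) :
    scTr m s F (fun y => (y - z) * φ y) z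
      = s * (scTr m s F (deriv φ) z + m * scTr m s F (fun y => φ y * deriv F y) z) := by
  have hE : ScE 1 (fun y => Real.exp (m * F y)) := hF.exp m
  have hN : ScE 1 (fun y => φ y * Real.exp (m * F y)) := hφ.mul hE
  have hF' : ScE 0 (deriv F) := (hF.scE).deriv
  have hdN : deriv (fun y => φ y * Real.exp (m * F y)) =
      fun y => deriv φ y * Real.exp (m * F y) + m * (φ y * deriv F y * Real.exp (m * F y)) := by
    funext y
    have hd : HasDerivAt F (deriv F y) y := (hF.1 y).hasDerivAt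
    have hp : HasDerivAt φ (deriv φ y) y := (hφ.differentiable y).hasDerivAt
    have : HasDerivAt (fun y => φ y * Real.exp (m * F y)) _ y := hp.fun_mul ((hd.const_mul m).exp)
    rw [this.deriv]; ring
  have hA : ScE 0 (fun y => deriv φ y * Real.exp (m * F y)) := hφ.deriv.mul hE.of_succ
  have hB : ScE 0 (fun y => φ y * deriv F y * Real.exp (m * F y)) := (hφ.of_succ.mul hF').mul hE.of_succ
  have h1 := ict_heat_stein hN hs z
  rw [hdN] at h1
  have h2 : scHeat s (fun y => deriv φ y * Real.exp (m * F y) + m * (φ y * deriv F y * Real.exp (m * F y))) z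
      = scHeat s (fun y => deriv φ y * Real.exp (m * F y)) z
        + m * scHeat s (fun y => φ y * deriv F y * Real.exp (m * F y)) z := by
    have := congrFun (sc_heat_add hA (hB.const_mul m) s) z
    rw [this, sc_heat_const_mul]
  rw [h2] at h1
  have hpos := sc_W_pos hF m s z
  unfold scTr
  have e : (fun y => (y - z) * φ y * Real.exp (m * F y)) = fun y => (y - z) * (φ y * Real.exp (m * F y)) := by
    funext y; ring
  rw [e, h1]
  field_simp

theorem ict_E_shift (n : ℕ) (z : ℝ) : ScE n (fun y : ℝ => y - z) := (ScE.id n).sub (ScE.const n z)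

/-- `E_tilt (Y - z)² = s (1 + m E_tilt[(Y - z) F'(Y)])` -/
theorem ict_tr_xi2_eq {F : ℝ → ℝ} (hF : ScB 1 F) (m : ℝ) {s : ℝ} (hs : 0 ≤ s) (z : ℝ) :
    scTr m s F (fun y => (y - z) ^ 2) z = s * (1 + m * scTr m s F (fun y => (y - z) * deriv F y) z) := by
  have h := ict_tr_stein hF (ict_E_shift 1 z) m hs z
  have e1 : (fun y : ℝ => (y - z) * (y - z)) = fun y => (y - z) ^ 2 := by funext y; ring
  have e2 : deriv (fun y : ℝ => y - z) = fun _ => 1 := by
    funext y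
    simp
  rw [e1, e2, sc_tr_const hF] at h
  exact h

theorem ict_tr_xi2_nonneg {F : ℝ → ℝ} (hF : ScB 1 F) (m s z z' : ℝ) : 0 ≤ scTr m s F (fun y => (y - z) ^ 2) z' := by
  have := sc_tr_mono hF (ScE.const 0 0) ((ict_E_shift 0 z).pow 2) (fun y => sq_nonneg _) m s z'
  rwa [sc_tr_const hF] at this

/-- **(T3)** second moment of the increment of a tilted step -/
theorem ict_tr_xi2 {F : ℝ → ℝ} (hF : ScB 1 F) {L : ℝ} (hL : ∀ z, |deriv F z| ≤ L) {m : ℝ} (hm : 0 ≤ m) {s : ℝ} (hs : 0 ≤ s)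
    (z : ℝ) : scTr m s F (fun y => (y - z) ^ 2) z ≤ s * (1 + m * L * Real.sqrt s) ^ 2 := by
  have hL0 : 0 ≤ L := (abs_nonneg _).trans (hL 0)
  have hF' : ScE 0 (deriv F) := (hF.scE).deriv
  set Q := scTr m s F (fun y => (y - z) ^ 2) z with hQ
  have hQ0 : 0 ≤ Q := ict_tr_xi2_nonneg hF m s z z
  set c := scTr m s F (fun y => (y - z) * deriv F y) z with hc
  have h1 : Q = s * (1 + m * c) := ict_tr_xi2_eq hF m hs z
  have h2 : c ^ 2 ≤ Q * L ^ 2 := by
    have := sc_tr_mul_sq_le hF (ict_E_shift 0 z) hF' m s z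
    refine this.trans (mul_le_mul_of_nonneg_left ?_ hQ0)
    have h3 := sc_tr_mono hF (hF'.pow 2) (ScE.const 0 (L ^ 2)) (fun y => by
      rw [← sq_abs]; exact pow_le_pow_left₀ (abs_nonneg _) (hL y) 2) m s z
    rwa [sc_tr_const hF] at h3
  set x := Real.sqrt Q with hx
  have hx0 : 0 ≤ x := Real.sqrt_nonneg _
  have hxx : x ^ 2 = Q := Real.sq_sqrt hQ0
  set r := Real.sqrt s with hr
  have hr0 : 0 ≤ r := Real.sqrt_nonneg _
  have hrr : r ^ 2 = s := Real.sq_sqrt hs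
  have h3 : c ≤ x * L := by
    have h4 : |c| ≤ Real.sqrt (Q * L ^ 2) := Real.abs_le_sqrt h2
    rw [Real.sqrt_mul hQ0, Real.sqrt_sq hL0] at h4
    exact (le_abs_self c).trans h4
  have h5 : x ^ 2 ≤ r ^ 2 + r ^ 2 * (m * L) * x := by
    rw [hxx, hrr, h1]
    have : m * c ≤ m * (x * L) := mul_le_mul_of_nonneg_left h3 hm
    nlinarith
  have hB : 0 ≤ r ^ 2 * (m * L) := by positivity
  have h6 : x ≤ r + r ^ 2 * (m * L) := by
    by_contra hcon
    rw [not_le] at hcon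
    nlinarith
  calc Q = x ^ 2 := hxx.symm
    _ ≤ (r + r ^ 2 * (m * L)) ^ 2 := pow_le_pow_left₀ hx0 h6 2
    _ = s * (1 + m * L * r) ^ 2 := by rw [← hrr]; ring

/-- **(T3)** the same without square roots -/
theorem ict_tr_xi2' {F : ℝ → ℝ} (hF : ScB 1 F) {L : ℝ} (hL : ∀ z, |deriv F z| ≤ L) {m : ℝ} (hm : 0 ≤ m) {s : ℝ} (hs : 0 ≤ s)
    (z : ℝ) : scTr m s F (fun y => (y - z) ^ 2) z ≤ s * (2 + 2 * m ^ 2 * L ^ 2 * s) := by
  refine (ict_tr_xi2 hF hL hm hs z).trans (mul_le_mul_of_nonneg_left ?_ hs)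
  have hrr : Real.sqrt s ^ 2 = s := Real.sq_sqrt hs
  have e : 2 + 2 * m ^ 2 * L ^ 2 * s = 2 + 2 * (m * L * Real.sqrt s) ^ 2 := by
    rw [mul_pow, mul_pow, hrr]; ring
  rw [e]
  nlinarith [sq_nonneg (1 - m * L * Real.sqrt s)]

/-- variance of a step: `E_tilt φ² - (E_tilt φ)² = E_tilt (φ - c)² - (E_tilt φ - c)²` -/
theorem ict_tr_var_shift {F φ : ℝ → ℝ} (hF : ScB 1 F) (hφ : ScE 0 φ) (m s z c : ℝ) :
    scTr m s F (fun y => φ y ^ 2) z - scTr m s F φ z ^ 2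
      = scTr m s F (fun y => (φ y - c) ^ 2) z - (scTr m s F φ z - c) ^ 2 := by
  have e : (fun y => (φ y - c) ^ 2) = fun y => (φ y ^ 2 - (2 * c) * φ y) + c ^ 2 := by funext y; ring
  rw [e, sc_tr_add hF ((hφ.pow 2).sub (hφ.const_mul _)) (ScE.const 0 _), sc_tr_sub hF (hφ.pow 2) (hφ.const_mul _),
    sc_tr_const_mul, sc_tr_const hF]
  ring

/-- covariance of a step, centred -/
theorem ict_tr_cov_shift {F φ ψ : ℝ → ℝ} (hF : ScB 1 F) (hφ : ScE 0 φ) (hψ : ScE 0 ψ) (m s z c d : ℝ) :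
    scTr m s F (fun y => φ y * ψ y) z - scTr m s F φ z * scTr m s F ψ z
      = scTr m s F (fun y => (φ y - c) * (ψ y - d)) z - (scTr m s F φ z - c) * (scTr m s F ψ z - d) := by
  have e : (fun y => (φ y - c) * (ψ y - d)) = fun y => ((φ y * ψ y - d * φ y) - c * ψ y) + c * d := by funext y; ring
  rw [e, sc_tr_add hF (((hφ.mul hψ).sub (hφ.const_mul _)).sub (hψ.const_mul _)) (ScE.const 0 _),
    sc_tr_sub hF ((hφ.mul hψ).sub (hφ.const_mul _)) (hψ.const_mul _), sc_tr_sub hF (hφ.mul hψ) (hφ.const_mul _),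
    sc_tr_const_mul, sc_tr_const_mul, sc_tr_const hF]
  ring

theorem ict_tr_var_nonneg {F φ : ℝ → ℝ} (hF : ScB 1 F) (hφ : ScE 0 φ) (m s z : ℝ) :
    0 ≤ scTr m s F (fun y => φ y ^ 2) z - scTr m s F φ z ^ 2 := sub_nonneg.2 (sc_tr_sq_le hF hφ m s z)

/-- **(T3)** step variance of a Lipschitz function -/
theorem ict_tr_var {F φ : ℝ → ℝ} (hF : ScB 1 F) {L : ℝ} (hL : ∀ z, |deriv F z| ≤ L) (hφ : ScE 0 φ) {A : ℝ}
    (hA : ∀ x y, |φ x - φ y| ≤ A * |x - y|) {m : ℝ} (hm : 0 ≤ m) {s : ℝ} (hs : 0 ≤ s) (z : ℝ) :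
    scTr m s F (fun y => φ y ^ 2) z - scTr m s F φ z ^ 2 ≤ A ^ 2 * (s * (2 + 2 * m ^ 2 * L ^ 2 * s)) := by
  rw [ict_tr_var_shift hF hφ m s z (φ z)]
  have h1 : scTr m s F (fun y => (φ y - φ z) ^ 2) z ≤ scTr m s F (fun y => A ^ 2 * (y - z) ^ 2) z :=
    sc_tr_mono hF ((hφ.sub (ScE.const 0 _)).pow 2) (((ict_E_shift 0 z).pow 2).const_mul _) (fun y => by
      rw [← sq_abs (φ y - φ z), ← sq_abs (y - z), ← mul_pow]
      exact pow_le_pow_left₀ (abs_nonneg _) (hA y z) 2) m s z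
  rw [sc_tr_const_mul] at h1
  have h2 := mul_le_mul_of_nonneg_left (ict_tr_xi2' hF hL hm hs z) (sq_nonneg A)
  nlinarith [sq_nonneg (scTr m s F φ z - φ z)]

/-- Cauchy-Schwarz for the covariance of a step -/
theorem ict_tr_cov_sq_le {F φ ψ : ℝ → ℝ} (hF : ScB 1 F) (hφ : ScE 0 φ) (hψ : ScE 0 ψ) (m s z : ℝ) :
    (scTr m s F (fun y => φ y * ψ y) z - scTr m s F φ z * scTr m s F ψ z) ^ 2
      ≤ (scTr m s F (fun y => φ y ^ 2) z - scTr m s F φ z ^ 2) * (scTr m s F (fun y => ψ y ^ 2) z - scTr m s F ψ z ^ 2) := by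
  rw [ict_tr_cov_shift hF hφ hψ m s z (scTr m s F φ z) (scTr m s F ψ z),
    ict_tr_var_shift hF hφ m s z (scTr m s F φ z), ict_tr_var_shift hF hψ m s z (scTr m s F ψ z)]
  simp only [sub_self, mul_zero, sub_zero, ne_eq, OfNat.ofNat_ne_zero, not_false_eq_true, zero_pow]
  exact sc_tr_mul_sq_le hF (hφ.sub (ScE.const 0 _)) (hψ.sub (ScE.const 0 _)) m s z

/-- **(T3)** step covariance of two Lipschitz functions -/
theorem ict_tr_cov {F φ ψ : ℝ → ℝ} (hF : ScB 1 F) {L : ℝ} (hL : ∀ z, |deriv F z| ≤ L) (hφ : ScE 0 φ) (hψ : ScE 0 ψ) {A B : ℝ}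
    (hA0 : 0 ≤ A) (hB0 : 0 ≤ B) (hA : ∀ x y, |φ x - φ y| ≤ A * |x - y|) (hB : ∀ x y, |ψ x - ψ y| ≤ B * |x - y|)
    {m : ℝ} (hm : 0 ≤ m) {s : ℝ} (hs : 0 ≤ s) (z : ℝ) :
    |scTr m s F (fun y => φ y * ψ y) z - scTr m s F φ z * scTr m s F ψ z| ≤ A * B * (s * (2 + 2 * m ^ 2 * L ^ 2 * s)) := by
  set q := s * (2 + 2 * m ^ 2 * L ^ 2 * s) with hq
  have hq0 : 0 ≤ q := by positivity
  have h1 := ict_tr_cov_sq_le hF hφ hψ m s z
  have h2 := ict_tr_var hF hL hφ hA hm hs z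
  have h3 := ict_tr_var hF hL hψ hB hm hs z
  have h4 := ict_tr_var_nonneg hF hφ m s z
  have h5 := ict_tr_var_nonneg hF hψ m s z
  refine abs_le_of_sq_le_sq' ?_ (by positivity) |> abs_le.2
  calc _ ≤ _ := h1
    _ ≤ (A ^ 2 * q) * (B ^ 2 * q) := mul_le_mul h2 h3 h5 (by positivity)
    _ = (A * B * q) ^ 2 := by ring

/-- a differentiable function with bounded derivative is Lipschitz -/
theorem ict_lip_of_deriv {φ : ℝ → ℝ} (hd : Differentiable ℝ φ) {A : ℝ} (hA : ∀ z, |deriv φ z| ≤ A) (x y : ℝ) :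
    |φ x - φ y| ≤ A * |x - y| := by
  have := Convex.norm_image_sub_le_of_norm_deriv_le (f := φ) (s := univ) (x := y) (y := x)
    (fun x _ => hd x) (fun x _ => hA x) convex_univ (mem_univ _) (mem_univ _)
  simpa using this

/-! ## (T4) bounds which do not depend on the total variance -/

theorem ict_tauG_abs {F φ : ℝ → ℝ} (hF : ScBI F) (hφ : Continuous φ) {L M : ℝ} (hL : ∀ z, |deriv F z| ≤ L)
    (hM : ∀ z, |φ z| ≤ M) (π : List (ℝ × ℝ)) (z : ℝ) : |scTauG F φ π z| ≤ M * L := by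
  unfold scTauG
  rw [abs_mul]
  exact mul_le_mul ((sc_tau_P_abs_le hF hφ hM π).2 z) (sc_D1_le_aux hF hL π z) (abs_nonneg _) ((abs_nonneg _).trans (hM 0))

theorem ict_tauS_abs {F φ : ℝ → ℝ} (hF : ScBI F) (hφ : Continuous φ) {L M : ℝ} (hL : ∀ z, |deriv F z| ≤ L)
    (hM : ∀ z, |φ z| ≤ M) : ∀ π : List (ℝ × ℝ), ScInc π → ∀ z, |scTauS F φ π z| ≤ (scMl π - scMf π) * (M * L) := by
  have hb : ScBd 0 φ := ⟨⟨M, hM⟩, hφ⟩
  intro π
  induction π with
  | nil => intro _ z; simp [scTauS, scMl, scMf]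
  | cons p π ih =>
    intro hi z
    cases π with
    | nil => simp [scTauS, scMl, scMf]
    | cons q π =>
      have hpq : p.1 ≤ q.1 := (List.pairwise_cons.1 hi).1 q (by simp)
      have hc : Continuous (fun y => (q.1 - p.1) * scTauG F φ (q :: π) y + scTauS F φ (q :: π) y) :=
        (((sc_tau_G_Bd hF hb (q :: π)).const_mul _).add (sc_tau_S_Bd hF hb (q :: π))).2
      refine sc_tr_abs_le (sc_V_BI hF (q :: π) 1) hc (fun y => ?_) p.1 p.2 z
      have h1 := ict_tauG_abs hF hφ hL hM (q :: π) y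
      have h2 := ih hi.of_cons y
      calc |(q.1 - p.1) * scTauG F φ (q :: π) y + scTauS F φ (q :: π) y|
          ≤ |(q.1 - p.1) * scTauG F φ (q :: π) y| + |scTauS F φ (q :: π) y| := abs_add_le _ _
        _ ≤ (q.1 - p.1) * (M * L) + (scMl (q :: π) - scMf (q :: π)) * (M * L) := by
            rw [abs_mul, abs_of_nonneg (sub_nonneg.2 hpq)]
            exact add_le_add (mul_le_mul_of_nonneg_left h1 (sub_nonneg.2 hpq)) h2
        _ = (scMl (p :: q :: π) - scMf (p :: q :: π)) * (M * L) := by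
            simp only [scMl, scMf]; ring

/-- **(T4), first order, explicit**: `|∂_z E[φ(Z_end) | Z_0 = z]| ≤ sup |φ'| + 2 a L sup |φ|` -/
theorem ict_grad {F φ : ℝ → ℝ} (hF : ScBI F) (hφ : ScBd 1 φ) {a L M M' : ℝ} (ha : 0 ≤ a) (hL : ∀ z, |deriv F z| ≤ L)
    (hM : ∀ z, |φ z| ≤ M) (hM' : ∀ z, |deriv φ z| ≤ M') {π : List (ℝ × ℝ)} (hπ : ScAdm a π) (hi : ScInc π) (z : ℝ) :
    |deriv (scP F π φ) z| ≤ M' + 2 * a * L * M := by
  have hL0 : 0 ≤ L := (abs_nonneg _).trans (hL 0)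
  have hM0 : 0 ≤ M := (abs_nonneg _).trans (hM 0)
  have hc : Continuous φ := hφ.2.1.continuous
  have hF' : ScBd 0 (deriv F) := (hF 1).deriv_bd
  rw [sc_tau_grad hF hφ π]
  have t1 := (sc_tau_P_abs_le hF hφ.deriv.2 hM' π).2 z
  have t2 := (sc_tau_P_abs_le (φ := fun y => φ y * deriv F y) hF (hc.mul hF'.2) (C := M * L) (fun y => by
    rw [abs_mul]; exact mul_le_mul (hM y) (hL y) (abs_nonneg _) hM0) π).2 z
  have t3 := ict_tauG_abs hF hc hL hM π z
  have t4 := ict_tauS_abs hF hc hL hM π hi z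
  have hf0 := sc_tau_Mf_nonneg hπ
  have hfl := sc_tau_Mf_le_Ml hi
  have hla := sc_tau_Ml_le ha hπ
  have hML : 0 ≤ M * L := mul_nonneg hM0 hL0
  have b2 : |scMl π * scP F π (fun y => φ y * deriv F y) z| ≤ scMl π * (M * L) := by
    rw [abs_mul, abs_of_nonneg (hf0.trans hfl)]
    exact mul_le_mul_of_nonneg_left t2 (hf0.trans hfl)
  have b3 : |scMf π * scTauG F φ π z| ≤ scMf π * (M * L) := by
    rw [abs_mul, abs_of_nonneg hf0]
    exact mul_le_mul_of_nonneg_left t3 hf0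
  have b5 : scMl π * (M * L) ≤ a * (M * L) := mul_le_mul_of_nonneg_right hla hML
  rw [abs_le] at t1 b2 b3 t4 ⊢
  constructor <;> nlinarith [t1.1, t1.2, b2.1, b2.2, b3.1, b3.2, t4.1, t4.2]

/-- dilation of the argument -/
theorem ict_N_comp_mul {n : ℕ} {M : ℝ} {φ : ℝ → ℝ} (h : ScN n M φ) (a : ℝ) :
    ScN n (M * max 1 |a| ^ n) (fun z => φ (a * z)) := by
  have hc1 : (1 : ℝ) ≤ max 1 |a| := le_max_left _ _
  induction n generalizing φ with
  | zero =>
    rw [pow_zero, mul_one]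
    exact ⟨h.1.comp (continuous_const.mul continuous_id), fun z => h.2 _⟩
  | succ n ih =>
    have hM : 0 ≤ M := h.nonneg
    have hd : ∀ z, HasDerivAt (fun z => φ (a * z)) (a * deriv φ (a * z)) z := by
      intro z
      have ha : HasDerivAt (fun z : ℝ => a * z) a z := by simpa using (hasDerivAt_id z).const_mul a
      have := ((h.2.1 (a * z)).hasDerivAt).comp z ha
      rw [mul_comm] at this
      exact this
    refine ⟨fun z => (h.1 _).trans ?_, fun z => (hd z).differentiableAt, ?_⟩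
    · calc M = M * 1 := (mul_one M).symm
        _ ≤ M * max 1 |a| ^ (n + 1) := mul_le_mul_of_nonneg_left (one_le_pow₀ hc1) hM
    · have e : deriv (fun z => φ (a * z)) = fun z => a * deriv φ (a * z) := funext fun z => (hd z).deriv
      rw [e]
      refine ((ih h.2.2).const_mul a).weaken ?_
      calc |a| * (M * max 1 |a| ^ n) ≤ max 1 |a| * (M * max 1 |a| ^ n) :=
            mul_le_mul_of_nonneg_right (le_max_right _ _) (by positivity)
        _ = M * max 1 |a| ^ (n + 1) := by ring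

/-- the terminal data `scLC a`, uniformly in `a ∈ (0, a0]` -/
theorem ict_tau_LC (n : ℕ) (a0 : ℝ) : ∃ A : ℝ, 0 ≤ A ∧ ∀ a : ℝ, 0 < a → a ≤ a0 → ScN n A (deriv (scLC a)) := by
  obtain ⟨A, hA0, hA⟩ := sc_tau_logcosh n 1
  have e1 : deriv (fun z : ℝ => (1:ℝ)⁻¹ * Real.log (Real.cosh (1 * z))) = fun z => Real.tanh (1 * z) :=
    funext fun z => (ic_LC_hasDerivAt one_ne_zero z).deriv
  rw [e1] at hA
  refine ⟨A * max 1 |a0| ^ n, by positivity, fun a ha ha0 => ?_⟩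
  have e2 : deriv (scLC a) = fun z => Real.tanh (1 * (a * z)) := by
    funext z
    rw [(ic_LC_hasDerivAt ha.ne' z).deriv, one_mul]
  rw [e2]
  refine (ict_N_comp_mul hA a).weaken (mul_le_mul_of_nonneg_left ?_ hA0)
  refine pow_le_pow_left₀ (by positivity) (max_le_max le_rfl ?_) n
  rw [abs_of_pos ha, abs_of_pos (ha.trans_le ha0)]
  exact ha0

theorem ict_adm_mono {a a0 : ℝ} (h : a ≤ a0) {π : List (ℝ × ℝ)} (hπ : ScAdm a π) : ScAdm a0 π :=
  fun p hp => ⟨(hπ p hp).1, (hπ p hp).2.1.trans h, (hπ p hp).2.2⟩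

/-- **(T4), all orders**: `m_j` and its derivatives, uniformly in the chain -/
theorem ict_tau_M (n : ℕ) (a0 : ℝ) : ∃ C : ℝ, 0 ≤ C ∧ ∀ (a : ℝ) (π : List (ℝ × ℝ)), IcAdm a π → a ≤ a0 →
    ∀ j, ScN n C (icM a π j) := by
  obtain ⟨A, hA0, hA⟩ := ict_tau_LC n a0
  obtain ⟨C, hC0, hC⟩ := sc_tau_V (a := max a0 0) (le_max_right _ _) n hA0
  refine ⟨C, hC0, fun a π h ha j => ?_⟩
  exact hC (scLC a) (π.drop j) (ic_LC_BI a) (hA a h.pos ha)
    (sc_tau_adm_sublist (ict_adm_mono (ha.trans (le_max_left _ _)) h.adm) (List.drop_sublist _ _))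
    (sc_tau_inc_sublist h.inc (List.drop_sublist _ _))

/-- **(T4), all orders**: the conditional expectations of the chain, uniformly in the chain -/
theorem ict_tau_E (n : ℕ) (a0 : ℝ) : ∃ K : ℝ, 1 ≤ K ∧ ∀ (a : ℝ) (π : List (ℝ × ℝ)), IcAdm a π → a ≤ a0 →
    ∀ (i j : ℕ) (φ : ℝ → ℝ) (M : ℝ), ScN n M φ → ScN n (K * M) (icE a π i j φ) := by
  obtain ⟨C, hC0, hC⟩ := ict_tau_M n a0
  obtain ⟨K, hK, H⟩ := sc_tau_P (a := max a0 0) (le_max_right _ _) n C hC0
  refine ⟨K, hK, fun a π h ha i j φ M hφ => ?_⟩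
  have hs : ((π.take j).drop i).Sublist π := (List.drop_sublist _ _).trans (List.take_sublist _ _)
  exact H (icF a π j) _ φ M (ic_F_BI a π j) (hC a π h ha j)
    (sc_tau_adm_sublist (ict_adm_mono (ha.trans (le_max_left _ _)) h.adm) hs) (sc_tau_inc_sublist h.inc hs) hφ

/-! ## the chain -/

theorem ict_Ms_mem {a : ℝ} {π : List (ℝ × ℝ)} (h : IcAdm a π) (j : ℕ) : 0 ≤ icMs a π j ∧ icMs a π j ≤ a := by
  unfold icMs
  by_cases hj : j < π.length
  · rw [List.getElem?_eq_getElem hj]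
    have := h.adm π[j] (List.getElem_mem hj)
    exact ⟨this.1, this.2.1⟩
  · rw [List.getElem?_eq_none (by omega)]
    exact ⟨h.pos.le, le_rfl⟩

theorem ict_Vr_nonneg {a : ℝ} {π : List (ℝ × ℝ)} (h : IcAdm a π) (j : ℕ) : 0 ≤ icVr π j := by
  unfold icVr
  by_cases hj : j < π.length
  · rw [List.getElem?_eq_getElem hj]
    exact (h.adm π[j] (List.getElem_mem hj)).2.2
  · rw [List.getElem?_eq_none (by omega)]
    exact le_rfl

theorem ict_Vr_top {π : List (ℝ × ℝ)} {j : ℕ} (hj : π.length ≤ j) : icVr π j = 0 := by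
  unfold icVr
  rw [List.getElem?_eq_none hj]
  rfl

theorem ict_Ms_top (a : ℝ) {π : List (ℝ × ℝ)} {j : ℕ} (hj : π.length ≤ j) : icMs a π j = a := by
  unfold icMs
  rw [List.getElem?_eq_none hj]
  rfl

/-- **(T3) on the chain**, any terminal mass, any stage -/
theorem ict_cov_le {a : ℝ} {π : List (ℝ × ℝ)} (h : IcAdm a π) (j : ℕ) {f g : ℝ → ℝ} (hf : ScE 0 f) (hg : ScE 0 g) {A B : ℝ}
    (hA0 : 0 ≤ A) (hB0 : 0 ≤ B) (hA : ∀ x y, |f x - f y| ≤ A * |x - y|) (hB : ∀ x y, |g x - g y| ≤ B * |x - y|) (z : ℝ) :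
    |icCov a π j f g z| ≤ A * B * (icVr π j * (2 + 2 * a ^ 2 * icVr π j)) := by
  have hm := ict_Ms_mem h j
  have hv := ict_Vr_nonneg h j
  have h1 := ict_tr_cov (ic_F_BI a π (j + 1) 1) (L := 1) (fun y => ic_M_abs_le h.pos.ne' π (j + 1) y) hf hg hA0 hB0 hA hB
    hm.1 hv z
  refine h1.trans (mul_le_mul_of_nonneg_left (mul_le_mul_of_nonneg_left ?_ hv) (mul_nonneg hA0 hB0))
  have : icMs a π j ^ 2 ≤ a ^ 2 := pow_le_pow_left₀ hm.1 hm.2 2
  nlinarith

/-- nonnegativity of the conditional variance -/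
theorem ict_var_nonneg (a : ℝ) (π : List (ℝ × ℝ)) (j : ℕ) {f : ℝ → ℝ} (hf : ScE 0 f) (z : ℝ) : 0 ≤ icCov a π j f f z := by
  have := ict_tr_var_nonneg (ic_F_BI a π (j + 1) 1) hf (icMs a π j) (icVr π j) z
  unfold icCov icT
  have e : (fun y => f y * f y) = fun y => f y ^ 2 := by funext y; ring
  rw [e]
  nlinarith

/-- **(T4), first order, on the chain** -/
theorem ict_E_grad {a : ℝ} {π : List (ℝ × ℝ)} (h : IcAdm a π) (i j : ℕ) {φ : ℝ → ℝ} (hφ : ScBd 1 φ) {M M' : ℝ}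
    (hM : ∀ z, |φ z| ≤ M) (hM' : ∀ z, |deriv φ z| ≤ M') (z : ℝ) : |deriv (icE a π i j φ) z| ≤ M' + 2 * a * M := by
  have hs : ((π.take j).drop i).Sublist π := (List.drop_sublist _ _).trans (List.take_sublist _ _)
  have := ict_grad (ic_F_BI a π j) hφ h.pos.le (L := 1) (fun y => ic_M_abs_le h.pos.ne' π j y) hM hM'
    (sc_tau_adm_sublist h.adm hs) (sc_tau_inc_sublist h.inc hs) z
  rw [mul_one] at this
  exact this

end IctTools

open Finset

/-- `dK_k`: variance of the stage which leads to the depth `k` (`0` for `k = 0` and `k > N`) -/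
noncomputable def icRho (π : List (ℝ × ℝ)) (k : ℕ) : ℝ := if k = 0 then 0 else icVr π (k - 1)

/-- the clock `K_k = ∑_{i < k} v_i` -/
noncomputable def icK (π : List (ℝ × ℝ)) (k : ℕ) : ℝ := ∑ i ∈ range k, icVr π i

/-- `v_i = E_r[mh_i² - mh_(i-1)²]` -/
noncomputable def icDl (a : ℝ) (π : List (ℝ × ℝ)) (r i : ℕ) : ℝ → ℝ := fun z => icQ a π r i z - icQ a π r (i - 1) z

/-- the child multiplier seen by the sector `k` on the sheet `r`: `g_r^k = g_r^{(max(k,r+1), r+1)}` -/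
noncomputable def icGk (a : ℝ) (π : List (ℝ × ℝ)) (k r : ℕ) : ℝ := icG a π r (max k (r + 1)) (r + 1)

/-- conditional variance of the next magnetisation: `E_j mh_(j+1)² - m_j²` -/
noncomputable def icVn (a : ℝ) (π : List (ℝ × ℝ)) (j : ℕ) : ℝ → ℝ := fun z => icQ a π j (j + 1) z - icM a π j z ^ 2

theorem ic_scT_eqns_cite : True := by
  have := @icVn.eq_1
  have := @icRho.eq_1
  have := @icK.eq_1
  have := @icDl.eq_1
  have := @icGk.eq_1
  trivial

/-! ## 0. toolbox: one stage      (helper51, PROVED) -/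

theorem ic_T_Bd (a : ℝ) (π : List (ℝ × ℝ)) (j : ℕ) {n : ℕ} {φ : ℝ → ℝ} (hφ : ScBd n φ) : ScBd n (icT a π j φ) :=
  sc_tr_Bd (ic_F_BI a π (j + 1) (n + 1)) hφ _ _

theorem ic_T_add (a : ℝ) (π : List (ℝ × ℝ)) (j : ℕ) {φ ψ : ℝ → ℝ} (hφ : ScBd 0 φ) (hψ : ScBd 0 ψ) :
    icT a π j (fun z => φ z + ψ z) = fun z => icT a π j φ z + icT a π j ψ z :=
  sc_tr_add (ic_F_BI a π (j + 1) 1) hφ.scE hψ.scE _ _

theorem ic_T_sub (a : ℝ) (π : List (ℝ × ℝ)) (j : ℕ) {φ ψ : ℝ → ℝ} (hφ : ScBd 0 φ) (hψ : ScBd 0 ψ) :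
    icT a π j (fun z => φ z - ψ z) = fun z => icT a π j φ z - icT a π j ψ z :=
  sc_tr_sub (ic_F_BI a π (j + 1) 1) hφ.scE hψ.scE _ _

theorem ic_T_const_mul (a : ℝ) (π : List (ℝ × ℝ)) (j : ℕ) (c : ℝ) (φ : ℝ → ℝ) :
    icT a π j (fun z => c * φ z) = fun z => c * icT a π j φ z :=
  sc_tr_const_mul _ _ c _ φ

theorem ic_T_const (a : ℝ) (π : List (ℝ × ℝ)) (j : ℕ) (c : ℝ) : icT a π j (fun _ => c) = fun _ => c :=
  sc_tr_const (ic_F_BI a π (j + 1) 1) _ _ c

theorem ic_T_nonneg (a : ℝ) (π : List (ℝ × ℝ)) (j : ℕ) {φ : ℝ → ℝ} (hφ : ScBd 0 φ) (h : ∀ z, 0 ≤ φ z) (z : ℝ) :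
    0 ≤ icT a π j φ z := by
  have := sc_tr_mono (ic_F_BI a π (j + 1) 1) (ScE.const 0 0) hφ.scE h (icMs a π j) (icVr π j) z
  rwa [sc_tr_const (ic_F_BI a π (j + 1) 1)] at this

theorem ic_Bd_sum {ι : Type} (S : Finset ι) {n : ℕ} {f : ι → ℝ → ℝ} (hf : ∀ t ∈ S, ScBd n (f t)) :
    ScBd n (fun z => ∑ t ∈ S, f t z) := by
  classical
  induction S using Finset.induction_on with
  | empty => simpa using ScBd.const n 0
  | insert t S ht ih =>
    have h1 := (hf t (Finset.mem_insert_self t S)).add (ih fun s hs => hf s (Finset.mem_insert_of_mem hs))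
    have e : (fun z => ∑ s ∈ insert t S, f s z) = fun z => f t z + ∑ s ∈ S, f s z := by
      funext z; rw [Finset.sum_insert ht]
    rw [e]; exact h1

theorem ic_T_sum (a : ℝ) (π : List (ℝ × ℝ)) (j : ℕ) {ι : Type} (S : Finset ι) {f : ι → ℝ → ℝ} (hf : ∀ t ∈ S, ScBd 0 (f t)) :
    icT a π j (fun z => ∑ t ∈ S, f t z) = fun z => ∑ t ∈ S, icT a π j (f t) z := by
  classical
  induction S using Finset.induction_on with
  | empty => simpa using ic_T_const a π j 0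
  | insert t S ht ih =>
    have h1 : (fun z => ∑ s ∈ insert t S, f s z) = fun z => f t z + ∑ s ∈ S, f s z := by
      funext z; rw [Finset.sum_insert ht]
    rw [h1, ic_T_add a π j (hf t (Finset.mem_insert_self t S))
      (ic_Bd_sum S fun s hs => hf s (Finset.mem_insert_of_mem hs)), ih fun s hs => hf s (Finset.mem_insert_of_mem hs)]
    funext z; rw [Finset.sum_insert ht]

theorem ic_E_sum (a : ℝ) (π : List (ℝ × ℝ)) (i j : ℕ) {ι : Type} (S : Finset ι) {f : ι → ℝ → ℝ} (hf : ∀ t ∈ S, ScBd 0 (f t)) :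
    icE a π i j (fun z => ∑ t ∈ S, f t z) = fun z => ∑ t ∈ S, icE a π i j (f t) z := by
  classical
  induction S using Finset.induction_on with
  | empty => simpa using ic_E_const a π i j 0
  | insert t S ht ih =>
    have h1 : (fun z => ∑ s ∈ insert t S, f s z) = fun z => f t z + ∑ s ∈ S, f s z := by
      funext z; rw [Finset.sum_insert ht]
    rw [h1, ic_E_add a π i j (hf t (Finset.mem_insert_self t S)).scE
      (ic_Bd_sum S fun s hs => hf s (Finset.mem_insert_of_mem hs)).scE, ih fun s hs => hf s (Finset.mem_insert_of_mem hs)]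
    funext z; rw [Finset.sum_insert ht]

/-! ### covariance over one stage -/

theorem ic_cov_Bd (a : ℝ) (π : List (ℝ × ℝ)) (j : ℕ) {n : ℕ} {f g : ℝ → ℝ} (hf : ScBd n f) (hg : ScBd n g) :
    ScBd n (icCov a π j f g) :=
  (ic_T_Bd a π j (hf.mul hg)).sub ((ic_T_Bd a π j hf).mul (ic_T_Bd a π j hg))

theorem ic_cov_symm (a : ℝ) (π : List (ℝ × ℝ)) (j : ℕ) (f g : ℝ → ℝ) : icCov a π j f g = icCov a π j g f := by
  funext z
  unfold icCov
  rw [show (fun y => f y * g y) = fun y => g y * f y from funext fun y => mul_comm _ _, mul_comm (icT a π j f z)]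

theorem ic_cov_add_right (a : ℝ) (π : List (ℝ × ℝ)) (j : ℕ) {f g h : ℝ → ℝ} (hf : ScBd 0 f) (hg : ScBd 0 g) (hh : ScBd 0 h)
    (z : ℝ) : icCov a π j f (fun y => g y + h y) z = icCov a π j f g z + icCov a π j f h z := by
  unfold icCov
  rw [show (fun y => f y * (g y + h y)) = fun y => f y * g y + f y * h y from funext fun y => mul_add _ _ _,
    ic_T_add a π j (hf.mul hg) (hf.mul hh), ic_T_add a π j hg hh]
  ring

theorem ic_cov_const_mul_right (a : ℝ) (π : List (ℝ × ℝ)) (j : ℕ) (f g : ℝ → ℝ) (c z : ℝ) :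
    icCov a π j f (fun y => c * g y) z = c * icCov a π j f g z := by
  unfold icCov
  rw [show (fun y => f y * (c * g y)) = fun y => c * (f y * g y) from funext fun y => by ring,
    ic_T_const_mul, ic_T_const_mul]
  ring

theorem ic_cov_const_mul_left (a : ℝ) (π : List (ℝ × ℝ)) (j : ℕ) (f g : ℝ → ℝ) (c z : ℝ) :
    icCov a π j (fun y => c * f y) g z = c * icCov a π j f g z := by
  rw [ic_cov_symm, ic_cov_const_mul_right, ic_cov_symm]

theorem ic_cov_add_left (a : ℝ) (π : List (ℝ × ℝ)) (j : ℕ) {f g h : ℝ → ℝ} (hf : ScBd 0 f) (hg : ScBd 0 g) (hh : ScBd 0 h)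
    (z : ℝ) : icCov a π j (fun y => g y + h y) f z = icCov a π j g f z + icCov a π j h f z := by
  rw [ic_cov_symm, ic_cov_add_right a π j hf hg hh, ic_cov_symm a π j f g, ic_cov_symm a π j f h]

theorem ic_cov_zero_right (a : ℝ) (π : List (ℝ × ℝ)) (j : ℕ) (f : ℝ → ℝ) (z : ℝ) :
    icCov a π j f (fun _ => 0) z = 0 := by
  have := ic_cov_const_mul_right a π j f (fun _ => 0) 0 z
  simpa using this

theorem ic_cov_sum_right (a : ℝ) (π : List (ℝ × ℝ)) (j : ℕ) {ι : Type} (S : Finset ι) {f : ℝ → ℝ} {g : ι → ℝ → ℝ}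
    (hf : ScBd 0 f) (hg : ∀ t ∈ S, ScBd 0 (g t)) (z : ℝ) :
    icCov a π j f (fun y => ∑ t ∈ S, g t y) z = ∑ t ∈ S, icCov a π j f (g t) z := by
  classical
  induction S using Finset.induction_on with
  | empty => simpa using ic_cov_zero_right a π j f z
  | insert t S ht ih =>
    have h1 : (fun y => ∑ s ∈ insert t S, g s y) = fun y => g t y + ∑ s ∈ S, g s y := by
      funext y; rw [Finset.sum_insert ht]
    rw [h1, ic_cov_add_right a π j hf (hg t (Finset.mem_insert_self t S))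
      (ic_Bd_sum S fun s hs => hg s (Finset.mem_insert_of_mem hs)), ih fun s hs => hg s (Finset.mem_insert_of_mem hs),
      Finset.sum_insert ht]

theorem ic_cov_sum_left (a : ℝ) (π : List (ℝ × ℝ)) (j : ℕ) {ι : Type} (S : Finset ι) {f : ℝ → ℝ} {g : ι → ℝ → ℝ}
    (hf : ScBd 0 f) (hg : ∀ t ∈ S, ScBd 0 (g t)) (z : ℝ) :
    icCov a π j (fun y => ∑ t ∈ S, g t y) f z = ∑ t ∈ S, icCov a π j (g t) f z := by
  rw [ic_cov_symm, ic_cov_sum_right a π j S hf hg]
  exact Finset.sum_congr rfl fun t _ => by rw [ic_cov_symm]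

theorem ic_cov_self_nonneg (a : ℝ) (π : List (ℝ × ℝ)) (j : ℕ) {f : ℝ → ℝ} (hf : ScBd 0 f) (z : ℝ) :
    0 ≤ icCov a π j f f z := by
  unfold icCov icT
  have := sc_tr_sq_le (ic_F_BI a π (j + 1) 1) hf.scE (icMs a π j) (icVr π j) z
  rw [show (fun y => f y * f y) = fun y => f y ^ 2 from funext fun y => (sq (f y)).symm]
  nlinarith

/-- `E_i[(fg)(Z_(j+1))] - E_i[(T_j f T_j g)(Z_j)] = E_i[Cov_j(f,g)(Z_j)]` -/
theorem ic_E_cov (a : ℝ) {π : List (ℝ × ℝ)} {i j : ℕ} (hij : i ≤ j) (hj : j < π.length) {f g : ℝ → ℝ} (hf : ScBd 0 f)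
    (hg : ScBd 0 g) (z : ℝ) :
    icE a π i (j + 1) (fun y => f y * g y) z - icE a π i j (fun y => icT a π j f y * icT a π j g y) z
      = icE a π i j (icCov a π j f g) z := by
  rw [ic_E_succ' a hij hj]
  have := ic_E_sub a π i j (ic_T_Bd a π j (hf.mul hg)).scE ((ic_T_Bd a π j hf).mul (ic_T_Bd a π j hg)).scE
  exact (congrFun this z).symm

/-! ### the next magnetisation -/

theorem ic_M_step (a : ℝ) {π : List (ℝ × ℝ)} {j : ℕ} (hj : j < π.length) : icT a π j (icM a π (j + 1)) = icM a π j := by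
  rw [← ic_E_step a hj, ic_M_mart a π (Nat.le_succ j)]

theorem ic_Q_step (a : ℝ) {π : List (ℝ × ℝ)} {j i : ℕ} (hj : j < π.length) (hji : j < i) :
    icT a π j (icQ a π (j + 1) i) = icQ a π j i := by
  unfold icQ
  rw [← ic_E_succ a hji hj]

theorem ic_Vn_Bd (a : ℝ) (π : List (ℝ × ℝ)) (j n : ℕ) : ScBd n (icVn a π j) :=
  (ic_Q_Bd a π j (j + 1) n).sub ((ic_M_Bd a π j n).pow 2)

theorem ic_Vn_eq_cov (a : ℝ) {π : List (ℝ × ℝ)} {j : ℕ} (hj : j < π.length) :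
    icVn a π j = icCov a π j (icM a π (j + 1)) (icM a π (j + 1)) := by
  funext z
  unfold icVn icCov
  rw [ic_M_step a hj, ← ic_Q_step a hj (Nat.lt_succ_self j), ic_Q_self, ic_S_of_le a hj]
  rw [show (fun y => icM a π (j + 1) y * icM a π (j + 1) y) = fun y => icM a π (j + 1) y ^ 2 from
    funext fun y => (sq _).symm]
  ring

theorem ic_Vn_top (a : ℝ) (π : List (ℝ × ℝ)) (z : ℝ) : icVn a π π.length z = 1 - icM a π π.length z ^ 2 := by
  unfold icVn
  rw [ic_Q_top a π.length (Nat.lt_succ_self _)]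

theorem ic_Vn_nonneg {a : ℝ} (ha : a ≠ 0) {π : List (ℝ × ℝ)} {j : ℕ} (hj : j ≤ π.length) (z : ℝ) : 0 ≤ icVn a π j z := by
  rcases Nat.lt_or_ge j π.length with h | h
  · rw [ic_Vn_eq_cov a h]; exact ic_cov_self_nonneg a π j (ic_M_Bd a π _ 0) z
  · have : j = π.length := le_antisymm hj h
    subst this
    rw [ic_Vn_top]
    have := ic_M_sq_le ha π π.length z
    linarith

/-! ## tools -/

/-- **(T3)** covariance over one stage -/
theorem ic_cov_abs_le {a : ℝ} {π : List (ℝ × ℝ)} (h : IcAdm a π) (ha1 : a ≤ 1) {j : ℕ} (hj : j < π.length) {f g : ℝ → ℝ}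
    {Lf Lg : ℝ} (hf : ScN 1 Lf f) (hg : ScN 1 Lg g) (z : ℝ) :
    |icCov a π j f g z| ≤ 2 * Lf * Lg * (icVr π j * (1 + 2 * icVr π j)) := by
  have hv := ict_Vr_nonneg h j
  have h1 := ict_cov_le h j hf.scE.of_succ hg.scE.of_succ hf.nonneg hg.nonneg
    (ict_lip_of_deriv hf.2.1 hf.der.bd) (ict_lip_of_deriv hg.2.1 hg.der.bd) z
  refine h1.trans ?_
  have h2 : a ^ 2 ≤ 1 := by nlinarith [h.pos]
  have h3 : icVr π j * (2 + 2 * a ^ 2 * icVr π j) ≤ 2 * (icVr π j * (1 + 2 * icVr π j)) := by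
    nlinarith [mul_nonneg hv hv, mul_nonneg (mul_nonneg hv hv) (sub_nonneg.2 h2)]
  calc Lf * Lg * (icVr π j * (2 + 2 * a ^ 2 * icVr π j)) ≤ Lf * Lg * (2 * (icVr π j * (1 + 2 * icVr π j))) :=
        mul_le_mul_of_nonneg_left h3 (mul_nonneg hf.nonneg hg.nonneg)
    _ = 2 * Lf * Lg * (icVr π j * (1 + 2 * icVr π j)) := by ring

/-- **(T4)** tau-free bounds: constants depend on the order only -/
theorem ic_tau (n : ℕ) : ∃ K : ℝ, 1 ≤ K ∧ ∀ (a : ℝ) (π : List (ℝ × ℝ)), IcAdm a π → a ≤ 1 →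
    (∀ j, ScN n K (icM a π j)) ∧ ∀ (i j : ℕ) (φ : ℝ → ℝ) (M : ℝ), ScN n M φ → ScN n (K * M) (icE a π i j φ) := by
  obtain ⟨C, _, hC⟩ := ict_tau_M n 1
  obtain ⟨K, hK, H⟩ := ict_tau_E n 1
  refine ⟨max C K, hK.trans (le_max_right _ _), fun a π h ha => ⟨fun j => (hC a π h ha j).weaken (le_max_left _ _),
    fun i j φ M hφ => (H a π h ha i j φ M hφ).weaken (mul_le_mul_of_nonneg_right (le_max_right _ _) hφ.nonneg)⟩⟩

/-! ## the child kernel -/

/-! ### helpers for the child kernel (helper215, prefix `icg_`) -/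

theorem icg_Ex_sub (a : ℝ) (π : List (ℝ × ℝ)) (j : ℕ) {φ ψ : ℝ → ℝ} (hφ : ScE 0 φ) (hψ : ScE 0 ψ) :
    icEx a π j (fun z => φ z - ψ z) = icEx a π j φ - icEx a π j ψ := by
  unfold icEx; rw [ic_E_sub a π 0 j hφ hψ]

theorem icg_Ex_add (a : ℝ) (π : List (ℝ × ℝ)) (j : ℕ) {φ ψ : ℝ → ℝ} (hφ : ScE 0 φ) (hψ : ScE 0 ψ) :
    icEx a π j (fun z => φ z + ψ z) = icEx a π j φ + icEx a π j ψ := by
  unfold icEx; rw [ic_E_add a π 0 j hφ hψ]

theorem icg_Ex_const_mul (a : ℝ) (π : List (ℝ × ℝ)) (j : ℕ) (c : ℝ) (φ : ℝ → ℝ) :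
    icEx a π j (fun z => c * φ z) = c * icEx a π j φ := by
  unfold icEx; rw [ic_E_const_mul]

theorem icg_Ex_const (a : ℝ) (π : List (ℝ × ℝ)) (j : ℕ) (c : ℝ) : icEx a π j (fun _ => c) = c := by
  unfold icEx; rw [ic_E_const]

theorem icg_Ex_mono (a : ℝ) (π : List (ℝ × ℝ)) (j : ℕ) {φ ψ : ℝ → ℝ} (hφ : ScE 0 φ) (hψ : ScE 0 ψ) (h : ∀ z, φ z ≤ ψ z) :
    icEx a π j φ ≤ icEx a π j ψ := ic_E_mono a π 0 j hφ hψ h 0

theorem icg_Ex_nonneg (a : ℝ) (π : List (ℝ × ℝ)) (j : ℕ) {φ : ℝ → ℝ} (hφ : ScE 0 φ) (h : ∀ z, 0 ≤ φ z) :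
    0 ≤ icEx a π j φ := ic_E_nonneg a π 0 j hφ h 0

theorem icg_Ex_le (a : ℝ) (π : List (ℝ × ℝ)) (j : ℕ) {φ : ℝ → ℝ} (hφ : ScE 0 φ) {C : ℝ} (h : ∀ z, φ z ≤ C) :
    icEx a π j φ ≤ C := by
  have := icg_Ex_mono a π j hφ (ScE.const 0 C) h
  rwa [icg_Ex_const] at this

theorem icg_Ex_abs_le (a : ℝ) (π : List (ℝ × ℝ)) (j : ℕ) {φ : ℝ → ℝ} (hφ : Continuous φ) {C : ℝ} (h : ∀ z, |φ z| ≤ C) :
    |icEx a π j φ| ≤ C := ic_E_abs_le a π 0 j hφ h 0

theorem icg_Ex_tower (a : ℝ) (π : List (ℝ × ℝ)) {j k : ℕ} (hjk : j ≤ k) (φ : ℝ → ℝ) :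
    icEx a π j (icE a π j k φ) = icEx a π k φ := by
  unfold icEx; rw [ic_E_tower a π (Nat.zero_le j) hjk]

theorem icg_E0_sum {ι : Type} (s : Finset ι) (c : ι → ℝ) (f : ι → ℝ → ℝ) (hf : ∀ k, ScE 0 (f k)) :
    ScE 0 (fun z => ∑ k ∈ s, c k * f k z) := by
  classical
  induction s using Finset.induction_on with
  | empty => simpa using ScE.const 0 0
  | insert k s hk ih =>
    simp only [Finset.sum_insert hk]
    exact ((hf k).const_mul (c k)).add ih

theorem icg_E_sum (a : ℝ) (π : List (ℝ × ℝ)) (i j : ℕ) {ι : Type} (s : Finset ι) (c : ι → ℝ) (f : ι → ℝ → ℝ)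
    (hf : ∀ k, ScE 0 (f k)) :
    icE a π i j (fun z => ∑ k ∈ s, c k * f k z) = fun z => ∑ k ∈ s, c k * icE a π i j (f k) z := by
  classical
  induction s using Finset.induction_on with
  | empty => simpa using ic_E_const a π i j 0
  | insert k s hk ih =>
    simp only [Finset.sum_insert hk]
    rw [ic_E_add a π i j ((hf k).const_mul (c k)) (icg_E0_sum s c f hf), ih, ic_E_const_mul]

theorem icg_Ex_sum (a : ℝ) (π : List (ℝ × ℝ)) (j : ℕ) {ι : Type} (s : Finset ι) (c : ι → ℝ) (f : ι → ℝ → ℝ)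
    (hf : ∀ k, ScE 0 (f k)) :
    icEx a π j (fun z => ∑ k ∈ s, c k * f k z) = ∑ k ∈ s, c k * icEx a π j (f k) := by
  unfold icEx; rw [icg_E_sum a π 0 j s c f hf]

theorem icg_U_E0 (a : ℝ) (π : List (ℝ × ℝ)) (r j : ℕ) : ScE 0 (fun z => icQ a π r j z - icM a π r z ^ 2) :=
  ((ic_Q_Bd a π r j 0).sub ((ic_M_Bd a π r 0).pow 2)).scE

theorem icg_Dl_Bd (a : ℝ) (π : List (ℝ × ℝ)) (r i n : ℕ) : ScBd n (icDl a π r i) :=
  (ic_Q_Bd a π r i n).sub (ic_Q_Bd a π r (i - 1) n)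

/-- `GAM_r(i,l)` without the case distinction -/
theorem icg_Gam_eq {a : ℝ} {π : List (ℝ × ℝ)} {r i l : ℕ} (hr : r ≤ π.length) (hi : r ≤ i) (hl : r ≤ l) :
    icGam a π r i l
      = icEx a π r fun z => (icQ a π r i z - icM a π r z ^ 2) * (icQ a π r l z - icM a π r z ^ 2) := by
  unfold icGam
  by_cases h : r < i ∧ r < l
  · rw [if_pos h]
  · rw [if_neg h]
    have h0 : ∀ z, icQ a π r r z - icM a π r z ^ 2 = 0 := by
      intro z
      rw [ic_Q_self, ic_S_of_le a hr]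
      ring
    have e : (fun z => (icQ a π r i z - icM a π r z ^ 2) * (icQ a π r l z - icM a π r z ^ 2)) = fun _ => 0 := by
      funext z
      rcases not_and_or.1 h with h' | h'
      · have : i = r := by omega
        subst this
        rw [h0]; ring
      · have : l = r := by omega
        subst this
        rw [h0]; ring
    rw [e, icg_Ex_const]

theorem icg_Gam_zero_left (a : ℝ) (π : List (ℝ × ℝ)) {r i : ℕ} (hi : i ≤ r) (l : ℕ) : icGam a π r i l = 0 := by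
  unfold icGam
  rw [if_neg (by omega)]

theorem icg_Gam_zero_right (a : ℝ) (π : List (ℝ × ℝ)) {r l : ℕ} (hl : l ≤ r) (i : ℕ) : icGam a π r i l = 0 := by
  unfold icGam
  rw [if_neg (by omega)]

theorem icg_Gam_symm (a : ℝ) (π : List (ℝ × ℝ)) (r i l : ℕ) : icGam a π r i l = icGam a π r l i := by
  unfold icGam
  by_cases h : r < i ∧ r < l
  · rw [if_pos h, if_pos h.symm]
    congr 1
    funext z
    ring
  · rw [if_neg h, if_neg (fun h' => h h'.symm)]

/-- `v_i = E_r[E_(i-1) mh_i² - mh_(i-1)²]` -/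
theorem icg_Dl_eq (a : ℝ) (π : List (ℝ × ℝ)) {r i : ℕ} (hi : r < i) :
    icDl a π r i = icE a π r (i - 1) (fun z => icQ a π (i - 1) i z - icS a π (i - 1) z) := by
  rw [ic_E_sub a π r (i - 1) (ic_Q_Bd a π (i - 1) i 0).scE (ic_S_Bd a π (i - 1) 0).scE]
  funext z
  unfold icDl
  rw [ic_Q_tower a π (by omega : r ≤ i - 1) (Nat.sub_le i 1)]
  rfl

theorem icg_T_M (a : ℝ) {π : List (ℝ × ℝ)} {k : ℕ} (hk : k < π.length) : icT a π k (icM a π (k + 1)) = icM a π k := by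
  rw [← ic_E_step a hk, ic_M_mart a π (Nat.le_succ k)]

/-- the one-stage increment of `mh²` is a conditional variance -/
theorem icg_W_cov (a : ℝ) {π : List (ℝ × ℝ)} {i : ℕ} (h1 : 1 ≤ i) (hi : i ≤ π.length) (z : ℝ) :
    icQ a π (i - 1) i z - icS a π (i - 1) z = icCov a π (i - 1) (icM a π i) (icM a π i) z := by
  obtain ⟨k, rfl⟩ : ∃ k, i = k + 1 := ⟨i - 1, by omega⟩
  simp only [Nat.add_sub_cancel]
  have hk : k < π.length := by omega
  unfold icQ icCov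
  rw [ic_E_step a hk, ic_S_of_le a hi, ic_S_of_le a hk.le, icg_T_M a hk]
  have e : (fun y => icM a π (k + 1) y * icM a π (k + 1) y) = fun z => icM a π (k + 1) z ^ 2 := by
    funext y; ring
  rw [e]
  ring

theorem icg_W_nonneg {a : ℝ} {π : List (ℝ × ℝ)} (h : IcAdm a π) {i : ℕ} (h1 : 1 ≤ i) (z : ℝ) :
    0 ≤ icQ a π (i - 1) i z - icS a π (i - 1) z := by
  rcases Nat.lt_or_ge π.length i with hi | hi
  · rw [ic_Q_top a (i - 1) hi]
    linarith [ic_S_le_one h.pos.ne' π (i - 1) z]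
  · rw [icg_W_cov a h1 hi]
    exact ict_var_nonneg a π (i - 1) (ic_M_Bd a π i 0).scE z

theorem icg_W_E0 (a : ℝ) (π : List (ℝ × ℝ)) (i : ℕ) : ScE 0 (fun z => icQ a π (i - 1) i z - icS a π (i - 1) z) :=
  ((ic_Q_Bd a π (i - 1) i 0).sub (ic_S_Bd a π (i - 1) 0)).scE

theorem icg_Dl_nonneg {a : ℝ} {π : List (ℝ × ℝ)} (h : IcAdm a π) {r i : ℕ} (hi : r < i) (z : ℝ) : 0 ≤ icDl a π r i z := by
  rw [icg_Dl_eq a π hi]
  exact ic_E_nonneg a π r (i - 1) (icg_W_E0 a π i) (fun y => icg_W_nonneg h (by omega) y) z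

theorem icg_Dl_le_one {a : ℝ} {π : List (ℝ × ℝ)} (h : IcAdm a π) (r i : ℕ) (z : ℝ) : icDl a π r i z ≤ 1 := by
  unfold icDl
  linarith [ic_Q_le_one h.pos.ne' π r i z, ic_Q_nonneg a π r (i - 1) z]

/-- `c_r(i,l) = E[v_i v_l]` -/
theorem ic_C_eq {a : ℝ} {π : List (ℝ × ℝ)} (h : IcAdm a π) {r i l : ℕ} (hr : r ≤ π.length) (hi : r < i) (hl : r < l) :
    icC a π r i l = icEx a π r fun z => icDl a π r i z * icDl a π r l z := by
  unfold icC
  rw [icg_Gam_eq hr hi.le hl.le, icg_Gam_eq hr (by omega : r ≤ i - 1) hl.le, icg_Gam_eq hr hi.le (by omega : r ≤ l - 1),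
    icg_Gam_eq hr (by omega : r ≤ i - 1) (by omega : r ≤ l - 1)]
  have hU := icg_U_E0 a π r
  rw [← icg_Ex_sub a π r ((hU i).mul (hU l)) ((hU (i - 1)).mul (hU l)),
    ← icg_Ex_sub a π r (((hU i).mul (hU l)).sub ((hU (i - 1)).mul (hU l))) ((hU i).mul (hU (l - 1))),
    ← icg_Ex_add a π r ((((hU i).mul (hU l)).sub ((hU (i - 1)).mul (hU l))).sub ((hU i).mul (hU (l - 1))))
      ((hU (i - 1)).mul (hU (l - 1)))]
  congr 1
  funext z
  unfold icDl
  ring

/-- (G1) -/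
theorem ic_C_nonneg {a : ℝ} {π : List (ℝ × ℝ)} (h : IcAdm a π) {r : ℕ} (hr : r ≤ π.length) (i l : ℕ) : 0 ≤ icC a π r i l := by
  by_cases hi : r < i
  · by_cases hl : r < l
    · rw [ic_C_eq h hr hi hl]
      exact icg_Ex_nonneg a π r ((icg_Dl_Bd a π r i 0).mul (icg_Dl_Bd a π r l 0)).scE
        fun z => mul_nonneg (icg_Dl_nonneg h hi z) (icg_Dl_nonneg h hl z)
    · unfold icC
      rw [icg_Gam_zero_right a π (by omega : l ≤ r), icg_Gam_zero_right a π (by omega : l ≤ r),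
        icg_Gam_zero_right a π (by omega : l - 1 ≤ r), icg_Gam_zero_right a π (by omega : l - 1 ≤ r)]
      norm_num
  · unfold icC
    rw [icg_Gam_zero_left a π (by omega : i ≤ r), icg_Gam_zero_left a π (by omega : i ≤ r),
      icg_Gam_zero_left a π (by omega : i - 1 ≤ r), icg_Gam_zero_left a π (by omega : i - 1 ≤ r)]
    norm_num

theorem ic_C_symm (a : ℝ) (π : List (ℝ × ℝ)) (r i l : ℕ) : icC a π r i l = icC a π r l i := by
  unfold icC
  rw [icg_Gam_symm a π r i l, icg_Gam_symm a π r (i - 1) l, icg_Gam_symm a π r i (l - 1),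
    icg_Gam_symm a π r (i - 1) (l - 1)]
  ring

/-! ## (G2), (E1), (G4)      (helper13, prefix `ict_`) -/

/-! ### calculus of `icEx` -/

theorem ict_Ex_add (a : ℝ) (π : List (ℝ × ℝ)) (j : ℕ) {φ ψ : ℝ → ℝ} (hφ : ScE 0 φ) (hψ : ScE 0 ψ) :
    icEx a π j (fun z => φ z + ψ z) = icEx a π j φ + icEx a π j ψ := by
  unfold icEx; rw [ic_E_add a π 0 j hφ hψ]

theorem ict_Ex_sub (a : ℝ) (π : List (ℝ × ℝ)) (j : ℕ) {φ ψ : ℝ → ℝ} (hφ : ScE 0 φ) (hψ : ScE 0 ψ) :
    icEx a π j (fun z => φ z - ψ z) = icEx a π j φ - icEx a π j ψ := by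
  unfold icEx; rw [ic_E_sub a π 0 j hφ hψ]

theorem ict_Ex_const_mul (a : ℝ) (π : List (ℝ × ℝ)) (j : ℕ) (c : ℝ) (φ : ℝ → ℝ) :
    icEx a π j (fun z => c * φ z) = c * icEx a π j φ := by
  unfold icEx; rw [ic_E_const_mul a π 0 j c φ]

theorem ict_Ex_const (a : ℝ) (π : List (ℝ × ℝ)) (j : ℕ) (c : ℝ) : icEx a π j (fun _ => c) = c := by
  unfold icEx; rw [ic_E_const a π 0 j c]

theorem ict_Ex_mono (a : ℝ) (π : List (ℝ × ℝ)) (j : ℕ) {φ ψ : ℝ → ℝ} (hφ : ScE 0 φ) (hψ : ScE 0 ψ) (h : ∀ z, φ z ≤ ψ z) :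
    icEx a π j φ ≤ icEx a π j ψ := ic_E_mono a π 0 j hφ hψ h 0

theorem ict_Ex_nonneg (a : ℝ) (π : List (ℝ × ℝ)) (j : ℕ) {φ : ℝ → ℝ} (hφ : ScE 0 φ) (h : ∀ z, 0 ≤ φ z) :
    0 ≤ icEx a π j φ := ic_E_nonneg a π 0 j hφ h 0

theorem ict_Ex_le (a : ℝ) (π : List (ℝ × ℝ)) (j : ℕ) {φ : ℝ → ℝ} (hφ : ScE 0 φ) {C : ℝ} (h : ∀ z, φ z ≤ C) :
    icEx a π j φ ≤ C := by
  have := ict_Ex_mono a π j hφ (ScE.const 0 C) h
  rwa [ict_Ex_const] at this

theorem ict_Ex_abs_le (a : ℝ) (π : List (ℝ × ℝ)) (j : ℕ) {φ : ℝ → ℝ} (hφ : Continuous φ) {C : ℝ} (h : ∀ z, |φ z| ≤ C) :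
    |icEx a π j φ| ≤ C := ic_E_abs_le a π 0 j hφ h 0

theorem ict_scE_sum {ι : Type} (s : Finset ι) {f : ι → ℝ → ℝ} (hf : ∀ x ∈ s, ScE 0 (f x)) :
    ScE 0 (fun z => ∑ x ∈ s, f x z) := by
  classical
  induction s using Finset.induction_on with
  | empty => simpa using ScE.const 0 0
  | insert x s hx ih =>
    have e : (fun z => ∑ y ∈ insert x s, f y z) = fun z => f x z + ∑ y ∈ s, f y z := by
      funext z; rw [Finset.sum_insert hx]
    rw [e]
    exact (hf x (Finset.mem_insert_self _ _)).add (ih fun y hy => hf y (Finset.mem_insert_of_mem hy))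

theorem ict_Ex_sum (a : ℝ) (π : List (ℝ × ℝ)) (j : ℕ) {ι : Type} (s : Finset ι) {f : ι → ℝ → ℝ} (hf : ∀ x ∈ s, ScE 0 (f x)) :
    icEx a π j (fun z => ∑ x ∈ s, f x z) = ∑ x ∈ s, icEx a π j (f x) := by
  classical
  induction s using Finset.induction_on with
  | empty => simpa using ict_Ex_const a π j 0
  | insert x s hx ih =>
    have e : (fun z => ∑ y ∈ insert x s, f y z) = fun z => f x z + ∑ y ∈ s, f y z := by
      funext z; rw [Finset.sum_insert hx]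
    rw [e, ict_Ex_add a π j (hf x (Finset.mem_insert_self _ _))
      (ict_scE_sum s fun y hy => hf y (Finset.mem_insert_of_mem hy)), Finset.sum_insert hx,
      ih fun y hy => hf y (Finset.mem_insert_of_mem hy)]

/-- one more stage under the expectation -/
theorem ict_Ex_succ (a : ℝ) {π : List (ℝ × ℝ)} {j : ℕ} (hj : j < π.length) (φ : ℝ → ℝ) :
    icEx a π (j + 1) φ = icEx a π j (icT a π j φ) := by
  unfold icEx; rw [ic_E_succ' a (Nat.zero_le j) hj]

/-! ### the increments `v_i` -/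

theorem ict_Dl_Bd (a : ℝ) (π : List (ℝ × ℝ)) (r i n : ℕ) : ScBd n (icDl a π r i) :=
  (ic_Q_Bd a π r i n).sub (ic_Q_Bd a π r (i - 1) n)

/-- the local increment `E_(i-1)[mh_i²] - mh_(i-1)²` (a function of the field at the depth `i - 1`) -/
noncomputable def ictD (a : ℝ) (π : List (ℝ × ℝ)) (i : ℕ) : ℝ → ℝ := fun y => icQ a π (i - 1) i y - icS a π (i - 1) y

theorem ict_D_eqns_cite : True := by
  have := @ictD.eq_1
  trivial

theorem ict_D_Bd (a : ℝ) (π : List (ℝ × ℝ)) (i n : ℕ) : ScBd n (ictD a π i) :=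
  (ic_Q_Bd a π (i - 1) i n).sub (ic_S_Bd a π (i - 1) n)

/-- `v_i = E_r[local increment]` -/
theorem ict_Dl_eq (a : ℝ) (π : List (ℝ × ℝ)) {r i : ℕ} (hi : r < i) : icDl a π r i = icE a π r (i - 1) (ictD a π i) := by
  unfold ictD
  rw [ic_E_sub a π r (i - 1) (ic_Q_Bd a π (i - 1) i 0).scE (ic_S_Bd a π (i - 1) 0).scE,
    ic_Q_tower a π (by omega : r ≤ i - 1) (by omega : i - 1 ≤ i)]
  rfl

/-- below the top the local increment is the conditional variance of `m_i` -/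
theorem ict_D_of_le (a : ℝ) {π : List (ℝ × ℝ)} {i : ℕ} (h1 : 1 ≤ i) (hi : i ≤ π.length) :
    ictD a π i = icCov a π (i - 1) (icM a π i) (icM a π i) := by
  obtain ⟨j, rfl⟩ : ∃ j, i = j + 1 := ⟨i - 1, by omega⟩
  have hj : j < π.length := by omega
  funext y
  unfold ictD icCov
  simp only [Nat.add_sub_cancel]
  have e1 : icQ a π j (j + 1) = icT a π j (fun y => icM a π (j + 1) y * icM a π (j + 1) y) := by
    unfold icQ
    rw [ic_E_step a hj, ic_S_of_le a hi]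
    congr 1
    funext y; ring
  have e2 : icT a π j (icM a π (j + 1)) = icM a π j := by
    rw [← ic_E_step a hj, ic_M_mart a π (Nat.le_succ j)]
  rw [e1, e2, ic_S_of_le a hj.le]
  ring

/-- at the top the local increment is `1 - m_N²` -/
theorem ict_D_top (a : ℝ) (π : List (ℝ × ℝ)) : ictD a π (π.length + 1) = fun y => 1 - icM a π π.length y ^ 2 := by
  funext y
  unfold ictD
  simp only [Nat.add_sub_cancel]
  rw [ic_Q_top a π.length (Nat.lt_succ_self _), ic_S_of_le a le_rfl]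

/-- beyond the top the local increment vanishes -/
theorem ict_D_beyond (a : ℝ) {π : List (ℝ × ℝ)} {i : ℕ} (hi : π.length + 1 < i) : ictD a π i = fun _ => 0 := by
  funext y
  unfold ictD
  rw [ic_Q_top a (i - 1) (by omega), ic_S_of_lt a (by omega : π.length < i - 1)]
  ring

theorem ict_D_nonneg {a : ℝ} (ha : a ≠ 0) (π : List (ℝ × ℝ)) {i : ℕ} (h1 : 1 ≤ i) (y : ℝ) : 0 ≤ ictD a π i y := by
  rcases Nat.lt_trichotomy i (π.length + 1) with h | h | h
  · rw [ict_D_of_le a h1 (by omega)]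
    exact ict_var_nonneg a π _ (ic_M_Bd a π i 0).scE y
  · subst h
    rw [ict_D_top]
    have := ic_M_sq_le ha π π.length y
    linarith
  · rw [ict_D_beyond a h]

theorem ict_Dl_nonneg {a : ℝ} (ha : a ≠ 0) (π : List (ℝ × ℝ)) {r i : ℕ} (hi : r < i) (z : ℝ) : 0 ≤ icDl a π r i z := by
  rw [ict_Dl_eq a π hi]
  exact ic_E_nonneg a π r (i - 1) (ict_D_Bd a π i 0).scE (ict_D_nonneg ha π (by omega)) z

/-! ### bounds of the increments -/

theorem ict_F_ad {a : ℝ} {π : List (ℝ × ℝ)} (h : IcAdm a π) (j : ℕ) : ScAd a (icF a π j) :=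
  (ScAd.logcosh h.pos).scV (sc_tau_adm_sublist h.adm (List.drop_sublist _ _))

theorem ict_X_pos {a : ℝ} {π : List (ℝ × ℝ)} (h : IcAdm a π) (j : ℕ) (z : ℝ) : 0 < icX a π j z := (ict_F_ad h j).pos z

theorem ict_X_le {a : ℝ} {π : List (ℝ × ℝ)} (h : IcAdm a π) (j : ℕ) (z : ℝ) : icX a π j z ≤ a := (ict_F_ad h j).hess_le z

theorem ict_M_lip {a : ℝ} {π : List (ℝ × ℝ)} (h : IcAdm a π) (j : ℕ) (x y : ℝ) : |icM a π j x - icM a π j y| ≤ a * |x - y| :=
  ict_lip_of_deriv (ic_M_Bd a π j 1).2.1 (fun z => by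
    have e : deriv (icM a π j) z = icX a π j z := rfl
    rw [e, abs_of_pos (ict_X_pos h j z)]
    exact ict_X_le h j z) x y

theorem ict_E_le (a : ℝ) (π : List (ℝ × ℝ)) (i j : ℕ) {φ : ℝ → ℝ} (hφ : ScE 0 φ) {C : ℝ} (h : ∀ z, φ z ≤ C) (z : ℝ) :
    icE a π i j φ z ≤ C := by
  have := ic_E_mono a π i j hφ (ScE.const 0 C) h z
  rwa [ic_E_const] at this

/-- the constant of one stage -/
noncomputable def ictq (a : ℝ) (π : List (ℝ × ℝ)) (j : ℕ) : ℝ := icVr π j * (2 + 2 * a ^ 2 * icVr π j)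

theorem ict_q_eqns_cite : True := by
  have := @ictq.eq_1
  trivial

theorem ict_q_nonneg {a : ℝ} {π : List (ℝ × ℝ)} (h : IcAdm a π) (j : ℕ) : 0 ≤ ictq a π j := by
  have := ict_Vr_nonneg h j
  unfold ictq
  positivity

theorem ict_K_nonneg {a : ℝ} {π : List (ℝ × ℝ)} (h : IcAdm a π) (k : ℕ) : 0 ≤ icK π k :=
  Finset.sum_nonneg fun i _ => ict_Vr_nonneg h i

theorem ict_Vr_le_K {a : ℝ} {π : List (ℝ × ℝ)} (h : IcAdm a π) {j k : ℕ} (hj : j < k) : icVr π j ≤ icK π k :=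
  Finset.single_le_sum (f := fun i => icVr π i) (fun i _ => ict_Vr_nonneg h i) (Finset.mem_range.2 hj)

theorem ict_Rho_succ (π : List (ℝ × ℝ)) (j : ℕ) : icRho π (j + 1) = icVr π j := by
  unfold icRho
  rw [if_neg (Nat.succ_ne_zero j), Nat.add_sub_cancel]

theorem ict_q_le {a : ℝ} {π : List (ℝ × ℝ)} (h : IcAdm a π) (ha1 : a ≤ 1) {j : ℕ} (hj : j < π.length) :
    ictq a π j ≤ 2 * (1 + icK π π.length) * icRho π (j + 1) := by
  have hv := ict_Vr_nonneg h j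
  have hK := ict_Vr_le_K h hj
  have h2 : a ^ 2 ≤ 1 := by nlinarith [h.pos]
  rw [ict_Rho_succ]
  unfold ictq
  have h3 : a ^ 2 * icVr π j ≤ icK π π.length := by nlinarith
  nlinarith

theorem ict_D_le {a : ℝ} {π : List (ℝ × ℝ)} (h : IcAdm a π) {j : ℕ} (hj : j < π.length) (y : ℝ) :
    ictD a π (j + 1) y ≤ a * a * ictq a π j := by
  rw [ict_D_of_le a (by omega : 1 ≤ j + 1) hj, Nat.add_sub_cancel]
  exact (le_abs_self _).trans (ict_cov_le h j (ic_M_Bd a π (j + 1) 0).scE (ic_M_Bd a π (j + 1) 0).scE h.pos.le h.pos.le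
    (ict_M_lip h (j + 1)) (ict_M_lip h (j + 1)) y)

theorem ict_Dl_le {a : ℝ} {π : List (ℝ × ℝ)} (h : IcAdm a π) {r j : ℕ} (hr : r ≤ j) (hj : j < π.length) (z : ℝ) :
    icDl a π r (j + 1) z ≤ a * a * ictq a π j := by
  rw [ict_Dl_eq a π (by omega : r < j + 1)]
  exact ict_E_le a π r _ (ict_D_Bd a π (j + 1) 0).scE (ict_D_le h hj) z

theorem ict_Dl_top_le (a : ℝ) (π : List (ℝ × ℝ)) {r : ℕ} (hr : r ≤ π.length) (z : ℝ) : icDl a π r (π.length + 1) z ≤ 1 := by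
  rw [ict_Dl_eq a π (by omega : r < π.length + 1)]
  refine ict_E_le a π r _ (ict_D_Bd a π (π.length + 1) 0).scE (fun y => ?_) z
  rw [ict_D_top]
  nlinarith [sq_nonneg (icM a π π.length y)]

theorem ict_C_le_mul {a : ℝ} {π : List (ℝ × ℝ)} (h : IcAdm a π) {r i l : ℕ} (hr : r ≤ π.length) (hi : r < i) (hl : r < l)
    {A B : ℝ} (hA : ∀ z, icDl a π r i z ≤ A) (hB : ∀ z, icDl a π r l z ≤ B) : icC a π r i l ≤ A * B := by
  rw [ic_C_eq h hr hi hl]
  exact ict_Ex_le a π r ((ict_Dl_Bd a π r i 0).mul (ict_Dl_Bd a π r l 0)).scE fun z =>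
    mul_le_mul (hA z) (hB z) (ict_Dl_nonneg h.pos.ne' π hl z) ((ict_Dl_nonneg h.pos.ne' π hi z).trans (hA z))

/-- (G2) -/
theorem ic_C_le : ∃ C : ℝ, 1 ≤ C ∧ ∀ (a : ℝ) (π : List (ℝ × ℝ)), IcAdm a π → a ≤ 1 → ∀ r i l : ℕ, r < i → r < l →
    (i ≤ π.length → l ≤ π.length → icC a π r i l ≤ C * (1 + icK π π.length) ^ 2 * icRho π i * icRho π l) ∧
    (i ≤ π.length → icC a π r i (π.length + 1) ≤ C * (1 + icK π π.length) * icRho π i) ∧
    icC a π r (π.length + 1) (π.length + 1) ≤ 1 := by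
  refine ⟨4, by norm_num, fun a π h ha1 r i l hi hl => ?_⟩
  have hK := ict_K_nonneg h π.length
  have h2 : a * a ≤ 1 := by nlinarith [h.pos]
  have hB : ∀ i, r < i → i ≤ π.length → ∀ z, icDl a π r i z ≤ 2 * (1 + icK π π.length) * icRho π i := by
    intro i hi hiN z
    obtain ⟨j, rfl⟩ : ∃ j, i = j + 1 := ⟨i - 1, by omega⟩
    have hq := ict_q_nonneg h j
    calc icDl a π r (j + 1) z ≤ a * a * ictq a π j := ict_Dl_le h (by omega) (by omega) z
      _ ≤ 1 * ictq a π j := mul_le_mul_of_nonneg_right h2 hq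
      _ ≤ _ := by rw [one_mul]; exact ict_q_le h ha1 (by omega)
  refine ⟨fun hiN hlN => ?_, fun hiN => ?_, ?_⟩
  · refine (ict_C_le_mul h (by omega) hi hl (hB i hi hiN) (hB l hl hlN)).trans (le_of_eq ?_)
    ring
  · refine (ict_C_le_mul h (by omega) hi (by omega) (hB i hi hiN) (ict_Dl_top_le a π (by omega))).trans ?_
    have hρ : 0 ≤ icRho π i := by
      obtain ⟨j, rfl⟩ : ∃ j, i = j + 1 := ⟨i - 1, by omega⟩
      rw [ict_Rho_succ]; exact ict_Vr_nonneg h j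
    nlinarith [mul_nonneg (by linarith : 0 ≤ 1 + icK π π.length) hρ]
  · by_cases hr : r ≤ π.length
    · have := ict_C_le_mul h hr (by omega : r < π.length + 1) (by omega : r < π.length + 1) (ict_Dl_top_le a π hr)
        (ict_Dl_top_le a π hr)
      simpa using this
    · have h0 : ∀ i' l', i' ≤ π.length + 1 → icGam a π r i' l' = 0 := fun i' l' h1 => by
        unfold icGam
        rw [if_neg]
        intro hc
        omega
      unfold icC
      rw [h0 _ _ le_rfl, h0 _ _ (by omega), h0 _ _ le_rfl, h0 _ _ (by omega)]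
      norm_num

/-! ### Abel summation: `∑_{i' ≥ i} p_i' v_i' = E_r χ_(i-1)` -/

theorem ict_P_succ (a : ℝ) (π : List (ℝ × ℝ)) (j : ℕ) : icP a π (j + 1) = icMs a π j := by
  unfold icP
  rw [if_neg (Nat.succ_ne_zero j), Nat.add_sub_cancel]

theorem ict_P_nonneg {a : ℝ} {π : List (ℝ × ℝ)} (h : IcAdm a π) (j : ℕ) : 0 ≤ icP a π j := by
  cases j with
  | zero => simp [icP]
  | succ j => rw [ict_P_succ]; exact (ict_Ms_mem h j).1

theorem ict_P_le {a : ℝ} {π : List (ℝ × ℝ)} (h : IcAdm a π) (j : ℕ) : icP a π j ≤ a := by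
  cases j with
  | zero => simpa [icP] using h.pos.le
  | succ j => rw [ict_P_succ]; exact (ict_Ms_mem h j).2

theorem ict_P_D_succ (a : ℝ) {π : List (ℝ × ℝ)} {j : ℕ} (hj : j < π.length) (y : ℝ) :
    icP a π (j + 1) * ictD a π (j + 1) y = icX a π j y - icT a π j (icX a π (j + 1)) y := by
  rw [ict_P_succ, ict_D_of_le a (by omega : 1 ≤ j + 1) hj, Nat.add_sub_cancel, ic_X_succ a hj y]
  ring

theorem ict_P_D_top {a : ℝ} (ha : a ≠ 0) (π : List (ℝ × ℝ)) (y : ℝ) :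
    icP a π (π.length + 1) * ictD a π (π.length + 1) y = icX a π π.length y := by
  rw [ict_P_succ, ict_Ms_top a le_rfl, ict_D_top, ic_X_top ha le_rfl y]

theorem ict_sum_Dl_aux {a : ℝ} (ha : a ≠ 0) (π : List (ℝ × ℝ)) {r : ℕ} : ∀ d j : ℕ, j + d = π.length → r ≤ j → ∀ z,
    ∑ i' ∈ Icc (j + 1) (π.length + 1), icP a π i' * icDl a π r i' z = icE a π r j (icX a π j) z := by
  intro d
  induction d with
  | zero =>
    intro j hj hr z
    have hj' : j = π.length := by omega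
    subst hj'
    rw [Finset.Icc_self, Finset.sum_singleton, ict_Dl_eq a π (by omega : r < π.length + 1), Nat.add_sub_cancel]
    have e := congrFun (ic_E_const_mul a π r π.length (icP a π (π.length + 1)) (ictD a π (π.length + 1))) z
    rw [← e]
    congr 1
    funext y
    exact ict_P_D_top ha π y
  | succ d ih =>
    intro j hj hr z
    have hjN : j < π.length := by omega
    rw [← Finset.insert_Icc_add_one_left_eq_Icc (by omega : j + 1 ≤ π.length + 1),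
      Finset.sum_insert (by simp), ih (j + 1) (by omega) (by omega) z,
      ict_Dl_eq a π (by omega : r < j + 1), Nat.add_sub_cancel]
    have e := congrFun (ic_E_const_mul a π r j (icP a π (j + 1)) (ictD a π (j + 1))) z
    rw [← e]
    have e2 : (fun y => icP a π (j + 1) * ictD a π (j + 1) y) = fun y => icX a π j y - icT a π j (icX a π (j + 1)) y :=
      funext fun y => ict_P_D_succ a hjN y
    rw [e2, ic_E_sub a π r j (ic_X_Bd a π j 0).scE (ic_T_Bd a π j (ic_X_Bd a π (j + 1) 0)).scE, ic_E_succ' a hr hjN]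
    ring

/-- **Abel summation** `∑_{i' ≥ i} p_i' v_i' = E_r χ_(i-1)` -/
theorem ict_sum_Dl {a : ℝ} (ha : a ≠ 0) (π : List (ℝ × ℝ)) {r i : ℕ} (hi : r < i) (hi' : i ≤ π.length + 1) (z : ℝ) :
    ∑ i' ∈ Icc i (π.length + 1), icP a π i' * icDl a π r i' z = icE a π r (i - 1) (icX a π (i - 1)) z := by
  obtain ⟨j, rfl⟩ : ∃ j, i = j + 1 := ⟨i - 1, by omega⟩
  rw [Nat.add_sub_cancel]
  exact ict_sum_Dl_aux ha π (π.length - j) j (by omega) (by omega) z

/-- (E1') `g_r^{il} = E[(E_r χ_(i-1)) (E_r χ_(l-1))]` -/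
theorem ic_G_eq {a : ℝ} {π : List (ℝ × ℝ)} (h : IcAdm a π) {r i l : ℕ} (hi : r < i) (hl : r < l)
    (hi' : i ≤ π.length + 1) (hl' : l ≤ π.length + 1) :
    icG a π r i l = icEx a π r fun z => icE a π r (i - 1) (icX a π (i - 1)) z * icE a π r (l - 1) (icX a π (l - 1)) z := by
  have hr : r ≤ π.length := by omega
  have hA : ∀ i', ScE 0 (fun z => icP a π i' * icDl a π r i' z) := fun i' => ((ict_Dl_Bd a π r i' 0).const_mul _).scE
  have hC : ∀ i' ∈ Icc i (π.length + 1), ∀ l' ∈ Icc l (π.length + 1), icP a π i' * icP a π l' * icC a π r i' l'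
      = icEx a π r (fun z => (icP a π i' * icDl a π r i' z) * (icP a π l' * icDl a π r l' z)) := by
    intro i' hi1 l' hl1
    rw [Finset.mem_Icc] at hi1 hl1
    rw [ic_C_eq h hr (by omega) (by omega), ← ict_Ex_const_mul]
    congr 1
    funext z; ring
  unfold icG
  rw [Finset.sum_congr rfl fun i' hi1 => Finset.sum_congr rfl (hC i' hi1)]
  have h1 : ∀ i' ∈ Icc i (π.length + 1),
      ∑ l' ∈ Icc l (π.length + 1), icEx a π r (fun z => (icP a π i' * icDl a π r i' z) * (icP a π l' * icDl a π r l' z))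
      = icEx a π r (fun z => ∑ l' ∈ Icc l (π.length + 1), (icP a π i' * icDl a π r i' z) * (icP a π l' * icDl a π r l' z)) :=
    fun i' _ => (ict_Ex_sum a π r _ fun l' _ => (hA i').mul (hA l')).symm
  rw [Finset.sum_congr rfl h1, ← ict_Ex_sum a π r _ fun i' _ => ict_scE_sum _ fun l' _ => (hA i').mul (hA l')]
  congr 1
  funext z
  rw [← Finset.sum_mul_sum, ict_sum_Dl h.pos.ne' π hi hi' z, ict_sum_Dl h.pos.ne' π hl hl' z]

/-- (E1) the top child multiplier is `E χ_r²` (so that (G3) is the gap of the paper) -/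
theorem ic_G_top {a : ℝ} {π : List (ℝ × ℝ)} (h : IcAdm a π) {r : ℕ} (hr : r ≤ π.length) :
    icG a π r (r + 1) (r + 1) = icEx a π r fun z => icX a π r z ^ 2 := by
  rw [ic_G_eq h (by omega : r < r + 1) (by omega : r < r + 1) (by omega) (by omega), Nat.add_sub_cancel, ic_E_self]
  congr 1
  funext z; ring

/-- `0 ≤ g_r^{il} ≤ g_r^{r+1,r+1}` -/
theorem ic_G_mem {a : ℝ} {π : List (ℝ × ℝ)} (h : IcAdm a π) {r i l : ℕ} (hr : r ≤ π.length) (hi : r < i) (hl : r < l) :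
    0 ≤ icG a π r i l ∧ icG a π r i l ≤ icG a π r (r + 1) (r + 1) := by
  have h0 : ∀ i' l', 0 ≤ icP a π i' * icP a π l' * icC a π r i' l' := fun i' l' =>
    mul_nonneg (mul_nonneg (ict_P_nonneg h i') (ict_P_nonneg h l')) (ic_C_nonneg h hr i' l')
  unfold icG
  refine ⟨Finset.sum_nonneg fun i' _ => Finset.sum_nonneg fun l' _ => h0 i' l', ?_⟩
  calc ∑ i' ∈ Icc i (π.length + 1), ∑ l' ∈ Icc l (π.length + 1), icP a π i' * icP a π l' * icC a π r i' l'
      ≤ ∑ i' ∈ Icc i (π.length + 1), ∑ l' ∈ Icc (r + 1) (π.length + 1), icP a π i' * icP a π l' * icC a π r i' l' :=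
        Finset.sum_le_sum fun i' _ => Finset.sum_le_sum_of_subset_of_nonneg (Finset.Icc_subset_Icc (by omega) le_rfl)
          fun l' _ _ => h0 i' l'
    _ ≤ _ := Finset.sum_le_sum_of_subset_of_nonneg (Finset.Icc_subset_Icc (by omega) le_rfl)
          fun i' _ _ => Finset.sum_nonneg fun l' _ => h0 i' l'

/-- the two adjacent differences behind (G4), one stage -/
theorem ict_Gk_core {a : ℝ} {π : List (ℝ × ℝ)} (h : IcAdm a π) (ha1 : a ≤ 1) {K : ℝ} (hK : ∀ j, ScN 2 K (icM a π j)) {j : ℕ}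
    (hj : j < π.length) :
    |icEx a π (j + 1) (fun z => icX a π (j + 1) z ^ 2) - icEx a π j (fun z => icX a π j z ^ 2)| ≤ (K ^ 2 + 3) * ictq a π j ∧
    |icEx a π (j + 1) (fun z => icX a π (j + 1) z ^ 2)
      - icEx a π j (fun z => icE a π j (j + 1) (icX a π (j + 1)) z * icX a π j z)| ≤ (K ^ 2 + 3) * ictq a π j := by
  have hq := ict_q_nonneg h j
  have ha0 := h.pos
  have hX1 : ScN 1 K (icX a π (j + 1)) := (hK (j + 1)).der
  have hK0 : 0 ≤ K := hX1.nonneg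
  have hXb : ScBd 0 (icX a π (j + 1)) := ic_X_Bd a π (j + 1) 0
  have hXj : ScBd 0 (icX a π j) := ic_X_Bd a π j 0
  have hu : ScBd 0 (icT a π j (icX a π (j + 1))) := ic_T_Bd a π j hXb
  have hT2 : ScBd 0 (icT a π j (fun z => icX a π (j + 1) z ^ 2)) := ic_T_Bd a π j (hXb.pow 2)
  -- pointwise facts
  have hW : ∀ z, |icT a π j (fun y => icX a π (j + 1) y ^ 2) z - icT a π j (icX a π (j + 1)) z ^ 2| ≤ K * K * ictq a π j := by
    intro z
    have := ict_cov_le h j hXb.scE hXb.scE hK0 hK0 (ict_lip_of_deriv hX1.2.1 hX1.der.bd) (ict_lip_of_deriv hX1.2.1 hX1.der.bd) z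
    unfold icCov at this
    have e : (fun y => icX a π (j + 1) y * icX a π (j + 1) y) = fun y => icX a π (j + 1) y ^ 2 := by funext y; ring
    rw [e, ← pow_two] at this
    exact this
  have hu0 : ∀ z, 0 ≤ icT a π j (icX a π (j + 1)) z := fun z => by
    rw [← ic_E_step a hj]
    exact ic_E_nonneg a π j (j + 1) hXb.scE (fun y => (ict_X_pos h (j + 1) y).le) z
  have hu1 : ∀ z, icT a π j (icX a π (j + 1)) z ≤ a := fun z => by
    rw [← ic_E_step a hj]
    exact ict_E_le a π j (j + 1) hXb.scE (ict_X_le h (j + 1)) z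
  have hD : ∀ z, 0 ≤ icX a π j z - icT a π j (icX a π (j + 1)) z ∧
      icX a π j z - icT a π j (icX a π (j + 1)) z ≤ ictq a π j := by
    intro z
    rw [← ict_P_D_succ a hj z]
    have h1 := ict_D_nonneg ha0.ne' π (by omega : 1 ≤ j + 1) z
    have h2 := ict_D_le h hj z
    have h3 := ict_P_nonneg h (j + 1)
    have h4 := ict_P_le h (j + 1)
    refine ⟨mul_nonneg h3 h1, ?_⟩
    have h5 : a * a ≤ 1 := by nlinarith
    calc icP a π (j + 1) * ictD a π (j + 1) z ≤ 1 * (1 * ictq a π j) :=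
          mul_le_mul (h4.trans ha1) (h2.trans (mul_le_mul_of_nonneg_right h5 hq)) h1 zero_le_one
      _ = ictq a π j := by ring
  have hD1 : ∀ z, icX a π j z - icT a π j (icX a π (j + 1)) z ≤ 1 := fun z => by
    have := ict_X_le h j z
    have := hu0 z
    linarith
  rw [ict_Ex_succ a hj]
  constructor
  · rw [← ict_Ex_sub a π j hT2.scE (hXj.pow 2).scE]
    refine ict_Ex_abs_le a π j (hT2.sub (hXj.pow 2)).2 fun z => ?_
    have w := abs_le.1 (hW z)
    obtain ⟨d0, d1⟩ := hD z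
    have d2 := hD1 z
    have u0 := hu0 z
    have u1 := (hu1 z).trans ha1
    set u := icT a π j (icX a π (j + 1)) z
    set D := icX a π j z - u with hDdef
    have e : icT a π j (fun z => icX a π (j + 1) z ^ 2) z - icX a π j z ^ 2
        = (icT a π j (fun z => icX a π (j + 1) z ^ 2) z - u ^ 2) - 2 * u * D - D * D := by
      rw [hDdef]; ring
    rw [e, abs_le]
    have p1 : u * D ≤ ictq a π j := by nlinarith
    have p2 : D * D ≤ ictq a π j := by nlinarith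
    have p3 : 0 ≤ u * D := mul_nonneg u0 d0
    have p4 : 0 ≤ D * D := mul_nonneg d0 d0
    constructor <;> nlinarith [w.1, w.2]
  · have hE : icE a π j (j + 1) (icX a π (j + 1)) = icT a π j (icX a π (j + 1)) := ic_E_step a hj _
    rw [hE, ← ict_Ex_sub a π j hT2.scE (hu.mul hXj).scE]
    refine ict_Ex_abs_le a π j (hT2.sub (hu.mul hXj)).2 fun z => ?_
    have w := abs_le.1 (hW z)
    obtain ⟨d0, d1⟩ := hD z
    have u0 := hu0 z
    have u1 := (hu1 z).trans ha1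
    set u := icT a π j (icX a π (j + 1)) z
    set D := icX a π j z - u with hDdef
    have e : icT a π j (fun z => icX a π (j + 1) z ^ 2) z - u * icX a π j z
        = (icT a π j (fun z => icX a π (j + 1) z ^ 2) z - u ^ 2) - u * D := by
      rw [hDdef]; ring
    rw [e, abs_le]
    have p1 : u * D ≤ ictq a π j := by nlinarith
    have p3 : 0 ≤ u * D := mul_nonneg u0 d0
    constructor <;> nlinarith [w.1, w.2]

/-- (G4) adjacent sheets of the child multiplier seen by the sectors `j ∈ {k, k+1}` -/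
theorem ic_Gk_adj : ∃ C : ℝ, 1 ≤ C ∧ ∀ (a : ℝ) (π : List (ℝ × ℝ)), IcAdm a π → a ≤ 1 → ∀ k j : ℕ, 1 ≤ k → k ≤ π.length →
    (j = k ∨ j = k + 1) → |icGk a π j k - icGk a π j (k - 1)| ≤ C * (1 + icK π π.length) * icRho π k := by
  obtain ⟨K, hK1, hK⟩ := ic_tau 2
  refine ⟨2 * (K ^ 2 + 3), by nlinarith [sq_nonneg K], fun a π h ha1 k j hk1 hkN hjk => ?_⟩
  obtain ⟨i, rfl⟩ : ∃ i, k = i + 1 := ⟨k - 1, by omega⟩
  have hi : i < π.length := by omega
  obtain ⟨c1, c2⟩ := ict_Gk_core h ha1 (hK a π h ha1).1 hi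
  have hq := ict_q_le h ha1 hi
  have hfin : (K ^ 2 + 3) * ictq a π i ≤ 2 * (K ^ 2 + 3) * (1 + icK π π.length) * icRho π (i + 1) := by
    have : 0 ≤ K ^ 2 + 3 := by positivity
    nlinarith [mul_le_mul_of_nonneg_left hq this]
  rw [Nat.add_sub_cancel]
  unfold icGk
  rcases hjk with rfl | rfl
  · rw [max_eq_right (by omega : i + 1 ≤ i + 1 + 1), max_self, ic_G_top h hkN, ic_G_top h hi.le]
    exact c1.trans hfin
  · rw [max_self, max_eq_left (by omega : i + 1 ≤ i + 1 + 1), ic_G_top h hkN,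
      ic_G_eq h (by omega : i < i + 1 + 1) (by omega : i < i + 1) (by omega) (by omega)]
    simp only [Nat.add_sub_cancel, ic_E_self]
    exact c2.trans hfin

/-! ## MASS-FREE tails (G4'), (G5)      (helper13; `origin/helper177:notes/R286/L04_IFACE_177.md` sec. 2) -/

/-- the tail `∑_{i' ≥ i, l' ≥ l} c_t(i',l') = E[f_i f_l]`, `f_i = 1 - E_t mh_(i-1)²` -/
noncomputable def icTl (a : ℝ) (π : List (ℝ × ℝ)) (t i l : ℕ) : ℝ :=
  ∑ i' ∈ Icc i (π.length + 1), ∑ l' ∈ Icc l (π.length + 1), icC a π t i' l'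

theorem ic_Tl_eqns_cite : True := by
  have := @icTl.eq_1
  trivial

theorem ict_tel_Dl_aux (a : ℝ) (π : List (ℝ × ℝ)) (t : ℕ) (z : ℝ) : ∀ d j : ℕ, j + d = π.length →
    ∑ i' ∈ Icc (j + 1) (π.length + 1), icDl a π t i' z = 1 - icQ a π t j z := by
  intro d
  induction d with
  | zero =>
    intro j hj
    have hj' : j = π.length := by omega
    subst hj'
    rw [Finset.Icc_self, Finset.sum_singleton]
    unfold icDl
    rw [ic_Q_top a t (Nat.lt_succ_self _), Nat.add_sub_cancel]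
  | succ d ih =>
    intro j hj
    rw [← Finset.insert_Icc_add_one_left_eq_Icc (by omega : j + 1 ≤ π.length + 1),
      Finset.sum_insert (by simp), ih (j + 1) (by omega)]
    unfold icDl
    rw [Nat.add_sub_cancel]
    ring

/-- telescoping `∑_{i' ≥ i} v_i' = 1 - E_t mh_(i-1)²` -/
theorem ict_tel_Dl (a : ℝ) (π : List (ℝ × ℝ)) (t : ℕ) {i : ℕ} (hi : 1 ≤ i) (z : ℝ) :
    ∑ i' ∈ Icc i (π.length + 1), icDl a π t i' z = 1 - icQ a π t (i - 1) z := by
  obtain ⟨j, rfl⟩ : ∃ j, i = j + 1 := ⟨i - 1, by omega⟩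
  rw [Nat.add_sub_cancel]
  rcases Nat.lt_or_ge π.length j with h | h
  · rw [Finset.Icc_eq_empty (by omega), Finset.sum_empty, ic_Q_top a t h]
    ring
  · exact ict_tel_Dl_aux a π t z (π.length - j) j (by omega)

/-- `tail_t(i,l) = E[f_i f_l]` -/
theorem ic_Tl_eq {a : ℝ} {π : List (ℝ × ℝ)} (h : IcAdm a π) {t i l : ℕ} (ht : t ≤ π.length) (hi : t < i) (hl : t < l) :
    icTl a π t i l = icEx a π t fun z => (1 - icQ a π t (i - 1) z) * (1 - icQ a π t (l - 1) z) := by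
  have hA : ∀ i', ScE 0 (icDl a π t i') := fun i' => (ict_Dl_Bd a π t i' 0).scE
  have hC : ∀ i' ∈ Icc i (π.length + 1), ∀ l' ∈ Icc l (π.length + 1), icC a π t i' l'
      = icEx a π t (fun z => icDl a π t i' z * icDl a π t l' z) := by
    intro i' hi1 l' hl1
    rw [Finset.mem_Icc] at hi1 hl1
    exact ic_C_eq h ht (by omega) (by omega)
  unfold icTl
  rw [Finset.sum_congr rfl fun i' hi1 => Finset.sum_congr rfl (hC i' hi1)]
  have h1 : ∀ i' ∈ Icc i (π.length + 1),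
      ∑ l' ∈ Icc l (π.length + 1), icEx a π t (fun z => icDl a π t i' z * icDl a π t l' z)
      = icEx a π t (fun z => ∑ l' ∈ Icc l (π.length + 1), icDl a π t i' z * icDl a π t l' z) :=
    fun i' _ => (ict_Ex_sum a π t _ fun l' _ => (hA i').mul (hA l')).symm
  rw [Finset.sum_congr rfl h1, ← ict_Ex_sum a π t _ fun i' _ => ict_scE_sum _ fun l' _ => (hA i').mul (hA l')]
  congr 1
  funext z
  rw [← Finset.sum_mul_sum, ict_tel_Dl a π t (by omega) z, ict_tel_Dl a π t (by omega) z]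

/-- **(G5)** -/
theorem ic_Tl_top {a : ℝ} {π : List (ℝ × ℝ)} (h : IcAdm a π) (t : ℕ) : icTl a π t (t + 1) (t + 1) ≤ 1 := by
  rcases Nat.lt_or_ge π.length t with ht | ht
  · unfold icTl
    rw [Finset.Icc_eq_empty (by omega), Finset.sum_empty]
    exact zero_le_one
  · rw [ic_Tl_eq h ht (by omega) (by omega), Nat.add_sub_cancel]
    have hf : ScBd 0 (fun z => 1 - icQ a π t t z) := (ScBd.const 0 1).sub (ic_Q_Bd a π t t 0)
    refine ict_Ex_le a π t (hf.mul hf).scE fun z => ?_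
    have h0 := ic_Q_nonneg a π t t z
    have h1 := ic_Q_le_one h.pos.ne' π t t z
    nlinarith

theorem ict_S_deriv_le {a : ℝ} {π : List (ℝ × ℝ)} (h : IcAdm a π) (i : ℕ) (z : ℝ) : |deriv (icS a π i) z| ≤ 2 * a := by
  by_cases hi : i ≤ π.length
  · rw [ic_S_of_le a hi]
    have hd : HasDerivAt (icM a π i) (icX a π i z) z := ((ic_M_Bd a π i 1).2.1 z).hasDerivAt
    have h2 := (hd.pow 2).deriv
    have e : (fun z => icM a π i z ^ 2) = icM a π i ^ 2 := rfl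
    rw [e, h2]
    have m1 := ic_M_abs_le h.pos.ne' π i z
    have x0 := ict_X_pos h i z
    have x1 := ict_X_le h i z
    simp only [Nat.cast_ofNat, Nat.add_one_sub_one, pow_one]
    rw [abs_mul, abs_mul, abs_of_pos x0]
    have : |icM a π i z| * icX a π i z ≤ 1 * a := mul_le_mul m1 x1 x0.le zero_le_one
    simp only [abs_two]
    nlinarith
  · rw [ic_S_of_lt a (by omega)]
    simp only [deriv_const, abs_zero]
    exact mul_nonneg zero_le_two h.pos.le

/-- **(T4), explicit**: `E_j mh_i²` is `4a`-Lipschitz -/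
theorem ict_Q_lip {a : ℝ} {π : List (ℝ × ℝ)} (h : IcAdm a π) (j i : ℕ) (x y : ℝ) :
    |icQ a π j i x - icQ a π j i y| ≤ 4 * a * |x - y| := by
  refine ict_lip_of_deriv (ic_Q_Bd a π j i 1).2.1 (fun z => ?_) x y
  have := ict_E_grad h j i (ic_S_Bd a π i 1) (M := 1) (M' := 2 * a) (fun z => by
    rw [abs_of_nonneg (ic_S_nonneg a π i z)]; exact ic_S_le_one h.pos.ne' π i z) (ict_S_deriv_le h i) z
  unfold icQ
  linarith

/-- (G4'), explicit, any terminal mass -/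
theorem ict_Tl_adj {a : ℝ} {π : List (ℝ × ℝ)} (h : IcAdm a π) {j i l : ℕ} (hj : j < π.length) (hi : j + 1 < i) (hl : j + 1 < l) :
    |icTl a π (j + 1) i l - icTl a π j i l| ≤ 4 * a * (4 * a) * ictq a π j := by
  have hf : ∀ t i, ScBd 0 (fun z => 1 - icQ a π t i z) := fun t i => (ScBd.const 0 1).sub (ic_Q_Bd a π t i 0)
  have hstep : ∀ i, j + 1 ≤ i → (fun z => 1 - icQ a π j i z) = icT a π j (fun z => 1 - icQ a π (j + 1) i z) := by
    intro i hi
    rw [ic_T_sub a π j (ScBd.const 0 1) (ic_Q_Bd a π (j + 1) i 0), ic_T_const, ← ic_E_step a hj,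
      ic_Q_tower a π (Nat.le_succ j) hi]
  rw [ic_Tl_eq h hj (by omega) (by omega), ic_Tl_eq h hj.le (by omega) (by omega), ict_Ex_succ a hj,
    ← ict_Ex_sub a π j (ic_T_Bd a π j ((hf _ _).mul (hf _ _))).scE ((hf _ _).mul (hf _ _)).scE]
  refine ict_Ex_abs_le a π j ((ic_T_Bd a π j ((hf _ _).mul (hf _ _))).sub ((hf _ _).mul (hf _ _))).2 fun z => ?_
  have hlip : ∀ i x y, |(1 - icQ a π (j + 1) i x) - (1 - icQ a π (j + 1) i y)| ≤ 4 * a * |x - y| := by
    intro i x y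
    have := ict_Q_lip h (j + 1) i x y
    rw [show (1 - icQ a π (j + 1) i x) - (1 - icQ a π (j + 1) i y) = -(icQ a π (j + 1) i x - icQ a π (j + 1) i y) by ring, abs_neg]
    exact this
  have h4 : 0 ≤ 4 * a := by have := h.pos; positivity
  have := ict_cov_le h j (hf (j + 1) (i - 1)).scE (hf (j + 1) (l - 1)).scE h4 h4 (hlip (i - 1)) (hlip (l - 1)) z
  unfold icCov at this
  have e1 := congrFun (hstep (i - 1) (by omega)) z
  have e2 := congrFun (hstep (l - 1) (by omega)) z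
  rw [e1, e2]
  exact this

/-- **(G4')** adjacent sheets of the tails, ALL sectors, no masses -/
theorem ic_Tl_adj : ∃ C : ℝ, 1 ≤ C ∧ ∀ (a : ℝ) (π : List (ℝ × ℝ)), IcAdm a π → a ≤ 1 → ∀ j i l : ℕ, 1 ≤ j → j ≤ π.length →
    j < i → j < l → |icTl a π j i l - icTl a π (j - 1) i l| ≤ C * (1 + icK π π.length) * icRho π j := by
  refine ⟨32, by norm_num, fun a π h ha1 j i l hj1 hjN hi hl => ?_⟩
  obtain ⟨k, rfl⟩ : ∃ k, j = k + 1 := ⟨j - 1, by omega⟩
  rw [Nat.add_sub_cancel]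
  have hk : k < π.length := by omega
  have h1 := ict_Tl_adj h hk hi hl
  have h2 := ict_q_le h ha1 hk
  have hq := ict_q_nonneg h k
  have h3 : 4 * a * (4 * a) ≤ 16 := by nlinarith [h.pos]
  calc |icTl a π (k + 1) i l - icTl a π k i l| ≤ 4 * a * (4 * a) * ictq a π k := h1
    _ ≤ 16 * ictq a π k := mul_le_mul_of_nonneg_right h3 hq
    _ ≤ 16 * (2 * (1 + icK π π.length) * icRho π (k + 1)) := mul_le_mul_of_nonneg_left h2 (by norm_num)
    _ = 32 * (1 + icK π π.length) * icRho π (k + 1) := by ring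

end Claimed.Agent.R286
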