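import Claimed.Agent.R286.Inv.ScChain
import Claimed.Agent.R286.Inv.PairDefs
import Claimed.Agent.R286.Sc.LinkTr
import Claimed.Agent.R286.Fd.TrB2
import Claimed.Agent.R286.L02.Defs
import Claimed.Agent.R286.Inv.Arr
import Claimed.Agent.R286.Inv.ScT

/-!
# Row 286 (S0533), LL Section 5, unit KER: THE POINTWISE KERNEL IDENTITY (W)      (head + prover helper19; prefix `ick`)

TEX[LL:inv:sector-response] in the discrete form of `origin/helper177:notes/R286/L04_PLAN_177.md` sec. 1 = (KER) of `origin/helper84:notes/R286/L05_design_84.md`: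
for four labels `a b c d`, `r = τ a b ≤ N`, `t = τ c d ≤ N`,
    `ν[abcd] - ν[ab] ν[cd] = GAM_r(τ c a, τ d b) + GAM_r(τ d a, τ c b) + BET_rt(τ c a) + BET_rt(τ c b) + BET_rt(τ d a) + BET_rt(τ d b)`.
Vocabulary: `Inv/ScChain.lean` (`icGam`, `icBet`, `icA`, `icCat`, `icq`).   Route: `slk_nu` of helper102 (`Sc/LinkTr.lean`: `ghNu` of the one-site model = product of `slkL`).
* sec. 1  shift lemmas of the chain (`cons`, `drop`)
* sec. 2  `ickLam a π rep A` = conditional moment of the labels of `A` given their common field; one stage, terminal draw, splitting, trunk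
* sec. 3  one label, pairs, triples; THE TWO SHAPES: balanced `icA ρ α β`, caterpillar `icCat k j i`
* sec. 4  algebra of `icBet`, `icGam`
* sec. 5  (W) for raw representatives on four labels (`ick_W`)
* sec. 6  (W) for the official kernel `(llJs n a P tl).Mker` (`ick_Mker`);  `llQs = icq` (`ick_llQs`)
* sec. 7  dictionary of the data: `IcAdm a (pkPi P)`, `trPm (llMs a P) = icP a (pkPi P)`, `pkX2 = E χ²` of the chain (`ick_X2`), the gap of (H1) (`ick_gap`)
-/

set_option autoImplicit false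

namespace Claimed.Agent.R286

open Finset

/-! ## 1. shift lemmas of the chain -/

theorem ick_E_cons (a : ℝ) (p : ℝ × ℝ) (π : List (ℝ × ℝ)) (i : ℕ) (φ : ℝ → ℝ) :
    icE a (p :: π) 0 (i + 1) φ = scTr p.1 p.2 (scV (scLC a) π) (icE a π 0 i φ) := by
  unfold icE icF
  simp only [List.take_succ_cons, List.drop_zero, List.drop_succ_cons, scP]
  rw [← sc_V_append, List.take_append_drop]

theorem ick_E_drop (a : ℝ) (π : List (ℝ × ℝ)) (j i k : ℕ) (φ : ℝ → ℝ) :
    icE a (π.drop j) i k φ = icE a π (j + i) (j + k) φ := by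
  unfold icE icF
  rw [List.drop_drop, List.take_drop, List.drop_drop]

theorem ick_M_drop (a : ℝ) (π : List (ℝ × ℝ)) (j i : ℕ) : icM a (π.drop j) i = icM a π (j + i) := by
  unfold icM icF
  rw [List.drop_drop]

theorem ick_S_drop (a : ℝ) (π : List (ℝ × ℝ)) (j n : ℕ) (hj : j ≤ π.length) : icS a (π.drop j) n = icS a π (j + n) := by
  unfold icS icM icF
  rw [List.drop_drop, List.length_drop]
  have : (n ≤ π.length - j) ↔ (j + n ≤ π.length) := by omega
  simp only [this]

theorem ick_Q_drop (a : ℝ) (π : List (ℝ × ℝ)) (j i n : ℕ) (hj : j ≤ π.length) :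
    icQ a (π.drop j) i n = icQ a π (j + i) (j + n) := by
  unfold icQ
  rw [ick_E_drop, ick_S_drop a π j n hj]

theorem ick_Q_cons (a : ℝ) (p : ℝ × ℝ) (π : List (ℝ × ℝ)) (n : ℕ) :
    icQ a (p :: π) 0 (n + 1) = scTr p.1 p.2 (scV (scLC a) π) (icQ a π 0 n) := by
  have h : icS a (p :: π) (n + 1) = icS a π n := by
    unfold icS icM icF
    simp only [List.length_cons, List.drop_succ_cons, Nat.add_le_add_iff_right]
  unfold icQ
  rw [ick_E_cons, h]

theorem ick_M_cons (a : ℝ) (p : ℝ × ℝ) (π : List (ℝ × ℝ)) :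
    icM a (p :: π) 0 = scTr p.1 p.2 (scV (scLC a) π) (icM a π 0) := by
  unfold icM icF
  simp only [List.drop_zero, scV]
  exact sc_step_deriv (sc_V_BI (ic_LC_BI a) π 1) p.1 p.2

/-! ## 2. conditional moments of sets of labels -/

section lam

variable {q : ℕ}

/-- the classes of `rep` are read from the table `τ` (`τ x y` = number of shared stages) -/
def IckTab (rep : ℕ → Fin q → Fin q) (τ : Fin q → Fin q → ℕ) : Prop :=
  ∀ t x y, rep t x = rep t y ↔ (x = y ∨ t < τ x y)

/-- no label outside `A` shares the next stage with a label of `A` -/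
def IckSat (τ : Fin q → Fin q → ℕ) (A : Finset (Fin q)) : Prop := ∀ x ∈ A, ∀ b, b ∉ A → τ x b = 0

/-- the spin test on every label -/
def ickPhi (q : ℕ) : Fin q → SkCfg 1 → ℝ := fun _ => slkSp

/-- conditional moment of the spins of the labels of `A` (a union of classes of the stage `0`) given their common field -/
noncomputable def ickLam (a : ℝ) (π : List (ℝ × ℝ)) (rep : ℕ → Fin q → Fin q) (A : Finset (Fin q)) (y : ℝ) : ℝ :=
  ∏ c ∈ A.filter (fun c => rep 0 c = c), slkL a π rep (ickPhi q) c y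

theorem ick_eqns_cite : True := by
  have := @IckTab.eq_1
  have := @IckSat.eq_1
  have := @ickPhi.eq_1
  have := @ickLam.eq_1
  trivial

theorem IckTab.shift {rep : ℕ → Fin q → Fin q} {τ : Fin q → Fin q → ℕ} (h : IckTab rep τ) (k : ℕ) :
    IckTab (fun t => rep (t + k)) (fun x y => τ x y - k) := by
  intro t x y
  show rep (t + k) x = rep (t + k) y ↔ (x = y ∨ t < τ x y - k)
  rw [h (t + k) x y]
  constructor
  · rintro (h1 | h1)
    · exact Or.inl h1
    · exact Or.inr (by omega)
  · rintro (h1 | h1)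
    · exact Or.inl h1
    · exact Or.inr (by omega)

theorem IckTab.symm {rep : ℕ → Fin q → Fin q} {τ : Fin q → Fin q → ℕ} (h : IckTab rep τ) {x y : Fin q} (hxy : x ≠ y) :
    τ x y = τ y x := by
  have key : ∀ t, t < τ x y ↔ t < τ y x := by
    intro t
    have h1 := h t x y
    have h2 := h t y x
    constructor
    · intro ht
      have := h2.1 (h1.2 (Or.inr ht)).symm
      rcases this with e | e
      · exact absurd e.symm hxy
      · exact e
    · intro ht
      have := h1.1 (h2.2 (Or.inr ht)).symm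
      rcases this with e | e
      · exact absurd e hxy
      · exact e
  rcases lt_trichotomy (τ x y) (τ y x) with h1 | h1 | h1
  · exact absurd ((key _).2 h1) (lt_irrefl _)
  · exact h1
  · exact absurd ((key _).1 h1) (lt_irrefl _)

theorem IckTab.ultra {rep : ℕ → Fin q → Fin q} {τ : Fin q → Fin q → ℕ} (h : IckTab rep τ) {x y z : Fin q} (hxz : x ≠ z) :
    min (τ x y) (τ y z) ≤ τ x z := by
  by_contra hc
  have hc' : τ x z < min (τ x y) (τ y z) := not_le.1 hc
  have h1 := (h (τ x z) x y).2 (Or.inr (lt_of_lt_of_le hc' (min_le_left _ _)))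
  have h2 := (h (τ x z) y z).2 (Or.inr (lt_of_lt_of_le hc' (min_le_right _ _)))
  rcases (h (τ x z) x z).1 (h1.trans h2) with e | e
  · exact hxz e
  · exact lt_irrefl _ e

theorem IckSat.shift {τ : Fin q → Fin q → ℕ} {A : Finset (Fin q)} (h : IckSat τ A) (k : ℕ) :
    IckSat (fun x y => τ x y - k) A := fun x hx b hb => by
  show τ x b - k = 0
  rw [h x hx b hb, Nat.zero_sub]

/-- the class of the stage `0` of a set whose labels share the stage `0` -/
theorem ick_class {rep : ℕ → Fin q → Fin q} {τ : Fin q → Fin q → ℕ} (hr : GhRepOk rep) (h : IckTab rep τ)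
    {A : Finset (Fin q)} (hS : IckSat τ A) (hA : ∀ x ∈ A, ∀ y ∈ A, x ≠ y → 0 < τ x y) {x : Fin q} (hx : x ∈ A) :
    rep 0 x ∈ A ∧ ∀ b, rep 0 b = rep 0 x ↔ b ∈ A := by
  have key : ∀ b, rep 0 b = rep 0 x ↔ b ∈ A := by
    intro b
    constructor
    · intro hb
      by_contra hbA
      rcases (h 0 x b).1 hb.symm with e | e
      · exact hbA (e ▸ hx)
      · rw [hS x hx b hbA] at e
        exact lt_irrefl _ e
    · intro hb
      by_cases e : b = x
      · rw [e]
      · exact (h 0 b x).2 (Or.inr (hA b hb x hx e))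
  exact ⟨(key _).1 (hr.idem 0 x), key⟩

theorem ick_filter_single {rep : ℕ → Fin q → Fin q} {τ : Fin q → Fin q → ℕ} (hr : GhRepOk rep) (h : IckTab rep τ)
    {A : Finset (Fin q)} (hS : IckSat τ A) (hA : ∀ x ∈ A, ∀ y ∈ A, x ≠ y → 0 < τ x y) {x : Fin q} (hx : x ∈ A) :
    A.filter (fun c => rep 0 c = c) = {rep 0 x} := by
  obtain ⟨h1, h2⟩ := ick_class hr h hS hA hx
  ext c
  simp only [mem_filter, mem_singleton]
  constructor
  · rintro ⟨hc, hc'⟩
    rw [← hc']
    exact (h2 c).2 hc
  · intro hc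
    rw [hc]
    exact ⟨h1, hr.idem 0 x⟩

/-- ONE STAGE: a set whose labels share the stage `0` -/
theorem ick_lam_step (a : ℝ) (p : ℝ × ℝ) (π : List (ℝ × ℝ)) {rep : ℕ → Fin q → Fin q} {τ : Fin q → Fin q → ℕ}
    (hr : GhRepOk rep) (h : IckTab rep τ) {A : Finset (Fin q)} (hS : IckSat τ A) (hne : A.Nonempty)
    (hA : ∀ x ∈ A, ∀ y ∈ A, x ≠ y → 0 < τ x y) :
    ickLam a (p :: π) rep A = scTr p.1 p.2 (scV (scLC a) π) (ickLam a π (fun t => rep (t + 1)) A) := by
  obtain ⟨x, hx⟩ := hne
  obtain ⟨_, h2⟩ := ick_class hr h hS hA hx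
  funext y
  unfold ickLam
  rw [ick_filter_single hr h hS hA hx, prod_singleton]
  have e : (Finset.univ.filter fun c' => rep 1 c' = c' ∧ rep 0 c' = rep 0 x) = A.filter fun c => rep (0 + 1) c = c := by
    ext c
    simp only [mem_filter, mem_univ, true_and, h2 c, Nat.zero_add]
    exact and_comm
  simp only [slkL, e]

/-- THE TERMINAL DRAW: coinciding labels -/
theorem ick_lam_nil (a : ℝ) {rep : ℕ → Fin q → Fin q} {τ : Fin q → Fin q → ℕ}
    (hr : GhRepOk rep) (h : IckTab rep τ) {A : Finset (Fin q)} (hS : IckSat τ A) (hne : A.Nonempty)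
    (hA : ∀ x ∈ A, ∀ y ∈ A, x ≠ y → 0 < τ x y) :
    ickLam a [] rep A = slkM a fun σ => ∏ _b ∈ A, slkSp σ := by
  obtain ⟨x, hx⟩ := hne
  obtain ⟨_, h2⟩ := ick_class hr h hS hA hx
  funext y
  unfold ickLam
  rw [ick_filter_single hr h hS hA hx, prod_singleton]
  have e : (Finset.univ.filter fun b => rep 0 b = rep 0 x) = A := by
    ext c
    simp only [mem_filter, mem_univ, true_and, h2 c]
  simp only [slkL, e, ickPhi]

/-- SPLITTING -/
theorem ick_lam_union (a : ℝ) (π : List (ℝ × ℝ)) (rep : ℕ → Fin q → Fin q) {A B : Finset (Fin q)} (hAB : Disjoint A B) (y : ℝ) :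
    ickLam a π rep (A ∪ B) y = ickLam a π rep A y * ickLam a π rep B y := by
  unfold ickLam
  rw [filter_union, prod_union (disjoint_filter_filter hAB)]

/-- TRUNK: a set whose labels share `k` stages -/
theorem ick_lam_trunk (a : ℝ) {A : Finset (Fin q)} (hne : A.Nonempty) : ∀ (k : ℕ) (π : List (ℝ × ℝ)) (rep : ℕ → Fin q → Fin q)
    (τ : Fin q → Fin q → ℕ), GhRepOk rep → IckTab rep τ → IckSat τ A → (∀ x ∈ A, ∀ y ∈ A, x ≠ y → k ≤ τ x y) → k ≤ π.length →
    ickLam a π rep A = icE a π 0 k (ickLam a (π.drop k) (fun t => rep (t + k)) A)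
  | 0, π, rep, τ, _, _, _, _, _ => by
      rw [ic_E_self]; rfl
  | k + 1, [], rep, τ, _, _, _, _, hk => by simp at hk
  | k + 1, p :: π, rep, τ, hr, h, hS, hA, hk => by
      rw [ick_lam_step a p π hr h hS hne (fun x hx y hy hxy => by have := hA x hx y hy hxy; omega),
        ick_lam_trunk a hne k π (fun t => rep (t + 1)) (fun x y => τ x y - 1) hr.shift (h.shift 1) (hS.shift 1)
          (fun x hx y hy hxy => by have := hA x hx y hy hxy; omega) (by simpa using hk),
        ick_E_cons]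
      rfl

/-! ## 3. one label, pairs, triples, the two shapes -/

theorem GhRepOk.ickShift {rep : ℕ → Fin q → Fin q} (h : GhRepOk rep) (k : ℕ) : GhRepOk fun t => rep (t + k) :=
  ⟨fun t a => h.idem (t + k) a, fun t a b => by
    have := h.mono (t + k) a b
    rwa [show t + k + 1 = t + 1 + k by omega] at this⟩

/-- ONE LABEL -/
theorem ick_lam_one {a : ℝ} (ha : a ≠ 0) (x : Fin q) : ∀ (π : List (ℝ × ℝ)) (rep : ℕ → Fin q → Fin q) (τ : Fin q → Fin q → ℕ),
    GhRepOk rep → IckTab rep τ → IckSat τ {x} → ickLam a π rep {x} = icM a π 0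
  | [], rep, τ, hr, h, hS => by
      rw [ick_lam_nil a hr h hS (singleton_nonempty x) (fun u hu v hv huv => by
        rw [mem_singleton] at hu hv; exact absurd (hu.trans hv.symm) huv), ic_M_top ha (Nat.zero_le _)]
      simp only [prod_singleton]
      exact slk_M_sp a
  | p :: π, rep, τ, hr, h, hS => by
      rw [ick_lam_step a p π hr h hS (singleton_nonempty x) (fun u hu v hv huv => by
        rw [mem_singleton] at hu hv; exact absurd (hu.trans hv.symm) huv),
        ick_lam_one ha x π (fun t => rep (t + 1)) (fun u v => τ u v - 1) hr.shift (h.shift 1) (hS.shift 1), ick_M_cons]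

theorem ick_sat_single {τ : Fin q → Fin q → ℕ} {A : Finset (Fin q)} (hS : IckSat τ A) {x : Fin q} (hx : x ∈ A)
    (h0 : ∀ y ∈ A, y ≠ x → τ x y = 0) : IckSat τ {x} := fun u hu b hb => by
  rw [mem_singleton] at hu hb
  subst hu
  by_cases hbA : b ∈ A
  · exact h0 b hbA hb
  · exact hS u hx b hbA

theorem ick_pair_pos {τ : Fin q → Fin q → ℕ} {x y : Fin q} {k : ℕ} (h1 : k ≤ τ x y) (h2 : k ≤ τ y x) :
    ∀ u ∈ ({x, y} : Finset (Fin q)), ∀ v ∈ ({x, y} : Finset (Fin q)), u ≠ v → k ≤ τ u v := by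
  intro u hu v hv huv
  simp only [mem_insert, mem_singleton] at hu hv
  rcases hu with rfl | rfl <;> rcases hv with rfl | rfl
  · exact absurd rfl huv
  · exact h1
  · exact h2
  · exact absurd rfl huv

theorem ick_sp_mul (σ : SkCfg 1) : slkSp σ * slkSp σ = 1 := by
  unfold slkSp skSp Claims.C0461.pmSpin
  split_ifs <;> norm_num

/-- PAIRS -/
theorem ick_lam_two {a : ℝ} (ha : a ≠ 0) {x y : Fin q} (hxy : x ≠ y) : ∀ (π : List (ℝ × ℝ)) (rep : ℕ → Fin q → Fin q)
    (τ : Fin q → Fin q → ℕ), GhRepOk rep → IckTab rep τ → IckSat τ {x, y} → ickLam a π rep {x, y} = icQ a π 0 (τ x y) := by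
  intro π
  induction π with
  | nil =>
    intro rep τ hr h hS
    rcases Nat.eq_zero_or_pos (τ x y) with h0 | h0
    · have hx : IckSat τ {x} := ick_sat_single hS (by simp) (fun v hv hvx => by
        simp only [mem_insert, mem_singleton] at hv
        rcases hv with rfl | rfl
        · exact absurd rfl hvx
        · exact h0)
      have hy : IckSat τ {y} := ick_sat_single hS (by simp) (fun v hv hvy => by
        simp only [mem_insert, mem_singleton] at hv
        rcases hv with rfl | rfl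
        · rw [← h.symm hxy]; exact h0
        · exact absurd rfl hvy)
      funext z
      rw [show ({x, y} : Finset (Fin q)) = {x} ∪ {y} from rfl, ick_lam_union a _ rep (by simpa using hxy),
        ick_lam_one ha x _ rep τ hr h hx, ick_lam_one ha y _ rep τ hr h hy, h0, ic_Q_self, ic_S_of_le a (Nat.zero_le _)]
      ring
    · rw [ick_lam_nil a hr h hS ⟨x, by simp⟩ (ick_pair_pos h0 (by rw [← h.symm hxy]; exact h0)), ic_Q_top a 0 (by simpa using h0)]
      rw [← slk_M_const a 1]
      congr 1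
      funext σ
      rw [prod_pair hxy]
      exact ick_sp_mul σ
  | cons p π ih =>
    intro rep τ hr h hS
    rcases Nat.eq_zero_or_pos (τ x y) with h0 | h0
    · have hx : IckSat τ {x} := ick_sat_single hS (by simp) (fun v hv hvx => by
        simp only [mem_insert, mem_singleton] at hv
        rcases hv with rfl | rfl
        · exact absurd rfl hvx
        · exact h0)
      have hy : IckSat τ {y} := ick_sat_single hS (by simp) (fun v hv hvy => by
        simp only [mem_insert, mem_singleton] at hv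
        rcases hv with rfl | rfl
        · rw [← h.symm hxy]; exact h0
        · exact absurd rfl hvy)
      funext z
      rw [show ({x, y} : Finset (Fin q)) = {x} ∪ {y} from rfl, ick_lam_union a _ rep (by simpa using hxy),
        ick_lam_one ha x _ rep τ hr h hx, ick_lam_one ha y _ rep τ hr h hy, h0, ic_Q_self, ic_S_of_le a (Nat.zero_le _)]
      ring
    · rw [ick_lam_step a p π hr h hS ⟨x, by simp⟩ (ick_pair_pos h0 (by rw [← h.symm hxy]; exact h0)),
        ih (fun t => rep (t + 1)) (fun u v => τ u v - 1) hr.shift (h.shift 1) (hS.shift 1)]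
      obtain ⟨n, hn⟩ : ∃ n, τ x y = n + 1 := ⟨τ x y - 1, by omega⟩
      rw [hn, ick_Q_cons]
      rfl

/-- saturation of a part of a saturated set -/
theorem ick_sat_part {τ : Fin q → Fin q → ℕ} {A B : Finset (Fin q)} (hS : IckSat τ (A ∪ B))
    (h0 : ∀ x ∈ A, ∀ y ∈ B, τ x y = 0) : IckSat τ A := fun x hx b hb => by
  by_cases hbB : b ∈ B
  · exact h0 x hx b hbB
  · exact hS x (mem_union_left _ hx) b (by simp only [mem_union, not_or]; exact ⟨hb, hbB⟩)

/-- TRIPLES `((x y) z)`: `τ x z = τ y z = j ≤ τ x y`, `j ≤ N` -/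
theorem ick_lam_three {a : ℝ} (ha : a ≠ 0) {x y z : Fin q} (hxy : x ≠ y) (hxz : x ≠ z) (hyz : y ≠ z) (π : List (ℝ × ℝ))
    {rep : ℕ → Fin q → Fin q} {τ : Fin q → Fin q → ℕ} (hr : GhRepOk rep) (h : IckTab rep τ) (hS : IckSat τ ({x, y} ∪ {z}))
    {j : ℕ} (h1 : τ x z = j) (h2 : τ y z = j) (h3 : j ≤ τ x y) (hj : j ≤ π.length) :
    ickLam a π rep ({x, y} ∪ {z}) = icE a π 0 j fun u => icM a π j u * icQ a π j (τ x y) u := by
  have hA : ∀ u ∈ ({x, y} ∪ {z} : Finset (Fin q)), ∀ v ∈ ({x, y} ∪ {z} : Finset (Fin q)), u ≠ v → j ≤ τ u v := by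
    intro u hu v hv huv
    simp only [mem_union, mem_insert, mem_singleton] at hu hv
    have e1 := h.symm hxy
    have e2 := h.symm hxz
    have e3 := h.symm hyz
    rcases hu with (rfl | rfl) | rfl <;> rcases hv with (rfl | rfl) | rfl <;> first | exact absurd rfl huv | omega
  rw [ick_lam_trunk a ⟨x, by simp⟩ j π rep τ hr h hS hA hj]
  congr 1
  funext u
  have hS' := hS.shift j
  have h' := h.shift j
  have hr' := hr.ickShift j
  have hd : Disjoint ({x, y} : Finset (Fin q)) {z} := by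
    simp only [disjoint_singleton_right, mem_insert, mem_singleton, not_or]
    exact ⟨hxz.symm, hyz.symm⟩
  have s1 : IckSat (fun u v => τ u v - j) {x, y} := ick_sat_part hS' (fun u hu v hv => by
    simp only [mem_insert, mem_singleton] at hu hv
    subst hv
    rcases hu with rfl | rfl
    · show τ u v - j = 0
      omega
    · show τ u v - j = 0
      omega)
  have s2 : IckSat (fun u v => τ u v - j) {z} := ick_sat_part (by rw [union_comm]; exact hS') (fun u hu v hv => by
    simp only [mem_insert, mem_singleton] at hu hv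
    subst hu
    have e2 := h.symm hxz
    have e3 := h.symm hyz
    rcases hv with rfl | rfl
    · show τ u v - j = 0
      omega
    · show τ u v - j = 0
      omega)
  rw [ick_lam_union a _ _ hd, ick_lam_two ha hxy _ _ _ hr' h' s1, ick_lam_one ha z _ _ _ hr' h' s2, ick_Q_drop a π j 0 _ hj,
    ick_M_drop, Nat.add_zero, show j + (τ x y - j) = τ x y by omega]
  ring

/-- **THE BALANCED SHAPE** `((x y)(z w))` -/
theorem ick_bal {a : ℝ} (ha : a ≠ 0) {x y z w : Fin q} (hxy : x ≠ y) (hzw : z ≠ w) (hxz : x ≠ z) (hxw : x ≠ w) (hyz : y ≠ z)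
    (hyw : y ≠ w) (π : List (ℝ × ℝ)) {rep : ℕ → Fin q → Fin q} {τ : Fin q → Fin q → ℕ} (hr : GhRepOk rep) (h : IckTab rep τ)
    (hS : IckSat τ ({x, y} ∪ {z, w})) {ρ : ℕ} (h1 : τ x z = ρ) (h2 : τ x w = ρ) (h3 : τ y z = ρ) (h4 : τ y w = ρ)
    (h5 : ρ ≤ τ x y) (h6 : ρ ≤ τ z w) (hρ : ρ ≤ π.length) :
    ickLam a π rep ({x, y} ∪ {z, w}) 0 = icA a π ρ (τ x y) (τ z w) := by
  have e1 := h.symm hxy
  have e2 := h.symm hxz
  have e3 := h.symm hyz
  have e4 := h.symm hxw
  have e5 := h.symm hyw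
  have e6 := h.symm hzw
  have hA : ∀ u ∈ ({x, y} ∪ {z, w} : Finset (Fin q)), ∀ v ∈ ({x, y} ∪ {z, w} : Finset (Fin q)), u ≠ v → ρ ≤ τ u v := by
    intro u hu v hv huv
    simp only [mem_union, mem_insert, mem_singleton] at hu hv
    rcases hu with (rfl | rfl) | (rfl | rfl) <;> rcases hv with (rfl | rfl) | (rfl | rfl) <;>
      first | exact absurd rfl huv | omega
  rw [ick_lam_trunk a ⟨x, by simp⟩ ρ π rep τ hr h hS hA hρ]
  unfold icA icEx
  congr 1
  funext u
  have hS' := hS.shift ρ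
  have h' := h.shift ρ
  have hr' := hr.ickShift ρ
  have hd : Disjoint ({x, y} : Finset (Fin q)) {z, w} := by
    simp only [disjoint_insert_right, disjoint_singleton_right, mem_insert, mem_singleton, not_or]
    exact ⟨⟨hxz.symm, hyz.symm⟩, hxw.symm, hyw.symm⟩
  have s1 : IckSat (fun u v => τ u v - ρ) {x, y} := ick_sat_part hS' (fun u hu v hv => by
    simp only [mem_insert, mem_singleton] at hu hv
    show τ u v - ρ = 0
    rcases hu with rfl | rfl <;> rcases hv with rfl | rfl <;> omega)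
  have s2 : IckSat (fun u v => τ u v - ρ) {z, w} := ick_sat_part (by rw [union_comm]; exact hS') (fun u hu v hv => by
    simp only [mem_insert, mem_singleton] at hu hv
    show τ u v - ρ = 0
    rcases hu with rfl | rfl <;> rcases hv with rfl | rfl <;> omega)
  rw [ick_lam_union a _ _ hd, ick_lam_two ha hxy _ _ _ hr' h' s1, ick_lam_two ha hzw _ _ _ hr' h' s2, ick_Q_drop a π ρ 0 _ hρ,
    ick_Q_drop a π ρ 0 _ hρ, Nat.add_zero, show ρ + (τ x y - ρ) = τ x y by omega, show ρ + (τ z w - ρ) = τ z w by omega]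

/-- **THE CATERPILLAR** `(((x y) z) w)` -/
theorem ick_cat {a : ℝ} (ha : a ≠ 0) {x y z w : Fin q} (hxy : x ≠ y) (hzw : z ≠ w) (hxz : x ≠ z) (hxw : x ≠ w) (hyz : y ≠ z)
    (hyw : y ≠ w) (π : List (ℝ × ℝ)) {rep : ℕ → Fin q → Fin q} {τ : Fin q → Fin q → ℕ} (hr : GhRepOk rep) (h : IckTab rep τ)
    (hS : IckSat τ (({x, y} ∪ {z}) ∪ {w})) {k j : ℕ} (h1 : τ x w = k) (h2 : τ y w = k) (h3 : τ z w = k) (h4 : τ x z = j)
    (h5 : τ y z = j) (hkj : k ≤ j) (h6 : j ≤ τ x y) (hj : j ≤ π.length) :
    ickLam a π rep (({x, y} ∪ {z}) ∪ {w}) 0 = icCat a π k j (τ x y) := by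
  have e1 := h.symm hxy
  have e2 := h.symm hxz
  have e3 := h.symm hyz
  have e4 := h.symm hxw
  have e5 := h.symm hyw
  have e6 := h.symm hzw
  have hA : ∀ u ∈ (({x, y} ∪ {z}) ∪ {w} : Finset (Fin q)), ∀ v ∈ (({x, y} ∪ {z}) ∪ {w} : Finset (Fin q)), u ≠ v → k ≤ τ u v := by
    intro u hu v hv huv
    simp only [mem_union, mem_insert, mem_singleton] at hu hv
    rcases hu with ((rfl | rfl) | rfl) | rfl <;> rcases hv with ((rfl | rfl) | rfl) | rfl <;>
      first | exact absurd rfl huv | omega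
  have hk : k ≤ π.length := hkj.trans hj
  rw [ick_lam_trunk a ⟨x, by simp⟩ k π rep τ hr h hS hA hk]
  unfold icCat icEx
  congr 1
  funext u
  have hS' := hS.shift k
  have h' := h.shift k
  have hr' := hr.ickShift k
  have hd : Disjoint ({x, y} ∪ {z} : Finset (Fin q)) {w} := by
    simp only [disjoint_singleton_right, mem_union, mem_insert, mem_singleton, not_or]
    exact ⟨⟨hxw.symm, hyw.symm⟩, hzw.symm⟩
  have s1 : IckSat (fun u v => τ u v - k) ({x, y} ∪ {z}) := ick_sat_part hS' (fun u hu v hv => by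
    simp only [mem_union, mem_insert, mem_singleton] at hu hv
    show τ u v - k = 0
    subst hv
    rcases hu with (rfl | rfl) | rfl <;> omega)
  have s2 : IckSat (fun u v => τ u v - k) {w} := ick_sat_part (by rw [union_comm]; exact hS') (fun u hu v hv => by
    simp only [mem_union, mem_insert, mem_singleton] at hu hv
    show τ u v - k = 0
    subst hu
    rcases hv with (rfl | rfl) | rfl <;> omega)
  rw [ick_lam_union a _ _ hd, ick_lam_one ha w _ _ _ hr' h' s2,
    ick_lam_three ha hxy hxz hyz _ hr' h' s1 (j := j - k) (by show τ x z - k = j - k; omega) (by show τ y z - k = j - k; omega)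
      (by show j - k ≤ τ x y - k; omega) (by rw [List.length_drop]; omega),
    ick_E_drop, ick_M_drop, ick_M_drop, Nat.add_zero, show k + (j - k) = j by omega, mul_comm]
  congr 2
  funext v
  rw [ick_Q_drop a π k _ _ hk, show k + (j - k) = j by omega]
  show icM a π j v * icQ a π j (k + (τ x y - k)) v = _
  rw [show k + (τ x y - k) = τ x y by omega]

end lam

/-! ## 4. algebra of `icBet`, `icGam` -/

section alg

variable (a : ℝ) (π : List (ℝ × ℝ))

theorem ick_cat_self (k i : ℕ) : icCat a π k k i = icEx a π k fun z => icM a π k z ^ 2 * icQ a π k i z := by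
  unfold icCat
  congr 1
  funext z
  rw [ic_E_self]
  ring

theorem ick_A_self {k : ℕ} (hk : k ≤ π.length) (i : ℕ) : icA a π k k i = icCat a π k k i := by
  rw [ick_cat_self]
  unfold icA
  rw [ic_Q_self, ic_S_of_le a hk]

theorem ick_A_comm (j r t : ℕ) : icA a π j r t = icA a π j t r := by
  unfold icA
  congr 1
  funext z
  ring

theorem ick_bet0_lo {u v j : ℕ} (h : j ≤ u) : icBet0 a π u v j = (icA a π j u v - icq a π u * icq a π v) / 4 := if_pos h

theorem ick_bet0_mid {u v j : ℕ} (hu : u ≤ π.length) (h1 : u ≤ j) (h2 : j ≤ v) :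
    icBet0 a π u v j = (icCat a π u u v - icq a π u * icq a π v) / 4 + (icCat a π u j v - icCat a π u u v) / 2 := by
  unfold icBet0
  by_cases h : j ≤ u
  · have e : j = u := le_antisymm h h1
    subst e
    rw [if_pos le_rfl, ick_A_self a π hu]
    ring
  · rw [if_neg h, if_pos h2]

theorem ick_bet0_hi {u v j : ℕ} (hu : u ≤ π.length) (huv : u ≤ v) (h : v ≤ j) :
    icBet0 a π u v j = (icCat a π u u v - icq a π u * icq a π v) / 4 + (icCat a π u v v - icCat a π u u v) / 2
      + (icCat a π u v j - icCat a π u v v) := by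
  by_cases h' : j ≤ v
  · have e : j = v := le_antisymm h' h
    subst e
    rw [ick_bet0_mid a π hu huv le_rfl]
    ring
  · unfold icBet0
    rw [if_neg (by omega), if_neg h']

theorem ick_bet_of_le {r t : ℕ} (h : r ≤ t) (j : ℕ) : icBet a π r t j = icBet0 a π r t j := by
  unfold icBet
  rw [min_eq_left h, max_eq_right h]

theorem ick_bet_comm (r t j : ℕ) : icBet a π r t j = icBet a π t r j := by
  unfold icBet
  rw [min_comm, max_comm]

theorem ick_gam_zero {r i l : ℕ} (h : i ≤ r ∨ l ≤ r) : icGam a π r i l = 0 := if_neg (by omega)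

theorem ick_gam_comm (r i l : ℕ) : icGam a π r i l = icGam a π r l i := by
  unfold icGam
  by_cases h : r < i ∧ r < l
  · rw [if_pos h, if_pos h.symm]
    congr 1
    funext z
    ring
  · rw [if_neg h, if_neg (fun h' => h h'.symm)]

theorem ick_gam_eq {r i l : ℕ} (hr : r ≤ π.length) (hi : r < i) (hl : r < l) :
    icGam a π r i l = icA a π r i l - icCat a π r r i - icCat a π r r l + icCat a π r r r := by
  have hQ : ∀ n, ScE 0 (icQ a π r n) := fun n => (ic_Q_Bd a π r n 0).scE
  have hM : ScE 0 fun z => icM a π r z ^ 2 := ((ic_M_Bd a π r 0).pow 2).scE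
  unfold icGam
  rw [if_pos ⟨hi, hl⟩, ick_cat_self, ick_cat_self, ick_cat_self]
  unfold icA icEx
  have e : (fun z => (icQ a π r i z - icM a π r z ^ 2) * (icQ a π r l z - icM a π r z ^ 2))
      = fun z => ((icQ a π r i z * icQ a π r l z - icM a π r z ^ 2 * icQ a π r i z) - icM a π r z ^ 2 * icQ a π r l z)
          + icM a π r z ^ 2 * icQ a π r r z := by
    funext z
    rw [ic_Q_self, ic_S_of_le a hr]
    ring
  rw [e, ic_E_add a π 0 r ((((hQ i).mul (hQ l)).sub (hM.mul (hQ i))).sub (hM.mul (hQ l))) (hM.mul (hQ r)),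
    ic_E_sub a π 0 r (((hQ i).mul (hQ l)).sub (hM.mul (hQ i))) (hM.mul (hQ l)),
    ic_E_sub a π 0 r ((hQ i).mul (hQ l)) (hM.mul (hQ i))]

/-- the right side of (W) as a function of the six entries: `r = τ a b`, `t = τ c d`, `p1 = τ c a`, `p2 = τ c b`, `p3 = τ d a`, `p4 = τ d b` -/
noncomputable def ickRhs (r t p1 p2 p3 p4 : ℕ) : ℝ :=
  icGam a π r p1 p4 + icGam a π r p3 p2 + icBet a π r t p1 + icBet a π r t p2 + icBet a π r t p3 + icBet a π r t p4

theorem ickRhs_eqns_cite : True := by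
  have := @ickRhs.eq_1
  trivial

/-- `a ↔ b` -/
theorem ick_rhs_ab (r t p1 p2 p3 p4 : ℕ) : ickRhs a π r t p1 p2 p3 p4 = ickRhs a π r t p2 p1 p4 p3 := by
  unfold ickRhs
  rw [ick_gam_comm a π r p1 p4, ick_gam_comm a π r p3 p2]
  ring

/-- `c ↔ d` -/
theorem ick_rhs_cd (r t p1 p2 p3 p4 : ℕ) : ickRhs a π r t p1 p2 p3 p4 = ickRhs a π r t p3 p4 p1 p2 := by
  unfold ickRhs
  ring

/-- NF1: `((a b)(c d))` -/
theorem ick_nf1 {r t i : ℕ} (h1 : i ≤ r) (h2 : i ≤ t) :
    ickRhs a π r t i i i i = icA a π i r t - icq a π r * icq a π t := by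
  unfold ickRhs
  rw [ick_gam_zero a π (Or.inl h1)]
  rcases le_total r t with h | h
  · rw [ick_bet_of_le a π h, ick_bet0_lo a π h1]
    ring
  · rw [ick_bet_comm, ick_bet_of_le a π h, ick_bet0_lo a π h2, ick_A_comm]
    ring

/-- NF2: `(((a b) d) c)` -/
theorem ick_nf2 {r t j : ℕ} (h1 : t ≤ j) (h2 : j ≤ r) (hr : r ≤ π.length) :
    ickRhs a π r t t t j j = icCat a π t j r - icq a π r * icq a π t := by
  unfold ickRhs
  have ht : t ≤ π.length := (h1.trans h2).trans hr
  rw [ick_gam_zero a π (Or.inl (h1.trans h2)), ick_gam_zero a π (Or.inl h2), ick_bet_comm a π r t t, ick_bet_comm a π r t j,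
    ick_bet_of_le a π (h1.trans h2), ick_bet_of_le a π (h1.trans h2), ick_bet0_lo a π le_rfl, ick_bet0_mid a π ht h1 h2,
    ick_A_self a π ht]
  ring

/-- NF3: `(((a d) b) c)` -/
theorem ick_nf3 {r t l : ℕ} (h1 : t ≤ r) (h2 : r ≤ l) (hr : r ≤ π.length) :
    ickRhs a π r t t t l r = icCat a π t r l - icq a π r * icq a π t := by
  unfold ickRhs
  have ht : t ≤ π.length := h1.trans hr
  rw [ick_gam_zero a π (Or.inl h1), ick_gam_zero a π (Or.inr h1), ick_bet_comm a π r t t, ick_bet_comm a π r t l,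
    ick_bet_comm a π r t r, ick_bet_of_le a π h1, ick_bet_of_le a π h1, ick_bet_of_le a π h1, ick_bet0_lo a π le_rfl,
    ick_bet0_hi a π ht h1 h2, ick_bet0_hi a π ht h1 le_rfl, ick_A_self a π ht]
  ring

/-- NF4: `(((a d) c) b)` -/
theorem ick_nf4 {r t l : ℕ} (h1 : r ≤ t) (h2 : t ≤ l) (hr : r ≤ π.length) :
    ickRhs a π r t t r l r = icCat a π r t l - icq a π r * icq a π t := by
  unfold ickRhs
  rw [ick_gam_zero a π (Or.inr le_rfl), ick_gam_zero a π (Or.inr le_rfl), ick_bet_of_le a π h1, ick_bet_of_le a π h1,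
    ick_bet_of_le a π h1, ick_bet0_lo a π le_rfl, ick_bet0_hi a π hr h1 h2, ick_bet0_hi a π hr h1 le_rfl, ick_A_self a π hr]
  ring

/-- NF5: `(((c d) a) b)` -/
theorem ick_nf5 {r t i : ℕ} (h1 : r ≤ i) (h2 : i ≤ t) (hr : r ≤ π.length) :
    ickRhs a π r t i r i r = icCat a π r i t - icq a π r * icq a π t := by
  unfold ickRhs
  rw [ick_gam_zero a π (Or.inr le_rfl), ick_bet_of_le a π (h1.trans h2),
    ick_bet_of_le a π (h1.trans h2), ick_bet0_lo a π le_rfl, ick_bet0_mid a π hr h1 h2, ick_A_self a π hr]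
  ring

/-- NF6: `((a c)(b d))` -/
theorem ick_nf6 {r i l : ℕ} (h1 : r < i) (h2 : r < l) (hr : r ≤ π.length) :
    ickRhs a π r r i r r l = icA a π r i l - icq a π r * icq a π r := by
  unfold ickRhs
  rw [ick_gam_eq a π hr h1 h2, ick_gam_zero a π (Or.inr le_rfl), ick_bet_of_le a π le_rfl, ick_bet_of_le a π le_rfl,
    ick_bet_of_le a π le_rfl, ick_bet0_lo a π le_rfl, ick_bet0_hi a π hr le_rfl h1.le, ick_bet0_hi a π hr le_rfl h2.le,
    ick_A_self a π hr]
  ring

theorem ick_rhs_congr (r t : ℕ) {p1 p2 p3 p4 q1 q2 q3 q4 : ℕ} (h1 : p1 = q1) (h2 : p2 = q2) (h3 : p3 = q3) (h4 : p4 = q4) :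
    ickRhs a π r t p1 p2 p3 p4 = ickRhs a π r t q1 q2 q3 q4 := by
  rw [h1, h2, h3, h4]

end alg

/-! ## 5. (W) for raw representatives on four labels -/

theorem ick_sat_all {q : ℕ} {τ : Fin q → Fin q → ℕ} {A : Finset (Fin q)} (hA : ∀ b, b ∈ A) : IckSat τ A :=
  fun _ _ b hb => absurd (hA b) hb

/-- **(W)**, raw form: labels `a b c d = 0 1 2 3` -/
theorem ick_W {a : ℝ} (ha : a ≠ 0) (π : List (ℝ × ℝ)) {rep : ℕ → Fin 4 → Fin 4} {τ : Fin 4 → Fin 4 → ℕ} (hr : GhRepOk rep)
    (h : IckTab rep τ) (h01 : τ 0 1 ≤ π.length) (h23 : τ 2 3 ≤ π.length) :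
    ickLam a π rep univ 0 - icq a π (τ 0 1) * icq a π (τ 2 3)
      = ickRhs a π (τ 0 1) (τ 2 3) (τ 2 0) (τ 2 1) (τ 3 0) (τ 3 1) := by
  have s01 := h.symm (x := 0) (y := 1) (by decide)
  have s02 := h.symm (x := 0) (y := 2) (by decide)
  have s03 := h.symm (x := 0) (y := 3) (by decide)
  have s12 := h.symm (x := 1) (y := 2) (by decide)
  have s13 := h.symm (x := 1) (y := 3) (by decide)
  have s23 := h.symm (x := 2) (y := 3) (by decide)
  have u1 := h.ultra (x := 0) (y := 1) (z := 2) (by decide)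
  have u2 := h.ultra (x := 0) (y := 2) (z := 1) (by decide)
  have u3 := h.ultra (x := 1) (y := 0) (z := 2) (by decide)
  have u4 := h.ultra (x := 0) (y := 1) (z := 3) (by decide)
  have u5 := h.ultra (x := 0) (y := 3) (z := 1) (by decide)
  have u6 := h.ultra (x := 1) (y := 0) (z := 3) (by decide)
  have u7 := h.ultra (x := 0) (y := 2) (z := 3) (by decide)
  have u8 := h.ultra (x := 0) (y := 3) (z := 2) (by decide)
  have u9 := h.ultra (x := 2) (y := 0) (z := 3) (by decide)
  have u10 := h.ultra (x := 1) (y := 2) (z := 3) (by decide)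
  have u11 := h.ultra (x := 1) (y := 3) (z := 2) (by decide)
  have u12 := h.ultra (x := 2) (y := 1) (z := 3) (by decide)
  have hc : (τ 2 0 = τ 2 1 ∧ τ 2 0 ≤ τ 0 1) ∨ (τ 0 1 < τ 2 0 ∧ τ 2 1 = τ 0 1) ∨ (τ 0 1 < τ 2 1 ∧ τ 2 0 = τ 0 1) := by omega
  have hd : (τ 3 0 = τ 3 1 ∧ τ 3 0 ≤ τ 0 1) ∨ (τ 0 1 < τ 3 0 ∧ τ 3 1 = τ 0 1) ∨ (τ 0 1 < τ 3 1 ∧ τ 3 0 = τ 0 1) := by omega
  rcases hc with ⟨c1, c2⟩ | ⟨c1, c2⟩ | ⟨c1, c2⟩ <;> rcases hd with ⟨d1, d2⟩ | ⟨d1, d2⟩ | ⟨d1, d2⟩
  · rcases lt_trichotomy (τ 2 0) (τ 3 0) with hlt | heq | hgt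
    · have key : ickLam a π rep univ 0 = icCat a π (τ 2 3) (τ 3 0) (τ 0 1) := by
        rw [show (univ : Finset (Fin 4)) = ({0, 1} ∪ {3}) ∪ {2} by decide]
        exact ick_cat ha (by decide) (by decide) (by decide) (by decide) (by decide) (by decide) π hr h (ick_sat_all (by decide))
          (by omega) (by omega) (by omega) (by omega) (by omega) (by omega) (by omega) (by omega)
      rw [key, ick_rhs_congr a π _ _ (q1 := τ 2 3) (q2 := τ 2 3) (q3 := τ 3 0) (q4 := τ 3 0) (by omega) (by omega) (by omega) (by omega),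
        ick_nf2 a π (by omega) (by omega) h01]
    · have key : ickLam a π rep univ 0 = icA a π (τ 2 0) (τ 0 1) (τ 2 3) := by
        rw [show (univ : Finset (Fin 4)) = {0, 1} ∪ {2, 3} by decide]
        exact ick_bal ha (by decide) (by decide) (by decide) (by decide) (by decide) (by decide) π hr h (ick_sat_all (by decide))
          (by omega) (by omega) (by omega) (by omega) (by omega) (by omega) (by omega)
      rw [key, ick_rhs_congr a π _ _ (q1 := τ 2 0) (q2 := τ 2 0) (q3 := τ 2 0) (q4 := τ 2 0) (by omega) (by omega) (by omega) (by omega),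
        ick_nf1 a π (by omega) (by omega)]
    · have key : ickLam a π rep univ 0 = icCat a π (τ 2 3) (τ 2 0) (τ 0 1) := by
        rw [show (univ : Finset (Fin 4)) = ({0, 1} ∪ {2}) ∪ {3} by decide]
        exact ick_cat ha (by decide) (by decide) (by decide) (by decide) (by decide) (by decide) π hr h (ick_sat_all (by decide))
          (by omega) (by omega) (by omega) (by omega) (by omega) (by omega) (by omega) (by omega)
      rw [key, ick_rhs_congr a π _ _ (q1 := τ 2 0) (q2 := τ 2 0) (q3 := τ 2 3) (q4 := τ 2 3) (by omega) (by omega) (by omega) (by omega),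
        ick_rhs_cd a π, ick_nf2 a π (by omega) (by omega) h01]
  · have key : ickLam a π rep univ 0 = icCat a π (τ 2 3) (τ 0 1) (τ 3 0) := by
      rw [show (univ : Finset (Fin 4)) = ({3, 0} ∪ {1}) ∪ {2} by decide]
      exact ick_cat ha (by decide) (by decide) (by decide) (by decide) (by decide) (by decide) π hr h (ick_sat_all (by decide))
        (by omega) (by omega) (by omega) (by omega) (by omega) (by omega) (by omega) (by omega)
    rw [key, ick_rhs_congr a π _ _ (q1 := τ 2 3) (q2 := τ 2 3) (q3 := τ 3 0) (q4 := τ 0 1) (by omega) (by omega) (by omega) (by omega),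
      ick_nf3 a π (by omega) (by omega) h01]
  · have key : ickLam a π rep univ 0 = icCat a π (τ 2 3) (τ 0 1) (τ 3 1) := by
      rw [show (univ : Finset (Fin 4)) = ({3, 1} ∪ {0}) ∪ {2} by decide]
      exact ick_cat ha (by decide) (by decide) (by decide) (by decide) (by decide) (by decide) π hr h (ick_sat_all (by decide))
        (by omega) (by omega) (by omega) (by omega) (by omega) (by omega) (by omega) (by omega)
    rw [key, ick_rhs_congr a π _ _ (q1 := τ 2 3) (q2 := τ 2 3) (q3 := τ 0 1) (q4 := τ 3 1) (by omega) (by omega) (by omega) (by omega),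
      ick_rhs_ab a π, ick_nf3 a π (by omega) (by omega) h01]
  · have key : ickLam a π rep univ 0 = icCat a π (τ 2 3) (τ 0 1) (τ 2 0) := by
      rw [show (univ : Finset (Fin 4)) = ({2, 0} ∪ {1}) ∪ {3} by decide]
      exact ick_cat ha (by decide) (by decide) (by decide) (by decide) (by decide) (by decide) π hr h (ick_sat_all (by decide))
        (by omega) (by omega) (by omega) (by omega) (by omega) (by omega) (by omega) (by omega)
    rw [key, ick_rhs_congr a π _ _ (q1 := τ 2 0) (q2 := τ 0 1) (q3 := τ 2 3) (q4 := τ 2 3) (by omega) (by omega) (by omega) (by omega),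
      ick_rhs_cd a π, ick_nf3 a π (by omega) (by omega) h01]
  · rcases lt_trichotomy (τ 2 0) (τ 3 0) with hlt | heq | hgt
    · have key : ickLam a π rep univ 0 = icCat a π (τ 0 1) (τ 2 3) (τ 3 0) := by
        rw [show (univ : Finset (Fin 4)) = ({3, 0} ∪ {2}) ∪ {1} by decide]
        exact ick_cat ha (by decide) (by decide) (by decide) (by decide) (by decide) (by decide) π hr h (ick_sat_all (by decide))
          (by omega) (by omega) (by omega) (by omega) (by omega) (by omega) (by omega) (by omega)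
      rw [key, ick_rhs_congr a π _ _ (q1 := τ 2 3) (q2 := τ 0 1) (q3 := τ 3 0) (q4 := τ 0 1) (by omega) (by omega) (by omega) (by omega),
        ick_nf4 a π (by omega) (by omega) h01]
    · have key : ickLam a π rep univ 0 = icCat a π (τ 0 1) (τ 2 0) (τ 2 3) := by
        rw [show (univ : Finset (Fin 4)) = ({2, 3} ∪ {0}) ∪ {1} by decide]
        exact ick_cat ha (by decide) (by decide) (by decide) (by decide) (by decide) (by decide) π hr h (ick_sat_all (by decide))
          (by omega) (by omega) (by omega) (by omega) (by omega) (by omega) (by omega) (by omega)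
      rw [key, ick_rhs_congr a π _ _ (q1 := τ 2 0) (q2 := τ 0 1) (q3 := τ 2 0) (q4 := τ 0 1) (by omega) (by omega) (by omega) (by omega),
        ick_nf5 a π (by omega) (by omega) h01]
    · have key : ickLam a π rep univ 0 = icCat a π (τ 0 1) (τ 2 3) (τ 2 0) := by
        rw [show (univ : Finset (Fin 4)) = ({2, 0} ∪ {3}) ∪ {1} by decide]
        exact ick_cat ha (by decide) (by decide) (by decide) (by decide) (by decide) (by decide) π hr h (ick_sat_all (by decide))
          (by omega) (by omega) (by omega) (by omega) (by omega) (by omega) (by omega) (by omega)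
      rw [key, ick_rhs_congr a π _ _ (q1 := τ 2 0) (q2 := τ 0 1) (q3 := τ 2 3) (q4 := τ 0 1) (by omega) (by omega) (by omega) (by omega),
        ick_rhs_cd a π, ick_nf4 a π (by omega) (by omega) h01]
  · have key : ickLam a π rep univ 0 = icA a π (τ 0 1) (τ 2 0) (τ 3 1) := by
      rw [show (univ : Finset (Fin 4)) = {2, 0} ∪ {3, 1} by decide]
      exact ick_bal ha (by decide) (by decide) (by decide) (by decide) (by decide) (by decide) π hr h (ick_sat_all (by decide))
        (by omega) (by omega) (by omega) (by omega) (by omega) (by omega) (by omega)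
    rw [show τ 2 3 = τ 0 1 by omega, key, ick_rhs_congr a π _ _ (q1 := τ 2 0) (q2 := τ 0 1) (q3 := τ 0 1) (q4 := τ 3 1) (by omega) (by omega) (by omega) (by omega),
      ick_nf6 a π (by omega) (by omega) h01]
  · have key : ickLam a π rep univ 0 = icCat a π (τ 2 3) (τ 0 1) (τ 2 1) := by
      rw [show (univ : Finset (Fin 4)) = ({2, 1} ∪ {0}) ∪ {3} by decide]
      exact ick_cat ha (by decide) (by decide) (by decide) (by decide) (by decide) (by decide) π hr h (ick_sat_all (by decide))
        (by omega) (by omega) (by omega) (by omega) (by omega) (by omega) (by omega) (by omega)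
    rw [key, ick_rhs_congr a π _ _ (q1 := τ 0 1) (q2 := τ 2 1) (q3 := τ 2 3) (q4 := τ 2 3) (by omega) (by omega) (by omega) (by omega),
      ick_rhs_cd a π, ick_rhs_ab a π, ick_nf3 a π (by omega) (by omega) h01]
  · have key : ickLam a π rep univ 0 = icA a π (τ 0 1) (τ 2 1) (τ 3 0) := by
      rw [show (univ : Finset (Fin 4)) = {2, 1} ∪ {3, 0} by decide]
      exact ick_bal ha (by decide) (by decide) (by decide) (by decide) (by decide) (by decide) π hr h (ick_sat_all (by decide))
        (by omega) (by omega) (by omega) (by omega) (by omega) (by omega) (by omega)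
    rw [show τ 2 3 = τ 0 1 by omega, key, ick_rhs_congr a π _ _ (q1 := τ 0 1) (q2 := τ 2 1) (q3 := τ 3 0) (q4 := τ 0 1) (by omega) (by omega) (by omega) (by omega),
      ick_rhs_ab a π, ick_nf6 a π (by omega) (by omega) h01]
  · rcases lt_trichotomy (τ 2 1) (τ 3 1) with hlt | heq | hgt
    · have key : ickLam a π rep univ 0 = icCat a π (τ 0 1) (τ 2 3) (τ 3 1) := by
        rw [show (univ : Finset (Fin 4)) = ({3, 1} ∪ {2}) ∪ {0} by decide]
        exact ick_cat ha (by decide) (by decide) (by decide) (by decide) (by decide) (by decide) π hr h (ick_sat_all (by decide))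
          (by omega) (by omega) (by omega) (by omega) (by omega) (by omega) (by omega) (by omega)
      rw [key, ick_rhs_congr a π _ _ (q1 := τ 0 1) (q2 := τ 2 3) (q3 := τ 0 1) (q4 := τ 3 1) (by omega) (by omega) (by omega) (by omega),
        ick_rhs_ab a π, ick_nf4 a π (by omega) (by omega) h01]
    · have key : ickLam a π rep univ 0 = icCat a π (τ 0 1) (τ 2 1) (τ 2 3) := by
        rw [show (univ : Finset (Fin 4)) = ({2, 3} ∪ {1}) ∪ {0} by decide]
        exact ick_cat ha (by decide) (by decide) (by decide) (by decide) (by decide) (by decide) π hr h (ick_sat_all (by decide))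
          (by omega) (by omega) (by omega) (by omega) (by omega) (by omega) (by omega) (by omega)
      rw [key, ick_rhs_congr a π _ _ (q1 := τ 0 1) (q2 := τ 2 1) (q3 := τ 0 1) (q4 := τ 2 1) (by omega) (by omega) (by omega) (by omega),
        ick_rhs_ab a π, ick_nf5 a π (by omega) (by omega) h01]
    · have key : ickLam a π rep univ 0 = icCat a π (τ 0 1) (τ 2 3) (τ 2 1) := by
        rw [show (univ : Finset (Fin 4)) = ({2, 1} ∪ {3}) ∪ {0} by decide]
        exact ick_cat ha (by decide) (by decide) (by decide) (by decide) (by decide) (by decide) π hr h (ick_sat_all (by decide))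
          (by omega) (by omega) (by omega) (by omega) (by omega) (by omega) (by omega) (by omega)
      rw [key, ick_rhs_congr a π _ _ (q1 := τ 0 1) (q2 := τ 2 1) (q3 := τ 0 1) (q4 := τ 2 3) (by omega) (by omega) (by omega) (by omega),
        ick_rhs_ab a π, ick_rhs_cd a π, ick_nf4 a π (by omega) (by omega) h01]

/-! ## 6. the official kernel -/

theorem ick_pi (P : LlStp) : slkPi (llSc P) = pkPi P := by
  unfold slkPi llSc pkPi
  rw [List.map_map]
  rfl

theorem ick_pi_length (P : LlStp) : (pkPi P).length = P.length := by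
  unfold pkPi
  rw [List.length_map]

theorem ick_sc_ok (P : LlStp) : SlkOk (llSc P) := by
  intro e he
  obtain ⟨e', _, rfl⟩ := List.mem_map.1 he
  rfl

theorem ick_sc_adm {a : ℝ} {P : LlStp} (hP : LlStpAdm a P) : GhAdm (skBase 1 a) 0 (skLvs 1 (llSc P)) := by
  refine ⟨?_, ?_⟩
  · unfold skLvs
    rw [List.pairwise_map]
    exact hP.2.1
  · intro l hl
    unfold skLvs at hl
    obtain ⟨e, he, rfl⟩ := List.mem_map.1 hl
    exact ⟨(hP.2.2 e he).1, (hP.2.2 e he).2.1⟩

theorem ick_sc_length (P : LlStp) : (skLvs 1 (llSc P)).length = P.length := by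
  unfold skLvs llSc
  rw [List.length_map, List.length_map]

theorem ick_tab {N p : ℕ} {τ : ℕ → ℕ → ℕ} (hτ : IsTr N p τ) : IckTab (fun t => trRep p τ t) fun x y : Fin p => τ x.1 y.1 :=
  fun t x y => tb2_rep_iff hτ t x y

/-- the moment of all the labels of a tree -/
theorem ick_nu_all (a : ℝ) (P : LlStp) {p : ℕ} {τ : ℕ → ℕ → ℕ} (hτ : IsTr P.length p τ) :
    llNuS a P p τ (fun s => ∏ x : Fin p, jtSp (s x.1)) = ickLam a (pkPi P) (fun t => trRep p τ t) univ 0 := by
  have key := slk_nu_root a (ickPhi p) (ick_sc_ok P) (tb2_repOk hτ) 0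
  rw [slk_Z_zero, ick_pi] at key
  unfold llNuS trNu ickLam
  rw [← key]
  congr 1
  funext _ σ
  refine prod_congr rfl fun x _ => ?_
  simp only [trExt, x.2, dif_pos]
  rfl

/-- moments of selected labels -/
theorem ick_nu_sel {a : ℝ} (ha : 0 < a) {P : LlStp} (hP : LlStpAdm a P) {r p : ℕ} {τ : ℕ → ℕ → ℕ} (hτ : IsTr P.length r τ)
    (f : ℕ → ℕ) (hf : ∀ x, x < p → f x < r) :
    llNuS a P r τ (fun s => ∏ x : Fin p, jtSp (s (f x.1)))
      = ickLam a (pkPi P) (fun t => trRep p (fun x y => τ (f x) (f y)) t) univ 0 := by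
  have hτ' : IsTr (skLvs 1 (llSc P)).length r τ := by rw [ick_sc_length]; exact hτ
  rw [← ick_nu_all a P (tr_comap_isTr hτ f hf)]
  unfold llNuS
  exact tr_nu_comap (slk_base_ok ha) (ick_sc_adm hP) hτ' 0 f hf (fun σ => ∏ x : Fin p, jtSp (σ x.1 0))
    (fun σ σ' h => prod_congr rfl fun x _ => by rw [h x.1 x.2])

/-- PAIRS: `ν[x y] = q_(τ x y)` -/
theorem ick_nu_pair {a : ℝ} (ha : 0 < a) {P : LlStp} (hP : LlStpAdm a P) {r : ℕ} {τ : ℕ → ℕ → ℕ} (hτ : IsTr P.length r τ)
    {x y : ℕ} (hx : x < r) (hy : y < r) :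
    llNuS a P r τ (fun s => jtSp (s x) * jtSp (s y)) = icq a (pkPi P) (τ x y) := by
  let f : ℕ → ℕ := fun u => if u = 0 then x else y
  have hf : ∀ u, u < 2 → f u < r := fun u _ => by simp only [f]; split_ifs <;> assumption
  have h1 := ick_nu_sel ha hP hτ f hf
  have hτ2 := tr_comap_isTr hτ f hf
  simp only [Fin.prod_univ_two] at h1
  rw [show (univ : Finset (Fin 2)) = {0, 1} by decide,
    ick_lam_two ha.ne' (by decide) _ _ _ (tb2_repOk hτ2) (ick_tab hτ2) (ick_sat_all (by decide))] at h1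
  exact h1

/-- the reference overlap of the jet context is `q_t` of the chain -/
theorem ick_llQs {a : ℝ} (ha : 0 < a) {P : LlStp} (hP : LlStpAdm a P) {t : ℕ} (ht : t ≤ P.length + 1) :
    llQs a P t = icq a (pkPi P) t := by
  have hτ : IsTr P.length 2 (trPair P.length t) := by
    refine ⟨fun x y _ _ => ?_, fun x _ => ?_, fun x y _ _ => ?_, fun x y z _ _ _ => ?_⟩
    · unfold trPair; split_ifs <;> omega
    · unfold trPair; rw [if_pos rfl]
    · unfold trPair
      by_cases h : x = y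
      · rw [if_pos h, if_pos h.symm]
      · rw [if_neg h, if_neg (fun e => h e.symm)]
    · unfold trPair
      split_ifs <;> omega
  unfold llQs
  rw [ick_nu_pair ha hP hτ (by norm_num) (by norm_num)]
  rfl

theorem ick_inv_empty (F : JtFn) : jtInv F ∅ = 1 := by
  simp [jtInv, jtPow, jtOne]

theorem ick_inv_single (F : JtFn) : jtInv F {0} = - F {0} := by
  have hp : ({0} : Finset ℕ).powerset = {∅, {0}} := by decide
  simp [jtInv, jtPow, jtMul, jtOne, jtAug, Finset.sum_range_succ, hp]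

/-- (A8) (same as `l2af_a8` of helper269, repeated here to keep the imports light) -/
theorem ick_a8 {S : Type} (X : JtCtx S) (r q i j : ℕ) (τ : JtTopo) :
    X.Mker r q i j τ
      = 2⁻¹ * (X.nuK r τ (fun s => (∏ y ∈ ({i, j} : Finset ℕ), jtSp (s y)) * (jtSp (s q) * jtSp (s (q + 1))))
          - X.nuK r τ (fun s => ∏ y ∈ ({i, j} : Finset ℕ), jtSp (s y)) * X.nuK r τ fun s => jtSp (s q) * jtSp (s (q + 1))) := by
  have hp : ({0} : Finset ℕ).powerset = {∅, {0}} := by decide
  have hne : (∅ : Finset ℕ) ≠ {0} := by decide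
  unfold JtCtx.Mker JtCtx.Quo jtMul
  rw [hp, Finset.sum_pair hne]
  simp only [Finset.sdiff_empty, sdiff_self, Finset.bot_eq_empty, ick_inv_empty, ick_inv_single]
  simp only [JtCtx.Nij, JtCtx.Psi, JtCtx.scM, Finset.prod_empty, Finset.prod_singleton, jtC, jtD, mul_zero, add_zero, mul_one, one_mul]
  ring

/-- **(W)** for four labels `i j c d` of a tree on `r` labels -/
theorem ick_W_tr {a : ℝ} (ha : 0 < a) {P : LlStp} (hP : LlStpAdm a P) {r : ℕ} {τ : ℕ → ℕ → ℕ} (hτ : IsTr P.length r τ)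
    {i j c d : ℕ} (hi : i < r) (hj : j < r) (hc : c < r) (hd : d < r) (hij : τ i j ≤ P.length) (hcd : τ c d ≤ P.length) :
    llNuS a P r τ (fun s => (jtSp (s i) * jtSp (s j)) * (jtSp (s c) * jtSp (s d)))
        - llNuS a P r τ (fun s => jtSp (s i) * jtSp (s j)) * llNuS a P r τ (fun s => jtSp (s c) * jtSp (s d))
      = ickRhs a (pkPi P) (τ i j) (τ c d) (τ c i) (τ c j) (τ d i) (τ d j) := by
  let f : ℕ → ℕ := fun u => if u = 0 then i else if u = 1 then j else if u = 2 then c else d
  have hf : ∀ u, u < 4 → f u < r := fun u _ => by simp only [f]; split_ifs <;> assumption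
  have h1 := ick_nu_sel ha hP hτ f hf
  have hτ4 := tr_comap_isTr hτ f hf
  have hW := ick_W ha.ne' (pkPi P) (tb2_repOk hτ4) (ick_tab hτ4) (by rw [ick_pi_length]; exact hij) (by rw [ick_pi_length]; exact hcd)
  rw [← h1] at hW
  simp only [Fin.prod_univ_four] at hW
  rw [ick_nu_pair ha hP hτ hi hj, ick_nu_pair ha hP hτ hc hd]
  refine Eq.trans ?_ hW
  congr 2
  funext s
  show _ = jtSp (s i) * jtSp (s j) * jtSp (s c) * jtSp (s d)
  ring

/-- **(W) FOR THE OFFICIAL KERNEL** (A8) of the jet context `llJs`: `ab = (i, j)`, `cd = (q, q + 1)`, `r` labels present -/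
theorem ick_Mker (n : ℕ) {a : ℝ} (ha : 0 < a) {P : LlStp} (hP : LlStpAdm a P) (tl : Option ℕ) {r q i j : ℕ} {τ : ℕ → ℕ → ℕ}
    (hτ : IsTr P.length r τ) (hi : i < r) (hj : j < r) (hq : q + 1 < r) (hij : τ i j ≤ P.length) (hcd : τ q (q + 1) ≤ P.length) :
    (llJs n a P tl).Mker r q i j τ
      = 2⁻¹ * (icGam a (pkPi P) (τ i j) (τ q i) (τ (q + 1) j) + icGam a (pkPi P) (τ i j) (τ (q + 1) i) (τ q j)
          + icBet a (pkPi P) (τ i j) (τ q (q + 1)) (τ q i) + icBet a (pkPi P) (τ i j) (τ q (q + 1)) (τ q j)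
          + icBet a (pkPi P) (τ i j) (τ q (q + 1)) (τ (q + 1) i) + icBet a (pkPi P) (τ i j) (τ q (q + 1)) (τ (q + 1) j)) := by
  have hne : i ≠ j := by
    intro e
    rw [e, hτ.diag j hj] at hij
    omega
  rw [ick_a8]
  have e : (llJs n a P tl).nuK = llNuS a P := rfl
  rw [e]
  simp only [prod_pair hne]
  rw [ick_W_tr ha hP hτ hi hj (by omega) hq hij hcd]
  rfl

/-! ## 7. dictionary of the data -/

theorem ick_adm {a : ℝ} (ha : 0 < a) {P : LlStp} (hP : LlStpAdm a P) : IcAdm a (pkPi P) where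
  pos := ha
  adm := by
    intro p hp
    obtain ⟨e, he, rfl⟩ := List.mem_map.1 hp
    have := hP.2.2 ⟨e.m, 0, e.dK⟩ (List.mem_map.2 ⟨e, he, rfl⟩)
    exact ⟨this.1, this.2.1, this.2.2.2⟩
  inc := by
    have := hP.2.1
    unfold llSc at this
    rw [List.pairwise_map] at this
    unfold ScInc pkPi
    rw [List.pairwise_map]
    exact this

theorem ick_pos {a : ℝ} {P : LlStp} (hP : LlStpAdm a P) : ScPos (pkPi P) := by
  intro p hp
  obtain ⟨e, he, rfl⟩ := List.mem_map.1 hp
  exact (hP.2.2 ⟨e.m, 0, e.dK⟩ (List.mem_map.2 ⟨e, he, rfl⟩)).2.2.2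

/-- the masses of the signed calculus -/
theorem ick_Ms_eq (a : ℝ) (P : LlStp) : llMs a P = icMs a (pkPi P) := by
  funext j
  unfold llMs icMs pkPi
  simp only [List.getElem?_map, Option.map_map]
  rfl

theorem ick_P_eq (a : ℝ) (P : LlStp) : trPm (llMs a P) = icP a (pkPi P) := by
  funext j
  unfold trPm icP
  rw [ick_Ms_eq]

/-- the time of the sheet `t` -/
theorem ick_len_take (P : LlStp) (t : ℕ) : scLen ((pkPi P).take t) = llCumK P t := by
  have e : slkT (llSc P) t = llCumK P t := by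
    rw [slk_T_eq]
    simp [skCumH, llCumK, llSc, List.map_take]
    rfl
  rw [← e, slkT, slk_Pi_take, ick_pi]

/-- **`pkX2 = E χ_t²` of the chain** -/
theorem ick_X2 {a : ℝ} {P : LlStp} (hP : LlStpAdm a P) (t : ℕ) :
    pkX2 a P t = icEx a (pkPi P) t fun z => icX a (pkPi P) t z ^ 2 := by
  unfold pkX2 scM2 scEx scD icEx icE icX icF
  rw [← ick_len_take, slk_Pt_take _ _ (ick_pos hP), slk_Vt_take _ (ick_pos hP), List.drop_zero]
  rfl

/-- **the gap of (H1)**: the top child multiplier at the true masses is `E χ_t²` -/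
theorem ick_gap {a : ℝ} (ha : 0 < a) {P : LlStp} (hP : LlStpAdm a P) {t : ℕ} (ht : t ≤ P.length) :
    vcHatG (trPm (llMs a P)) P.length (icC a (pkPi P)) t (t + 1) (t + 1) = pkX2 a P t := by
  rw [ick_X2 hP, ← ic_G_top (ick_adm ha hP) (by rw [ick_pi_length]; exact ht), ick_P_eq]
  unfold vcHatG icG
  rw [ick_pi_length]

end Claimed.Agent.R286
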