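import Claimed.Agent.R286.Inv.ScChain
import Claimed.Agent.R286.Defs.Tr
import Claimed.Agent.R286.Inv.Opk
import Claimed.Agent.R286.Inv.Ker

/-!
# Row 286 (S0533), LL Section 5, unit KER, part W2: THE KERNEL FORMULA (W) FROM THE TWO CLOSED FORMS      (owner helper79; head helper19; prefix `iw`)

TEX[LL:inv:sector-response]  (replaces (H2) + row-zero multipliers; plan = origin/helper177:notes/R286/L04_PLAN_177.md sec. 1).
INPUT (`IwIn`, = exits of W1, `Inv/KerL.lean` of 19): for ONE table `τ` on the labels `0..3` and ONE number `nu = ν_τ[σ₀σ₁σ₂σ₃]`: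
* `bal`: if the four cross levels between `{x,y}` and `{z,w}` are `= j ≤ τ x y, τ z w`   then `nu = icA j (τ x y) (τ z w)`;
* `cat`: if `τ x z = τ y z = j ≤ τ x y`, `τ x w = τ y w = τ z w = k ≤ j ≤ N`               then `nu = icCat k j (τ x y)`.
W3 (end of the file): `iw_phi`, `iw_gam` (BET, GAM = partial sums of `icBk`, `icC`), `iw_R_eq`, `iw_ker_eq` (= `vcKerW` of `Inv/Opk.lean`).      W1 + final statements: `Inv/Ker.lean` (19).
OUTPUT `iw_main`: for EVERY ultrametric table with `τ 0 1, τ 2 3 ≤ N`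
      `nu - q_r q_t = GAM_r(τ20, τ31) + GAM_r(τ30, τ21) + BET_rt(τ20) + BET_rt(τ21) + BET_rt(τ30) + BET_rt(τ31)`.
-/

set_option autoImplicit false

namespace Claimed.Agent.R286

section num

variable (a : ℝ) (π : List (ℝ × ℝ))

/-- the right side of (W) as a function of the six levels -/
noncomputable def iwR (r t c1 c2 d1 d2 : ℕ) : ℝ :=
  icGam a π r c1 d2 + icGam a π r d1 c2 + icBet a π r t c1 + icBet a π r t c2 + icBet a π r t d1 + icBet a π r t d2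

theorem iw_eqns_cite : True := by
  have := @iwR.eq_1
  trivial

variable {a π}

theorem iw_A_comm (j r t : ℕ) : icA a π j r t = icA a π j t r := by
  unfold icA
  congr 1
  funext z
  ring

theorem iw_cat_diag {r : ℕ} (hr : r ≤ π.length) (t : ℕ) : icCat a π r r t = icA a π r r t := by
  unfold icCat icA
  congr 1
  funext z
  rw [ic_E_self, ic_Q_self, ic_S_of_le a hr]
  ring

theorem iw_gam_comm (r i l : ℕ) : icGam a π r i l = icGam a π r l i := by
  unfold icGam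
  by_cases h : r < i ∧ r < l
  · rw [if_pos h, if_pos ⟨h.2, h.1⟩]
    congr 1
    funext z
    ring
  · rw [if_neg h, if_neg fun h' => h ⟨h'.2, h'.1⟩]

theorem iw_gam_zero_left {r i : ℕ} (h : i ≤ r) (l : ℕ) : icGam a π r i l = 0 := by
  unfold icGam
  rw [if_neg fun h' => by omega]

theorem iw_gam_zero_right {r l : ℕ} (h : l ≤ r) (i : ℕ) : icGam a π r i l = 0 := by
  unfold icGam
  rw [if_neg fun h' => by omega]

theorem iw_Ex_add (j : ℕ) {φ ψ : ℝ → ℝ} (hφ : ScE 0 φ) (hψ : ScE 0 ψ) :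
    icEx a π j (fun z => φ z + ψ z) = icEx a π j φ + icEx a π j ψ := by
  unfold icEx
  rw [ic_E_add a π 0 j hφ hψ]

theorem iw_Ex_sub (j : ℕ) {φ ψ : ℝ → ℝ} (hφ : ScE 0 φ) (hψ : ScE 0 ψ) :
    icEx a π j (fun z => φ z - ψ z) = icEx a π j φ - icEx a π j ψ := by
  unfold icEx
  rw [ic_E_sub a π 0 j hφ hψ]

/-- expansion of `GAM` -/
theorem iw_gam_eq {r i l : ℕ} (hr : r ≤ π.length) (hi : r < i) (hl : r < l) :
    icGam a π r i l = icA a π r i l - icCat a π r r i - icCat a π r r l + icCat a π r r r := by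
  have hQ : ∀ i, ScE 0 (icQ a π r i) := fun i => (ic_Q_Bd a π r i 0).scE
  have hM : ScE 0 (fun z => icM a π r z ^ 2) := ((ic_M_Bd a π r 0).scE).pow 2
  rw [iw_cat_diag hr, iw_cat_diag hr, iw_cat_diag hr]
  unfold icGam icA
  rw [if_pos ⟨hi, hl⟩, ic_Q_self, ic_S_of_le a hr]
  rw [← iw_Ex_sub r ((hQ i).mul (hQ l)) (hM.mul (hQ i)),
    ← iw_Ex_sub r (((hQ i).mul (hQ l)).sub (hM.mul (hQ i))) (hM.mul (hQ l)),
    ← iw_Ex_add r ((((hQ i).mul (hQ l)).sub (hM.mul (hQ i))).sub (hM.mul (hQ l))) (hM.mul hM)]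
  congr 1
  funext z
  ring

theorem iw_bet_comm (r t j : ℕ) : icBet a π r t j = icBet a π t r j := by
  unfold icBet
  rw [min_comm, max_comm]

theorem iw_bet_low {r t j : ℕ} (hrt : r ≤ t) (hj : j ≤ r) :
    icBet a π r t j = (icA a π j r t - icq a π r * icq a π t) / 4 := by
  unfold icBet icBet0
  rw [min_eq_left hrt, max_eq_right hrt, if_pos hj]

theorem iw_bet_mid {r t j : ℕ} (hr : r ≤ π.length) (hrt : r ≤ t) (h1 : r ≤ j) (h2 : j ≤ t) :
    icBet a π r t j = (icCat a π r r t - icq a π r * icq a π t) / 4 + (icCat a π r j t - icCat a π r r t) / 2 := by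
  unfold icBet icBet0
  rw [min_eq_left hrt, max_eq_right hrt]
  by_cases hj : j ≤ r
  · obtain rfl : j = r := by omega
    rw [if_pos le_rfl, iw_cat_diag hr]
    ring
  · rw [if_neg hj, if_pos h2]

theorem iw_bet_high {r t j : ℕ} (hr : r ≤ π.length) (hrt : r ≤ t) (h1 : t ≤ j) :
    icBet a π r t j = (icCat a π r r t - icq a π r * icq a π t) / 4 + (icCat a π r t t - icCat a π r r t) / 2
      + (icCat a π r t j - icCat a π r t t) := by
  by_cases hj : j ≤ t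
  · obtain rfl : j = t := by omega
    rw [iw_bet_mid hr hrt hrt le_rfl]
    ring
  · unfold icBet icBet0
    rw [min_eq_left hrt, max_eq_right hrt, if_neg (by omega), if_neg hj]

/-! ### symmetries of the right side -/

theorem iw_R_swap_ab (r t c1 c2 d1 d2 : ℕ) : iwR a π r t c1 c2 d1 d2 = iwR a π r t c2 c1 d2 d1 := by
  unfold iwR
  rw [iw_gam_comm r c1 d2, iw_gam_comm r d1 c2]
  ring

theorem iw_R_swap_cd (r t c1 c2 d1 d2 : ℕ) : iwR a π r t c1 c2 d1 d2 = iwR a π r t d1 d2 c1 c2 := by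
  unfold iwR
  ring

/-! ### the six shapes -/

/-- S1 `((ab)(cd))` -/
theorem iw_S1 {r t j : ℕ} (h1 : j ≤ r) (h2 : j ≤ t) : iwR a π r t j j j j = icA a π j r t - icq a π r * icq a π t := by
  unfold iwR
  rw [iw_gam_zero_left h1]
  rcases le_total r t with h | h
  · rw [iw_bet_low h h1]; ring
  · rw [iw_bet_comm, iw_bet_low h h2, iw_A_comm]; ring

/-- S2 `((ac)(bd))` -/
theorem iw_S2 {r i l : ℕ} (hr : r ≤ π.length) (hi : r ≤ i) (hl : r ≤ l) :
    iwR a π r r i r r l = icA a π r i l - icq a π r * icq a π r := by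
  unfold iwR
  rw [iw_gam_zero_left (le_refl r), iw_bet_high hr le_rfl hi, iw_bet_high hr le_rfl hl, iw_bet_high hr le_rfl le_rfl]
  rcases Nat.lt_or_ge r i with hi' | hi'
  · rcases Nat.lt_or_ge r l with hl' | hl'
    · rw [iw_gam_eq hr hi' hl']; ring
    · obtain rfl : l = r := by omega
      rw [iw_gam_zero_right le_rfl, iw_A_comm, ← iw_cat_diag hr]; ring
  · obtain rfl : i = r := by omega
    rw [iw_gam_zero_left le_rfl, ← iw_cat_diag hr]; ring

/-- S3a `(((ab)c)d)` -/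
theorem iw_S3a {r t j : ℕ} (hr : r ≤ π.length) (h1 : t ≤ j) (h2 : j ≤ r) :
    iwR a π r t j j t t = icCat a π t j r - icq a π r * icq a π t := by
  have ht : t ≤ π.length := by omega
  unfold iwR
  rw [iw_gam_zero_left h2, iw_gam_zero_left (h1.trans h2), iw_bet_comm r t j, iw_bet_comm r t t,
    iw_bet_mid ht (h1.trans h2) h1 h2, iw_bet_mid ht (h1.trans h2) le_rfl (h1.trans h2)]
  ring

/-- S3b `(((cd)a)b)` -/
theorem iw_S3b {r t j : ℕ} (hr : r ≤ π.length) (h1 : r ≤ j) (h2 : j ≤ t) :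
    iwR a π r t j r j r = icCat a π r j t - icq a π r * icq a π t := by
  unfold iwR
  rw [iw_gam_zero_right (le_refl r),
    iw_bet_mid hr (h1.trans h2) h1 h2, iw_bet_mid hr (h1.trans h2) le_rfl (h1.trans h2)]
  ring

/-- S4a `(((ac)b)d)` -/
theorem iw_S4a {r t i : ℕ} (hr : r ≤ π.length) (h1 : t ≤ r) (h2 : r ≤ i) :
    iwR a π r t i r t t = icCat a π t r i - icq a π r * icq a π t := by
  have ht : t ≤ π.length := by omega
  unfold iwR
  rw [iw_gam_zero_right h1, iw_gam_zero_right (le_refl r), iw_bet_comm r t i, iw_bet_comm r t r, iw_bet_comm r t t,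
    iw_bet_high ht h1 h2, iw_bet_high ht h1 le_rfl, iw_bet_mid ht h1 le_rfl h1]
  ring

/-- S4b `(((ac)d)b)` -/
theorem iw_S4b {r t i : ℕ} (hr : r ≤ π.length) (h1 : r ≤ t) (h2 : t ≤ i) :
    iwR a π r t i r t r = icCat a π r t i - icq a π r * icq a π t := by
  unfold iwR
  rw [iw_gam_zero_right (le_refl r), iw_gam_zero_right (le_refl r),
    iw_bet_high hr h1 h2, iw_bet_high hr h1 le_rfl, iw_bet_mid hr h1 le_rfl h1]
  ring

/-! ### the fifteen labelled shapes -/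

theorem iw_c1 {nu : ℝ} {r t c1 c2 d1 d2 : ℕ} (_hr : r ≤ π.length) (H : c2 = c1 → d1 = c1 → d2 = c1 → c1 ≤ r → c1 ≤ t → nu = icA a π c1 r t)
    (e1 : c2 = c1) (e2 : d1 = c1) (e3 : d2 = c1) (e4 : c1 ≤ r) (e5 : c1 ≤ t) :
    nu - icq a π r * icq a π t = iwR a π r t c1 c2 d1 d2 := by
  have B := H e1 e2 e3 e4 e5
  subst e1 e2 e3
  rw [B, iw_S1 e4 e5]

theorem iw_c2 {nu : ℝ} {r t c1 c2 d1 d2 : ℕ} (hr : r ≤ π.length) (H : t = r → c2 = r → d1 = r → r ≤ c1 → r ≤ d2 → nu = icA a π r c1 d2)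
    (e1 : t = r) (e2 : c2 = r) (e3 : d1 = r) (e4 : r ≤ c1) (e5 : r ≤ d2) :
    nu - icq a π r * icq a π t = iwR a π r t c1 c2 d1 d2 := by
  have B := H e1 e2 e3 e4 e5
  subst e1 e2 e3
  rw [B, iw_S2 hr e4 e5]

theorem iw_c3 {nu : ℝ} {r t c1 c2 d1 d2 : ℕ} (hr : r ≤ π.length) (H : t = r → c1 = r → d2 = r → r ≤ d1 → r ≤ c2 → nu = icA a π r d1 c2)
    (e1 : t = r) (e2 : c1 = r) (e3 : d2 = r) (e4 : r ≤ d1) (e5 : r ≤ c2) :
    nu - icq a π r * icq a π t = iwR a π r t c1 c2 d1 d2 := by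
  have B := H e1 e2 e3 e4 e5
  subst e1 e2 e3
  rw [B, iw_R_swap_cd, iw_S2 hr e4 e5]

theorem iw_c4 {nu : ℝ} {r t c1 c2 d1 d2 : ℕ} (hr : r ≤ π.length) (H : c2 = c1 → d1 = t → d2 = t → t ≤ c1 → c1 ≤ r → nu = icCat a π t c1 r)
    (e1 : c2 = c1) (e2 : d1 = t) (e3 : d2 = t) (e4 : t ≤ c1) (e5 : c1 ≤ r) :
    nu - icq a π r * icq a π t = iwR a π r t c1 c2 d1 d2 := by
  have B := H e1 e2 e3 e4 e5
  subst e1 e2 e3
  rw [B, iw_S3a hr e4 e5]

theorem iw_c5 {nu : ℝ} {r t c1 c2 d1 d2 : ℕ} (hr : r ≤ π.length) (H : d2 = d1 → c1 = t → c2 = t → t ≤ d1 → d1 ≤ r → nu = icCat a π t d1 r)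
    (e1 : d2 = d1) (e2 : c1 = t) (e3 : c2 = t) (e4 : t ≤ d1) (e5 : d1 ≤ r) :
    nu - icq a π r * icq a π t = iwR a π r t c1 c2 d1 d2 := by
  have B := H e1 e2 e3 e4 e5
  subst e1 e2 e3
  rw [B, iw_R_swap_cd, iw_S3a hr e4 e5]

theorem iw_c6 {nu : ℝ} {r t c1 c2 d1 d2 : ℕ} (hr : r ≤ π.length) (H : d1 = c1 → c2 = r → d2 = r → r ≤ c1 → c1 ≤ t → nu = icCat a π r c1 t)
    (e1 : d1 = c1) (e2 : c2 = r) (e3 : d2 = r) (e4 : r ≤ c1) (e5 : c1 ≤ t) :
    nu - icq a π r * icq a π t = iwR a π r t c1 c2 d1 d2 := by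
  have B := H e1 e2 e3 e4 e5
  subst e1 e2 e3
  rw [B, iw_S3b hr e4 e5]

theorem iw_c7 {nu : ℝ} {r t c1 c2 d1 d2 : ℕ} (hr : r ≤ π.length) (H : d2 = c2 → c1 = r → d1 = r → r ≤ c2 → c2 ≤ t → nu = icCat a π r c2 t)
    (e1 : d2 = c2) (e2 : c1 = r) (e3 : d1 = r) (e4 : r ≤ c2) (e5 : c2 ≤ t) :
    nu - icq a π r * icq a π t = iwR a π r t c1 c2 d1 d2 := by
  have B := H e1 e2 e3 e4 e5
  subst e1 e2 e3
  rw [B, iw_R_swap_ab, iw_S3b hr e4 e5]

theorem iw_c8 {nu : ℝ} {r t c1 c2 d1 d2 : ℕ} (hr : r ≤ π.length) (H : c2 = r → d1 = t → d2 = t → t ≤ r → r ≤ c1 → nu = icCat a π t r c1)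
    (e1 : c2 = r) (e2 : d1 = t) (e3 : d2 = t) (e4 : t ≤ r) (e5 : r ≤ c1) :
    nu - icq a π r * icq a π t = iwR a π r t c1 c2 d1 d2 := by
  have B := H e1 e2 e3 e4 e5
  subst e1 e2 e3
  rw [B, iw_S4a hr e4 e5]

theorem iw_c9 {nu : ℝ} {r t c1 c2 d1 d2 : ℕ} (hr : r ≤ π.length) (H : d1 = t → c2 = r → d2 = r → r ≤ t → t ≤ c1 → nu = icCat a π r t c1)
    (e1 : d1 = t) (e2 : c2 = r) (e3 : d2 = r) (e4 : r ≤ t) (e5 : t ≤ c1) :
    nu - icq a π r * icq a π t = iwR a π r t c1 c2 d1 d2 := by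
  have B := H e1 e2 e3 e4 e5
  subst e1 e2 e3
  rw [B, iw_S4b hr e4 e5]

theorem iw_c10 {nu : ℝ} {r t c1 c2 d1 d2 : ℕ} (hr : r ≤ π.length) (H : c1 = r → d1 = t → d2 = t → t ≤ r → r ≤ c2 → nu = icCat a π t r c2)
    (e1 : c1 = r) (e2 : d1 = t) (e3 : d2 = t) (e4 : t ≤ r) (e5 : r ≤ c2) :
    nu - icq a π r * icq a π t = iwR a π r t c1 c2 d1 d2 := by
  have B := H e1 e2 e3 e4 e5
  subst e1 e2 e3
  rw [B, iw_R_swap_ab, iw_S4a hr e4 e5]

theorem iw_c11 {nu : ℝ} {r t c1 c2 d1 d2 : ℕ} (hr : r ≤ π.length) (H : d2 = t → c1 = r → d1 = r → r ≤ t → t ≤ c2 → nu = icCat a π r t c2)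
    (e1 : d2 = t) (e2 : c1 = r) (e3 : d1 = r) (e4 : r ≤ t) (e5 : t ≤ c2) :
    nu - icq a π r * icq a π t = iwR a π r t c1 c2 d1 d2 := by
  have B := H e1 e2 e3 e4 e5
  subst e1 e2 e3
  rw [B, iw_R_swap_ab, iw_S4b hr e4 e5]

theorem iw_c12 {nu : ℝ} {r t c1 c2 d1 d2 : ℕ} (hr : r ≤ π.length) (H : d2 = r → c1 = t → c2 = t → t ≤ r → r ≤ d1 → nu = icCat a π t r d1)
    (e1 : d2 = r) (e2 : c1 = t) (e3 : c2 = t) (e4 : t ≤ r) (e5 : r ≤ d1) :
    nu - icq a π r * icq a π t = iwR a π r t c1 c2 d1 d2 := by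
  have B := H e1 e2 e3 e4 e5
  subst e1 e2 e3
  rw [B, iw_R_swap_cd, iw_S4a hr e4 e5]

theorem iw_c13 {nu : ℝ} {r t c1 c2 d1 d2 : ℕ} (hr : r ≤ π.length) (H : c1 = t → c2 = r → d2 = r → r ≤ t → t ≤ d1 → nu = icCat a π r t d1)
    (e1 : c1 = t) (e2 : c2 = r) (e3 : d2 = r) (e4 : r ≤ t) (e5 : t ≤ d1) :
    nu - icq a π r * icq a π t = iwR a π r t c1 c2 d1 d2 := by
  have B := H e1 e2 e3 e4 e5
  subst e1 e2 e3
  rw [B, iw_R_swap_cd, iw_S4b hr e4 e5]

theorem iw_c14 {nu : ℝ} {r t c1 c2 d1 d2 : ℕ} (hr : r ≤ π.length) (H : d1 = r → c1 = t → c2 = t → t ≤ r → r ≤ d2 → nu = icCat a π t r d2)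
    (e1 : d1 = r) (e2 : c1 = t) (e3 : c2 = t) (e4 : t ≤ r) (e5 : r ≤ d2) :
    nu - icq a π r * icq a π t = iwR a π r t c1 c2 d1 d2 := by
  have B := H e1 e2 e3 e4 e5
  subst e1 e2 e3
  rw [B, iw_R_swap_cd, iw_R_swap_ab, iw_S4a hr e4 e5]

theorem iw_c15 {nu : ℝ} {r t c1 c2 d1 d2 : ℕ} (hr : r ≤ π.length) (H : c2 = t → c1 = r → d1 = r → r ≤ t → t ≤ d2 → nu = icCat a π r t d2)
    (e1 : c2 = t) (e2 : c1 = r) (e3 : d1 = r) (e4 : r ≤ t) (e5 : t ≤ d2) :
    nu - icq a π r * icq a π t = iwR a π r t c1 c2 d1 d2 := by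
  have B := H e1 e2 e3 e4 e5
  subst e1 e2 e3
  rw [B, iw_R_swap_cd, iw_R_swap_ab, iw_S4b hr e4 e5]

/-- **(W) on six levels** which satisfy the isosceles property of the four triples -/
theorem iw_core {nu : ℝ} {r t c1 c2 d1 d2 : ℕ} (hr : r ≤ π.length)
    (T1 : (c1 = c2 ∧ c1 ≤ r) ∨ (c2 = r ∧ r ≤ c1) ∨ (c1 = r ∧ r ≤ c2))
    (T2 : (d1 = d2 ∧ d1 ≤ r) ∨ (d2 = r ∧ r ≤ d1) ∨ (d1 = r ∧ r ≤ d2))
    (T3 : (c1 = d1 ∧ c1 ≤ t) ∨ (c1 = t ∧ t ≤ d1) ∨ (d1 = t ∧ t ≤ c1))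
    (T4 : (c2 = d2 ∧ c2 ≤ t) ∨ (c2 = t ∧ t ≤ d2) ∨ (d2 = t ∧ t ≤ c2))
    (H1 : c2 = c1 → d1 = c1 → d2 = c1 → c1 ≤ r → c1 ≤ t → nu = icA a π c1 r t)
    (H2 : t = r → c2 = r → d1 = r → r ≤ c1 → r ≤ d2 → nu = icA a π r c1 d2)
    (H3 : t = r → c1 = r → d2 = r → r ≤ d1 → r ≤ c2 → nu = icA a π r d1 c2)
    (H4 : c2 = c1 → d1 = t → d2 = t → t ≤ c1 → c1 ≤ r → nu = icCat a π t c1 r)
    (H5 : d2 = d1 → c1 = t → c2 = t → t ≤ d1 → d1 ≤ r → nu = icCat a π t d1 r)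
    (H6 : d1 = c1 → c2 = r → d2 = r → r ≤ c1 → c1 ≤ t → nu = icCat a π r c1 t)
    (H7 : d2 = c2 → c1 = r → d1 = r → r ≤ c2 → c2 ≤ t → nu = icCat a π r c2 t)
    (H8 : c2 = r → d1 = t → d2 = t → t ≤ r → r ≤ c1 → nu = icCat a π t r c1)
    (H9 : d1 = t → c2 = r → d2 = r → r ≤ t → t ≤ c1 → nu = icCat a π r t c1)
    (H10 : c1 = r → d1 = t → d2 = t → t ≤ r → r ≤ c2 → nu = icCat a π t r c2)
    (H11 : d2 = t → c1 = r → d1 = r → r ≤ t → t ≤ c2 → nu = icCat a π r t c2)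
    (H12 : d2 = r → c1 = t → c2 = t → t ≤ r → r ≤ d1 → nu = icCat a π t r d1)
    (H13 : c1 = t → c2 = r → d2 = r → r ≤ t → t ≤ d1 → nu = icCat a π r t d1)
    (H14 : d1 = r → c1 = t → c2 = t → t ≤ r → r ≤ d2 → nu = icCat a π t r d2)
    (H15 : c2 = t → c1 = r → d1 = r → r ≤ t → t ≤ d2 → nu = icCat a π r t d2) :
    nu - icq a π r * icq a π t = iwR a π r t c1 c2 d1 d2 := by
  rcases T1 with h1 | h1 | h1 <;> rcases T2 with h2 | h2 | h2 <;> rcases T3 with h3 | h3 | h3 <;>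
    rcases T4 with h4 | h4 | h4 <;>
  first
    | exact iw_c1 hr H1 (by omega) (by omega) (by omega) (by omega) (by omega)
    | exact iw_c2 hr H2 (by omega) (by omega) (by omega) (by omega) (by omega)
    | exact iw_c3 hr H3 (by omega) (by omega) (by omega) (by omega) (by omega)
    | exact iw_c4 hr H4 (by omega) (by omega) (by omega) (by omega) (by omega)
    | exact iw_c5 hr H5 (by omega) (by omega) (by omega) (by omega) (by omega)
    | exact iw_c6 hr H6 (by omega) (by omega) (by omega) (by omega) (by omega)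
    | exact iw_c7 hr H7 (by omega) (by omega) (by omega) (by omega) (by omega)
    | exact iw_c8 hr H8 (by omega) (by omega) (by omega) (by omega) (by omega)
    | exact iw_c9 hr H9 (by omega) (by omega) (by omega) (by omega) (by omega)
    | exact iw_c10 hr H10 (by omega) (by omega) (by omega) (by omega) (by omega)
    | exact iw_c11 hr H11 (by omega) (by omega) (by omega) (by omega) (by omega)
    | exact iw_c12 hr H12 (by omega) (by omega) (by omega) (by omega) (by omega)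
    | exact iw_c13 hr H13 (by omega) (by omega) (by omega) (by omega) (by omega)
    | exact iw_c14 hr H14 (by omega) (by omega) (by omega) (by omega) (by omega)
    | exact iw_c15 hr H15 (by omega) (by omega) (by omega) (by omega) (by omega)

end num

/-! ### the statement on tables -/

/-- four pairwise distinct labels among `0..3` -/
def IwQ (x y z w : ℕ) : Prop :=
  x < 4 ∧ y < 4 ∧ z < 4 ∧ w < 4 ∧ x ≠ y ∧ x ≠ z ∧ x ≠ w ∧ y ≠ z ∧ y ≠ w ∧ z ≠ w

/-- **INPUT of W2** (= exits of W1): the two closed forms of the one-site four-leaf moment `nu` of the table `τ` -/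
structure IwIn (a : ℝ) (π : List (ℝ × ℝ)) (τ : ℕ → ℕ → ℕ) (nu : ℝ) : Prop where
  /-- balanced shape `((xy)(zw))` -/
  bal : ∀ x y z w j : ℕ, IwQ x y z w → τ x z = j → τ x w = j → τ y z = j → τ y w = j → j ≤ τ x y → j ≤ τ z w →
    nu = icA a π j (τ x y) (τ z w)
  /-- caterpillar `(((xy)z)w)` -/
  cat : ∀ x y z w j k : ℕ, IwQ x y z w → τ x z = j → τ y z = j → j ≤ τ x y → τ x w = k → τ y w = k → τ z w = k →
    k ≤ j → j ≤ π.length → nu = icCat a π k j (τ x y)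

/-- **(W)**: the centred four-leaf moment of EVERY ultrametric table -/
theorem iw_main {a : ℝ} {π : List (ℝ × ℝ)} {τ : ℕ → ℕ → ℕ} {nu : ℝ} (hτ : IsTr π.length 4 τ) (I : IwIn a π τ nu)
    (hr : τ 0 1 ≤ π.length) (ht : τ 2 3 ≤ π.length) :
    nu - icq a π (τ 0 1) * icq a π (τ 2 3) = iwR a π (τ 0 1) (τ 2 3) (τ 2 0) (τ 2 1) (τ 3 0) (τ 3 1) := by
  have s02 : τ 0 2 = τ 2 0 := hτ.symm 0 2 (by norm_num) (by norm_num)
  have s12 : τ 1 2 = τ 2 1 := hτ.symm 1 2 (by norm_num) (by norm_num)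
  have s03 : τ 0 3 = τ 3 0 := hτ.symm 0 3 (by norm_num) (by norm_num)
  have s13 : τ 1 3 = τ 3 1 := hτ.symm 1 3 (by norm_num) (by norm_num)
  have s10 : τ 1 0 = τ 0 1 := hτ.symm 1 0 (by norm_num) (by norm_num)
  have s32 : τ 3 2 = τ 2 3 := hτ.symm 3 2 (by norm_num) (by norm_num)
  have u : ∀ x y z, x < 4 → y < 4 → z < 4 → min (τ x y) (τ y z) ≤ τ x z := hτ.ultra
  have Q : ∀ x y z w : ℕ, (x < 4 ∧ y < 4 ∧ z < 4 ∧ w < 4 ∧ x ≠ y ∧ x ≠ z ∧ x ≠ w ∧ y ≠ z ∧ y ≠ w ∧ z ≠ w) → IwQ x y z w :=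
    fun _ _ _ _ h => h
  -- the isosceles property of the four triples
  have a1 := u 2 0 1 (by norm_num) (by norm_num) (by norm_num)
  have a2 := u 2 1 0 (by norm_num) (by norm_num) (by norm_num)
  have a3 := u 0 2 1 (by norm_num) (by norm_num) (by norm_num)
  have b1 := u 3 0 1 (by norm_num) (by norm_num) (by norm_num)
  have b2 := u 3 1 0 (by norm_num) (by norm_num) (by norm_num)
  have b3 := u 0 3 1 (by norm_num) (by norm_num) (by norm_num)
  have c1 := u 2 0 3 (by norm_num) (by norm_num) (by norm_num)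
  have c2 := u 2 3 0 (by norm_num) (by norm_num) (by norm_num)
  have c3 := u 3 2 0 (by norm_num) (by norm_num) (by norm_num)
  have d1 := u 2 1 3 (by norm_num) (by norm_num) (by norm_num)
  have d2 := u 2 3 1 (by norm_num) (by norm_num) (by norm_num)
  have d3 := u 3 2 1 (by norm_num) (by norm_num) (by norm_num)
  refine iw_core hr (by omega) (by omega) (by omega) (by omega) ?_ ?_ ?_ ?_ ?_ ?_ ?_ ?_ ?_ ?_ ?_ ?_ ?_ ?_ ?_
  · intro e1 e2 e3 e4 e5
    exact I.bal 0 1 2 3 (τ 2 0) (Q _ _ _ _ (by norm_num)) (by omega) (by omega) (by omega) (by omega) (by omega) (by omega)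
  · intro e1 e2 e3 e4 e5
    exact I.bal 2 0 3 1 (τ 0 1) (Q _ _ _ _ (by norm_num)) (by omega) (by omega) (by omega) (by omega) (by omega) (by omega)
  · intro e1 e2 e3 e4 e5
    exact I.bal 3 0 2 1 (τ 0 1) (Q _ _ _ _ (by norm_num)) (by omega) (by omega) (by omega) (by omega) (by omega) (by omega)
  · intro e1 e2 e3 e4 e5
    exact I.cat 0 1 2 3 (τ 2 0) (τ 2 3) (Q _ _ _ _ (by norm_num)) (by omega) (by omega) (by omega) (by omega) (by omega)
      (by omega) (by omega) (by omega)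
  · intro e1 e2 e3 e4 e5
    exact I.cat 0 1 3 2 (τ 3 0) (τ 2 3) (Q _ _ _ _ (by norm_num)) (by omega) (by omega) (by omega) (by omega) (by omega)
      (by omega) (by omega) (by omega)
  · intro e1 e2 e3 e4 e5
    exact I.cat 2 3 0 1 (τ 2 0) (τ 0 1) (Q _ _ _ _ (by norm_num)) (by omega) (by omega) (by omega) (by omega) (by omega)
      (by omega) (by omega) (by omega)
  · intro e1 e2 e3 e4 e5
    exact I.cat 2 3 1 0 (τ 2 1) (τ 0 1) (Q _ _ _ _ (by norm_num)) (by omega) (by omega) (by omega) (by omega) (by omega)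
      (by omega) (by omega) (by omega)
  · intro e1 e2 e3 e4 e5
    exact I.cat 2 0 1 3 (τ 0 1) (τ 2 3) (Q _ _ _ _ (by norm_num)) (by omega) (by omega) (by omega) (by omega) (by omega)
      (by omega) (by omega) (by omega)
  · intro e1 e2 e3 e4 e5
    exact I.cat 2 0 3 1 (τ 2 3) (τ 0 1) (Q _ _ _ _ (by norm_num)) (by omega) (by omega) (by omega) (by omega) (by omega)
      (by omega) (by omega) (by omega)
  · intro e1 e2 e3 e4 e5
    exact I.cat 2 1 0 3 (τ 0 1) (τ 2 3) (Q _ _ _ _ (by norm_num)) (by omega) (by omega) (by omega) (by omega) (by omega)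
      (by omega) (by omega) (by omega)
  · intro e1 e2 e3 e4 e5
    exact I.cat 2 1 3 0 (τ 2 3) (τ 0 1) (Q _ _ _ _ (by norm_num)) (by omega) (by omega) (by omega) (by omega) (by omega)
      (by omega) (by omega) (by omega)
  · intro e1 e2 e3 e4 e5
    exact I.cat 3 0 1 2 (τ 0 1) (τ 2 3) (Q _ _ _ _ (by norm_num)) (by omega) (by omega) (by omega) (by omega) (by omega)
      (by omega) (by omega) (by omega)
  · intro e1 e2 e3 e4 e5
    exact I.cat 3 0 2 1 (τ 2 3) (τ 0 1) (Q _ _ _ _ (by norm_num)) (by omega) (by omega) (by omega) (by omega) (by omega)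
      (by omega) (by omega) (by omega)
  · intro e1 e2 e3 e4 e5
    exact I.cat 3 1 0 2 (τ 0 1) (τ 2 3) (Q _ _ _ _ (by norm_num)) (by omega) (by omega) (by omega) (by omega) (by omega)
      (by omega) (by omega) (by omega)
  · intro e1 e2 e3 e4 e5
    exact I.cat 3 1 2 0 (τ 2 3) (τ 0 1) (Q _ _ _ _ (by norm_num)) (by omega) (by omega) (by omega) (by omega) (by omega)
      (by omega) (by omega) (by omega)

section w3

open Finset

/-! ### W3: the kernel in increments (vocabulary of `Inv/Opk.lean`) -/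

theorem iw_A_zero (a : ℝ) (π : List (ℝ × ℝ)) (r t : ℕ) : icA a π 0 r t = icq a π r * icq a π t := by
  unfold icA icEx
  rw [ic_E_self]
  rfl

theorem iw_bet_zero (a : ℝ) (π : List (ℝ × ℝ)) (r t : ℕ) : icBet a π r t 0 = 0 := by
  unfold icBet icBet0
  rw [if_pos (Nat.zero_le _), iw_A_zero]
  ring

/-- `BET` = partial sums of `bk` -/
theorem iw_phi (a : ℝ) (π : List (ℝ × ℝ)) (r t n : ℕ) : vcPhi (fun r t s => icBk a π s r t) r t n = icBet a π r t n := by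
  unfold vcPhi
  induction n with
  | zero => simp [icBk, iw_bet_zero]
  | succ n ih =>
    rw [sum_range_succ, ih]
    simp [icBk]

theorem iw_sum_Ioc_tel (f : ℕ → ℝ) {r n : ℕ} (h : r ≤ n) : ∑ j ∈ Ioc r n, (f j - f (j - 1)) = f n - f r := by
  induction n, h using Nat.le_induction with
  | base => simp
  | succ n hn ih =>
    rw [← Finset.insert_Ioc_right_eq_Ioc_add_one (by omega), sum_insert (by simp), ih]
    simp

/-- `GAM` = partial sums of `c` -/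
theorem iw_gam (a : ℝ) (π : List (ℝ × ℝ)) (r n n' : ℕ) : vcGam (icC a π) r n n' = icGam a π r n n' := by
  unfold vcGam
  by_cases h1 : r ≤ n
  · by_cases h2 : r ≤ n'
    · have e1 : ∀ j, ∑ j' ∈ Ioc r n', icC a π r j j' = (icGam a π r j n' - icGam a π r (j - 1) n') := by
        intro j
        have := iw_sum_Ioc_tel (fun l => icGam a π r j l - icGam a π r (j - 1) l) h2
        rw [iw_gam_zero_right (le_refl r), iw_gam_zero_right (le_refl r)] at this
        rw [← sub_zero (icGam a π r j n' - icGam a π r (j - 1) n')]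
        rw [show (0:ℝ) = 0 - 0 by ring, ← this]
        refine sum_congr rfl fun l _ => ?_
        unfold icC
        ring
      rw [sum_congr rfl fun j _ => e1 j, iw_sum_Ioc_tel (fun j => icGam a π r j n') h1, iw_gam_zero_left (le_refl r)]
      ring
    · rw [iw_gam_zero_right (by omega), Ioc_eq_empty (by omega : ¬ r < n')]
      simp
  · rw [iw_gam_zero_left (by omega), Ioc_eq_empty (by omega : ¬ r < n)]
    simp

/-- the right side of (W) is the kernel of `Inv/Opk.lean` -/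
theorem iw_R_eq (a : ℝ) (π : List (ℝ × ℝ)) (R c d : ℕ) (x : VcX) :
    vcKerW R (icC a π) (fun r t s => icBk a π s r t) c d x
      = iwR a π (vcLev R x 0 1) (vcLev R x c d) (vcLev R x c 0) (vcLev R x c 1) (vcLev R x d 0) (vcLev R x d 1) := by
  unfold vcKerW iwR
  simp only [iw_phi, iw_gam]

/-- 19's right side (`Inv/Ker.lean`: `ick_W_tr`, `ick_Mker`) is the same expression -/
theorem iw_rhs_eq (a : ℝ) (π : List (ℝ × ℝ)) (r t p1 p2 p3 p4 : ℕ) : ickRhs a π r t p1 p2 p3 p4 = iwR a π r t p1 p2 p3 p4 := rfl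

/-- 19's right side on levels = the kernel of `Inv/Opk.lean` -/
theorem iw_ker_eq (a : ℝ) (π : List (ℝ × ℝ)) (R c d : ℕ) (x : VcX) :
    ickRhs a π (vcLev R x 0 1) (vcLev R x c d) (vcLev R x c 0) (vcLev R x c 1) (vcLev R x d 0) (vcLev R x d 1)
      = vcKerW R (icC a π) (fun r t s => icBk a π s r t) c d x := (iw_R_eq a π R c d x).symm

end w3

end Claimed.Agent.R286
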