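import Claimed.Agent.R286.Inv.Brg
import Claimed.Agent.R286.Fd.TrA1
import Claimed.Agent.R286.Fd.TrKit9

/-!
# Row 286 (S0533), LL Section 5, unit BRG-Tau (restored: Inv/BrgTr was overwritten by the file of helper296): VIRTUAL SUMS = SIGNED ATTACHMENT SUMS OF `Defs/Tr`      (OWNER helper177; head helper84; prefix `vc_tau_`, `pk_`)

The exits `Exit/PairInv`, `Exit/PairLong` live on `llJs` (= `trSumK`, `trAbsK`, `IsTr` of `Defs/Tr`).   This file carries the bridge of helper296 (`Inv/Brg.lean`: virtual sums = `GhTree.row` of `Defs/Plc`) to `Defs/Tr`.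
Dictionary: `R = N`, `p = trPm ms` (`p 0 = 0`, `p (j+1) = ms j`, `p (N+1) = ms N = 1`), tree of a configuration `vcTau N x y z = vcLev N x y z`.
* `pk_row_eq_trSum`   PURE TREE LEMMA (`Defs/Plc` -> `Defs/Tr`): `T.row M N 0 (Φ ∘ trOf ∘ att) = trSum ms N q (trOf T N) Φ`
* `vc_tau_isTr`, `vc_tau_real`   trees = trees of configurations;     `vc_A_tau`   functions of the tree are admissible arrays
* `vc_S_eq_trSum`     **summation of the fresh label `q` over the whole virtual tree = `trSum`**;      `vc_SS_eq_trSumK`   two fresh labels = `trSumK .. 2`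
-/

set_option autoImplicit false

namespace Claimed.Agent.R286

open Finset

/-- the tree of a configuration -/
def vcTau (R : ℕ) (x : VcX) : ℕ → ℕ → ℕ := fun y z => vcLev R x y z

theorem vc_tau_eqns_cite : True := by
  have := @vcTau.eq_1
  trivial

/-! ## the pure tree lemma -/

theorem pk_of_lt {q : ℕ} (T : GhTree q) (N : ℕ) (a b : Fin q) :
    trOf T N a.1 b.1 = if a = b then N + 1 else min (T.sh a b) (N + 1) := by
  unfold trOf
  rw [dif_pos ⟨a.2, b.2⟩]
  by_cases h : a = b
  · rw [if_pos h, if_pos (by rw [h])]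
  · rw [if_neg h, if_neg (fun e => h (Fin.ext e))]

theorem pk_can_iff {q : ℕ} (T : GhTree q) {N l : ℕ} (hl : l ≤ N + 1) (a : Fin q) :
    T.can l a ↔ trIsMin (trOf T N) l a.1 := by
  unfold GhTree.can trIsMin
  constructor
  · intro h y hy
    have hyq : y < q := lt_trans hy a.2
    have hne : a ≠ ⟨y, hyq⟩ := fun e => by
      have := congrArg Fin.val e
      simp at this
      omega
    have := pk_of_lt T N a ⟨y, hyq⟩
    simp only at this
    rw [this, if_neg hne]
    by_contra hc
    have h1 : l ≤ T.sh a ⟨y, hyq⟩ := by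
      have : l ≤ min (T.sh a ⟨y, hyq⟩) (N + 1) := not_lt.1 hc
      exact this.trans (min_le_left _ _)
    have h2 := h _ h1
    have : a.1 ≤ y := h2
    omega
  · intro h b hb
    by_contra hc
    have hlt : b.1 < a.1 := not_le.1 hc
    have h1 := h b.1 hlt
    have hne : a ≠ b := fun e => by rw [e] at hlt; exact lt_irrefl _ hlt
    rw [pk_of_lt T N a b, if_neg hne] at h1
    have : l ≤ min (T.sh a b) (N + 1) := le_min hb hl
    omega

theorem pk_kids_eq {q : ℕ} (T : GhTree q) {N l : ℕ} (hl : l ≤ N) (a : Fin q) :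
    T.kids l a = trDeg q (trOf T N) l a.1 := by
  unfold GhTree.kids trDeg
  refine Finset.card_bij (fun b _ => b.1) ?_ ?_ ?_
  · intro b hb
    rw [Finset.mem_filter, ghp_mem_nd] at hb
    rw [Finset.mem_filter, Finset.mem_range]
    refine ⟨b.2, ?_, (pk_can_iff T (by omega) b).1 hb.2⟩
    rw [pk_of_lt]
    rcases hb.1 with h | h
    · rw [if_pos h.symm]; omega
    · split_ifs
      · omega
      · exact le_min h (by omega)
  · intro b _ b' _ h
    exact Fin.ext h
  · intro y hy
    rw [Finset.mem_filter, Finset.mem_range] at hy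
    refine ⟨⟨y, hy.1⟩, ?_, rfl⟩
    rw [Finset.mem_filter, ghp_mem_nd]
    refine ⟨?_, (pk_can_iff T (by omega) ⟨y, hy.1⟩).2 hy.2.2⟩
    have h1 := hy.2.1
    have h2 := pk_of_lt T N a ⟨y, hy.1⟩
    simp only at h2
    rw [h2] at h1
    by_cases e : a = ⟨y, hy.1⟩
    · exact Or.inl e.symm
    · rw [if_neg e] at h1
      exact Or.inr (h1.trans (min_le_left _ _))

theorem pk_att_eq {q : ℕ} (T : GhTree q) (N l : ℕ) (a : Fin q) (y z : ℕ) (hy : y < q + 1) (hz : z < q + 1) :
    trOf (T.att l a) N y z = trAtt N q (trOf T N) a.1 l y z := by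
  have key : ∀ (u v : Fin (q + 1)), trOf (T.att l a) N u.1 v.1 = trAtt N q (trOf T N) a.1 l u.1 v.1 := by
    intro u v
    rw [pk_of_lt]
    unfold trAtt
    induction u using Fin.lastCases with
    | last =>
      induction v using Fin.lastCases with
      | last => simp
      | cast b =>
        have hb : (b.castSucc : Fin (q + 1)).1 ≠ q := by simp; omega
        have hne : Fin.last q ≠ b.castSucc := fun e => hb (by rw [← e]; rfl)
        rw [if_neg hne, if_pos (by rfl), if_neg hb, ghp_att_lc]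
        have : (b.castSucc : Fin (q + 1)).1 = b.1 := rfl
        rw [this, pk_of_lt]
        by_cases hba : b = a
        · rw [if_pos hba, if_pos hba.symm]
        · rw [if_neg hba, if_neg (fun e => hba e.symm), min_assoc]
    | cast c =>
      have hc : (c.castSucc : Fin (q + 1)).1 ≠ q := by simp; omega
      have hc' : (c.castSucc : Fin (q + 1)).1 = c.1 := rfl
      induction v using Fin.lastCases with
      | last =>
        have hne : c.castSucc ≠ Fin.last q := fun e => hc (by rw [e]; rfl)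
        rw [if_neg hne, if_neg hc, if_pos (by rfl), ghp_att_cl, hc', pk_of_lt]
        by_cases hca : c = a
        · rw [if_pos hca, if_pos hca]
        · rw [if_neg hca, if_neg hca, T.symm c a, min_assoc]
      | cast b =>
        have hb : (b.castSucc : Fin (q + 1)).1 ≠ q := by simp; omega
        have hb' : (b.castSucc : Fin (q + 1)).1 = b.1 := rfl
        rw [if_neg hc, if_neg hb, ghp_att_cc, hc', hb', pk_of_lt]
        by_cases hcb : c = b
        · rw [if_pos hcb, if_pos (by rw [hcb])]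
        · rw [if_neg hcb, if_neg (fun e => hcb (Fin.castSucc_injective _ e))]
  exact key ⟨y, hy⟩ ⟨z, hz⟩

/-- **`Defs/Plc` -> `Defs/Tr`**: the signed row is the signed attachment sum -/
theorem pk_row_eq_trSum {q : ℕ} (T : GhTree q) {N : ℕ} {M ms : ℕ → ℝ} (hM0 : M 0 = 0) (hM : ∀ j, j ≤ N → M (j + 1) = ms j)
    (hM2 : M (N + 2) = 0) {Φ : (ℕ → ℕ → ℕ) → ℝ} (hΦ : TrLoc (q + 1) Φ) :
    T.row M N 0 (fun l a => Φ (trOf (T.att l a) N)) = trSum ms N q (trOf T N) Φ := by
  unfold GhTree.row trSum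
  rw [Finset.sum_comm, ← Fin.sum_univ_eq_sum_range (fun x => ∑ j ∈ Finset.range (N + 2), trWt ms N q (trOf T N) x j * Φ (trAtt N q (trOf T N) x j)) q]
  refine Finset.sum_congr rfl fun a _ => ?_
  have hI : Finset.Icc 0 (N + 1) = Finset.range (N + 2) := by
    ext j
    simp only [Finset.mem_Icc, Finset.mem_range]
    omega
  rw [hI]
  refine Finset.sum_congr rfl fun l hl => ?_
  have hl' : l ≤ N + 1 := by have := Finset.mem_range.1 hl; omega
  have hΦe : Φ (trOf (T.att l a) N) = Φ (trAtt N q (trOf T N) a.1 l) := hΦ _ _ fun y z hy hz => pk_att_eq T N l a y z hy hz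
  unfold trWt
  by_cases hc : T.can l a
  · rw [if_pos hc, if_pos ((pk_can_iff T hl' a).1 hc)]
    show T.coef M l a * Φ (trOf (T.att l a) N) = _
    rw [hΦe]
    congr 1
    unfold GhTree.coef
    by_cases hN : l = N + 1
    · rw [if_pos hN, hN, hM2, hM N le_rfl]; ring
    · rw [if_neg hN, hM l (by omega), pk_kids_eq (N := N) T (by omega) a]
      congr 1
      unfold trPm
      by_cases h0 : l = 0
      · rw [if_pos h0, h0, hM0]
      · rw [if_neg h0]
        obtain ⟨l', rfl⟩ := Nat.exists_eq_succ_of_ne_zero h0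
        rw [Nat.succ_eq_add_one, hM l' (by omega), Nat.add_sub_cancel]
  · rw [if_neg hc, if_neg (fun h => hc ((pk_can_iff T hl' a).2 h)), zero_mul]

/-! ## trees of configurations -/

theorem vc_tau_isTr (R q : ℕ) (x : VcX) : IsTr R q (vcTau R x) :=
  ⟨fun y z _ _ => vc_lev_le R x y z, fun y _ => vc_lev_self R x y, fun y z _ _ => vc_lev_symm R x y z,
    fun y z w _ _ _ => vc_lev_ultra R x y z w⟩

theorem vc_tau_of (R q : ℕ) (x : VcX) (y z : ℕ) (hy : y < q) (hz : z < q) : trOf (vcTree R q x) R y z = vcTau R x y z := by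
  have := pk_of_lt (vcTree R q x) R ⟨y, hy⟩ ⟨z, hz⟩
  simp only at this
  rw [this]
  unfold vcTau
  by_cases h : (⟨y, hy⟩ : Fin q) = ⟨z, hz⟩
  · rw [if_pos h]
    have : y = z := congrArg Fin.val h
    rw [this, vc_lev_self]
  · rw [if_neg h, vc_brg_sh x h]
    exact min_eq_left (vc_lev_le R x y z)

/-- every tree is the tree of a configuration -/
theorem vc_tau_real {N q : ℕ} {τ : ℕ → ℕ → ℕ} (hτ : IsTr N q τ) :
    ∃ x : VcX, ∀ y z, y < q → z < q → vcTau N x y z = τ y z := by
  let T : GhTree q :=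
    { sh := fun a b => if a = b then 0 else τ a.1 b.1
      symm := fun a b => by
        by_cases h : a = b
        · rw [if_pos h, if_pos h.symm]
        · rw [if_neg h, if_neg (fun e => h e.symm), hτ.symm _ _ a.2 b.2]
      ultra := fun a b c hac => by
        rw [if_neg hac]
        by_cases hab : a = b
        · rw [if_pos hab]; simp
        · by_cases hbc : b = c
          · rw [if_pos hbc]; simp
          · rw [if_neg hab, if_neg hbc]
            exact hτ.ultra _ _ _ a.2 b.2 c.2 }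
  obtain ⟨x, hx⟩ := vc_brg_surj (R := N) T (fun a => if_pos rfl) (fun a b => by
    show (if a = b then 0 else τ a.1 b.1) ≤ N + 1
    split_ifs
    · omega
    · exact hτ.le _ _ a.2 b.2)
  refine ⟨x, fun y z hy hz => ?_⟩
  by_cases h : y = z
  · rw [h, hτ.diag z hz]
    exact vc_lev_self N x z
  · have hne : (⟨y, hy⟩ : Fin q) ≠ ⟨z, hz⟩ := fun e => h (congrArg Fin.val e)
    have h1 := vc_brg_sh (R := N) x hne
    rw [hx] at h1
    have h2 : T.sh ⟨y, hy⟩ ⟨z, hz⟩ = τ y z := if_neg hne
    rw [h2] at h1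
    exact h1.symm

/-- functions of the tree are admissible arrays -/
theorem vc_A_tau (R q : ℕ) {Φ : (ℕ → ℕ → ℕ) → ℝ} (hΦ : TrLoc q Φ) : VcA R (fun x => Φ (vcTau R x)) := by
  have e : (fun x => Φ (vcTau R x)) = fun x => (fun T : GhTree q => Φ (trOf T R)) (vcTree R q x) := by
    funext x
    exact hΦ _ _ fun y z hy hz => (vc_tau_of R q x y z hy hz).symm
  rw [e]
  exact vc_brg_A R q (fun T : GhTree q => Φ (trOf T R))

/-- functions of the tree on the labels `< q` do not depend on the labels `≥ q` -/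
theorem vc_tau_indL (R q : ℕ) {Φ : (ℕ → ℕ → ℕ) → ℝ} (hΦ : TrLoc q Φ) {c : ℕ} (hc : q ≤ c) : VcIndL c (fun x => Φ (vcTau R x)) := by
  intro j x v
  refine hΦ _ _ fun y z hy hz => ?_
  refine vc_b2_lev_congr fun i _ => ?_
  rw [Function.update_of_ne (fun e => by have := congrArg Prod.fst e; simp at this; omega),
    Function.update_of_ne (fun e => by have := congrArg Prod.fst e; simp at this; omega)]

/-! ## the bridge -/

theorem pk_M_zero (ms : ℕ → ℝ) (N : ℕ) : vcM (trPm ms) N 0 = 0 := by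
  unfold vcM trPm
  simp

theorem pk_M_succ (ms : ℕ → ℝ) (N : ℕ) (j : ℕ) (hj : j ≤ N) : vcM (trPm ms) N (j + 1) = ms j := by
  unfold vcM trPm
  rw [if_pos (by omega), if_neg (by omega), Nat.add_sub_cancel]

theorem pk_M_out (ms : ℕ → ℝ) (N : ℕ) : vcM (trPm ms) N (N + 2) = 0 := by
  unfold vcM
  rw [if_neg (by omega)]

/-- **THE BRIDGE**: one fresh label -/
theorem vc_S_eq_trSum {N q : ℕ} {ms : ℕ → ℝ} (hq : 0 < q) (hpos : ∀ j, j ≤ N → 0 < ms j) (htop : ms N = 1)
    {Φ : (ℕ → ℕ → ℕ) → ℝ} (hΦ : TrLoc (q + 1) Φ) (x : VcX) :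
    vcS (trPm ms) N q 0 (fun x' => Φ (vcTau N x')) x = trSum ms N q (vcTau N x) Φ := by
  have hp : ∀ k, 1 ≤ k → k ≤ N + 1 → 0 < trPm ms k := by
    intro k h1 h2
    unfold trPm
    rw [if_neg (by omega)]
    exact hpos _ (by omega)
  have ht : trPm ms (N + 1) = 1 := by
    unfold trPm
    rw [if_neg (by omega), Nat.add_sub_cancel, htop]
  have e : (fun x' => Φ (vcTau N x')) = fun x' => (fun T : GhTree (q + 1) => Φ (trOf T N)) (vcTree N (q + 1) x') := by
    funext x'
    exact hΦ _ _ fun y z hy hz => (vc_tau_of N (q + 1) x' y z hy hz).symm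
  rw [e, vc_brg_row hp ht hq (fun T : GhTree (q + 1) => Φ (trOf T N)) x,
    pk_row_eq_trSum (vcTree N q x) (pk_M_zero ms N) (pk_M_succ ms N) (pk_M_out ms N) hΦ]
  exact tk9_sum_loc ms N q hΦ _ _ fun y z hy hz => vc_tau_of N q x y z hy hz

/-- two fresh labels -/
theorem vc_SS_eq_trSumK {N q : ℕ} {ms : ℕ → ℝ} (hq : 0 < q) (hpos : ∀ j, j ≤ N → 0 < ms j) (htop : ms N = 1)
    {Φ : (ℕ → ℕ → ℕ) → ℝ} (hΦ : TrLoc (q + 2) Φ) (x : VcX) :
    vcS (trPm ms) N q 0 (vcS (trPm ms) N (q + 1) 0 fun x' => Φ (vcTau N x')) x = trSumK ms N 2 q (vcTau N x) Φ := by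
  have e : (vcS (trPm ms) N (q + 1) 0 fun x' => Φ (vcTau N x')) = fun x' => (fun τ => trSum ms N (q + 1) τ Φ) (vcTau N x') :=
    funext fun x' => vc_S_eq_trSum (Nat.succ_pos q) hpos htop hΦ x'
  rw [e, vc_S_eq_trSum hq hpos htop (tk9_sum_loc ms N (q + 1) hΦ) x]
  rfl

end Claimed.Agent.R286
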