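import Claimed.Agent.R286.Inv.ScB
import Claimed.Agent.R286.Defs.Tr

/-!
# Row 286 (S0533), LL Section 5 (pair inverse), unit RESCALE, scalar side: TERMINAL MASS `a → 1`      (owner + prover helper297; prefix `ics_`, `icRs`)

TEX[LL:inv:pair-inverse] ("we normalise the terminal mass"), interface `origin/helper177:notes/R286/L04_IFACE_177.md` sec. 4 (RESCALE).
The chain with the terminal mass `a > 0` and the profile `π = [(m_i, v_i)]` is the chain with the terminal mass `1` and the profile `icRs a π = [(m_i / a, a² v_i)]`, read in the field `a z`: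
* `ics_F : F_j^a(z) = a⁻¹ F_j^1(a z)`,   `ics_M : m_j^a(z) = m_j^1(a z)`,   `ics_X : χ_j^a(z) = a χ_j^1(a z)`,   `ics_E : E_i^a[φ(a Z_j)](z) = E_i^1[φ(Z_j)](a z)`
* INVARIANT numbers: `ics_q, ics_A, ics_Cat, ics_Gam, ics_Bet, ics_Bk, ics_C`
* HOMOGENEOUS numbers: `ics_Ms, ics_P` (`a`), `ics_BB` (`a`), `ics_G, ics_Gk, ics_X2` (`a²`), `ics_Vr, ics_Rho, ics_K` (`a²`, in the other direction)
* `ics_adm : IcAdm a π → IcAdm 1 (icRs a π)`,   `ics_scb` : the package `IcScb` of the rescaled chain, every terminal mass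
* TREE SIDE: `ics_trSumK, ics_trAbsK` (homogeneous of degree `k` in the masses), `ics_trSumK_const_mul`;   LIM: `ics_lim_trSumK, ics_lim_trAbsK` (continuity in (masses, summand)), `ics_lim_max`
-/

set_option autoImplicit false

namespace Claimed.Agent.R286

open MeasureTheory ProbabilityTheory Finset Filter Topology

/-- the profile of the chain with the terminal mass `1` -/
noncomputable def icRs (a : ℝ) (π : List (ℝ × ℝ)) : List (ℝ × ℝ) := π.map fun p => (p.1 / a, a ^ 2 * p.2)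

theorem ics_eqns_cite : True := by
  have := @icRs.eq_1
  trivial

/-! ## 1. one stage -/

theorem ics_heat {a : ℝ} (ha : 0 ≤ a) (s : ℝ) (f : ℝ → ℝ) (z : ℝ) :
    scHeat s (fun y => f (a * y)) z = scHeat (a ^ 2 * s) f (a * z) := by
  unfold scHeat
  rw [Real.sqrt_mul (sq_nonneg a), Real.sqrt_sq ha]
  refine integral_congr_ae (Filter.Eventually.of_forall fun g => ?_)
  show f (a * (z + Real.sqrt s * g)) = f (a * z + a * Real.sqrt s * g)
  congr 1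
  ring

theorem ics_W {a : ℝ} (ha : 0 < a) (m s : ℝ) (G : ℝ → ℝ) (z : ℝ) :
    scW m s (fun y => a⁻¹ * G (a * y)) z = scW (m / a) (a ^ 2 * s) G (a * z) := by
  unfold scW
  rw [← ics_heat ha.le]
  congr 1
  funext y
  congr 1
  field_simp

theorem ics_step {a : ℝ} (ha : 0 < a) (m s : ℝ) (G : ℝ → ℝ) :
    scStep m s (fun y => a⁻¹ * G (a * y)) = fun z => a⁻¹ * scStep (m / a) (a ^ 2 * s) G (a * z) := by
  funext z
  unfold scStep
  by_cases hm : m = 0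
  · rw [if_pos hm, if_pos (by rw [hm, zero_div]), sc_heat_const_mul, ← ics_heat ha.le]
  · rw [if_neg hm, if_neg (div_ne_zero hm ha.ne'), ics_W ha]
    field_simp

theorem ics_tr {a : ℝ} (ha : 0 < a) (m s : ℝ) (G φ : ℝ → ℝ) :
    scTr m s (fun y => a⁻¹ * G (a * y)) (fun y => φ (a * y)) = fun z => scTr (m / a) (a ^ 2 * s) G φ (a * z) := by
  funext z
  unfold scTr
  rw [ics_W ha, ← ics_heat ha.le]
  congr 2
  funext y
  congr 2
  field_simp

/-! ## 2. profiles -/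

theorem ics_V {a : ℝ} (ha : 0 < a) (G : ℝ → ℝ) (π : List (ℝ × ℝ)) :
    scV (fun y => a⁻¹ * G (a * y)) π = fun z => a⁻¹ * scV G (icRs a π) (a * z) := by
  induction π with
  | nil => rfl
  | cons p π ih =>
    show scStep p.1 p.2 (scV (fun y => a⁻¹ * G (a * y)) π) = fun z => a⁻¹ * scStep (p.1 / a) (a ^ 2 * p.2) (scV G (icRs a π)) (a * z)
    rw [ih, ics_step ha]

theorem ics_Pp {a : ℝ} (ha : 0 < a) (G φ : ℝ → ℝ) (π : List (ℝ × ℝ)) :
    scP (fun y => a⁻¹ * G (a * y)) π (fun y => φ (a * y)) = fun z => scP G (icRs a π) φ (a * z) := by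
  induction π with
  | nil => rfl
  | cons p π ih =>
    show scTr p.1 p.2 (scV (fun y => a⁻¹ * G (a * y)) π) (scP (fun y => a⁻¹ * G (a * y)) π (fun y => φ (a * y)))
      = fun z => scTr (p.1 / a) (a ^ 2 * p.2) (scV G (icRs a π)) (scP G (icRs a π) φ) (a * z)
    rw [ih, ics_V ha, ics_tr ha]

theorem ics_LC (a : ℝ) : scLC a = fun y => a⁻¹ * scLC 1 (a * y) := by
  funext y
  simp [scLC]

theorem ics_length (a : ℝ) (π : List (ℝ × ℝ)) : (icRs a π).length = π.length := by simp [icRs]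

theorem ics_drop (a : ℝ) (π : List (ℝ × ℝ)) (j : ℕ) : icRs a (π.drop j) = (icRs a π).drop j := by simp [icRs, List.map_drop]

theorem ics_take (a : ℝ) (π : List (ℝ × ℝ)) (j : ℕ) : icRs a (π.take j) = (icRs a π).take j := by simp [icRs, List.map_take]

/-! ## 3. the chain -/

theorem ics_F {a : ℝ} (ha : 0 < a) (π : List (ℝ × ℝ)) (j : ℕ) : icF a π j = fun z => a⁻¹ * icF 1 (icRs a π) j (a * z) := by
  unfold icF
  rw [ics_LC a, ics_V ha, ics_drop]

theorem ics_M {a : ℝ} (ha : 0 < a) (π : List (ℝ × ℝ)) (j : ℕ) : icM a π j = fun z => icM 1 (icRs a π) j (a * z) := by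
  unfold icM
  rw [ics_F ha]
  funext z
  have h1 : HasDerivAt (fun z : ℝ => a * z) a z := by simpa using (hasDerivAt_id z).const_mul a
  have h2 : HasDerivAt (icF 1 (icRs a π) j) (deriv (icF 1 (icRs a π) j) (a * z)) (a * z) :=
    ((ic_F_BI 1 (icRs a π) j 1).1 (a * z)).hasDerivAt
  have h3 := ((h2.comp z h1).const_mul a⁻¹).deriv
  refine Eq.trans h3 ?_
  field_simp

theorem ics_X {a : ℝ} (ha : 0 < a) (π : List (ℝ × ℝ)) (j : ℕ) : icX a π j = fun z => a * icX 1 (icRs a π) j (a * z) := by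
  have e : icX a π j = deriv (icM a π j) := rfl
  rw [e, ics_M ha]
  funext z
  have h1 : HasDerivAt (fun z : ℝ => a * z) a z := by simpa using (hasDerivAt_id z).const_mul a
  have h2 : HasDerivAt (icM 1 (icRs a π) j) (icX 1 (icRs a π) j (a * z)) (a * z) :=
    ((ic_M_Bd 1 (icRs a π) j 1).2.1 (a * z)).hasDerivAt
  refine Eq.trans (h2.comp z h1).deriv ?_
  ring

theorem ics_E {a : ℝ} (ha : 0 < a) (π : List (ℝ × ℝ)) (i j : ℕ) (φ : ℝ → ℝ) :
    icE a π i j (fun y => φ (a * y)) = fun z => icE 1 (icRs a π) i j φ (a * z) := by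
  unfold icE
  rw [ics_F ha, ics_Pp ha, ics_drop, ics_take]

theorem ics_Ex {a : ℝ} (ha : 0 < a) (π : List (ℝ × ℝ)) (j : ℕ) (φ : ℝ → ℝ) :
    icEx a π j (fun y => φ (a * y)) = icEx 1 (icRs a π) j φ := by
  unfold icEx
  rw [ics_E ha]
  show icE 1 (icRs a π) 0 j φ (a * 0) = _
  rw [mul_zero]

theorem ics_S {a : ℝ} (ha : 0 < a) (π : List (ℝ × ℝ)) (i : ℕ) : icS a π i = fun z => icS 1 (icRs a π) i (a * z) := by
  unfold icS
  rw [ics_length, ics_M ha]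
  split_ifs <;> rfl

theorem ics_Q {a : ℝ} (ha : 0 < a) (π : List (ℝ × ℝ)) (j i : ℕ) : icQ a π j i = fun z => icQ 1 (icRs a π) j i (a * z) := by
  unfold icQ
  rw [ics_S ha, ics_E ha]

/-! ## 4. invariant numbers -/

theorem ics_q {a : ℝ} (ha : 0 < a) (π : List (ℝ × ℝ)) (r : ℕ) : icq a π r = icq 1 (icRs a π) r := by
  unfold icq
  rw [ics_S ha, ics_Ex ha]

theorem ics_A {a : ℝ} (ha : 0 < a) (π : List (ℝ × ℝ)) (j r t : ℕ) : icA a π j r t = icA 1 (icRs a π) j r t := by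
  unfold icA
  rw [ics_Q ha, ics_Q ha]
  exact ics_Ex ha π j fun z => icQ 1 (icRs a π) j r z * icQ 1 (icRs a π) j t z

theorem ics_Cat {a : ℝ} (ha : 0 < a) (π : List (ℝ × ℝ)) (k j i : ℕ) : icCat a π k j i = icCat 1 (icRs a π) k j i := by
  unfold icCat
  rw [ics_Q ha, ics_M ha π j, ics_M ha π k,
    ics_E ha π k j fun y => icM 1 (icRs a π) j y * icQ 1 (icRs a π) j i y]
  exact ics_Ex ha π k fun z => icM 1 (icRs a π) k z * icE 1 (icRs a π) k j (fun y => icM 1 (icRs a π) j y * icQ 1 (icRs a π) j i y) z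

theorem ics_Gam {a : ℝ} (ha : 0 < a) (π : List (ℝ × ℝ)) (r i l : ℕ) : icGam a π r i l = icGam 1 (icRs a π) r i l := by
  unfold icGam
  rw [ics_Q ha, ics_Q ha, ics_M ha]
  congr 1
  exact ics_Ex ha π r fun z => (icQ 1 (icRs a π) r i z - icM 1 (icRs a π) r z ^ 2) * (icQ 1 (icRs a π) r l z - icM 1 (icRs a π) r z ^ 2)

theorem ics_Bet0 {a : ℝ} (ha : 0 < a) (π : List (ℝ × ℝ)) (r t j : ℕ) : icBet0 a π r t j = icBet0 1 (icRs a π) r t j := by
  unfold icBet0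
  simp only [ics_A ha, ics_q ha, ics_Cat ha]

theorem ics_Bet {a : ℝ} (ha : 0 < a) (π : List (ℝ × ℝ)) (r t j : ℕ) : icBet a π r t j = icBet 1 (icRs a π) r t j := by
  unfold icBet
  rw [ics_Bet0 ha]

theorem ics_Bk {a : ℝ} (ha : 0 < a) (π : List (ℝ × ℝ)) (k r t : ℕ) : icBk a π k r t = icBk 1 (icRs a π) k r t := by
  unfold icBk
  simp only [ics_Bet ha]

theorem ics_C {a : ℝ} (ha : 0 < a) (π : List (ℝ × ℝ)) (r i l : ℕ) : icC a π r i l = icC 1 (icRs a π) r i l := by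
  unfold icC
  simp only [ics_Gam ha]

/-! ## 5. homogeneous numbers -/

theorem ics_Ms {a : ℝ} (ha : 0 < a) (π : List (ℝ × ℝ)) (j : ℕ) : icMs a π j = a * icMs 1 (icRs a π) j := by
  unfold icMs icRs
  rw [List.getElem?_map]
  cases π[j]? with
  | none => simp
  | some p =>
    simp only [Option.map_some, Option.getD_some]
    field_simp

theorem ics_Vr (a : ℝ) (π : List (ℝ × ℝ)) (j : ℕ) : icVr (icRs a π) j = a ^ 2 * icVr π j := by
  unfold icVr icRs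
  rw [List.getElem?_map]
  cases π[j]? with
  | none => simp
  | some p => simp

theorem ics_P {a : ℝ} (ha : 0 < a) (π : List (ℝ × ℝ)) (j : ℕ) : icP a π j = a * icP 1 (icRs a π) j := by
  unfold icP
  split_ifs
  · simp
  · exact ics_Ms ha π _

theorem ics_Rho (a : ℝ) (π : List (ℝ × ℝ)) (k : ℕ) : icRho (icRs a π) k = a ^ 2 * icRho π k := by
  unfold icRho
  split_ifs
  · simp
  · exact ics_Vr a π _

theorem ics_K (a : ℝ) (π : List (ℝ × ℝ)) (k : ℕ) : icK (icRs a π) k = a ^ 2 * icK π k := by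
  unfold icK
  rw [Finset.mul_sum]
  exact Finset.sum_congr rfl fun i _ => ics_Vr a π i

theorem ics_BB {a : ℝ} (ha : 0 < a) (π : List (ℝ × ℝ)) (k r t : ℕ) : icBB a π k r t = a * icBB 1 (icRs a π) k r t := by
  unfold icBB
  rw [ics_length, Finset.mul_sum]
  refine Finset.sum_congr rfl fun k' _ => ?_
  rw [ics_P ha, ics_Bk ha]
  ring

theorem ics_G {a : ℝ} (ha : 0 < a) (π : List (ℝ × ℝ)) (r i l : ℕ) : icG a π r i l = a ^ 2 * icG 1 (icRs a π) r i l := by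
  unfold icG
  rw [ics_length, Finset.mul_sum]
  refine Finset.sum_congr rfl fun i' _ => ?_
  rw [Finset.mul_sum]
  refine Finset.sum_congr rfl fun l' _ => ?_
  rw [ics_P ha π i', ics_P ha π l', ics_C ha]
  ring

theorem ics_Gk {a : ℝ} (ha : 0 < a) (π : List (ℝ × ℝ)) (k r : ℕ) : icGk a π k r = a ^ 2 * icGk 1 (icRs a π) k r := by
  unfold icGk
  exact ics_G ha π _ _ _

/-- `E χ_r²` -/
theorem ics_X2 {a : ℝ} (ha : 0 < a) (π : List (ℝ × ℝ)) (r : ℕ) :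
    icEx a π r (fun z => icX a π r z ^ 2) = a ^ 2 * icEx 1 (icRs a π) r fun z => icX 1 (icRs a π) r z ^ 2 := by
  rw [ics_X ha, ← ics_Ex ha π r fun z => icX 1 (icRs a π) r z ^ 2]
  have e : (fun z => (a * icX 1 (icRs a π) r (a * z)) ^ 2) = fun z => a ^ 2 * icX 1 (icRs a π) r (a * z) ^ 2 := by
    funext z; ring
  unfold icEx
  rw [e, ic_E_const_mul]

/-! ## 6. admissibility -/

theorem ics_adm {a : ℝ} {π : List (ℝ × ℝ)} (h : IcAdm a π) : IcAdm 1 (icRs a π) := by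
  have ha := h.pos
  refine ⟨one_pos, ?_, ?_⟩
  · intro p hp
    unfold icRs at hp
    rw [List.mem_map] at hp
    obtain ⟨q, hq, rfl⟩ := hp
    obtain ⟨h1, h2, h3⟩ := h.adm q hq
    exact ⟨div_nonneg h1 ha.le, (div_le_one ha).2 h2, by positivity⟩
  · unfold ScInc icRs
    rw [List.pairwise_map]
    exact h.inc.imp fun {p q} hpq => div_le_div_of_nonneg_right hpq ha.le

/-- the bounds of SCB at an arbitrary terminal mass: the rescaled chain carries the package -/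
theorem ics_scb : ∃ β0 : ℝ, 1 ≤ β0 ∧ ∀ (a : ℝ) (π : List (ℝ × ℝ)), IcAdm a π →
    IcScb (β0 * (1 + a ^ 2 * icK π π.length) ^ 2) 1 (icRs a π) := by
  obtain ⟨β0, h0, H⟩ := ic_scb
  refine ⟨β0, h0, fun a π h => ?_⟩
  have := H 1 (icRs a π) (ics_adm h) le_rfl
  rwa [ics_length, ics_K] at this

/-! ## 7. tree side: homogeneity of the attachment sums in the masses -/

theorem ics_trPm (c : ℝ) (ms : ℕ → ℝ) (j : ℕ) : trPm (fun i => c * ms i) j = c * trPm ms j := by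
  unfold trPm
  split_ifs <;> simp

theorem ics_trWt (c : ℝ) (ms : ℕ → ℝ) (N q : ℕ) (τ : ℕ → ℕ → ℕ) (x j : ℕ) :
    trWt (fun i => c * ms i) N q τ x j = c * trWt ms N q τ x j := by
  unfold trWt
  rw [ics_trPm]
  split_ifs <;> ring

theorem ics_trSum (c : ℝ) (ms : ℕ → ℝ) (N q : ℕ) (τ : ℕ → ℕ → ℕ) (Φ : (ℕ → ℕ → ℕ) → ℝ) :
    trSum (fun i => c * ms i) N q τ Φ = c * trSum ms N q τ Φ := by
  unfold trSum
  rw [Finset.mul_sum]
  refine Finset.sum_congr rfl fun x _ => ?_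
  rw [Finset.mul_sum]
  refine Finset.sum_congr rfl fun j _ => ?_
  rw [ics_trWt]; ring

theorem ics_trAbs (c : ℝ) (ms : ℕ → ℝ) (N q : ℕ) (τ : ℕ → ℕ → ℕ) (Φ : (ℕ → ℕ → ℕ) → ℝ) :
    trAbs (fun i => c * ms i) N q τ Φ = |c| * trAbs ms N q τ Φ := by
  unfold trAbs
  rw [Finset.mul_sum]
  refine Finset.sum_congr rfl fun x _ => ?_
  rw [Finset.mul_sum]
  refine Finset.sum_congr rfl fun j _ => ?_
  rw [ics_trWt, abs_mul]; ring

theorem ics_trSum_const_mul (ms : ℕ → ℝ) (N q : ℕ) (τ : ℕ → ℕ → ℕ) (c : ℝ) (Φ : (ℕ → ℕ → ℕ) → ℝ) :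
    trSum ms N q τ (fun τ' => c * Φ τ') = c * trSum ms N q τ Φ := by
  unfold trSum
  rw [Finset.mul_sum]
  refine Finset.sum_congr rfl fun x _ => ?_
  rw [Finset.mul_sum]
  exact Finset.sum_congr rfl fun j _ => by ring

theorem ics_trAbs_const_mul (ms : ℕ → ℝ) (N q : ℕ) (τ : ℕ → ℕ → ℕ) (c : ℝ) (Φ : (ℕ → ℕ → ℕ) → ℝ) :
    trAbs ms N q τ (fun τ' => c * Φ τ') = c * trAbs ms N q τ Φ := by
  unfold trAbs
  rw [Finset.mul_sum]
  refine Finset.sum_congr rfl fun x _ => ?_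
  rw [Finset.mul_sum]
  exact Finset.sum_congr rfl fun j _ => by ring

theorem ics_trSumK_const_mul (ms : ℕ → ℝ) (N : ℕ) (c : ℝ) : ∀ (k q : ℕ) (τ : ℕ → ℕ → ℕ) (Φ : (ℕ → ℕ → ℕ) → ℝ),
    trSumK ms N k q τ (fun τ' => c * Φ τ') = c * trSumK ms N k q τ Φ := by
  intro k
  induction k with
  | zero => intro q τ Φ; rfl
  | succ k ih =>
    intro q τ Φ
    show trSum ms N q τ (fun τ' => trSumK ms N k (q + 1) τ' fun τ'' => c * Φ τ'') = c * trSum ms N q τ fun τ' => trSumK ms N k (q + 1) τ' Φ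
    rw [← ics_trSum_const_mul]
    congr 1
    funext τ'
    exact ih (q + 1) τ' Φ

theorem ics_trAbsK_const_mul (ms : ℕ → ℝ) (N : ℕ) (c : ℝ) : ∀ (k q : ℕ) (τ : ℕ → ℕ → ℕ) (Φ : (ℕ → ℕ → ℕ) → ℝ),
    trAbsK ms N k q τ (fun τ' => c * Φ τ') = c * trAbsK ms N k q τ Φ := by
  intro k
  induction k with
  | zero => intro q τ Φ; rfl
  | succ k ih =>
    intro q τ Φ
    show trAbs ms N q τ (fun τ' => trAbsK ms N k (q + 1) τ' fun τ'' => c * Φ τ'') = c * trAbs ms N q τ fun τ' => trAbsK ms N k (q + 1) τ' Φ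
    rw [← ics_trAbs_const_mul]
    congr 1
    funext τ'
    exact ih (q + 1) τ' Φ

/-- `k` signed attachments are homogeneous of degree `k` in the masses -/
theorem ics_trSumK (c : ℝ) (ms : ℕ → ℝ) (N : ℕ) : ∀ (k q : ℕ) (τ : ℕ → ℕ → ℕ) (Φ : (ℕ → ℕ → ℕ) → ℝ),
    trSumK (fun i => c * ms i) N k q τ Φ = c ^ k * trSumK ms N k q τ Φ := by
  intro k
  induction k with
  | zero => intro q τ Φ; simp [trSumK]
  | succ k ih =>
    intro q τ Φ
    show trSum (fun i => c * ms i) N q τ (fun τ' => trSumK (fun i => c * ms i) N k (q + 1) τ' Φ)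
      = c ^ (k + 1) * trSum ms N q τ fun τ' => trSumK ms N k (q + 1) τ' Φ
    rw [ics_trSum, funext fun τ' => ih (q + 1) τ' Φ, ics_trSum_const_mul]
    ring

theorem ics_trAbsK (c : ℝ) (ms : ℕ → ℝ) (N : ℕ) : ∀ (k q : ℕ) (τ : ℕ → ℕ → ℕ) (Φ : (ℕ → ℕ → ℕ) → ℝ),
    trAbsK (fun i => c * ms i) N k q τ Φ = |c| ^ k * trAbsK ms N k q τ Φ := by
  intro k
  induction k with
  | zero => intro q τ Φ; simp [trAbsK]
  | succ k ih =>
    intro q τ Φ
    show trAbs (fun i => c * ms i) N q τ (fun τ' => trAbsK (fun i => c * ms i) N k (q + 1) τ' Φ)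
      = |c| ^ (k + 1) * trAbs ms N q τ fun τ' => trAbsK ms N k (q + 1) τ' Φ
    rw [ics_trAbs, funext fun τ' => ih (q + 1) τ' Φ, ics_trAbs_const_mul]
    ring

/-! ## 8. tree side: continuity of the attachment sums in the masses (unit LIM) -/

section lim
variable {ι : Type} {l : Filter ι} {msn : ι → ℕ → ℝ} {ms : ℕ → ℝ}

theorem ics_lim_trPm (h : ∀ j, Tendsto (fun i => msn i j) l (𝓝 (ms j))) (j : ℕ) :
    Tendsto (fun i => trPm (msn i) j) l (𝓝 (trPm ms j)) := by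
  unfold trPm
  split_ifs
  · exact tendsto_const_nhds
  · exact h _

theorem ics_lim_trWt (h : ∀ j, Tendsto (fun i => msn i j) l (𝓝 (ms j))) (N q : ℕ) (τ : ℕ → ℕ → ℕ) (x j : ℕ) :
    Tendsto (fun i => trWt (msn i) N q τ x j) l (𝓝 (trWt ms N q τ x j)) := by
  unfold trWt
  split_ifs
  · exact h _
  · exact (ics_lim_trPm h j).sub ((h j).const_mul _)
  · exact tendsto_const_nhds

theorem ics_lim_trSum (h : ∀ j, Tendsto (fun i => msn i j) l (𝓝 (ms j))) (N q : ℕ) (τ : ℕ → ℕ → ℕ)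
    {Φn : ι → (ℕ → ℕ → ℕ) → ℝ} {Φ : (ℕ → ℕ → ℕ) → ℝ} (hΦ : ∀ τ', Tendsto (fun i => Φn i τ') l (𝓝 (Φ τ'))) :
    Tendsto (fun i => trSum (msn i) N q τ (Φn i)) l (𝓝 (trSum ms N q τ Φ)) := by
  unfold trSum
  exact tendsto_finsetSum _ fun x _ => tendsto_finsetSum _ fun j _ => (ics_lim_trWt h N q τ x j).mul (hΦ _)

theorem ics_lim_trAbs (h : ∀ j, Tendsto (fun i => msn i j) l (𝓝 (ms j))) (N q : ℕ) (τ : ℕ → ℕ → ℕ)
    {Φn : ι → (ℕ → ℕ → ℕ) → ℝ} {Φ : (ℕ → ℕ → ℕ) → ℝ} (hΦ : ∀ τ', Tendsto (fun i => Φn i τ') l (𝓝 (Φ τ'))) :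
    Tendsto (fun i => trAbs (msn i) N q τ (Φn i)) l (𝓝 (trAbs ms N q τ Φ)) := by
  unfold trAbs
  exact tendsto_finsetSum _ fun x _ => tendsto_finsetSum _ fun j _ => (ics_lim_trWt h N q τ x j).abs.mul (hΦ _)

/-- the signed attachment sums are continuous in (masses, summand) -/
theorem ics_lim_trSumK (h : ∀ j, Tendsto (fun i => msn i j) l (𝓝 (ms j))) (N : ℕ) : ∀ (k q : ℕ) (τ : ℕ → ℕ → ℕ)
    {Φn : ι → (ℕ → ℕ → ℕ) → ℝ} {Φ : (ℕ → ℕ → ℕ) → ℝ}, (∀ τ', Tendsto (fun i => Φn i τ') l (𝓝 (Φ τ'))) →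
    Tendsto (fun i => trSumK (msn i) N k q τ (Φn i)) l (𝓝 (trSumK ms N k q τ Φ)) := by
  intro k
  induction k with
  | zero => intro q τ Φn Φ hΦ; exact hΦ τ
  | succ k ih => intro q τ Φn Φ hΦ; exact ics_lim_trSum h N q τ fun τ' => ih (q + 1) τ' hΦ

theorem ics_lim_trAbsK (h : ∀ j, Tendsto (fun i => msn i j) l (𝓝 (ms j))) (N : ℕ) : ∀ (k q : ℕ) (τ : ℕ → ℕ → ℕ)
    {Φn : ι → (ℕ → ℕ → ℕ) → ℝ} {Φ : (ℕ → ℕ → ℕ) → ℝ}, (∀ τ', Tendsto (fun i => Φn i τ') l (𝓝 (Φ τ'))) →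
    Tendsto (fun i => trAbsK (msn i) N k q τ (Φn i)) l (𝓝 (trAbsK ms N k q τ Φ)) := by
  intro k
  induction k with
  | zero => intro q τ Φn Φ hΦ; exact hΦ τ
  | succ k ih => intro q τ Φn Φ hΦ; exact ics_lim_trAbs h N q τ fun τ' => ih (q + 1) τ' hΦ

end lim

/-- the perturbed masses `max (ms j) ε → ms j` (`ε ↓ 0`, `ms ≥ 0`) -/
theorem ics_lim_max {ms : ℕ → ℝ} (h0 : ∀ j, 0 ≤ ms j) (j : ℕ) :
    Tendsto (fun ε : ℝ => max (ms j) ε) (𝓝[>] 0) (𝓝 (ms j)) := by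
  have h1 : Tendsto (fun ε : ℝ => max (ms j) ε) (𝓝 0) (𝓝 (max (ms j) 0)) :=
    (continuous_const.max continuous_id).tendsto 0
  rw [max_eq_left (h0 j)] at h1
  exact h1.mono_left nhdsWithin_le_nhds

end Claimed.Agent.R286
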