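import Claimed.Agent.R286.Inv.PairDefs
import Claimed.Agent.R286.Inv.BrgTau
import Claimed.Agent.R286.Inv.Opk
import Claimed.Agent.R286.Inv.KerAlg
import Claimed.Agent.R286.Inv.Ker
import Claimed.Agent.R286.Inv.Scale

/-!
# Row 286 (S0533), LL Section 5: PROOF OF THE EXIT `exit_pair_long` ((H2) at `k = 0`, post kernel bound) + the `pkX2` bridge      (owner helper20; prefix `pkl`)

TEX[LL:inv:sector-response]   source: LL 05-inverse.tex l.215-260 (Lemma 5.2), l.459-585.      0 sorry.      `Exit/PairLong.lean` cites `pkl_exit`.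
ROUTE  (`N = P.length`, `π = pkPi P`, pair `ab = (q0, q0+1)`, fresh labels `cd = (q0+2, q0+3)`):
1. `pkl_pkM`    `pkM` on a sheet function `= trSumK (llMs a P) N 2 (q0+2) τ (pklS ..)`, kernel (W) with the tables `icC`, `icBk`      (`ick_Mker` of helper19, `iw_phi`, `iw_gam` of helper79);
2. `pkl_sheet`  for ARBITRARY tables `γ, ψ` and ARBITRARY masses `ms ≥ 0` (any terminal mass, zero and equal masses):
                `trSumK ms N 2 (q0+2) τ (pklS N γ ψ q0 f) = ĝ(r,r+1,r+1) f_r - ∑_t ψ̂(r,t,0) 2 (p_(t+1) - p_t) f_t`,   `p = trPm ms`.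
                Positive masses with `ms N = 1` (`pkl_sheet_pos`): `vc_SS_eq_trSumK`, `vc_tau_real` (helper177), relabelling `v ↦ q0 + v` (`vc_S_rel`), `vc_opk`, `vc_ops_sheet` (`Inv/Opk`).
                Any terminal mass: both sides are homogeneous of degree 2 in the masses (`pkl_sumK_smul`, `pkl_R_smul`).   Zero masses: both sides are continuous in `ε ↦ ms + ε`
                (`pkl_sumK_cont`, `pkl_R_cont`), THE TABLES ARE FROZEN.      These four lemmas are what unit LIM needs on the side of the signed sums.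
3. `pkl_X2`     `pkX2 a P t = scM2 (scLC a) π (llCumK P t) = icEx a π t (icX a π t ^ 2)`      (`slk_Vt_take`, `slk_Pt_take` of helper102);   `ic_G_top` (helper13): `= icG a π t (t+1) (t+1)`;
4. `pkl_B_le`   `B r t = 2 icBB a π 0 r t`,   `|B r t| ≤ 4 C Λ^6 K_min(r,t)`      (`ic_BB_min` of helper297 at the terminal mass `1`, `ics_BB`, `ics_K`, `ics_adm` of `Inv/Scale`).
-/

set_option autoImplicit false

namespace Claimed.Agent.R286

open Finset

/-! ## 1. the signed sums as functions of the masses: homogeneity, continuity -/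

theorem pkl_pm_smul (c : ℝ) (ms : ℕ → ℝ) (j : ℕ) : trPm (fun i => c * ms i) j = c * trPm ms j := by
  unfold trPm
  split_ifs <;> simp

theorem pkl_wt_smul (c : ℝ) (ms : ℕ → ℝ) (N q : ℕ) (τ : ℕ → ℕ → ℕ) (x j : ℕ) :
    trWt (fun i => c * ms i) N q τ x j = c * trWt ms N q τ x j := by
  unfold trWt
  rw [pkl_pm_smul]
  split_ifs <;> ring

theorem pkl_sumK_smul (c : ℝ) (ms : ℕ → ℝ) (N : ℕ) (k : ℕ) : ∀ (q : ℕ) (τ : ℕ → ℕ → ℕ) (Φ : (ℕ → ℕ → ℕ) → ℝ),
    trSumK (fun i => c * ms i) N k q τ Φ = c ^ k * trSumK ms N k q τ Φ := by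
  induction k with
  | zero => intro q τ Φ; simp [trSumK]
  | succ k ih =>
    intro q τ Φ
    rw [trSumK, trSumK]
    unfold trSum
    rw [Finset.mul_sum]
    refine Finset.sum_congr rfl fun x _ => ?_
    rw [Finset.mul_sum]
    refine Finset.sum_congr rfl fun j _ => ?_
    rw [pkl_wt_smul]
    dsimp only
    rw [ih]
    ring

theorem pkl_pm_cont (ms : ℕ → ℝ) (j : ℕ) : Continuous fun ε : ℝ => trPm (fun i => ms i + ε) j := by
  unfold trPm
  split_ifs
  · exact continuous_const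
  · exact continuous_const.add continuous_id

theorem pkl_wt_cont (ms : ℕ → ℝ) (N q : ℕ) (τ : ℕ → ℕ → ℕ) (x j : ℕ) :
    Continuous fun ε : ℝ => trWt (fun i => ms i + ε) N q τ x j := by
  unfold trWt
  split_ifs
  · exact continuous_const.add continuous_id
  · exact (pkl_pm_cont ms j).sub (continuous_const.mul (continuous_const.add continuous_id))
  · exact continuous_const

theorem pkl_sumK_cont (ms : ℕ → ℝ) (N : ℕ) (k : ℕ) : ∀ (q : ℕ) (τ : ℕ → ℕ → ℕ) (Φ : (ℕ → ℕ → ℕ) → ℝ),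
    Continuous fun ε : ℝ => trSumK (fun i => ms i + ε) N k q τ Φ := by
  induction k with
  | zero => intro q τ Φ; simp only [trSumK]; exact continuous_const
  | succ k ih =>
    intro q τ Φ
    simp only [trSumK]
    unfold trSum
    exact continuous_finsetSum _ fun x _ => continuous_finsetSum _ fun j _ => (pkl_wt_cont ms N q τ x j).mul (ih _ _ _)

/-! ## 2. (H2) at `k = 0` for ARBITRARY tables and positive masses: from the virtual calculus -/

/-- the kernel (W) for arbitrary tables, as a function of the tree: the pair is `(q0, q0+1)`, the fresh labels are `(q0+2, q0+3)` -/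
def pklW (γ ψ : ℕ → ℕ → ℕ → ℝ) (q0 : ℕ) (τ : ℕ → ℕ → ℕ) : ℝ :=
  vcGam γ (τ q0 (q0 + 1)) (τ (q0 + 2) q0) (τ (q0 + 3) (q0 + 1)) + vcGam γ (τ q0 (q0 + 1)) (τ (q0 + 3) q0) (τ (q0 + 2) (q0 + 1))
    + vcPhi ψ (τ q0 (q0 + 1)) (τ (q0 + 2) (q0 + 3)) (τ (q0 + 2) q0) + vcPhi ψ (τ q0 (q0 + 1)) (τ (q0 + 2) (q0 + 3)) (τ (q0 + 2) (q0 + 1))
    + vcPhi ψ (τ q0 (q0 + 1)) (τ (q0 + 2) (q0 + 3)) (τ (q0 + 3) q0) + vcPhi ψ (τ q0 (q0 + 1)) (τ (q0 + 2) (q0 + 3)) (τ (q0 + 3) (q0 + 1))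

/-- the summand of the linear cavity sum on a sheet function -/
noncomputable def pklS (N : ℕ) (γ ψ : ℕ → ℕ → ℕ → ℝ) (q0 : ℕ) (f : ℕ → ℝ) (τ : ℕ → ℕ → ℕ) : ℝ :=
  (if τ (q0 + 2) (q0 + 3) ≤ N then 1 else 0) * (2⁻¹ * pklW γ ψ q0 τ) * f (τ (q0 + 2) (q0 + 3))

/-- the right side of (H2) at `k = 0`, weights `p`, tables `γ, ψ` -/
noncomputable def pklR (p : ℕ → ℝ) (N : ℕ) (γ ψ : ℕ → ℕ → ℕ → ℝ) (f : ℕ → ℝ) (r : ℕ) : ℝ :=
  vcHatG p N γ r (r + 1) (r + 1) * f r - ∑ t ∈ Icc 0 N, vcHatP p N ψ r t 0 * vcMu p 0 t * f t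

theorem pkl_S_loc (N : ℕ) (γ ψ : ℕ → ℕ → ℕ → ℝ) (q0 : ℕ) (f : ℕ → ℝ) : TrLoc (q0 + 2 + 2) (pklS N γ ψ q0 f) := by
  intro τ₁ τ₂ h
  unfold pklS pklW
  rw [h q0 (q0 + 1) (by omega) (by omega), h (q0 + 2) q0 (by omega) (by omega), h (q0 + 3) (q0 + 1) (by omega) (by omega),
    h (q0 + 3) q0 (by omega) (by omega), h (q0 + 2) (q0 + 1) (by omega) (by omega), h (q0 + 2) (q0 + 3) (by omega) (by omega)]

theorem pkl_lev_indL (R : ℕ) (f : ℕ → ℝ) {c : ℕ} (hc : 2 ≤ c) : VcIndL c (fun y => f (vcLev R y 0 1)) := by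
  intro j y v
  show f _ = f _
  rw [vc_opk_lev_congr (x := y)
    (fun j' => Function.update_of_ne (fun e => by have := congrArg Prod.fst e; simp at this; omega) _ _)
    (fun j' => Function.update_of_ne (fun e => by have := congrArg Prod.fst e; simp at this; omega) _ _)]

theorem pkl_sheet_pos {N q0 : ℕ} {ms : ℕ → ℝ} (hpos : ∀ j, j ≤ N → 0 < ms j) (htop : ms N = 1) (γ ψ : ℕ → ℕ → ℕ → ℝ) (f : ℕ → ℝ)
    {τ : ℕ → ℕ → ℕ} (hτ : IsTr N (q0 + 2) τ) (hr : τ q0 (q0 + 1) ≤ N) :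
    trSumK ms N 2 (q0 + 2) τ (pklS N γ ψ q0 f) = pklR (trPm ms) N γ ψ f (τ q0 (q0 + 1)) := by
  obtain ⟨x, hx⟩ := vc_tau_real hτ
  have hloc := pkl_S_loc N γ ψ q0 f
  rw [← tr_sumK_tree_congr hx 2 _ hloc, ← vc_SS_eq_trSumK (by omega) hpos htop hloc x]
  set e : ℕ → ℕ := fun v => q0 + v with he_def
  have he : Function.Injective e := fun u v h => by simpa [e] using h
  set w : VcX → ℝ := fun y => f (vcLev N y 0 1) with hw_def
  set G : VcX → ℝ := fun y => (1 / 2) * vcKerW N γ ψ 2 3 y * (if vcLev N y 2 3 ∈ Icc 0 N then 1 else 0) * w (vcPut 2 3 y) with hG_def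
  have e1 : (fun x' => pklS N γ ψ q0 f (vcTau N x')) = fun x' => G (vcRel e x') := by
    funext x'
    have hput : w (vcPut 2 3 (vcRel e x')) = f (vcLev N x' (q0 + 2) (q0 + 3)) := by
      show f (vcLev N (vcPut 2 3 (vcRel e x')) 0 1) = _
      rw [vc_opk_lev_put (by norm_num) (by norm_num) (by norm_num), vc_lev_rel]
    rw [hG_def]
    dsimp only
    rw [hput]
    unfold pklS pklW vcKerW vcTau
    simp only [vc_lev_rel, he_def, Nat.add_zero, Finset.mem_Icc, Nat.zero_le, true_and]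
    ring
  rw [e1]
  have e2 := vc_S_rel (trPm ms) N G e he 3 0
  have e3 := vc_S_rel (trPm ms) N (vcS (trPm ms) N 3 0 G) e he 2 0
  have e4 : vcS (trPm ms) N (q0 + 2) 0 (vcS (trPm ms) N (q0 + 2 + 1) 0 fun x' => G (vcRel e x')) x
      = vcS (trPm ms) N 2 0 (vcS (trPm ms) N 3 0 G) (vcRel e x) := by
    have : vcS (trPm ms) N (q0 + 2 + 1) 0 (fun x' => G (vcRel e x')) = fun x => vcS (trPm ms) N 3 0 G (vcRel e x) := e2
    rw [this]
    exact congrFun e3 x
  rw [e4]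
  have hl : vcLev N (vcRel e x) 0 1 = τ q0 (q0 + 1) := by
    rw [vc_lev_rel]
    exact hx q0 (q0 + 1) (by omega) (by omega)
  have hp : ∀ k, 1 ≤ k → k ≤ N + 1 → trPm ms k ≠ 0 := by
    intro k h1 h2
    unfold trPm
    rw [if_neg (by omega)]
    exact (hpos (k - 1) (by omega)).ne'
  have htop' : trPm ms (N + 1) = 1 := by
    unfold trPm
    rw [if_neg (by omega), Nat.add_sub_cancel, htop]
  have hsym : ∀ y, w (vcSw y) = w y := by
    intro y
    show f (vcLev N (vcSw y) 0 1) = f (vcLev N y 0 1)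
    unfold vcSw
    rw [vc_lev_rel, Equiv.swap_apply_left, Equiv.swap_apply_right, vc_lev_symm]
  have key := vc_opk (p := trPm ms) (R := N) (w := w) (c := 2) (d := 3) (r0 := 0) γ ψ (vc_A_lev N 0 1 f) hsym (by norm_num) (by norm_num)
    (by norm_num) (pkl_lev_indL N f (by norm_num)) (pkl_lev_indL N f (by norm_num)) (vcRel e x)
    (by rw [hl]; exact Finset.mem_Icc.2 ⟨Nat.zero_le _, hr⟩)
  have key2 := vc_ops_sheet hp htop' 0 γ ψ f (vcRel e x)
  rw [hl] at key2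
  unfold pklR
  rw [← key2, ← key]
  rfl

/-! ## 3. the same for ALL nonnegative masses (any terminal mass, zero masses): homogeneity + continuity, the tables are FROZEN -/

theorem pkl_hatG_smul (c : ℝ) (p : ℕ → ℝ) (N : ℕ) (γ : ℕ → ℕ → ℕ → ℝ) (r i l : ℕ) :
    vcHatG (fun j => c * p j) N γ r i l = c ^ 2 * vcHatG p N γ r i l := by
  unfold vcHatG
  rw [Finset.mul_sum]
  refine Finset.sum_congr rfl fun j _ => ?_
  rw [Finset.mul_sum]
  exact Finset.sum_congr rfl fun j' _ => by ring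

theorem pkl_hatP_smul (c : ℝ) (p : ℕ → ℝ) (N : ℕ) (ψ : ℕ → ℕ → ℕ → ℝ) (r t k : ℕ) :
    vcHatP (fun j => c * p j) N ψ r t k = c * vcHatP p N ψ r t k := by
  unfold vcHatP
  rw [Finset.mul_sum]
  exact Finset.sum_congr rfl fun j _ => by ring

theorem pkl_mu_zero (p : ℕ → ℝ) (t : ℕ) : vcMu p 0 t = 2 * (p (t + 1) - p t) := by
  unfold vcMu
  rw [if_pos (Nat.zero_le _), if_pos (Nat.zero_le _)]
  ring

theorem pkl_R_smul (c : ℝ) (p : ℕ → ℝ) (N : ℕ) (γ ψ : ℕ → ℕ → ℕ → ℝ) (f : ℕ → ℝ) (r : ℕ) :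
    pklR (fun j => c * p j) N γ ψ f r = c ^ 2 * pklR p N γ ψ f r := by
  unfold pklR
  rw [pkl_hatG_smul, mul_sub, Finset.mul_sum]
  congr 1
  · ring
  · refine Finset.sum_congr rfl fun t _ => ?_
    rw [pkl_hatP_smul, pkl_mu_zero, pkl_mu_zero]
    ring

theorem pkl_R_cont (ms : ℕ → ℝ) (N : ℕ) (γ ψ : ℕ → ℕ → ℕ → ℝ) (f : ℕ → ℝ) (r : ℕ) :
    Continuous fun ε : ℝ => pklR (trPm fun i => ms i + ε) N γ ψ f r := by
  have hp := pkl_pm_cont ms
  unfold pklR vcHatG vcHatP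
  simp only [pkl_mu_zero]
  refine Continuous.sub (Continuous.mul ?_ continuous_const) ?_
  · exact continuous_finsetSum _ fun j _ => continuous_finsetSum _ fun j' _ => ((hp j).mul (hp j')).mul continuous_const
  · refine continuous_finsetSum _ fun t _ => Continuous.mul (Continuous.mul ?_ ?_) continuous_const
    · exact continuous_finsetSum _ fun s _ => (hp s).mul continuous_const
    · exact continuous_const.mul ((hp (t + 1)).sub (hp t))

/-- positive masses, any terminal mass -/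
theorem pkl_sheet_pos' {N q0 : ℕ} {ms : ℕ → ℝ} (hpos : ∀ j, j ≤ N → 0 < ms j) (γ ψ : ℕ → ℕ → ℕ → ℝ) (f : ℕ → ℝ)
    {τ : ℕ → ℕ → ℕ} (hτ : IsTr N (q0 + 2) τ) (hr : τ q0 (q0 + 1) ≤ N) :
    trSumK ms N 2 (q0 + 2) τ (pklS N γ ψ q0 f) = pklR (trPm ms) N γ ψ f (τ q0 (q0 + 1)) := by
  obtain ⟨c, hc⟩ : ∃ c, c = ms N := ⟨_, rfl⟩
  have hc0 : 0 < c := hc ▸ hpos N le_rfl
  have e : ms = fun i => c * (c⁻¹ * ms i) := by
    funext i
    field_simp
  have e2 : trPm (fun i => c * (c⁻¹ * ms i)) = fun j => c * trPm (fun i => c⁻¹ * ms i) j := funext (pkl_pm_smul c _)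
  rw [e, pkl_sumK_smul, e2, pkl_R_smul,
    pkl_sheet_pos (ms := fun i => c⁻¹ * ms i) (fun j hj => mul_pos (inv_pos.2 hc0) (hpos j hj))
      (by show c⁻¹ * ms N = 1; rw [← hc]; exact inv_mul_cancel₀ hc0.ne') γ ψ f hτ hr]

/-- **(H2) at `k = 0` for arbitrary tables and arbitrary nonnegative masses** -/
theorem pkl_sheet {N q0 : ℕ} {ms : ℕ → ℝ} (hms : ∀ j, j ≤ N → 0 ≤ ms j) (γ ψ : ℕ → ℕ → ℕ → ℝ) (f : ℕ → ℝ)
    {τ : ℕ → ℕ → ℕ} (hτ : IsTr N (q0 + 2) τ) (hr : τ q0 (q0 + 1) ≤ N) :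
    trSumK ms N 2 (q0 + 2) τ (pklS N γ ψ q0 f) = pklR (trPm ms) N γ ψ f (τ q0 (q0 + 1)) := by
  have hL := pkl_sumK_cont ms N 2 (q0 + 2) τ (pklS N γ ψ q0 f)
  have hR := pkl_R_cont ms N γ ψ f (τ q0 (q0 + 1))
  have hE : Set.EqOn (fun ε : ℝ => trSumK (fun i => ms i + ε) N 2 (q0 + 2) τ (pklS N γ ψ q0 f))
      (fun ε : ℝ => pklR (trPm fun i => ms i + ε) N γ ψ f (τ q0 (q0 + 1))) (Set.Ioi 0) := fun ε hε =>
    pkl_sheet_pos' (fun j hj => by have := hms j hj; have : 0 < ε := hε; linarith) γ ψ f hτ hr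
  have h0 : (0 : ℝ) ∈ closure (Set.Ioi (0 : ℝ)) := by rw [closure_Ioi]; exact Set.self_mem_Ici
  have := hE.closure hL hR h0
  simpa using this

/-! ## 4. dictionary  fine LL path  <->  scalar chain -/

theorem pkl_adm {a : ℝ} (ha : 0 < a) {P : LlStp} (hP : LlStpAdm a P) : IcAdm a (pkPi P) := by
  obtain ⟨h1, h2⟩ := hP.2
  refine ⟨ha, ?_, ?_⟩
  · intro p hp
    obtain ⟨e, he, rfl⟩ := List.mem_map.1 hp
    have := h2 ⟨e.m, 0, e.dK⟩ (List.mem_map.2 ⟨e, he, rfl⟩)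
    exact ⟨this.1, this.2.1, this.2.2.2⟩
  · unfold ScInc pkPi
    rw [List.pairwise_map]
    unfold llSc at h1
    rw [List.pairwise_map] at h1
    exact h1

theorem pkl_pm (a : ℝ) (P : LlStp) : trPm (llMs a P) = icP a (pkPi P) := by
  funext j
  unfold trPm icP llMs icMs pkPi
  simp
  rfl

theorem pkl_len (P : LlStp) (t : ℕ) : llCumK P t = scLen ((pkPi P).take t) := by
  unfold llCumK pkPi
  induction P generalizing t with
  | nil => simp [scLen]
  | cons e P ih =>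
    cases t with
    | zero => simp [scLen]
    | succ t => simp only [List.take_succ_cons, List.map_cons, List.sum_cons, scLen, ih t]

theorem pkl_K (P : LlStp) (t : ℕ) : llCumK P t = icK (pkPi P) t := by
  unfold llCumK icK icVr pkPi
  induction P generalizing t with
  | nil => simp
  | cons e P ih =>
    cases t with
    | zero => simp
    | succ t =>
      rw [Finset.sum_range_succ']
      simp only [List.take_succ_cons, List.map_cons, List.sum_cons, ih t, List.getElem?_cons_succ, List.getElem?_cons_zero,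
        Option.map_some, Option.getD_some]
      ring

/-- **the `pkX2` bridge**: `E χ_t²` of the exits (`scM2` at the cumulative reference clock) is `E χ_t²` of the scalar chain -/
theorem pkl_X2 {a : ℝ} (ha : 0 < a) {P : LlStp} (hP : LlStpAdm a P) (t : ℕ) :
    pkX2 a P t = icEx a (pkPi P) t fun z => icX a (pkPi P) t z ^ 2 := by
  have hpos : ScPos (pkPi P) := (pkl_adm ha hP).adm.pos
  unfold pkX2 scM2 scEx scD icEx icE icX icF
  rw [pkl_len, slk_Vt_take _ hpos, slk_Pt_take _ _ hpos, List.drop_zero]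
  rfl

/-! ## 5. the cavity sum on sheet functions -/

/-- the linear cavity sum on a sheet function = the signed sum of the kernel (W) with the tables of the scalar chain -/
theorem pkl_pkM (n : ℕ) {a : ℝ} (ha : 0 < a) {P : LlStp} (hP : LlStpAdm a P) (tl : Option ℕ) (q0 : ℕ) (f : ℕ → ℝ) {τ : JtTopo}
    (hτ : IsTr P.length (q0 + 2) τ) (hr : τ q0 (q0 + 1) ≤ P.length) :
    pkM (llJs n a P tl) q0 (fun τ' => f (τ' (q0 + 2) (q0 + 3))) τ
      = trSumK (llMs a P) P.length 2 (q0 + 2) τ (pklS P.length (icC a (pkPi P)) (fun r t s => icBk a (pkPi P) s r t) q0 f) := by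
  unfold pkM
  show trSumK (llMs a P) P.length 2 (q0 + 2) τ _ = _
  refine tr_sumK_congr hτ 2 _ _ fun τ' hτ' hag => ?_
  have hoff : (llJs n a P tl).off (q0 + 2) 1 τ' = if τ' (q0 + 2) (q0 + 3) ≤ P.length then 1 else 0 := by
    unfold JtCtx.off
    simp only [Finset.range_one, Finset.prod_singleton, jtC, jtD, Nat.mul_zero, Nat.add_zero]
    rfl
  rw [hoff]
  unfold pklS
  by_cases h : τ' (q0 + 2) (q0 + 3) ≤ P.length
  · have hr' : τ' q0 (q0 + 1) ≤ P.length := by rw [hag q0 (q0 + 1) (by omega) (by omega)]; exact hr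
    rw [ick_Mker n ha hP tl (r := q0 + 4) (q := q0 + 2) (i := q0) (j := q0 + 1) hτ' (by omega) (by omega) (by omega) hr' h]
    unfold pklW
    simp only [iw_phi, iw_gam]
  · rw [if_neg h, zero_mul, zero_mul, zero_mul, zero_mul]

/-- the kernel of the longitudinal identity -/
noncomputable def pklB (a : ℝ) (P : LlStp) (r t : ℕ) : ℝ := 2 * icBB a (pkPi P) 0 r t

theorem pkl_defs_eqns_cite : True := by
  have := @pklW.eq_1
  have := @pklS.eq_1
  have := @pklR.eq_1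
  have := @pklB.eq_1
  trivial

theorem pkl_B_symm (a : ℝ) (P : LlStp) (r t : ℕ) : pklB a P r t = pklB a P t r := by
  unfold pklB icBB
  congr 1
  exact Finset.sum_congr rfl fun k _ => by rw [ic_Bk_symm]

/-- **(H2) at `k = 0`**, exact identity -/
theorem pkl_long (n : ℕ) {a : ℝ} (ha : 0 < a) {P : LlStp} (hP : LlStpAdm a P) (tl : Option ℕ) (q0 : ℕ) (f : ℕ → ℝ) {τ : JtTopo}
    (hτ : IsTr P.length (q0 + 2) τ) (hr : τ q0 (q0 + 1) ≤ P.length) :
    pkM (llJs n a P tl) q0 (fun τ' => f (τ' (q0 + 2) (q0 + 3))) τ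
      = pkX2 a P (τ q0 (q0 + 1)) * f (τ q0 (q0 + 1))
        - ∑ t ∈ Finset.range (P.length + 1), pklB a P (τ q0 (q0 + 1)) t * (trPm (llMs a P) (t + 1) - trPm (llMs a P) t) * f t := by
  have hA := pkl_adm ha hP
  have hN : (pkPi P).length = P.length := ick_pi_length P
  have hms : ∀ j, j ≤ P.length → 0 ≤ llMs a P j := by
    intro j _
    have := ict_P_nonneg hA (j + 1)
    rw [← pkl_pm] at this
    simpa [trPm] using this
  rw [pkl_pkM n ha hP tl q0 f hτ hr, pkl_sheet hms _ _ f hτ hr, pkl_X2 ha hP, ← ic_G_top hA (by rw [hN]; exact hr)]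
  unfold pklR
  have hI0 : Icc 0 P.length = range (P.length + 1) := by
    ext j
    simp only [Finset.mem_Icc, Finset.mem_range]
    omega
  rw [hI0, pkl_pm]
  congr 1
  · congr 1
    unfold vcHatG icG
    rw [hN]
  · refine Finset.sum_congr rfl fun t _ => ?_
    rw [pkl_mu_zero]
    unfold pklB vcHatP icBB
    rw [hN]
    ring

/-- the post kernel bound gains the earlier time, any terminal mass -/
theorem pkl_B_le : ∃ C : ℝ, 0 < C ∧ ∀ (a : ℝ) (P : LlStp) (Λ : ℝ), 0 < a → LlStpAdm a P → 1 ≤ Λ → a ≤ Λ → llCumK P P.length ≤ Λ →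
    ∀ r t, r ≤ P.length → t ≤ P.length → |pklB a P r t| ≤ C * Λ ^ 6 * llCumK P (min r t) := by
  obtain ⟨C, hC, H⟩ := ic_BB_min
  refine ⟨4 * C, by linarith, fun a P Λ ha hP h1 h2 h3 r t hr ht => ?_⟩
  have hA := pkl_adm ha hP
  have hN : (pkPi P).length = P.length := ick_pi_length P
  have h := H 1 (icRs a (pkPi P)) (ics_adm hA) le_rfl r t (by rw [ics_length, hN]; exact hr) (by rw [ics_length, hN]; exact ht)
  rw [ics_K, ics_K, ics_length, hN, ← pkl_K, ← pkl_K] at h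
  have hK0 : 0 ≤ llCumK P (min r t) := by rw [pkl_K]; exact ic_K_nonneg hA _
  have hKN : 0 ≤ llCumK P P.length := by rw [pkl_K]; exact ic_K_nonneg hA _
  unfold pklB
  rw [ics_BB ha, abs_mul, abs_mul, abs_of_pos ha, abs_of_pos (by norm_num : (0:ℝ) < 2)]
  have e1 : a ^ 2 ≤ Λ ^ 2 := pow_le_pow_left₀ ha.le h2 2
  have e2 : 1 + a ^ 2 * llCumK P P.length ≤ 2 * Λ ^ 3 := by
    have : a ^ 2 * llCumK P P.length ≤ Λ ^ 2 * Λ := mul_le_mul e1 h3 hKN (by positivity)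
    have h4 : (1:ℝ) ≤ Λ ^ 3 := one_le_pow₀ h1
    nlinarith
  calc 2 * (a * |icBB 1 (icRs a (pkPi P)) 0 r t|)
      ≤ 2 * (a * (C * (1 + a ^ 2 * llCumK P P.length) * (a ^ 2 * llCumK P (min r t)))) := by gcongr
    _ = 2 * C * (a * a ^ 2) * (1 + a ^ 2 * llCumK P P.length) * llCumK P (min r t) := by ring
    _ ≤ 2 * C * (Λ * Λ ^ 2) * (2 * Λ ^ 3) * llCumK P (min r t) := by gcongr
    _ = 4 * C * Λ ^ 6 * llCumK P (min r t) := by ring

/-- **PROOF OF THE EXIT `exit_pair_long`** (statement verbatim) -/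
theorem pkl_exit : ∃ (C : ℝ) (k : ℕ), 0 < C ∧
    ∀ (n : ℕ) (a : ℝ) (P : LlStp) (tl : Option ℕ) (Λ : ℝ),
      0 < a → LlStpAdm a P → 1 ≤ Λ → a ≤ Λ → a⁻¹ ≤ Λ → llCumK P P.length ≤ Λ →
      ∃ B : ℕ → ℕ → ℝ, (∀ r t, B r t = B t r) ∧ (∀ r t, r ≤ P.length → t ≤ P.length → |B r t| ≤ C * Λ ^ k * llCumK P (min r t)) ∧
        ∀ (q0 : ℕ) (f : ℕ → ℝ) (τ : JtTopo), IsTr P.length (q0 + 2) τ → τ q0 (q0 + 1) ≤ P.length →
          pkM (llJs n a P tl) q0 (fun τ' => f (τ' (q0 + 2) (q0 + 3))) τ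
            = pkX2 a P (τ q0 (q0 + 1)) * f (τ q0 (q0 + 1))
              - ∑ t ∈ Finset.range (P.length + 1), B (τ q0 (q0 + 1)) t * (trPm (llMs a P) (t + 1) - trPm (llMs a P) t) * f t := by
  obtain ⟨C, hC, H⟩ := pkl_B_le
  exact ⟨C, 6, hC, fun n a P tl Λ ha hP h1 h2 _ h4 =>
    ⟨pklB a P, pkl_B_symm a P, H a P Λ ha hP h1 h2 h4, fun q0 f τ hτ hr => pkl_long n ha hP tl q0 f hτ hr⟩⟩

end Claimed.Agent.R286
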