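import Claimed.Agent.R286.Inv.Main
import Claimed.Agent.R286.Inv.Coef
import Claimed.Agent.R286.Inv.Scale
import Claimed.Agent.R286.Inv.Ker
import Claimed.Agent.R286.Inv.KerAlg
import Claimed.Agent.R286.Inv.Long

/-!
# Row 286 (S0533), LL Section 5 (pair inverse): THE UPPER GLUE      (OWNER helper177, head of package L04; section head helper84; prefix `pk_`, `PkCoreSt`)

TEX[LL:inv:pair-inverse]   From the abstract core `pk_core` of unit MAIN (helper84: positive weights, terminal weight `1`, ABSTRACT tables `dG, dP`, hypotheses `VcCoef0`) to `exit_pair_inv`.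
* `PkCoreSt`    the statement of unit MAIN, as a proposition (this file does not depend on its proof);      `PkKerSt`   the statement of the KER insertion (S6, helper19): `pkLA` at the scalar tables `= pkL (llJs ..)` on trees.
* `pk_core_H`   MAIN at the mass-free package `VcCoefH` of helper17 (+ bridge `VcCoef.toCoef0` of helper123), ONE constant: `|U τ| ≤ 810 * 43^11 * L^46 * trAbsK ..`.
* `pk_core_lim` **LIM**: zero / equal weights allowed: only the WEIGHTS are perturbed (`max (ms j) ε`), the tables are FROZEN; continuity of the finite sums (`ics_lim_*` of helper297).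
* `pk_LA_smul`, `pk_ret_smul`, `pk_hatG_smul`   **RESCALE, tree side**: `(ms, b) → (ms / a, a² b)`.
* `ick_ker_eq`, `ick_MA_eq`, `ick_LA_eq`, `pk_ker_st : PkKerSt`   **(S6)** PROVED (helper17): `ick_Mker` of helper19 + (W3) `iw_gam`, `iw_phi` of helper79.
* `pk_core_st : PkCoreSt`   from `pk_core` of helper84 (`Inv/Main.lean`, PROVED).
* `pk_top`      `PkCoreSt → PkKerSt → ` the statement of `exit_pair_inv`, `C = 810 * 43^11 * (8 β0)^46`, `k = 278`   (`β0` = the absolute constant of `ics_scb`).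
-/

set_option autoImplicit false

namespace Claimed.Agent.R286

open Finset Filter Topology

/-! ## 0. the two inputs, as propositions -/

/-- the statement of unit MAIN (`pk_core`, helper84) -/
def PkCoreSt : Prop :=
  ∀ (N q0 : ℕ) (ms dK db b : ℕ → ℝ) (dG dP : ℕ → ℕ → ℕ → ℝ) (β bm e : ℝ) (U : JtTopo → ℝ) (τ : JtTopo),
    VcCoef0 (trPm ms) N 1 dK db b dG dP β bm e → (∀ r j j', dG r j j' = dG r j' j) → (∀ r k, dP r 0 k = 0) →
    PkFn q0 U → IsTr N (q0 + 2) τ → τ q0 (q0 + 1) ≤ N →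
    |U τ| ≤ 90 * vcCfLam N dK β bm e ^ 11 * (vcCfKap N dK + ∑ k ∈ range (N + 2), db k) ^ 2 *
      trAbsK ms N 2 (q0 + 2) τ fun τ' =>
        pkRet N b (τ q0 (q0 + 1)) (τ' (q0 + 2) (q0 + 3)) * |pkLA ms N q0 dG dP b U (pkPull q0 (q0 + 2) (q0 + 3) τ')|

/-- the statement of the KER insertion (S6, helper19) -/
def PkKerSt : Prop :=
  ∀ (n : ℕ) (a : ℝ) (P : LlStp) (tl : Option ℕ) (q0 : ℕ) (b : ℕ → ℝ) (U : JtTopo → ℝ) (τ : JtTopo),
    0 < a → LlStpAdm a P → IsTr P.length (q0 + 2) τ → τ q0 (q0 + 1) ≤ P.length →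
    pkLA (llMs a P) P.length q0 (icC a (pkPi P)) (fun r t s => icBk a (pkPi P) s r t) b U τ = pkL (llJs n a P tl) q0 b U τ

theorem pk_top_eqns_cite : True := by
  have := @PkCoreSt.eq_1
  have := @PkKerSt.eq_1
  trivial

/-! ## 1. the sums as functions of the weights -/

theorem pk_absK_nonneg (ms : ℕ → ℝ) (N k q : ℕ) (τ : ℕ → ℕ → ℕ) (Φ : (ℕ → ℕ → ℕ) → ℝ) (hΦ : ∀ τ', 0 ≤ Φ τ') :
    0 ≤ trAbsK ms N k q τ Φ := by
  induction k generalizing q τ with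
  | zero => exact hΦ τ
  | succ k ih =>
    rw [trAbsK]
    unfold trAbs
    exact Finset.sum_nonneg fun x _ => Finset.sum_nonneg fun j _ => mul_nonneg (abs_nonneg _) (ih _ _)

theorem pk_hatG_smul (c : ℝ) (p : ℕ → ℝ) (R : ℕ) (γ : ℕ → ℕ → ℕ → ℝ) (r i l : ℕ) :
    vcHatG (fun j => c * p j) R γ r i l = c ^ 2 * vcHatG p R γ r i l := by
  unfold vcHatG
  rw [Finset.mul_sum]
  refine Finset.sum_congr rfl fun j _ => ?_
  rw [Finset.mul_sum]
  exact Finset.sum_congr rfl fun j' _ => by ring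

theorem pk_MA_smul (c : ℝ) (ms : ℕ → ℝ) (N q0 : ℕ) (γ ψ : ℕ → ℕ → ℕ → ℝ) (w : JtTopo → ℝ) (τ : JtTopo) :
    pkMA (fun i => c * ms i) N q0 γ ψ w τ = pkMA ms N q0 γ ψ (fun τ' => c ^ 2 * w τ') τ := by
  unfold pkMA
  rw [ics_trSumK, ← ics_trSumK_const_mul]
  congr 1
  funext τ'
  ring

/-- **RESCALE, tree side**: (H1) at `(c ms, b)` is (H1) at `(ms, c² b)` -/
theorem pk_LA_smul (c : ℝ) (ms : ℕ → ℝ) (N q0 : ℕ) (γ ψ : ℕ → ℕ → ℕ → ℝ) (b : ℕ → ℝ) (U : JtTopo → ℝ) (τ : JtTopo) :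
    pkLA (fun i => c * ms i) N q0 γ ψ b U τ = pkLA ms N q0 γ ψ (fun t => c ^ 2 * b t) U τ := by
  unfold pkLA
  rw [pk_MA_smul]
  congr 2
  funext τ'
  ring

theorem pk_ret_smul {c : ℝ} (hc : c ≠ 0) (N : ℕ) (b : ℕ → ℝ) (r t : ℕ) : pkRet N (fun t => c * b t) r t = pkRet N b r t := by
  unfold pkRet
  refine if_congr ?_ rfl rfl
  simp [hc]

theorem pk_ret_nonneg (N : ℕ) (b : ℕ → ℝ) (r t : ℕ) : 0 ≤ pkRet N b r t := by
  unfold pkRet
  split_ifs <;> norm_num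

theorem pk_ret_le {N : ℕ} {b : ℕ → ℝ} {r t : ℕ} (h : pkRet N b r t ≠ 0) : t ≤ N := by
  unfold pkRet at h
  by_contra hc
  exact h (if_neg fun h' => hc h'.1)

section tendsto

variable {α : Type} {l : Filter α} {ms : α → ℕ → ℝ} {ms0 : ℕ → ℝ}

theorem pk_hatG_tendsto (h : ∀ j, Tendsto (fun e => ms e j) l (𝓝 (ms0 j))) (R : ℕ) (γ : ℕ → ℕ → ℕ → ℝ) (r i l' : ℕ) :
    Tendsto (fun e => vcHatG (trPm (ms e)) R γ r i l') l (𝓝 (vcHatG (trPm ms0) R γ r i l')) := by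
  unfold vcHatG
  refine tendsto_finsetSum _ fun j _ => tendsto_finsetSum _ fun j' _ => ?_
  exact ((ics_lim_trPm h j).mul (ics_lim_trPm h j')).mul tendsto_const_nhds

theorem pk_LA_tendsto (h : ∀ j, Tendsto (fun e => ms e j) l (𝓝 (ms0 j))) (N q0 : ℕ) (γ ψ : ℕ → ℕ → ℕ → ℝ) (b : ℕ → ℝ)
    (U : JtTopo → ℝ) (τ : JtTopo) :
    Tendsto (fun e => pkLA (ms e) N q0 γ ψ b U τ) l (𝓝 (pkLA ms0 N q0 γ ψ b U τ)) := by
  unfold pkLA pkMA
  exact tendsto_const_nhds.sub (ics_lim_trSumK h N 2 (q0 + 2) τ fun _ => tendsto_const_nhds)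

end tendsto

/-! ## 2. MAIN at the mass-free package -/

/-- the variation of `b`, cut at the terminal level -/
noncomputable def pkDb (N : ℕ) (b : ℕ → ℝ) (k : ℕ) : ℝ := if k ≤ N then |b k - b (k - 1)| else 0

theorem pk_db_eqns_cite : True := by
  have := @pkDb.eq_1
  trivial

theorem pk_db_sum (N : ℕ) (b : ℕ → ℝ) : ∑ k ∈ range (N + 2), pkDb N b k = ∑ t ∈ range N, |b (t + 1) - b t| := by
  rw [Finset.sum_range_succ, Finset.sum_range_succ']
  have e1 : pkDb N b (N + 1) = 0 := by unfold pkDb; rw [if_neg (by omega)]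
  have e2 : pkDb N b 0 = 0 := by unfold pkDb; simp
  rw [e1, e2, add_zero, add_zero]
  refine Finset.sum_congr rfl fun t ht => ?_
  rw [Finset.mem_range] at ht
  unfold pkDb
  rw [if_pos (by omega), Nat.add_sub_cancel]

theorem VcCoef0.pkCut {p : ℕ → ℝ} {R r0 : ℕ} {dK b : ℕ → ℝ} {dG dP : ℕ → ℕ → ℕ → ℝ} {β bm e : ℝ}
    (H : VcCoef0 p R r0 dK (fun k => |b k - b (k - 1)|) b dG dP β bm e) : VcCoef0 p R r0 dK (pkDb R b) b dG dP β bm e :=
  { H with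
    db0 := fun s _ => by unfold pkDb; split_ifs <;> positivity
    bv := fun k _ h2 => by unfold pkDb; rw [if_pos h2] }

/-- **MAIN at the mass-free package** (positive weights), one constant -/
theorem pk_core_H (hC : PkCoreSt) {N q0 : ℕ} {ms rho b : ℕ → ℝ} {dG dP : ℕ → ℕ → ℕ → ℝ} {L : ℝ}
    (H : VcCoefH N (trPm ms) rho b dG dP L) {U : JtTopo → ℝ} {τ : JtTopo} (hU : PkFn q0 U) (hτ : IsTr N (q0 + 2) τ)
    (hr : τ q0 (q0 + 1) ≤ N) :
    |U τ| ≤ 810 * 43 ^ 11 * L ^ 46 * trAbsK ms N 2 (q0 + 2) τ fun τ' =>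
        pkRet N b (τ q0 (q0 + 1)) (τ' (q0 + 2) (q0 + 3)) * |pkLA ms N q0 dG dP b U (pkPull q0 (q0 + 2) (q0 + 3) τ')| := by
  have H0 := (H.toCoef.toCoef0 H.sz).pkCut
  have h1 := hC N q0 ms _ _ b dG dP _ _ _ U τ H0 H.G1' (fun r k => by rw [H.P1]; exact H.Prow0 r k) hU hτ hr
  refine h1.trans (mul_le_mul_of_nonneg_right ?_ (pk_absK_nonneg _ _ _ _ _ _ fun τ' => mul_nonneg (pk_ret_nonneg _ _ _ _) (abs_nonneg _)))
  have hL := H.one
  have hκ : vcCfKap N (vcDk N rho) = 1 + vcKt N rho := vc_c0_kap_dk N rho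
  have hkt : vcKt N rho ≤ L := H.sK
  have hkt0 : 0 ≤ vcKt N rho := H.toBase.kt_nonneg
  have hdb : ∑ k ∈ range (N + 2), pkDb N b k ≤ L := by rw [pk_db_sum]; exact H.vb
  have hdb0 : 0 ≤ ∑ k ∈ range (N + 2), pkDb N b k := by rw [pk_db_sum]; exact Finset.sum_nonneg fun _ _ => abs_nonneg _
  set κ := vcCfKap N (vcDk N rho) with hκd
  have hκ1 : κ ≤ 2 * L := by rw [hκ]; linarith
  have hκ0 : 0 ≤ κ := by rw [hκ]; linarith
  have hL2 : L ≤ L ^ 4 := by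
    calc L = L ^ 1 := (pow_one L).symm
      _ ≤ L ^ 4 := pow_le_pow_right₀ hL (by norm_num)
  have hlam : vcCfLam N (vcDk N rho) (5 * L ^ 2) (20 * L ^ 4) L⁻¹ ≤ 43 * L ^ 4 := by
    unfold vcCfLam
    rw [← hκd, inv_inv]
    have a1 : 1 + 5 * L ^ 2 * κ ≤ 11 * L ^ 3 := by
      have : 5 * L ^ 2 * κ ≤ 5 * L ^ 2 * (2 * L) := mul_le_mul_of_nonneg_left hκ1 (by positivity)
      have h3 : 1 ≤ L ^ 3 := one_le_pow₀ hL
      nlinarith
    have a2 : κ * (1 + 5 * L ^ 2 * κ) ≤ 2 * L * (11 * L ^ 3) := mul_le_mul hκ1 a1 (by positivity) (by positivity)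
    nlinarith
  have hlam0 : 0 ≤ vcCfLam N (vcDk N rho) (5 * L ^ 2) (20 * L ^ 4) L⁻¹ := by
    unfold vcCfLam
    rw [← hκd]
    positivity
  have b1 : vcCfLam N (vcDk N rho) (5 * L ^ 2) (20 * L ^ 4) L⁻¹ ^ 11 ≤ (43 * L ^ 4) ^ 11 := pow_le_pow_left₀ hlam0 hlam 11
  have b2 : (κ + ∑ k ∈ range (N + 2), pkDb N b k) ^ 2 ≤ (3 * L) ^ 2 := pow_le_pow_left₀ (by linarith) (by linarith) 2
  calc 90 * vcCfLam N (vcDk N rho) (5 * L ^ 2) (20 * L ^ 4) L⁻¹ ^ 11 * (κ + ∑ k ∈ range (N + 2), pkDb N b k) ^ 2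
      ≤ 90 * (43 * L ^ 4) ^ 11 * (3 * L) ^ 2 := by
        refine mul_le_mul (mul_le_mul_of_nonneg_left b1 (by norm_num)) b2 (by positivity) (by positivity)
    _ = 810 * 43 ^ 11 * L ^ 46 := by ring

/-! ## 3. LIM: zero and equal weights -/

/-- **LIM**.   `HT` = the mass-free package for EVERY system of positive monotone weights with the top `1` and the gap `1 / L` (`ic_coefH` of helper17, partially applied);
the actual weights `ms ≥ 0` are monotone, `ms N = 1`, with a STRICT gap. -/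
theorem pk_core_lim (hC : PkCoreSt) {N q0 : ℕ} {ms rho b : ℕ → ℝ} {dG dP : ℕ → ℕ → ℕ → ℝ} {L : ℝ}
    (hms0 : ∀ j, 0 ≤ ms j) (hmono : ∀ j, j < N → ms j ≤ ms (j + 1)) (htop : ms N = 1)
    (HT : ∀ p : ℕ → ℝ, (∀ k, 1 ≤ k → k ≤ N + 1 → 0 < p k) → (∀ k, 1 ≤ k → k ≤ N → p k ≤ p (k + 1)) → p (N + 1) = 1 →
      (∀ r, r ≤ N → L⁻¹ ≤ 1 - b r * vcHatG p N dG r (r + 1) (r + 1)) → VcCoefH N p rho b dG dP L)
    (hgap : ∀ r, r ≤ N → L⁻¹ < 1 - b r * vcHatG (trPm ms) N dG r (r + 1) (r + 1))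
    {U : JtTopo → ℝ} {τ : JtTopo} (hU : PkFn q0 U) (hτ : IsTr N (q0 + 2) τ) (hr : τ q0 (q0 + 1) ≤ N) :
    |U τ| ≤ 810 * 43 ^ 11 * L ^ 46 * trAbsK ms N 2 (q0 + 2) τ fun τ' =>
        pkRet N b (τ q0 (q0 + 1)) (τ' (q0 + 2) (q0 + 3)) * |pkLA ms N q0 dG dP b U (pkPull q0 (q0 + 2) (q0 + 3) τ')| := by
  have hlim : ∀ j, Tendsto (fun ε : ℝ => max (ms j) ε) (𝓝[>] 0) (𝓝 (ms j)) := ics_lim_max hms0
  have ev1 : ∀ᶠ ε : ℝ in 𝓝[>] 0, ε ∈ Set.Ioc (0 : ℝ) 1 := Ioc_mem_nhdsGT one_pos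
  have ev2 : ∀ᶠ ε : ℝ in 𝓝[>] 0, ∀ r ∈ range (N + 1),
      L⁻¹ < 1 - b r * vcHatG (trPm fun j => max (ms j) ε) N dG r (r + 1) (r + 1) := by
    rw [Finset.eventually_all]
    intro r hr'
    rw [Finset.mem_range] at hr'
    have t1 : Tendsto (fun ε : ℝ => 1 - b r * vcHatG (trPm fun j => max (ms j) ε) N dG r (r + 1) (r + 1)) (𝓝[>] 0)
        (𝓝 (1 - b r * vcHatG (trPm ms) N dG r (r + 1) (r + 1))) :=
      tendsto_const_nhds.sub ((pk_hatG_tendsto (ms := fun (ε : ℝ) j => max (ms j) ε) hlim N dG r (r + 1) (r + 1)).const_mul _)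
    exact t1.eventually_const_lt (hgap r (by omega))
  have t2 : Tendsto (fun ε : ℝ => 810 * 43 ^ 11 * L ^ 46 * trAbsK (fun j => max (ms j) ε) N 2 (q0 + 2) τ fun τ' =>
        pkRet N b (τ q0 (q0 + 1)) (τ' (q0 + 2) (q0 + 3)) * |pkLA (fun j => max (ms j) ε) N q0 dG dP b U (pkPull q0 (q0 + 2) (q0 + 3) τ')|)
      (𝓝[>] 0) (𝓝 (810 * 43 ^ 11 * L ^ 46 * trAbsK ms N 2 (q0 + 2) τ fun τ' =>
        pkRet N b (τ q0 (q0 + 1)) (τ' (q0 + 2) (q0 + 3)) * |pkLA ms N q0 dG dP b U (pkPull q0 (q0 + 2) (q0 + 3) τ')|)) := by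
    refine Tendsto.const_mul _ ?_
    refine ics_lim_trAbsK (msn := fun (ε : ℝ) j => max (ms j) ε) hlim N 2 (q0 + 2) τ fun τ' => ?_
    exact (pk_LA_tendsto (ms := fun (ε : ℝ) j => max (ms j) ε) hlim N q0 dG dP b U _).abs.const_mul _
  refine ge_of_tendsto t2 ?_
  filter_upwards [ev1, ev2] with ε h1 h2
  refine pk_core_H hC (HT _ ?_ ?_ ?_ ?_) hU hτ hr
  · intro k hk1 _
    unfold trPm
    rw [if_neg (by omega)]
    exact lt_of_lt_of_le h1.1 (le_max_right _ _)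
  · intro k hk1 hk2
    unfold trPm
    rw [if_neg (by omega), if_neg (by omega)]
    have := hmono (k - 1) (by omega)
    rw [show k - 1 + 1 = k by omega] at this
    rw [Nat.add_sub_cancel]
    exact max_le_max this le_rfl
  · unfold trPm
    rw [if_neg (by omega), Nat.add_sub_cancel]
    show max (ms N) ε = 1
    rw [htop]
    exact max_eq_left h1.2
  · intro r hr'
    exact (h2 r (Finset.mem_range.2 (by omega))).le

/-! ## 4. the KER insertion (S6): proofs of helper17 -/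

/-- the kernel (W) on the frozen tables of the scalar chain is the official kernel (A8) -/
theorem ick_ker_eq (n : ℕ) {a : ℝ} (ha : 0 < a) {P : LlStp} (hP : LlStpAdm a P) (tl : Option ℕ) {q0 : ℕ} {τ : JtTopo}
    (hτ : IsTr P.length (q0 + 4) τ) (hab : τ q0 (q0 + 1) ≤ P.length) (hcd : τ (q0 + 2) (q0 + 3) ≤ P.length) :
    2⁻¹ * pkKer (icC a (pkPi P)) (fun r t s => icBk a (pkPi P) s r t) q0 (q0 + 1) (q0 + 2) (q0 + 3) τ
      = (llJs n a P tl).Mker (q0 + 4) (q0 + 2) q0 (q0 + 1) τ := by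
  rw [ick_Mker n ha hP tl hτ (by omega) (by omega) (by omega) hab hcd]
  unfold pkKer
  simp only [iw_gam, iw_phi]

/-- **(S6)** the abstract cavity sum on the frozen tables is the official one, on trees -/
theorem ick_MA_eq (n : ℕ) {a : ℝ} (ha : 0 < a) {P : LlStp} (hP : LlStpAdm a P) (tl : Option ℕ) (q0 : ℕ) (w : JtTopo → ℝ)
    {τ : JtTopo} (hτ : IsTr P.length (q0 + 2) τ) (hab : τ q0 (q0 + 1) ≤ P.length) :
    pkMA (llMs a P) P.length q0 (icC a (pkPi P)) (fun r t s => icBk a (pkPi P) s r t) w τ = pkM (llJs n a P tl) q0 w τ := by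
  unfold pkMA pkM
  show trSumK (llMs a P) P.length 2 (q0 + 2) τ _ = trSumK (llMs a P) P.length 2 (q0 + 2) τ _
  refine tr_sumK_congr hτ 2 _ _ fun τ' hτ' hag => ?_
  have hoff : (llJs n a P tl).off (q0 + 2) 1 τ' = if τ' (q0 + 2) (q0 + 3) ≤ P.length then (1 : ℝ) else 0 := by
    unfold JtCtx.off
    simp [jtC, jtD]
    rfl
  rw [hoff]
  by_cases hcd : τ' (q0 + 2) (q0 + 3) ≤ P.length
  · rw [ick_ker_eq n ha hP tl hτ' (by rw [hag _ _ (by omega) (by omega)]; exact hab) hcd]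
  · rw [if_neg hcd]
    ring

/-- **(S6)** `pkLA = pkL` on trees -/
theorem ick_LA_eq (n : ℕ) {a : ℝ} (ha : 0 < a) {P : LlStp} (hP : LlStpAdm a P) (tl : Option ℕ) (q0 : ℕ) (b : ℕ → ℝ) (U : JtTopo → ℝ)
    {τ : JtTopo} (hτ : IsTr P.length (q0 + 2) τ) (hab : τ q0 (q0 + 1) ≤ P.length) :
    pkLA (llMs a P) P.length q0 (icC a (pkPi P)) (fun r t s => icBk a (pkPi P) s r t) b U τ = pkL (llJs n a P tl) q0 b U τ := by
  unfold pkLA pkL
  rw [ick_MA_eq n ha hP tl q0 _ hτ hab]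

theorem pk_ker_st : PkKerSt := fun n _ _ tl q0 b U _ ha hP hτ hab => ick_LA_eq n ha hP tl q0 b U hτ hab

/-! ## 5. the exit -/

theorem pk_pull_isTr {N q0 : ℕ} {τ' : JtTopo} (h : IsTr N (q0 + 4) τ') : IsTr N (q0 + 2) (pkPull q0 (q0 + 2) (q0 + 3) τ') :=
  tr_comap_isTr h (pkSub q0 (q0 + 2) (q0 + 3)) fun x hx => by
    unfold pkSub
    split_ifs <;> omega

/-- **the statement of `exit_pair_inv`** from unit MAIN and the KER insertion -/
theorem pk_top (hC : PkCoreSt) (hK : PkKerSt) : ∃ (C : ℝ) (k : ℕ), 0 < C ∧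
    ∀ (n : ℕ) (a : ℝ) (P : LlStp) (tl : Option ℕ) (q0 : ℕ) (b : ℕ → ℝ) (Λ : ℝ) (U : JtTopo → ℝ) (τ : JtTopo),
      0 < a → LlStpAdm a P → PkMul a P b Λ → PkFn q0 U → IsTr P.length (q0 + 2) τ → τ q0 (q0 + 1) ≤ P.length →
      |U τ| ≤ C * Λ ^ k * (llJs n a P tl).absK 2 (q0 + 2) τ fun τ' =>
        pkRet P.length b (τ q0 (q0 + 1)) (τ' (q0 + 2) (q0 + 3)) * |pkL (llJs n a P tl) q0 b U (pkPull q0 (q0 + 2) (q0 + 3) τ')| := by
  obtain ⟨β0, hβ0, HS⟩ := ics_scb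
  refine ⟨810 * 43 ^ 11 * (8 * β0) ^ 46, 278, by positivity, ?_⟩
  intro n a P tl q0 b Λ U τ ha hP hM hU hτ hr
  have hA : IcAdm a (pkPi P) := ick_adm ha hP
  have hA1 : IcAdm 1 (icRs a (pkPi P)) := ics_adm hA
  have hlen : (icRs a (pkPi P)).length = P.length := by rw [ics_length, ick_pi_length]
  have hS := HS a (pkPi P) hA
  rw [ick_pi_length, ← pkl_K] at hS
  -- sizes
  have hΛ := hM.one
  have hΛ0 : 0 < Λ := lt_of_lt_of_le one_pos hΛ
  have hK0 : 0 ≤ llCumK P P.length := by rw [pkl_K]; exact ic_K_nonneg hA _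
  have ha2 : a ^ 2 ≤ Λ ^ 2 := pow_le_pow_left₀ ha.le hM.a_le 2
  have ha20 : 0 < a ^ 2 := by positivity
  have hmul : ∀ x : ℝ, 0 ≤ x → x ≤ Λ → a ^ 2 * x ≤ Λ ^ 3 := fun x h0 h1 => by
    calc a ^ 2 * x ≤ Λ ^ 2 * Λ := mul_le_mul ha2 h1 h0 (by positivity)
      _ = Λ ^ 3 := by ring
  have h36 : Λ ^ 3 ≤ Λ ^ 6 := pow_le_pow_right₀ hΛ (by norm_num)
  have h16 : Λ ≤ Λ ^ 6 := by
    calc Λ = Λ ^ 1 := (pow_one Λ).symm
      _ ≤ Λ ^ 6 := pow_le_pow_right₀ hΛ (by norm_num)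
  have h13 : 1 ≤ Λ ^ 3 := one_le_pow₀ hΛ
  have h60 : 0 < Λ ^ 6 := by positivity
  set L : ℝ := 8 * β0 * Λ ^ 6 with hLd
  have h6L : 8 * Λ ^ 6 ≤ L := by rw [hLd]; nlinarith
  have hL1 : 1 ≤ L := by nlinarith
  have h3L : Λ ^ 3 ≤ L := by linarith
  have hβL : 2 * (β0 * (1 + a ^ 2 * llCumK P P.length) ^ 2) ≤ L := by
    have h1 : 1 + a ^ 2 * llCumK P P.length ≤ 2 * Λ ^ 3 := by linarith [hmul _ hK0 hM.top]
    have h2 : (1 + a ^ 2 * llCumK P P.length) ^ 2 ≤ (2 * Λ ^ 3) ^ 2 := pow_le_pow_left₀ (by positivity) h1 2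
    calc 2 * (β0 * (1 + a ^ 2 * llCumK P P.length) ^ 2) ≤ 2 * (β0 * (2 * Λ ^ 3) ^ 2) := by
          exact mul_le_mul_of_nonneg_left (mul_le_mul_of_nonneg_left h2 (by linarith)) (by norm_num)
      _ = L := by rw [hLd]; ring
  have hKL : icK (icRs a (pkPi P)) (icRs a (pkPi P)).length ≤ L := by
    rw [ics_K, hlen, ← pkl_K]
    exact (hmul _ hK0 hM.top).trans h3L
  -- the rescaled data
  set ms1 : ℕ → ℝ := fun j => a⁻¹ * llMs a P j with hms1
  set b1 : ℕ → ℝ := fun t => a ^ 2 * b t with hb1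
  have hms : llMs a P = fun i => a * ms1 i := by
    funext i
    rw [hms1]
    field_simp
  have hb10 : ∀ t, 0 ≤ b1 t := fun t => mul_nonneg ha20.le (hM.nonneg t)
  have hb1L : ∀ t, t ≤ P.length → b1 t ≤ L := fun t ht => (hmul _ (hM.nonneg t) (hM.sup t ht)).trans h3L
  have hvb : ∑ t ∈ range P.length, |b1 (t + 1) - b1 t| ≤ L := by
    have e : ∑ t ∈ range P.length, |b1 (t + 1) - b1 t| = a ^ 2 * ∑ t ∈ range P.length, |b (t + 1) - b t| := by
      rw [Finset.mul_sum]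
      refine Finset.sum_congr rfl fun t _ => ?_
      rw [hb1]
      dsimp only
      rw [← mul_sub, abs_mul, abs_of_pos ha20]
    rw [e]
    exact (hmul _ (Finset.sum_nonneg fun _ _ => abs_nonneg _) hM.var).trans h3L
  have hms0 : ∀ j, 0 ≤ ms1 j := fun j => by
    have := ict_P_nonneg hA (j + 1)
    rw [← ick_P_eq] at this
    unfold trPm at this
    rw [if_neg (by omega), Nat.add_sub_cancel] at this
    exact mul_nonneg (inv_pos.2 ha).le this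
  have hmono : ∀ j, j < P.length → ms1 j ≤ ms1 (j + 1) := fun j _ => by
    have := ic_cf_Ms_mono hA j
    rw [← ick_Ms_eq] at this
    exact mul_le_mul_of_nonneg_left this (inv_pos.2 ha).le
  have htop : ms1 P.length = 1 := by
    rw [hms1]
    dsimp only
    rw [ick_Ms_eq, ic_cf_Ms_top a (pkPi P) (by rw [ick_pi_length])]
    exact inv_mul_cancel₀ ha.ne'
  have hdG : icC 1 (icRs a (pkPi P)) = icC a (pkPi P) := by
    funext r i l
    exact (ics_C ha (pkPi P) r i l).symm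
  have hdP : (fun r t s => icBk 1 (icRs a (pkPi P)) s r t) = fun r t s => icBk a (pkPi P) s r t := by
    funext r t s
    exact (ics_Bk ha (pkPi P) s r t).symm
  have HT : ∀ p : ℕ → ℝ, (∀ k, 1 ≤ k → k ≤ P.length + 1 → 0 < p k) → (∀ k, 1 ≤ k → k ≤ P.length → p k ≤ p (k + 1)) → p (P.length + 1) = 1 →
      (∀ r, r ≤ P.length → L⁻¹ ≤ 1 - b1 r * vcHatG p P.length (icC a (pkPi P)) r (r + 1) (r + 1)) →
      VcCoefH P.length p (icRho (icRs a (pkPi P))) b1 (icC a (pkPi P)) (fun r t s => icBk a (pkPi P) s r t) L := by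
    rw [← hdG, ← hdP, ← hlen]
    intro p h1 h2 h3 h4
    exact ic_coefH hA1 hS h1 h2 h3 hL1 hβL hKL (fun r _ => hb10 r) (fun t ht => hb1L t (hlen ▸ ht)) (hlen ▸ hvb) h4
  have hgap : ∀ r, r ≤ P.length → L⁻¹ < 1 - b1 r * vcHatG (trPm ms1) P.length (icC a (pkPi P)) r (r + 1) (r + 1) := by
    intro r hr'
    have e1 : trPm ms1 = fun j => a⁻¹ * trPm (llMs a P) j := funext (ics_trPm a⁻¹ (llMs a P))
    rw [e1, pk_hatG_smul, ick_gap ha hP hr']
    have e2 : b1 r * (a⁻¹ ^ 2 * pkX2 a P r) = b r * pkX2 a P r := by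
      rw [hb1]
      field_simp
    rw [e2]
    refine lt_of_lt_of_le ?_ (hM.gap r hr')
    exact inv_strictAnti₀ hΛ0 (by linarith)
  have key := pk_core_lim hC hms0 hmono htop HT hgap hU hτ hr
  -- back to the official weights
  have eΦ : (fun τ' : JtTopo => pkRet P.length b1 (τ q0 (q0 + 1)) (τ' (q0 + 2) (q0 + 3)) *
        |pkLA ms1 P.length q0 (icC a (pkPi P)) (fun r t s => icBk a (pkPi P) s r t) b1 U (pkPull q0 (q0 + 2) (q0 + 3) τ')|)
      = fun τ' : JtTopo => pkRet P.length b (τ q0 (q0 + 1)) (τ' (q0 + 2) (q0 + 3)) *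
        |pkLA (llMs a P) P.length q0 (icC a (pkPi P)) (fun r t s => icBk a (pkPi P) s r t) b U (pkPull q0 (q0 + 2) (q0 + 3) τ')| := by
    funext τ'
    rw [hms, pk_LA_smul a ms1, hb1, pk_ret_smul ha20.ne']
  rw [eΦ] at key
  have eA : ∀ Φ : JtTopo → ℝ, trAbsK ms1 P.length 2 (q0 + 2) τ Φ = a⁻¹ ^ 2 * trAbsK (llMs a P) P.length 2 (q0 + 2) τ Φ := by
    intro Φ
    rw [hms, ics_trAbsK a ms1, abs_of_pos ha]
    field_simp
  rw [eA] at key
  have eK : trAbsK (llMs a P) P.length 2 (q0 + 2) τ (fun τ' : JtTopo => pkRet P.length b (τ q0 (q0 + 1)) (τ' (q0 + 2) (q0 + 3)) *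
        |pkLA (llMs a P) P.length q0 (icC a (pkPi P)) (fun r t s => icBk a (pkPi P) s r t) b U (pkPull q0 (q0 + 2) (q0 + 3) τ')|)
      = (llJs n a P tl).absK 2 (q0 + 2) τ fun τ' =>
        pkRet P.length b (τ q0 (q0 + 1)) (τ' (q0 + 2) (q0 + 3)) * |pkL (llJs n a P tl) q0 b U (pkPull q0 (q0 + 2) (q0 + 3) τ')| := by
    show _ = trAbsK (llMs a P) P.length 2 (q0 + 2) τ _
    refine tr_absK_congr hτ 2 _ _ fun τ' hτ' _ => ?_
    by_cases h0 : pkRet P.length b (τ q0 (q0 + 1)) (τ' (q0 + 2) (q0 + 3)) = 0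
    · rw [h0, zero_mul, zero_mul]
    · rw [hK n a P tl q0 b U _ ha hP (pk_pull_isTr hτ') (by rw [pk_pull_ab]; exact pk_ret_le h0)]
  rw [eK] at key
  refine key.trans ?_
  have hT : 0 ≤ (llJs n a P tl).absK 2 (q0 + 2) τ fun τ' =>
        pkRet P.length b (τ q0 (q0 + 1)) (τ' (q0 + 2) (q0 + 3)) * |pkL (llJs n a P tl) q0 b U (pkPull q0 (q0 + 2) (q0 + 3) τ')| :=
    pk_absK_nonneg _ _ _ _ _ _ fun τ' => mul_nonneg (pk_ret_nonneg _ _ _ _) (abs_nonneg _)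
  rw [← mul_assoc]
  refine mul_le_mul_of_nonneg_right ?_ hT
  have hai : a⁻¹ ^ 2 ≤ Λ ^ 2 := pow_le_pow_left₀ (inv_pos.2 ha).le hM.a_inv 2
  calc 810 * 43 ^ 11 * L ^ 46 * a⁻¹ ^ 2 ≤ 810 * 43 ^ 11 * L ^ 46 * Λ ^ 2 := mul_le_mul_of_nonneg_left hai (by positivity)
    _ = 810 * 43 ^ 11 * (8 * β0) ^ 46 * Λ ^ 278 := by rw [hLd]; ring

/-- unit MAIN (`pk_core` of helper84, `Inv/Main.lean`) at the terminal weight `1` -/
theorem pk_core_st : PkCoreSt := by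
  intro N q0 ms dK db b dG dP β bm e U τ H hsG hrow0 hU hτ hr
  have hpos : ∀ j, j ≤ N → 0 < ms j := fun j hj => by
    have := H.pos (j + 1) (by omega) (by omega)
    unfold trPm at this
    rwa [if_neg (by omega), Nat.add_sub_cancel] at this
  have htop : ms N = 1 := by
    have := H.top
    unfold trPm at this
    rwa [if_neg (by omega), Nat.add_sub_cancel] at this
  have hp : vtP ms N = trPm ms := by
    funext k
    unfold vtP
    rw [htop, div_one]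
  have hG1 : ∀ γ : ℕ → ℕ → ℕ → ℝ, pkSc (ms N ^ 2) γ = γ := by
    intro γ
    funext r j j'
    simp [pkSc, htop]
  have := pk_core hpos q0 (dK := dK) (db := db) (b := b) (dG := dG) (dP := dP) (β := β) (bm := bm) (e := e)
    (by rw [hp, hG1, hG1]; exact H) hsG hrow0 hU hτ hr
  rwa [htop, one_pow, inv_one, mul_one] at this

end Claimed.Agent.R286
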