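import Claimed.Agent.R286.Inv.ResKit

/-!
# Row 286, LL Section 5, paragraph "Absolute attachment domination": the kappa bounds

Owner: helper292 (order of helper84).   Prefix `inv_ab_`.   Nat-indexed families, arbitrary finite index sets.
The Abel identities and the differences of `1 / (1 - b g)` are in `Inv/ResKit.lean` (helper296):
`inv_rk_abel`, `inv_rk_abel'`, `inv_rk_abel2`, `inv_rk_mixed1`, `inv_rk_mixed2`.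

* `inv_ab_kappa`     `|Σ_k Σ_t (A^k_rt - A^{k+1}_rt) / p_k 1{c ~_k a} 1{cd on sheet t}| ≤ Pol Σ_k ρ_k 1{c ~_k a}`
* `inv_ab_kappa'`    the same `≤ Pol Σ_k ρ_k`
* `inv_ab_rho_sum`   `Σ_{k ≤ R} ρ_k ≤ K_R + var b + 1`
* `inv_ab_single`    `Σ_i |Δ_i D_i| / p_i 1{c ~_i a} ≤ (b / e²) C Σ_i ΔK_i`
* `inv_ab_double`    `Σ_{i,l} |Δ_i Δ_l D_il| / (p_i p_l) 1{c ~_i a} 1{d ~_l b} ≤ (b / e² + 2 b² / e³) C² (Σ_i ΔK_i) (Σ_l ΔK_l)`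
-/

set_option autoImplicit false

namespace Claimed.Agent.R286

open Finset

/-- **kappa bound**.   `dA k t = A^k_rt - A^{k+1}_rt`, `χ k = 1{c ~_k a}`, `J t = 1{cd on sheet t}` (at most one sheet: `Σ J ≤ 1`). -/
theorem inv_ab_kappa (s T : Finset ℕ) (dA : ℕ → ℕ → ℝ) (p ρ χ J : ℕ → ℝ) {Pol : ℝ} (hPol : 0 ≤ Pol)
    (hp : ∀ k ∈ s, 0 < p k) (hρ : ∀ k ∈ s, 0 ≤ ρ k)
    (hdA : ∀ k ∈ s, ∀ t ∈ T, |dA k t| ≤ Pol * p k * ρ k)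
    (hχ : ∀ k ∈ s, 0 ≤ χ k) (hJ : ∀ t ∈ T, 0 ≤ J t) (hJ1 : ∑ t ∈ T, J t ≤ 1) :
    |∑ k ∈ s, ∑ t ∈ T, dA k t / p k * χ k * J t| ≤ Pol * ∑ k ∈ s, ρ k * χ k := by
  have h1 : ∀ k ∈ s, |∑ t ∈ T, dA k t / p k * χ k * J t| ≤ Pol * (ρ k * χ k) := by
    intro k hk
    have hpk := hp k hk
    have hc : 0 ≤ Pol * ρ k * χ k := mul_nonneg (mul_nonneg hPol (hρ k hk)) (hχ k hk)
    calc |∑ t ∈ T, dA k t / p k * χ k * J t| ≤ ∑ t ∈ T, |dA k t / p k * χ k * J t| :=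
          Finset.abs_sum_le_sum_abs _ _
      _ ≤ ∑ t ∈ T, Pol * ρ k * χ k * J t := by
          refine Finset.sum_le_sum fun t ht => ?_
          rw [abs_mul, abs_mul, abs_div, abs_of_pos hpk, abs_of_nonneg (hχ k hk),
            abs_of_nonneg (hJ t ht)]
          have : |dA k t| / p k ≤ Pol * ρ k := by
            rw [div_le_iff₀ hpk]
            calc |dA k t| ≤ Pol * p k * ρ k := hdA k hk t ht
              _ = Pol * ρ k * p k := by ring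
          exact mul_le_mul_of_nonneg_right (mul_le_mul_of_nonneg_right this (hχ k hk)) (hJ t ht)
      _ = Pol * ρ k * χ k * ∑ t ∈ T, J t := by rw [Finset.mul_sum]
      _ ≤ Pol * ρ k * χ k * 1 := mul_le_mul_of_nonneg_left hJ1 hc
      _ = Pol * (ρ k * χ k) := by ring
  calc |∑ k ∈ s, ∑ t ∈ T, dA k t / p k * χ k * J t|
      ≤ ∑ k ∈ s, |∑ t ∈ T, dA k t / p k * χ k * J t| := Finset.abs_sum_le_sum_abs _ _
    _ ≤ ∑ k ∈ s, Pol * (ρ k * χ k) := Finset.sum_le_sum h1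
    _ = Pol * ∑ k ∈ s, ρ k * χ k := by rw [Finset.mul_sum]

/-- kappa bound, the indicator `χ ≤ 1` discarded. -/
theorem inv_ab_kappa' (s T : Finset ℕ) (dA : ℕ → ℕ → ℝ) (p ρ χ J : ℕ → ℝ) {Pol : ℝ} (hPol : 0 ≤ Pol)
    (hp : ∀ k ∈ s, 0 < p k) (hρ : ∀ k ∈ s, 0 ≤ ρ k)
    (hdA : ∀ k ∈ s, ∀ t ∈ T, |dA k t| ≤ Pol * p k * ρ k)
    (hχ : ∀ k ∈ s, 0 ≤ χ k) (hχ1 : ∀ k ∈ s, χ k ≤ 1) (hJ : ∀ t ∈ T, 0 ≤ J t)
    (hJ1 : ∑ t ∈ T, J t ≤ 1) :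
    |∑ k ∈ s, ∑ t ∈ T, dA k t / p k * χ k * J t| ≤ Pol * ∑ k ∈ s, ρ k := by
  refine (inv_ab_kappa s T dA p ρ χ J hPol hp hρ hdA hχ hJ hJ1).trans ?_
  refine mul_le_mul_of_nonneg_left (Finset.sum_le_sum fun k hk => ?_) hPol
  calc ρ k * χ k ≤ ρ k * 1 := mul_le_mul_of_nonneg_left (hχ1 k hk) (hρ k hk)
    _ = ρ k := mul_one _

/-- the indicator of a sheet sums to at most one. -/
theorem inv_ab_sheet_sum (T : Finset ℕ) (t0 : ℕ) : ∑ t ∈ T, (if t = t0 then (1 : ℝ) else 0) ≤ 1 := by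
  rw [Finset.sum_ite_eq']
  split_ifs <;> norm_num

/-- `Σ_{k ≤ R} ρ_k = K_R + var b + 1{r0 ≤ R}`.   Shifted sequences: `Ks (k+1) = K_k`, `Ks 0 = K_{-1} = 0`; `bs (k+1) = b_k`, `bs 0 = b_{-1} = b_0`. -/
theorem inv_ab_rho_sum (Ks bs : ℕ → ℝ) (r0 R : ℕ) (hK0 : Ks 0 = 0) :
    ∑ k ∈ range (R + 1), (Ks (k + 1) - Ks k + |bs (k + 1) - bs k| + (if k = r0 then (1 : ℝ) else 0))
      ≤ Ks (R + 1) + ∑ k ∈ range (R + 1), |bs (k + 1) - bs k| + 1 := by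
  rw [Finset.sum_add_distrib, Finset.sum_add_distrib, Finset.sum_range_sub, hK0, sub_zero]
  exact add_le_add le_rfl (inv_ab_sheet_sum _ _)

/-- **single differences of the child multiplier**.   `g i`, `g (i+1)` successive values (other index fixed), `D = 1 / (1 - b g)`. -/
theorem inv_ab_single (s : Finset ℕ) (g p dK χ : ℕ → ℝ) {b e C : ℝ} (hb : 0 ≤ b) (he : 0 < e)
    (hC : 0 ≤ C) (hp : ∀ i ∈ s, 0 < p i) (hdK : ∀ i ∈ s, 0 ≤ dK i)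
    (hgap : ∀ i ∈ s, e ≤ 1 - b * g i ∧ e ≤ 1 - b * g (i + 1))
    (hg : ∀ i ∈ s, |g i - g (i + 1)| ≤ C * (p i * dK i))
    (hχ : ∀ i ∈ s, 0 ≤ χ i ∧ χ i ≤ 1) :
    ∑ i ∈ s, |1 / (1 - b * g i) - 1 / (1 - b * g (i + 1))| / p i * χ i
      ≤ b / e ^ 2 * C * ∑ i ∈ s, dK i := by
  rw [Finset.mul_sum]
  refine Finset.sum_le_sum fun i hi => ?_
  have hpi := hp i hi
  have h1 := inv_rk_mixed1 hb he (hgap i hi).1 (hgap i hi).2 (hg i hi)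
  have h2 : |1 / (1 - b * g i) - 1 / (1 - b * g (i + 1))| / p i ≤ b / e ^ 2 * C * dK i := by
    rw [div_le_iff₀ hpi]
    calc _ ≤ b / e ^ 2 * (C * (p i * dK i)) := h1
      _ = b / e ^ 2 * C * dK i * p i := by ring
  have h3 : 0 ≤ b / e ^ 2 * C * dK i := by
    have := hdK i hi
    positivity
  calc _ ≤ b / e ^ 2 * C * dK i * χ i := mul_le_mul_of_nonneg_right h2 (hχ i hi).1
    _ ≤ b / e ^ 2 * C * dK i * 1 := mul_le_mul_of_nonneg_left (hχ i hi).2 h3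
    _ = b / e ^ 2 * C * dK i := mul_one _

/-- **mixed differences of the child multiplier**. -/
theorem inv_ab_double (s s' : Finset ℕ) (g : ℕ → ℕ → ℝ) (p dK χ χ' : ℕ → ℝ) {b e C : ℝ} (hb : 0 ≤ b)
    (he : 0 < e) (hC : 0 ≤ C) (hp : ∀ i ∈ s, 0 < p i) (hp' : ∀ l ∈ s', 0 < p l)
    (hdK : ∀ i ∈ s, 0 ≤ dK i) (hdK' : ∀ l ∈ s', 0 ≤ dK l)
    (hgap : ∀ i ∈ s, ∀ l ∈ s', e ≤ 1 - b * g i l ∧ e ≤ 1 - b * g (i + 1) l ∧
      e ≤ 1 - b * g i (l + 1) ∧ e ≤ 1 - b * g (i + 1) (l + 1))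
    (hgi : ∀ i ∈ s, ∀ l ∈ s', |g i (l + 1) - g (i + 1) (l + 1)| ≤ C * (p i * dK i))
    (hgl : ∀ i ∈ s, ∀ l ∈ s', |g i l - g i (l + 1)| ≤ C * (p l * dK l) ∧
      |g (i + 1) l - g (i + 1) (l + 1)| ≤ C * (p l * dK l))
    (hgm : ∀ i ∈ s, ∀ l ∈ s', |g i l - g (i + 1) l - g i (l + 1) + g (i + 1) (l + 1)|
      ≤ C * (p i * dK i) * (C * (p l * dK l)))
    (hχ : ∀ i ∈ s, 0 ≤ χ i ∧ χ i ≤ 1) (hχ' : ∀ l ∈ s', 0 ≤ χ' l ∧ χ' l ≤ 1) :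
    ∑ i ∈ s, ∑ l ∈ s', |1 / (1 - b * g i l) - 1 / (1 - b * g (i + 1) l) - 1 / (1 - b * g i (l + 1))
        + 1 / (1 - b * g (i + 1) (l + 1))| / (p i * p l) * χ i * χ' l
      ≤ (b / e ^ 2 + 2 * b ^ 2 / e ^ 3) * C ^ 2 * ((∑ i ∈ s, dK i) * ∑ l ∈ s', dK l) := by
  rw [Finset.sum_mul_sum, Finset.mul_sum]
  refine Finset.sum_le_sum fun i hi => ?_
  rw [Finset.mul_sum]
  refine Finset.sum_le_sum fun l hl => ?_
  have hpi := hp i hi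
  have hpl := hp' l hl
  obtain ⟨g1, g2, g3, g4⟩ := hgap i hi l hl
  have h1 := inv_rk_mixed2 hb he g1 g2 g3 g4 (hgi i hi l hl) (hgl i hi l hl).1 (hgl i hi l hl).2
    (hgm i hi l hl)
  have h2 : |1 / (1 - b * g i l) - 1 / (1 - b * g (i + 1) l) - 1 / (1 - b * g i (l + 1))
        + 1 / (1 - b * g (i + 1) (l + 1))| / (p i * p l)
      ≤ (b / e ^ 2 + 2 * b ^ 2 / e ^ 3) * C ^ 2 * (dK i * dK l) := by
    rw [div_le_iff₀ (mul_pos hpi hpl)]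
    calc _ ≤ (b / e ^ 2 + 2 * b ^ 2 / e ^ 3) * (C * (p i * dK i) * (C * (p l * dK l))) := h1
      _ = (b / e ^ 2 + 2 * b ^ 2 / e ^ 3) * C ^ 2 * (dK i * dK l) * (p i * p l) := by ring
  have h3 : 0 ≤ (b / e ^ 2 + 2 * b ^ 2 / e ^ 3) * C ^ 2 * (dK i * dK l) := by
    have := hdK i hi
    have := hdK' l hl
    positivity
  calc _ ≤ (b / e ^ 2 + 2 * b ^ 2 / e ^ 3) * C ^ 2 * (dK i * dK l) * χ i * χ' l :=
        mul_le_mul_of_nonneg_right (mul_le_mul_of_nonneg_right h2 (hχ i hi).1) (hχ' l hl).1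
    _ ≤ (b / e ^ 2 + 2 * b ^ 2 / e ^ 3) * C ^ 2 * (dK i * dK l) * 1 * 1 := by
        have a1 := (hχ i hi)
        have a2 := (hχ' l hl)
        apply mul_le_mul (mul_le_mul_of_nonneg_left a1.2 h3) a2.2 a2.1
        simpa using h3
    _ = (b / e ^ 2 + 2 * b ^ 2 / e ^ 3) * C ^ 2 * (dK i * dK l) := by ring

end Claimed.Agent.R286
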