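import Claimed.Agent.R286.Inv.Arr

/-!
# Row 286 (S0533), LL Section 5: unit ALG = THE EXACT INVERSE `vc_inverse`      (owner: helper122; head: helper84)

BUNDLING.  `vcV R` = the space of admissible arrays (`VcA R`), a submodule of `VcX → ℝ`; the block sums `vcSL p R a j`, the swap `vcWL R`,
the row sums `vcRL p R t` are LINEAR MAPS of `vcV R`: `map_sum, map_sub, map_smul` do all the distribution.
SPECTRAL KIT.  `vcEL p R a k = S_k / p_k - S_(k-1) / p_(k-1)`:  `∑_k E_k = id`, `S_i E_k = θ_k(i) E_k`, `θ_k(i) = vcTh p k i = p i` (`k ≤ i`), `0` (else).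
`VcEig p R a k f`: `f` is an eigenvector of type `k` of the block sums of the label `a`.   "independent of the label" = type `0`.
FROZEN SHEET.  `vcCH` (child part with the sheet `r` frozen), `vcRAD` (radial operator), `vcJL = 1 + swap`, `vcLF` (`L` with the sheet frozen).
VECTOR IDENTITY `vc_alg_main`:  `CH_δ,r (LF_r v) - ∑_t J RAD_(a r t) Row_t (LF_t v) = v` in `vcV R`, for every `r ∈ [r0, R]`.
REPAIR: `vc_inverse` needs the SYMMETRY of `dG` (`hsG`, = (G1) of the design): the multiplier of `CH_δ` on `f(b)` is `hat-δ(r; r+1, max k (r+1))`.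
-/

set_option autoImplicit false

namespace Claimed.Agent.R286

open Finset

/-! ## 1. bundling -/

/-- the space of admissible arrays -/
def vcV (R : ℕ) : Submodule ℝ (VcX → ℝ) where
  carrier := {F | VcA R F}
  add_mem' := fun hF hG => hF.add hG
  zero_mem' := VcA.const R 0
  smul_mem' := fun c _ hF => hF.const_mul c

/-- the block sum `S_j` of the label `a` -/
noncomputable def vcSL (p : ℕ → ℝ) (R a j : ℕ) : vcV R →ₗ[ℝ] vcV R where
  toFun v := ⟨vcS p R a j v.1, VcA.S v.2 p a j⟩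
  map_add' u v := Subtype.ext (vc_S_add u.2 v.2 p a j)
  map_smul' c v := Subtype.ext (vc_S_const_mul v.2 p a j c)

/-- exchange of the labels `0, 1` -/
noncomputable def vcWL (R : ℕ) : vcV R →ₗ[ℝ] vcV R where
  toFun v := ⟨fun x => v.1 (vcSw x), VcA.sw v.2⟩
  map_add' _ _ := rfl
  map_smul' _ _ := rfl

/-- the row sum on the sheet `t` -/
noncomputable def vcRL (p : ℕ → ℝ) (R t : ℕ) : vcV R →ₗ[ℝ] vcV R where
  toFun v := ⟨vcRow p R t v.1, VcA.row v.2 p t⟩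
  map_add' u v := by
    apply Subtype.ext
    show vcS p R 1 0 (fun x => vcSh R t x * (u.1 x + v.1 x)) = _
    have e : (fun x => vcSh R t x * (u.1 x + v.1 x)) = fun x => vcSh R t x * u.1 x + vcSh R t x * v.1 x := by
      funext x; ring
    rw [e, vc_S_add ((vc_A_sh R t).mul u.2) ((vc_A_sh R t).mul v.2)]
    rfl
  map_smul' c v := by
    apply Subtype.ext
    show vcS p R 1 0 (fun x => vcSh R t x * (c * v.1 x)) = _
    have e : (fun x => vcSh R t x * (c * v.1 x)) = fun x => c * (vcSh R t x * v.1 x) := by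
      funext x; ring
    rw [e, vc_S_const_mul ((vc_A_sh R t).mul v.2)]
    rfl

theorem vc_SL_coe (p : ℕ → ℝ) (R a j : ℕ) (v : vcV R) : ((vcSL p R a j v : vcV R) : VcX → ℝ) = vcS p R a j v.1 := rfl
theorem vc_WL_coe (R : ℕ) (v : vcV R) : ((vcWL R v : vcV R) : VcX → ℝ) = fun x => v.1 (vcSw x) := rfl
theorem vc_RL_coe (p : ℕ → ℝ) (R t : ℕ) (v : vcV R) : ((vcRL p R t v : vcV R) : VcX → ℝ) = vcRow p R t v.1 := rfl

/-! ## 2. relations (bundled forms of `Blk`, `Arr`) -/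

theorem vc_SL_SL {p : ℕ → ℝ} {R : ℕ} (hM : VcMass p R) (a : ℕ) {i j : ℕ} (hi : i ≤ R + 1) (hj : j ≤ R + 1) (v : vcV R) :
    vcSL p R a i (vcSL p R a j v) = p (max i j) • vcSL p R a (min i j) v :=
  Subtype.ext (vc_S_S hM v.2 a hi hj)

theorem vc_SL_comm (p : ℕ → ℝ) (R a b i j : ℕ) (v : vcV R) :
    vcSL p R a i (vcSL p R b j v) = vcSL p R b j (vcSL p R a i v) :=
  Subtype.ext (vc_S_comm v.2 p a b i j)

theorem vc_SL_top (p : ℕ → ℝ) (R a : ℕ) (v : vcV R) : vcSL p R a (R + 1) v = v :=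
  Subtype.ext (vc_S_top p le_rfl a v.1)

theorem vc_SL1_W (p : ℕ → ℝ) (R j : ℕ) (v : vcV R) : vcSL p R 1 j (vcWL R v) = vcWL R (vcSL p R 0 j v) :=
  Subtype.ext (vc_S_sw p R j v.1)

theorem vc_SL0_W (p : ℕ → ℝ) (R j : ℕ) (v : vcV R) : vcSL p R 0 j (vcWL R v) = vcWL R (vcSL p R 1 j v) :=
  Subtype.ext (vc_S_sw' p R j v.1)

theorem vc_RL_SS {p : ℕ → ℝ} {R : ℕ} (hM : VcMass p R) {t i l : ℕ} (hi : t < i) (hl : t < l) (hi' : i ≤ R + 1) (hl' : l ≤ R + 1)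
    (v : vcV R) : vcRL p R t (vcSL p R 0 i (vcSL p R 1 l v)) = p l • vcSL p R 0 i (vcRL p R t v) :=
  Subtype.ext (vc_row_SS hM v.2 hi hl hi' hl')

theorem vc_RL_fst {p : ℕ → ℝ} {R : ℕ} (hM : VcMass p R) {f : vcV R} (h1 : VcIndL 1 f.1) {t : ℕ} (ht : t ≤ R) :
    vcRL p R t f = (p t - p (t + 1)) • f :=
  Subtype.ext (vc_row_fst hM f.2 h1 ht)

theorem vc_RL_snd {p : ℕ → ℝ} {R : ℕ} (hM : VcMass p R) {f : vcV R} (h1 : VcIndL 1 f.1) {t : ℕ} (ht : t ≤ R) :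
    vcRL p R t (vcWL R f) = vcSL p R 0 t f - vcSL p R 0 (t + 1) f :=
  Subtype.ext (vc_row_snd hM f.2 h1 ht)

theorem vc_RL_ind (p : ℕ → ℝ) (R t : ℕ) (v : vcV R) : VcIndL 1 (vcRL p R t v).1 := vc_row_indL v.2 p t

theorem vc_SL_ind (p : ℕ → ℝ) (R a j : ℕ) {v : vcV R} (h1 : VcIndL 1 v.1) : VcIndL 1 (vcSL p R a j v).1 :=
  fun i => (h1 i).S p R a j

/-! ## 3. spectral kit -/

/-- the eigenvalue of `S_i` on the sector `k` -/
noncomputable def vcTh (p : ℕ → ℝ) (k i : ℕ) : ℝ := if k ≤ i then p i else 0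

/-- the spectral projection `E_k = S_k / p_k - S_(k-1) / p_(k-1)` of the label `a` -/
noncomputable def vcEL (p : ℕ → ℝ) (R a : ℕ) : ℕ → (vcV R →ₗ[ℝ] vcV R)
  | 0 => (p 0)⁻¹ • vcSL p R a 0
  | k + 1 => (p (k + 1))⁻¹ • vcSL p R a (k + 1) - (p k)⁻¹ • vcSL p R a k

/-- eigenvector of type `k` of the block sums of the label `a` -/
def VcEig (p : ℕ → ℝ) (R a k : ℕ) (f : vcV R) : Prop := ∀ i, i ≤ R + 1 → vcSL p R a i f = vcTh p k i • f

theorem vc_EL_sum {p : ℕ → ℝ} {R : ℕ} (hM : VcMass p R) (a : ℕ) (v : vcV R) :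
    ∑ k ∈ range (R + 2), vcEL p R a k v = v := by
  have key : ∀ n, ∑ k ∈ range (n + 1), vcEL p R a k v = (p n)⁻¹ • vcSL p R a n v := by
    intro n
    induction n with
    | zero => simp [vcEL]
    | succ n ih =>
      rw [Finset.sum_range_succ, ih]
      simp [vcEL]
  rw [key (R + 1), hM.top, vc_SL_top, inv_one, one_smul]

theorem vc_EL_eig {p : ℕ → ℝ} {R : ℕ} (hM : VcMass p R) (a : ℕ) {k : ℕ} (hk : k ≤ R + 1) (v : vcV R) :
    VcEig p R a k (vcEL p R a k v) := by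
  intro i hi
  cases k with
  | zero =>
    simp only [vcEL, LinearMap.smul_apply, map_smul, vcTh, Nat.zero_le, if_true]
    rw [vc_SL_SL hM a hi (Nat.zero_le _), Nat.max_zero, Nat.min_zero, smul_comm]
  | succ k =>
    have hk0 : k ≤ R + 1 := by omega
    simp only [vcEL, LinearMap.sub_apply, LinearMap.smul_apply, map_sub, map_smul, vcTh]
    rw [vc_SL_SL hM a hi hk, vc_SL_SL hM a hi hk0]
    by_cases h : k + 1 ≤ i
    · rw [if_pos h, max_eq_left h, min_eq_right h, max_eq_left (by omega), min_eq_right (by omega), smul_sub,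
        smul_comm, smul_comm (p i) (p k)⁻¹]
    · rw [if_neg h, max_eq_right (by omega), min_eq_left (by omega), max_eq_right (by omega), min_eq_left (by omega), smul_smul,
        smul_smul, inv_mul_cancel₀ (hM.pos _ hk).ne', inv_mul_cancel₀ (hM.pos _ hk0).ne', sub_self, zero_smul]

theorem vc_EL_SL_comm (p : ℕ → ℝ) (R a b k j : ℕ) (v : vcV R) :
    vcSL p R b j (vcEL p R a k v) = vcEL p R a k (vcSL p R b j v) := by
  cases k with
  | zero => simp only [vcEL, LinearMap.smul_apply, map_smul, vc_SL_comm p R b a j]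
  | succ k => simp only [vcEL, LinearMap.sub_apply, LinearMap.smul_apply, map_sub, map_smul, vc_SL_comm p R b a j]

/-- the projections of one label preserve the eigenvectors of another one -/
theorem VcEig.EL {p : ℕ → ℝ} {R b k : ℕ} {f : vcV R} (h : VcEig p R b k f) (a k' : ℕ) : VcEig p R b k (vcEL p R a k' f) := by
  intro i hi
  rw [vc_EL_SL_comm, h i hi, map_smul]

theorem vc_EL_ind (p : ℕ → ℝ) (R a k : ℕ) {v : vcV R} (h1 : VcIndL 1 v.1) : VcIndL 1 (vcEL p R a k v).1 := by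
  intro j x y
  cases k with
  | zero =>
    show (p 0)⁻¹ * (vcSL p R a 0 v).1 _ = (p 0)⁻¹ * (vcSL p R a 0 v).1 x
    rw [vc_SL_ind p R a 0 h1 j x y]
  | succ k =>
    show (p (k + 1))⁻¹ * (vcSL p R a (k + 1) v).1 _ - (p k)⁻¹ * (vcSL p R a k v).1 _
      = (p (k + 1))⁻¹ * (vcSL p R a (k + 1) v).1 x - (p k)⁻¹ * (vcSL p R a k v).1 x
    rw [vc_SL_ind p R a (k + 1) h1 j x y, vc_SL_ind p R a k h1 j x y]

/-- independent of the label `1` = type `0` -/
theorem vc_eig_of_ind {p : ℕ → ℝ} {R : ℕ} (hM : VcMass p R) {f : vcV R} (h1 : VcIndL 1 f.1) : VcEig p R 1 0 f := by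
  intro i hi
  have : vcTh p 0 i = p i := by simp [vcTh]
  rw [this]
  exact Subtype.ext (vc_S1_fst hM h1 hi)

theorem VcEig.W1 {p : ℕ → ℝ} {R k : ℕ} {f : vcV R} (h : VcEig p R 0 k f) : VcEig p R 1 k (vcWL R f) := by
  intro i hi
  rw [vc_SL1_W, h i hi, map_smul]

theorem VcEig.W0 {p : ℕ → ℝ} {R k : ℕ} {f : vcV R} (h : VcEig p R 1 k f) : VcEig p R 0 k (vcWL R f) := by
  intro i hi
  rw [vc_SL0_W, h i hi, map_smul]

/-! ## 4. frozen-sheet operators and their multipliers -/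

/-- the child part, sheet `r` frozen -/
noncomputable def vcCH (p : ℕ → ℝ) (R : ℕ) (γ : ℕ → ℕ → ℕ → ℝ) (r : ℕ) : vcV R →ₗ[ℝ] vcV R :=
  ∑ j ∈ Ioc r (R + 1), ∑ j' ∈ Ioc r (R + 1), γ r j j' • (vcSL p R 0 j ∘ₗ vcSL p R 1 j')

/-- radial operator of the label `0` -/
noncomputable def vcRAD (p : ℕ → ℝ) (R : ℕ) (ψ : ℕ → ℝ) : vcV R →ₗ[ℝ] vcV R :=
  ∑ k ∈ range (R + 2), ψ k • vcSL p R 0 k

/-- `F ↦ F(a) + F(b)` -/
noncomputable def vcJL (R : ℕ) : vcV R →ₗ[ℝ] vcV R := LinearMap.id + vcWL R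

/-- `L` with the sheet `r` frozen -/
noncomputable def vcLF (p : ℕ → ℝ) (R r0 : ℕ) (dG dP : ℕ → ℕ → ℕ → ℝ) (b : ℕ → ℝ) (r : ℕ) (v : vcV R) : vcV R :=
  v - (b r • vcCH p R dG r v + ∑ t ∈ Icc r0 R, b t • vcJL R (vcRAD p R (dP r t) (vcRL p R t v)))

theorem vc_th_sum1 (p : ℕ → ℝ) (R : ℕ) (ψ : ℕ → ℝ) (k : ℕ) :
    ∑ s ∈ range (R + 2), ψ s * vcTh p k s = ∑ s ∈ Icc k (R + 1), p s * ψ s := by
  have e : Icc k (R + 1) = (range (R + 2)).filter fun s => k ≤ s := by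
    ext s
    simp only [Finset.mem_Icc, Finset.mem_filter, Finset.mem_range]
    omega
  rw [e, Finset.sum_filter]
  refine Finset.sum_congr rfl fun s _ => ?_
  unfold vcTh
  split_ifs
  · ring
  · ring

theorem vc_th_sumIoc (p : ℕ → ℝ) (R : ℕ) (ψ : ℕ → ℝ) (r k : ℕ) :
    ∑ s ∈ Ioc r (R + 1), ψ s * vcTh p k s = ∑ s ∈ Icc (max k (r + 1)) (R + 1), p s * ψ s := by
  have e : Icc (max k (r + 1)) (R + 1) = (Ioc r (R + 1)).filter fun s => k ≤ s := by
    ext s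
    simp only [Finset.mem_Icc, Finset.mem_filter, Finset.mem_Ioc, max_le_iff]
    omega
  rw [e, Finset.sum_filter]
  refine Finset.sum_congr rfl fun s _ => ?_
  unfold vcTh
  split_ifs
  · ring
  · ring

theorem vc_th_sum2 (p : ℕ → ℝ) (R : ℕ) (γ : ℕ → ℕ → ℕ → ℝ) (r k k' : ℕ) :
    ∑ j ∈ Ioc r (R + 1), ∑ j' ∈ Ioc r (R + 1), γ r j j' * (vcTh p k j * vcTh p k' j')
      = vcHatG p R γ r (max k (r + 1)) (max k' (r + 1)) := by
  unfold vcHatG
  have e1 : ∀ j, ∑ j' ∈ Ioc r (R + 1), γ r j j' * (vcTh p k j * vcTh p k' j')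
      = (∑ j' ∈ Icc (max k' (r + 1)) (R + 1), p j' * γ r j j') * vcTh p k j := by
    intro j
    rw [← vc_th_sumIoc, Finset.sum_mul]
    exact Finset.sum_congr rfl fun j' _ => by ring
  rw [Finset.sum_congr rfl fun j _ => e1 j, vc_th_sumIoc]
  refine Finset.sum_congr rfl fun j _ => ?_
  rw [Finset.mul_sum]
  exact Finset.sum_congr rfl fun j' _ => by ring

theorem vc_CH_eig {p : ℕ → ℝ} {R k k' : ℕ} {f : vcV R} (h0 : VcEig p R 0 k f) (h1 : VcEig p R 1 k' f)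
    (γ : ℕ → ℕ → ℕ → ℝ) (r : ℕ) : vcCH p R γ r f = vcHatG p R γ r (max k (r + 1)) (max k' (r + 1)) • f := by
  rw [← vc_th_sum2, Finset.sum_smul]
  unfold vcCH
  rw [LinearMap.sum_apply]
  refine Finset.sum_congr rfl fun j hj => ?_
  rw [LinearMap.sum_apply, Finset.sum_smul]
  refine Finset.sum_congr rfl fun j' hj' => ?_
  rw [LinearMap.smul_apply, LinearMap.comp_apply, h1 j' (Finset.mem_Ioc.1 hj').2, map_smul, h0 j (Finset.mem_Ioc.1 hj).2, smul_smul,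
    smul_smul]
  congr 1
  ring

theorem vc_RAD_eig {p : ℕ → ℝ} {R k : ℕ} {f : vcV R} (h0 : VcEig p R 0 k f) (ψ : ℕ → ℝ) :
    vcRAD p R ψ f = (∑ s ∈ Icc k (R + 1), p s * ψ s) • f := by
  rw [← vc_th_sum1, Finset.sum_smul]
  unfold vcRAD
  rw [LinearMap.sum_apply]
  refine Finset.sum_congr rfl fun s hs => ?_
  rw [LinearMap.smul_apply, h0 s (by have := Finset.mem_range.1 hs; omega), smul_smul]

/-- the row sum commutes with the child part of its sheet -/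
theorem vc_RL_CH {p : ℕ → ℝ} {R : ℕ} (hM : VcMass p R) (γ : ℕ → ℕ → ℕ → ℝ) (t : ℕ) (v : vcV R) :
    vcRL p R t (vcCH p R γ t v) = vcCH p R γ t (vcRL p R t v) := by
  unfold vcCH
  rw [LinearMap.sum_apply, LinearMap.sum_apply, map_sum]
  refine Finset.sum_congr rfl fun j hj => ?_
  rw [LinearMap.sum_apply, LinearMap.sum_apply, map_sum]
  refine Finset.sum_congr rfl fun j' hj' => ?_
  rw [Finset.mem_Ioc] at hj hj'
  have e : vcTh p 0 j' = p j' := by simp [vcTh]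
  rw [LinearMap.smul_apply, LinearMap.smul_apply, LinearMap.comp_apply, LinearMap.comp_apply, map_smul,
    vc_RL_SS hM hj.1 hj'.1 hj.2 hj'.2, vc_eig_of_ind hM (vc_RL_ind p R t v) j' hj'.2, e, map_smul]

/-- (r4) -/
theorem vc_RL_J {p : ℕ → ℝ} {R k : ℕ} (hM : VcMass p R) {f : vcV R} (h0 : VcEig p R 0 k f) (h1 : VcIndL 1 f.1) {t : ℕ} (ht : t ≤ R) :
    vcRL p R t (vcJL R f) = (- vcMu p k t) • f := by
  unfold vcJL
  rw [LinearMap.add_apply, LinearMap.id_apply, map_add, vc_RL_fst hM h1 ht, vc_RL_snd hM h1 ht, h0 t (by omega), h0 (t + 1) (by omega)]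
  unfold vcMu vcTh
  module

/-! ## 5. the vector identity -/

/-- the sector `k` of the row sum on the sheet `t` -/
noncomputable def vcF (p : ℕ → ℝ) (R t k : ℕ) (v : vcV R) : vcV R := vcEL p R 0 k (vcRL p R t v)

theorem vc_F_eig {p : ℕ → ℝ} {R : ℕ} (hM : VcMass p R) (t : ℕ) {k : ℕ} (hk : k ≤ R + 1) (v : vcV R) : VcEig p R 0 k (vcF p R t k v) :=
  vc_EL_eig hM 0 hk _

theorem vc_F_ind (p : ℕ → ℝ) (R t k : ℕ) (v : vcV R) : VcIndL 1 (vcF p R t k v).1 := vc_EL_ind p R 0 k (vc_RL_ind p R t v)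

theorem vc_F_sum {p : ℕ → ℝ} {R : ℕ} (hM : VcMass p R) (t : ℕ) (v : vcV R) : ∑ k ∈ range (R + 2), vcF p R t k v = vcRL p R t v :=
  vc_EL_sum hM 0 _

/-- the child multipliers are inverse to each other -/
theorem vc_alg_child {p : ℕ → ℝ} {R r : ℕ} (hM : VcMass p R) (dG δ : ℕ → ℕ → ℕ → ℝ) (br : ℝ)
    (h1 : ∀ i ∈ Ioc r (R + 1), ∀ l ∈ Ioc r (R + 1), vcHatG p R δ r i l * (1 - br * vcHatG p R dG r i l) = 1) (hr : r ≤ R) (v : vcV R) :
    vcCH p R δ r (v - br • vcCH p R dG r v) = v := by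
  have hdec : ∑ k ∈ range (R + 2), ∑ k' ∈ range (R + 2), vcEL p R 0 k (vcEL p R 1 k' v) = v := by
    rw [Finset.sum_comm, Finset.sum_congr rfl fun k' _ => vc_EL_sum hM 0 (vcEL p R 1 k' v), vc_EL_sum hM 1 v]
  have key : ∀ (e : vcV R) (k k' : ℕ), k ≤ R + 1 → k' ≤ R + 1 → VcEig p R 0 k e → VcEig p R 1 k' e →
      vcCH p R δ r (e - br • vcCH p R dG r e) = e := by
    intro e k k' hk hk' h0 h1'
    rw [vc_CH_eig h0 h1' dG r, map_sub, map_smul, map_smul, vc_CH_eig h0 h1' δ r]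
    have e1 := h1 (max k (r + 1)) (by rw [Finset.mem_Ioc]; omega) (max k' (r + 1)) (by rw [Finset.mem_Ioc]; omega)
    calc _ = (vcHatG p R δ r (max k (r + 1)) (max k' (r + 1)) * (1 - br * vcHatG p R dG r (max k (r + 1)) (max k' (r + 1)))) • e := by
          module
      _ = e := by rw [e1, one_smul]
  set T : vcV R →ₗ[ℝ] vcV R := vcCH p R δ r ∘ₗ (LinearMap.id - br • vcCH p R dG r) with hTdef
  have hT : ∀ u, vcCH p R δ r (u - br • vcCH p R dG r u) = T u := fun u => rfl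
  rw [hT]
  conv_lhs => rw [← hdec]
  conv_rhs => rw [← hdec]
  rw [map_sum]
  refine Finset.sum_congr rfl fun k hk => ?_
  rw [map_sum]
  refine Finset.sum_congr rfl fun k' hk' => ?_
  rw [← hT]
  have hk1 : k ≤ R + 1 := by have := Finset.mem_range.1 hk; omega
  have hk2 : k' ≤ R + 1 := by have := Finset.mem_range.1 hk'; omega
  exact key _ k k' hk1 hk2 (vc_EL_eig hM 0 hk1 _) ((vc_EL_eig hM 1 hk2 v).EL 0 k)

theorem vc_alg_JRAD {p : ℕ → ℝ} {R : ℕ} (hM : VcMass p R) (ψ : ℕ → ℕ → ℕ → ℝ) (r t : ℕ) (v : vcV R) :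
    vcJL R (vcRAD p R (ψ r t) (vcRL p R t v)) = ∑ k ∈ range (R + 2), vcHatP p R ψ r t k • vcJL R (vcF p R t k v) := by
  conv_lhs => rw [← vc_F_sum hM t v]
  rw [map_sum, map_sum]
  refine Finset.sum_congr rfl fun k hk => ?_
  rw [vc_RAD_eig (vc_F_eig hM t (by have := Finset.mem_range.1 hk; omega) v), map_smul]
  rfl

theorem vc_alg_CH_J {p : ℕ → ℝ} {R r k : ℕ} (hM : VcMass p R) (δ : ℕ → ℕ → ℕ → ℝ)
    (hs : vcHatG p R δ r (r + 1) (max k (r + 1)) = vcHatG p R δ r (max k (r + 1)) (r + 1))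
    {f : vcV R} (h0 : VcEig p R 0 k f) (h1 : VcIndL 1 f.1) :
    vcCH p R δ r (vcJL R f) = vcHatK p R δ k r • vcJL R f := by
  have e0 : max 0 (r + 1) = r + 1 := by simp
  unfold vcJL vcHatK
  rw [LinearMap.add_apply, LinearMap.id_apply, map_add, vc_CH_eig h0 (vc_eig_of_ind hM h1) δ r,
    vc_CH_eig (vc_eig_of_ind hM h1).W0 h0.W1 δ r, smul_add, e0, hs]

/-- (E1) -/
theorem vc_alg_LF {p : ℕ → ℝ} {R : ℕ} (hM : VcMass p R) (r0 : ℕ) (dG dP : ℕ → ℕ → ℕ → ℝ) (b : ℕ → ℝ) (r : ℕ) (v : vcV R) :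
    vcLF p R r0 dG dP b r v = (v - b r • vcCH p R dG r v)
      - ∑ t ∈ Icc r0 R, ∑ k ∈ range (R + 2), (b t * vcHatP p R dP r t k) • vcJL R (vcF p R t k v) := by
  unfold vcLF
  rw [← sub_sub]
  congr 1
  refine Finset.sum_congr rfl fun t _ => ?_
  rw [vc_alg_JRAD hM dP r t v, Finset.smul_sum]
  exact Finset.sum_congr rfl fun k _ => smul_smul _ _ _

/-- (E3) -/
theorem vc_alg_RL_LF {p : ℕ → ℝ} {R : ℕ} (hM : VcMass p R) (r0 : ℕ) (dG dP : ℕ → ℕ → ℕ → ℝ) (b : ℕ → ℝ) {t : ℕ} (ht : t ≤ R) (v : vcV R) :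
    vcRL p R t (vcLF p R r0 dG dP b t v) = ∑ k ∈ range (R + 2), (1 - b t * vcHatK p R dG k t) • vcF p R t k v
      + ∑ t' ∈ Icc r0 R, ∑ k ∈ range (R + 2), (b t' * vcHatP p R dP t t' k * vcMu p k t) • vcF p R t' k v := by
  have e0 : max 0 (t + 1) = t + 1 := by simp
  rw [vc_alg_LF hM, map_sub, map_sub, map_smul, vc_RL_CH hM, map_sum, sub_eq_add_neg, ← Finset.sum_neg_distrib]
  congr 1
  · conv_lhs => rw [← vc_F_sum hM t v]
    rw [map_sum, Finset.smul_sum, ← Finset.sum_sub_distrib]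
    refine Finset.sum_congr rfl fun k hk => ?_
    rw [vc_CH_eig (vc_F_eig hM t (by have := Finset.mem_range.1 hk; omega) v) (vc_eig_of_ind hM (vc_F_ind p R t k v)) dG t, e0]
    unfold vcHatK
    module
  · refine Finset.sum_congr rfl fun t' _ => ?_
    rw [map_sum, ← Finset.sum_neg_distrib]
    refine Finset.sum_congr rfl fun k hk => ?_
    rw [map_smul, vc_RL_J hM (vc_F_eig hM t' (by have := Finset.mem_range.1 hk; omega) v) (vc_F_ind p R t' k v) ht]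
    module

/-- (E4) -/
theorem vc_alg_JRAD_LF {p : ℕ → ℝ} {R : ℕ} (hM : VcMass p R) (r0 : ℕ) (dG dP a : ℕ → ℕ → ℕ → ℝ) (b : ℕ → ℝ) (r : ℕ) {t : ℕ} (ht : t ≤ R)
    (v : vcV R) :
    vcJL R (vcRAD p R (a r t) (vcRL p R t (vcLF p R r0 dG dP b t v)))
      = ∑ k ∈ range (R + 2), (vcHatP p R a r t k * (1 - b t * vcHatK p R dG k t)) • vcJL R (vcF p R t k v)
      + ∑ t' ∈ Icc r0 R, ∑ k ∈ range (R + 2),
          (vcHatP p R a r t k * (b t' * vcHatP p R dP t t' k * vcMu p k t)) • vcJL R (vcF p R t' k v) := by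
  rw [vc_alg_RL_LF hM r0 dG dP b ht v, map_add, map_add, map_sum, map_sum, map_sum, map_sum]
  congr 1
  · refine Finset.sum_congr rfl fun k hk => ?_
    rw [map_smul, map_smul, vc_RAD_eig (vc_F_eig hM t (by have := Finset.mem_range.1 hk; omega) v), map_smul, smul_smul]
    congr 1
    unfold vcHatP
    ring
  · refine Finset.sum_congr rfl fun t' _ => ?_
    rw [map_sum, map_sum]
    refine Finset.sum_congr rfl fun k hk => ?_
    rw [map_smul, map_smul, vc_RAD_eig (vc_F_eig hM t' (by have := Finset.mem_range.1 hk; omega) v), map_smul, smul_smul]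
    congr 1
    unfold vcHatP
    ring

/-- symmetry of the inverse child multiplier -/
theorem vc_alg_hat_symm {p : ℕ → ℝ} {R r : ℕ} (dG δ : ℕ → ℕ → ℕ → ℝ) (br : ℝ) (hsG : ∀ j j', dG r j j' = dG r j' j)
    (h1 : ∀ i ∈ Ioc r (R + 1), ∀ l ∈ Ioc r (R + 1), vcHatG p R δ r i l * (1 - br * vcHatG p R dG r i l) = 1)
    {i l : ℕ} (hi : i ∈ Ioc r (R + 1)) (hl : l ∈ Ioc r (R + 1)) : vcHatG p R δ r i l = vcHatG p R δ r l i := by
  have hG : vcHatG p R dG r i l = vcHatG p R dG r l i := by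
    unfold vcHatG
    rw [Finset.sum_comm]
    refine Finset.sum_congr rfl fun j _ => Finset.sum_congr rfl fun j' _ => ?_
    rw [hsG j' j]
    ring
  have e1 := h1 i hi l hl
  have e2 := h1 l hl i hi
  rw [← hG] at e2
  have hne : (1 - br * vcHatG p R dG r i l) ≠ 0 := by
    intro h
    rw [h, mul_zero] at e1
    exact zero_ne_one e1
  exact mul_right_cancel₀ hne (e1.trans e2.symm)

theorem vc_alg_sum3 {M : Type} [AddCommMonoid M] (s u : Finset ℕ) (G : ℕ → ℕ → ℕ → M) :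
    ∑ x ∈ s, ∑ t ∈ s, ∑ k ∈ u, G x t k = ∑ t ∈ s, ∑ k ∈ u, ∑ x ∈ s, G x t k := by
  rw [Finset.sum_comm]
  exact Finset.sum_congr rfl fun t _ => Finset.sum_comm

/-- **THE VECTOR IDENTITY** -/
theorem vc_alg_main {p : ℕ → ℝ} {R r0 : ℕ} (hM : VcMass p R) (dG dP δ a : ℕ → ℕ → ℕ → ℝ) (b : ℕ → ℝ)
    (hsG : ∀ r j j', dG r j j' = dG r j' j)
    (h1 : ∀ r ∈ range (R + 1), ∀ i ∈ Ioc r (R + 1), ∀ l ∈ Ioc r (R + 1),
      vcHatG p R δ r i l * (1 - b r * vcHatG p R dG r i l) = 1)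
    (h2 : ∀ k ∈ range (R + 2), ∀ r ∈ range (R + 1), ∀ t ∈ Icc r0 R,
      vcHatP p R a r t k * (1 - b t * vcHatK p R dG k t)
        + ∑ s ∈ Icc r0 R, vcHatP p R a r s k * vcMu p k s * vcHatP p R dP s t k * b t
        = - (vcHatP p R dP r t k * b t * vcHatK p R δ k r))
    (v : vcV R) {r : ℕ} (hr : r ∈ range (R + 1)) :
    vcCH p R δ r (vcLF p R r0 dG dP b r v)
      - ∑ t ∈ Icc r0 R, vcJL R (vcRAD p R (a r t) (vcRL p R t (vcLF p R r0 dG dP b t v))) = v := by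
  have hrR : r ≤ R := by have := Finset.mem_range.1 hr; omega
  have e2 : vcCH p R δ r (vcLF p R r0 dG dP b r v)
      = v - ∑ t ∈ Icc r0 R, ∑ k ∈ range (R + 2), (b t * vcHatP p R dP r t k * vcHatK p R δ k r) • vcJL R (vcF p R t k v) := by
    rw [vc_alg_LF hM, map_sub, vc_alg_child hM dG δ (b r) (h1 r hr) hrR, map_sum]
    congr 1
    refine Finset.sum_congr rfl fun t _ => ?_
    rw [map_sum]
    refine Finset.sum_congr rfl fun k hk => ?_
    have hk' : k ≤ R + 1 := by have := Finset.mem_range.1 hk; omega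
    rw [map_smul, vc_alg_CH_J hM δ (vc_alg_hat_symm dG δ (b r) (hsG r) (h1 r hr) (by simp; omega) (by simp; omega))
      (vc_F_eig hM t hk' v) (vc_F_ind p R t k v), smul_smul]
  have e4 : ∑ t ∈ Icc r0 R, vcJL R (vcRAD p R (a r t) (vcRL p R t (vcLF p R r0 dG dP b t v)))
      = ∑ t ∈ Icc r0 R, ∑ k ∈ range (R + 2), (vcHatP p R a r t k * (1 - b t * vcHatK p R dG k t)
          + ∑ s ∈ Icc r0 R, vcHatP p R a r s k * vcMu p k s * vcHatP p R dP s t k * b t) • vcJL R (vcF p R t k v) := by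
    rw [Finset.sum_congr rfl fun t ht => vc_alg_JRAD_LF hM r0 dG dP a b r (Finset.mem_Icc.1 ht).2 v, Finset.sum_add_distrib,
      vc_alg_sum3, ← Finset.sum_add_distrib]
    refine Finset.sum_congr rfl fun t _ => ?_
    rw [← Finset.sum_add_distrib]
    refine Finset.sum_congr rfl fun k _ => ?_
    rw [add_smul, Finset.sum_smul]
    congr 1
    refine Finset.sum_congr rfl fun s _ => ?_
    congr 1
    ring
  rw [e2, e4, sub_sub, ← Finset.sum_add_distrib]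
  have : ∑ t ∈ Icc r0 R, (∑ k ∈ range (R + 2), (b t * vcHatP p R dP r t k * vcHatK p R δ k r) • vcJL R (vcF p R t k v)
      + ∑ k ∈ range (R + 2), (vcHatP p R a r t k * (1 - b t * vcHatK p R dG k t)
          + ∑ s ∈ Icc r0 R, vcHatP p R a r s k * vcMu p k s * vcHatP p R dP s t k * b t) • vcJL R (vcF p R t k v)) = 0 := by
    refine Finset.sum_eq_zero fun t ht => ?_
    rw [← Finset.sum_add_distrib]
    refine Finset.sum_eq_zero fun k hk => ?_
    rw [← add_smul, h2 k hk r hr t ht]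
    have : b t * vcHatP p R dP r t k * vcHatK p R δ k r + -(vcHatP p R dP r t k * b t * vcHatK p R δ k r) = 0 := by ring
    rw [this, zero_smul]
  rw [this, sub_zero]

/-! ## 6. bridge to the pointwise operators -/

theorem vc_SS_congr_sheet {R : ℕ} {w w' : VcX → ℝ} (hw : VcA R w) (hw' : VcA R w') (p : ℕ → ℝ) {r j j' : ℕ} (hj : r < j) (hj' : r < j')
    (h : ∀ x, vcLev R x 0 1 = r → w x = w' x) (x : VcX) (hx : vcLev R x 0 1 = r) :
    vcS p R 0 j (vcS p R 1 j' w) x = vcS p R 0 j (vcS p R 1 j' w') x :=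
  vc_S_congr_sheet (hw.S p 1 j') (hw'.S p 1 j') p 0 hj (fun y hy => vc_S_congr_sheet hw hw' p 1 hj' h y hy) x hx

theorem vc_row_congr_sheet {R : ℕ} {w w' : VcX → ℝ} (p : ℕ → ℝ) {t : ℕ} (h : ∀ x, vcLev R x 0 1 = t → w x = w' x) :
    vcRow p R t w = vcRow p R t w' := by
  unfold vcRow
  congr 1
  funext x
  by_cases hx : vcLev R x 0 1 = t
  · rw [h x hx]
  · simp [vcSh, hx]

theorem vc_row_lev_mul {R : ℕ} {w : VcX → ℝ} (hw : VcA R w) (p : ℕ → ℝ) (b : ℕ → ℝ) (t : ℕ) :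
    vcRow p R t (fun y => b (vcLev R y 0 1) * w y) = fun x => b t * vcRow p R t w x := by
  rw [vc_row_congr_sheet p (w' := fun y => b t * w y) (fun x hx => by rw [hx])]
  unfold vcRow
  have e : (fun x => vcSh R t x * (b t * w x)) = fun x => b t * (vcSh R t x * w x) := by
    funext x; ring
  rw [e, vc_S_const_mul ((vc_A_sh R t).mul hw)]

theorem vc_CH_apply (p : ℕ → ℝ) (R : ℕ) (γ : ℕ → ℕ → ℕ → ℝ) (r : ℕ) (v : vcV R) (x : VcX) :
    (vcCH p R γ r v).1 x = ∑ j ∈ Ioc r (R + 1), ∑ j' ∈ Ioc r (R + 1), γ r j j' * vcS p R 0 j (vcS p R 1 j' v.1) x := by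
  unfold vcCH
  simp only [LinearMap.sum_apply, LinearMap.smul_apply, LinearMap.comp_apply, Submodule.coe_sum, Submodule.coe_smul,
    Finset.sum_apply, Pi.smul_apply, smul_eq_mul, vc_SL_coe]

theorem vc_JRAD_apply (p : ℕ → ℝ) (R : ℕ) (ψ : ℕ → ℝ) (u : vcV R) (x : VcX) :
    (vcJL R (vcRAD p R ψ u)).1 x = ∑ k ∈ range (R + 2), ψ k * (vcS p R 0 k u.1 x + vcS p R 0 k u.1 (vcSw x)) := by
  unfold vcJL vcRAD
  simp only [LinearMap.add_apply, LinearMap.id_apply, LinearMap.sum_apply, LinearMap.smul_apply, Submodule.coe_add,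
    Submodule.coe_sum, Submodule.coe_smul, Pi.add_apply, Finset.sum_apply, Pi.smul_apply, smul_eq_mul, vc_SL_coe, vc_WL_coe,
    mul_add, Finset.sum_add_distrib]

/-- on the sheet `r`, `L w` is the frozen `LF_r w` -/
theorem vc_L_frozen (p : ℕ → ℝ) (R r0 : ℕ) (dG dP : ℕ → ℕ → ℕ → ℝ) (b : ℕ → ℝ) (v : vcV R) (r : ℕ) (y : VcX) (hy : vcLev R y 0 1 = r) :
    vcL p R r0 dG dP b v.1 y = (vcLF p R r0 dG dP b r v).1 y := by
  have hbv : VcA R (fun y => b (vcLev R y 0 1) * v.1 y) := (vc_A_lev R 0 1 b).mul v.2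
  unfold vcL vcLF vcOp
  simp only [Submodule.coe_sub, Submodule.coe_add, Submodule.coe_smul, Submodule.coe_sum, Pi.sub_apply, Pi.add_apply,
    Pi.smul_apply, Finset.sum_apply, smul_eq_mul]
  rw [vc_CH_apply]
  simp only [vc_JRAD_apply, vc_RL_coe]
  rw [hy]
  congr 2
  · rw [Finset.mul_sum]
    refine Finset.sum_congr rfl fun j hj => ?_
    rw [Finset.mul_sum]
    refine Finset.sum_congr rfl fun j' hj' => ?_
    have e1 := vc_SS_congr_sheet hbv (v.2.const_mul (b r)) p (Finset.mem_Ioc.1 hj).1 (Finset.mem_Ioc.1 hj').1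
      (fun x hx => by rw [hx]) y hy
    rw [e1, vc_S_const_mul v.2, vc_S_const_mul (v.2.S p 1 j')]
    ring
  · refine Finset.sum_congr rfl fun t _ => ?_
    rw [Finset.mul_sum]
    refine Finset.sum_congr rfl fun k _ => ?_
    rw [vc_row_lev_mul v.2, vc_S_const_mul (v.2.row p t)]
    ring

theorem VcA.L {R : ℕ} {w : VcX → ℝ} (hw : VcA R w) (p : ℕ → ℝ) (r0 : ℕ) (dG dP : ℕ → ℕ → ℕ → ℝ) (b : ℕ → ℝ) :
    VcA R (vcL p R r0 dG dP b w) :=
  hw.sub (((vc_A_lev R 0 1 b).mul hw).op p r0 dG dP)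

/-- **EXACT INVERSE (unit ALG).**   `δ, a` = kernels of the inverse.  `h1`: the child multipliers are inverse to each other;
`h2`: `Â (diag ℓ + diag μ B̂ diag b) = - diag(1/ℓ) B̂ diag b` in every sector `k`.   `hsG` (symmetry of `dG`) is NECESSARY; `_hsym` is not used.
OUTPUT sheets: all `r ≤ R`;  INPUT rows: the sheets `t ∈ [r0, R]`  (version 2 of helper84). -/
theorem vc_inverse {p : ℕ → ℝ} {R r0 : ℕ} (hM : VcMass p R) (dG dP δ a : ℕ → ℕ → ℕ → ℝ) (b : ℕ → ℝ)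
    (hsG : ∀ r j j', dG r j j' = dG r j' j)
    (h1 : ∀ r ∈ range (R + 1), ∀ i ∈ Ioc r (R + 1), ∀ l ∈ Ioc r (R + 1),
      vcHatG p R δ r i l * (1 - b r * vcHatG p R dG r i l) = 1)
    (h2 : ∀ k ∈ range (R + 2), ∀ r ∈ range (R + 1), ∀ t ∈ Icc r0 R,
      vcHatP p R a r t k * (1 - b t * vcHatK p R dG k t)
        + ∑ s ∈ Icc r0 R, vcHatP p R a r s k * vcMu p k s * vcHatP p R dP s t k * b t
        = - (vcHatP p R dP r t k * b t * vcHatK p R δ k r))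
    {w : VcX → ℝ} (hw : VcA R w) (_hsym : ∀ x, w (vcSw x) = w x) (x : VcX) (hx : vcLev R x 0 1 ≤ R) :
    vcOp p R r0 δ (fun r t k => - a r t k) (vcL p R r0 dG dP b w) x = w x := by
  set v : vcV R := ⟨w, hw⟩ with hv
  have hmain := vc_alg_main hM dG dP δ a b hsG h1 h2 v (Finset.mem_range.2 (Nat.lt_succ_of_le hx))
  have hpt := congrArg (fun u : vcV R => u.1 x) hmain
  simp only [Submodule.coe_sub, Pi.sub_apply, Submodule.coe_sum, Finset.sum_apply] at hpt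
  rw [vc_CH_apply] at hpt
  simp only [vc_JRAD_apply] at hpt
  have hg : VcA R (vcL p R r0 dG dP b w) := hw.L p r0 dG dP b
  unfold vcOp
  refine Eq.trans ?_ hpt
  rw [sub_eq_add_neg, ← Finset.sum_neg_distrib]
  congr 1
  · refine Finset.sum_congr rfl fun j hj => Finset.sum_congr rfl fun j' hj' => ?_
    congr 1
    exact vc_SS_congr_sheet hg (vcLF p R r0 dG dP b _ v).2 p (Finset.mem_Ioc.1 hj).1 (Finset.mem_Ioc.1 hj').1
      (fun y hy => vc_L_frozen p R r0 dG dP b v _ y hy) x rfl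
  · refine Finset.sum_congr rfl fun t _ => ?_
    rw [← Finset.sum_neg_distrib]
    refine Finset.sum_congr rfl fun k _ => ?_
    rw [vc_RL_coe, vc_row_congr_sheet p (fun y hy => vc_L_frozen p R r0 dG dP b v t y hy), neg_mul]

/-- the operator does not see the incoming mass `p 0`: no block sum `S_0`, no row on the sheet `0` -/
theorem vc_op_congr_mass {p p' : ℕ → ℝ} (h : ∀ k, 1 ≤ k → p k = p' k) {R r0 : ℕ} (hr0 : 1 ≤ r0) (γ ψ : ℕ → ℕ → ℕ → ℝ)
    (hψ : ∀ r t, ψ r t 0 = 0) {w : VcX → ℝ} (hw : VcA R w) : vcOp p R r0 γ ψ w = vcOp p' R r0 γ ψ w := by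
  funext x
  unfold vcOp
  congr 1
  · refine Finset.sum_congr rfl fun j hj => Finset.sum_congr rfl fun j' hj' => ?_
    rw [vc_S_congr_mass h R 1 (by have := (Finset.mem_Ioc.1 hj').1; omega),
      vc_S_congr_mass h R 0 (by have := (Finset.mem_Ioc.1 hj).1; omega)]
  · refine Finset.sum_congr rfl fun t ht => Finset.sum_congr rfl fun k _ => ?_
    rcases Nat.eq_zero_or_pos k with rfl | hk
    · rw [hψ, zero_mul, zero_mul]
    · rw [vc_row_congr_mass h hw (hr0.trans (Finset.mem_Icc.1 ht).1), vc_S_congr_mass h R 0 hk]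

theorem vc_L_congr_mass {p p' : ℕ → ℝ} (h : ∀ k, 1 ≤ k → p k = p' k) {R r0 : ℕ} (hr0 : 1 ≤ r0) (dG dP : ℕ → ℕ → ℕ → ℝ)
    (b : ℕ → ℝ) (hP0 : ∀ r t, dP r t 0 = 0) {w : VcX → ℝ} (hw : VcA R w) :
    vcL p R r0 dG dP b w = vcL p' R r0 dG dP b w := by
  funext x
  unfold vcL
  rw [vc_op_congr_mass h hr0 dG dP hP0 ((vc_A_lev R 0 1 b).mul hw)]

theorem vc_hatG_congr_mass {p p' : ℕ → ℝ} (h : ∀ k, 1 ≤ k → p k = p' k) (R : ℕ) (γ : ℕ → ℕ → ℕ → ℝ) (r : ℕ) {i l : ℕ}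
    (hi : 1 ≤ i) (hl : 1 ≤ l) : vcHatG p R γ r i l = vcHatG p' R γ r i l := by
  unfold vcHatG
  refine Finset.sum_congr rfl fun j hj => Finset.sum_congr rfl fun j' hj' => ?_
  rw [h j (hi.trans (Finset.mem_Icc.1 hj).1), h j' (hl.trans (Finset.mem_Icc.1 hj').1)]

theorem vc_hatP_congr_mass {p p' : ℕ → ℝ} (h : ∀ k, 1 ≤ k → p k = p' k) (R : ℕ) (ψ : ℕ → ℕ → ℕ → ℝ) (r t : ℕ) {k : ℕ}
    (hk : 1 ≤ k) : vcHatP p R ψ r t k = vcHatP p' R ψ r t k := by
  unfold vcHatP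
  refine Finset.sum_congr rfl fun s hs => ?_
  rw [h s (hk.trans (Finset.mem_Icc.1 hs).1)]

theorem vc_hatK_congr_mass {p p' : ℕ → ℝ} (h : ∀ k, 1 ≤ k → p k = p' k) (R : ℕ) (γ : ℕ → ℕ → ℕ → ℝ) (k r : ℕ) :
    vcHatK p R γ k r = vcHatK p' R γ k r :=
  vc_hatG_congr_mass h R γ r (le_max_of_le_right (by omega)) (by omega)

theorem vc_mu_congr_mass {p p' : ℕ → ℝ} (h : ∀ k, 1 ≤ k → p k = p' k) (k : ℕ) {t : ℕ} (ht : 1 ≤ t) :
    vcMu p k t = vcMu p' k t := by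
  unfold vcMu
  rw [h t ht, h (t + 1) (by omega)]

theorem vc_hatP_zero (p : ℕ → ℝ) (R : ℕ) {ψ : ℕ → ℕ → ℕ → ℝ} {r t : ℕ} (hψ : ψ r t 0 = 0) :
    vcHatP p R ψ r t 0 = vcHatP p R ψ r t 1 := by
  unfold vcHatP
  symm
  refine Finset.sum_subset (Finset.Icc_subset_Icc (by omega) le_rfl) fun s hs hs' => ?_
  have : s = 0 := by
    rw [Finset.mem_Icc] at hs hs'
    omega
  rw [this, hψ, mul_zero]

theorem vc_hatK_zero (p : ℕ → ℝ) (R : ℕ) (γ : ℕ → ℕ → ℕ → ℝ) (r : ℕ) : vcHatK p R γ 0 r = vcHatK p R γ 1 r := by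
  unfold vcHatK
  rw [Nat.zero_max, max_eq_right (by omega : 1 ≤ r + 1)]

theorem vc_mu_zero (p : ℕ → ℝ) {t : ℕ} (ht : 1 ≤ t) : vcMu p 0 t = vcMu p 1 t := by
  unfold vcMu
  rw [if_pos (Nat.zero_le _), if_pos (Nat.zero_le _), if_pos (by omega : 1 ≤ t + 1), if_pos ht]

/-- **EXACT INVERSE AT ARBITRARY INCOMING MASS** (official case `p 0 = 0`): no block sum `S_0`, no row on the sheet `0`.
Proof: nothing depends on `p 0`; apply `vc_inverse` to `Function.update p 0 (p 1)`; its `h2` at `k = 0` is `h2` at `k = 1`. -/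
theorem vc_inverse0 {p : ℕ → ℝ} {R r0 : ℕ} (hr0 : 1 ≤ r0) (hpos : ∀ k, 1 ≤ k → k ≤ R + 1 → 0 < p k)
    (hmono : ∀ k, 1 ≤ k → k ≤ R → p k ≤ p (k + 1)) (htop : p (R + 1) = 1)
    (dG dP δ a : ℕ → ℕ → ℕ → ℝ) (b : ℕ → ℝ) (hsG : ∀ r j j', dG r j j' = dG r j' j)
    (hP0 : ∀ r t, dP r t 0 = 0) (ha0 : ∀ r t, a r t 0 = 0)
    (h1 : ∀ r ∈ range (R + 1), ∀ i ∈ Ioc r (R + 1), ∀ l ∈ Ioc r (R + 1),
      vcHatG p R δ r i l * (1 - b r * vcHatG p R dG r i l) = 1)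
    (h2 : ∀ k ∈ Icc 1 (R + 1), ∀ r ∈ range (R + 1), ∀ t ∈ Icc r0 R,
      vcHatP p R a r t k * (1 - b t * vcHatK p R dG k t)
        + ∑ s ∈ Icc r0 R, vcHatP p R a r s k * vcMu p k s * vcHatP p R dP s t k * b t
        = - (vcHatP p R dP r t k * b t * vcHatK p R δ k r))
    {w : VcX → ℝ} (hw : VcA R w) (_hsym : ∀ x, w (vcSw x) = w x) (x : VcX) (hx : vcLev R x 0 1 ≤ R) :
    vcOp p R r0 δ (fun r t k => - a r t k) (vcL p R r0 dG dP b w) x = w x := by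
  set p' : ℕ → ℝ := Function.update p 0 (p 1) with hp'
  have h : ∀ k, 1 ≤ k → p k = p' k := fun k hk => by rw [hp', Function.update_of_ne (by omega)]
  have h0 : p' 0 = p 1 := by rw [hp', Function.update_self]
  have hM : VcMass p' R := by
    refine ⟨fun k hk => ?_, fun k hk => ?_, ?_⟩
    · rcases Nat.eq_zero_or_pos k with rfl | hk0
      · rw [h0]; exact hpos 1 le_rfl (by omega)
      · rw [← h k hk0]; exact hpos k hk0 hk
    · rcases Nat.eq_zero_or_pos k with rfl | hk0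
      · rw [h0, ← h (0 + 1) (by omega)]
      · rw [← h k hk0, ← h (k + 1) (by omega)]; exact hmono k hk0 hk
    · rw [← h (R + 1) (by omega)]; exact htop
  have h1' : ∀ r ∈ range (R + 1), ∀ i ∈ Ioc r (R + 1), ∀ l ∈ Ioc r (R + 1),
      vcHatG p' R δ r i l * (1 - b r * vcHatG p' R dG r i l) = 1 := by
    intro r hr i hi l hl
    have hi1 : 1 ≤ i := by have := (Finset.mem_Ioc.1 hi).1; omega
    have hl1 : 1 ≤ l := by have := (Finset.mem_Ioc.1 hl).1; omega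
    rw [← vc_hatG_congr_mass h R δ r hi1 hl1, ← vc_hatG_congr_mass h R dG r hi1 hl1]
    exact h1 r hr i hi l hl
  have H : ∀ k ∈ Icc 1 (R + 1), ∀ r ∈ range (R + 1), ∀ t ∈ Icc r0 R,
      vcHatP p' R a r t k * (1 - b t * vcHatK p' R dG k t)
        + ∑ s ∈ Icc r0 R, vcHatP p' R a r s k * vcMu p' k s * vcHatP p' R dP s t k * b t
        = - (vcHatP p' R dP r t k * b t * vcHatK p' R δ k r) := by
    intro k hk r hr t ht
    have hk1 : 1 ≤ k := (Finset.mem_Icc.1 hk).1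
    rw [← vc_hatP_congr_mass h R a r t hk1, ← vc_hatK_congr_mass h R dG k t, ← vc_hatP_congr_mass h R dP r t hk1,
      ← vc_hatK_congr_mass h R δ k r, ← h2 k hk r hr t ht]
    congr 1
    refine Finset.sum_congr rfl fun s hs => ?_
    rw [← vc_hatP_congr_mass h R a r s hk1, ← vc_mu_congr_mass h k (hr0.trans (Finset.mem_Icc.1 hs).1),
      ← vc_hatP_congr_mass h R dP s t hk1]
  have h2' : ∀ k ∈ range (R + 2), ∀ r ∈ range (R + 1), ∀ t ∈ Icc r0 R,
      vcHatP p' R a r t k * (1 - b t * vcHatK p' R dG k t)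
        + ∑ s ∈ Icc r0 R, vcHatP p' R a r s k * vcMu p' k s * vcHatP p' R dP s t k * b t
        = - (vcHatP p' R dP r t k * b t * vcHatK p' R δ k r) := by
    intro k hk r hr t ht
    rcases Nat.eq_zero_or_pos k with rfl | hk0
    · rw [vc_hatP_zero p' R (ha0 r t), vc_hatK_zero, vc_hatP_zero p' R (hP0 r t), vc_hatK_zero,
        ← H 1 (Finset.mem_Icc.2 ⟨le_rfl, by omega⟩) r hr t ht]
      congr 1
      refine Finset.sum_congr rfl fun s hs => ?_
      rw [vc_hatP_zero p' R (ha0 r s), vc_mu_zero p' (hr0.trans (Finset.mem_Icc.1 hs).1), vc_hatP_zero p' R (hP0 s t)]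
    · exact H k (Finset.mem_Icc.2 ⟨hk0, by have := Finset.mem_range.1 hk; omega⟩) r hr t ht
  have key := vc_inverse hM dG dP δ a b hsG h1' h2' hw _hsym x hx
  rw [vc_L_congr_mass h hr0 dG dP b hP0 hw,
    vc_op_congr_mass h hr0 δ _ (fun r t => by rw [ha0, neg_zero]) (hw.L p' r0 dG dP b)]
  exact key

end Claimed.Agent.R286
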