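import Claimed.Agent.R286.Inv.Virt

/-!
# Row 286 (S0533), LL Section 5: BLOCK SUMS ON THE VIRTUAL TREE      (head: helper84)

Resolution: levels `0, .., R`; masses `p 0 ≤ .. ≤ p (R+1) = 1`, all `> 0` (`VcMass`); the node of depth `j` has `p j / p (j+1)` children.
* `vcS p R a j F` = `S_j` acting on the label `a`: the levels `j, .., R` of the label `a` are integrated out
  (= signed sum of the label over its `p_j`-block; LL 05: `S_j = p_j P_j`);  `S_(R+1) = id`.
* `vcBlk k x a b`: the labels `a, b` are in the same `p_k`-block;  `vcLev R x a b ∈ [0, R+1]`: number of common initial levels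
  (`= t ≤ R`: the pair is on the SHEET `t`;  `= R+1`: coincidence).
* `VcA R F`: tame and independent of the levels `> R`.
All statements are "integer tree" identities; proofs: only `vc_U_*` of `Virt.lean` (Fubini, pull-out, delta, constants).
-/

set_option autoImplicit false

namespace Claimed.Agent.R286

open Finset

/-- number of children of a node of depth `j` -/
noncomputable def vcRho (p : ℕ → ℝ) (j : ℕ) : ℝ := p j / p (j + 1)

/-- admissible masses -/
structure VcMass (p : ℕ → ℝ) (R : ℕ) : Prop where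
  pos : ∀ k, k ≤ R + 1 → 0 < p k
  mono : ∀ k, k ≤ R → p k ≤ p (k + 1)
  top : p (R + 1) = 1

/-- integrate out the levels `j, .., j+n-1` of the label `a` -/
noncomputable def vcOut (ρ : ℕ → ℝ) (a : ℕ) : ℕ → ℕ → (VcX → ℝ) → VcX → ℝ
  | _, 0, F => F
  | j, n + 1, F => vcU ρ (a, j) (vcOut ρ a (j + 1) n F)

/-- the block sum `S_j` on the label `a` -/
noncomputable def vcS (p : ℕ → ℝ) (R a j : ℕ) (F : VcX → ℝ) : VcX → ℝ := vcOut (vcRho p) a j (R + 1 - j) F

/-- tame, and no dependence on the levels `> R` -/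
structure VcA (R : ℕ) (F : VcX → ℝ) : Prop extends VcT F where
  lvl : ∀ i : ℕ × ℕ, R < i.2 → VcInd i F

/-- `F` does not depend on the label `a` -/
def VcIndL (a : ℕ) (F : VcX → ℝ) : Prop := ∀ j, VcInd (a, j) F

/-! ## closure of `VcA` -/

theorem VcA.const (R : ℕ) (c : ℝ) : VcA R (fun _ => c) := ⟨VcT.const c, fun _ _ _ _ => rfl⟩

theorem VcA.comp2 {R : ℕ} {F G : VcX → ℝ} (hF : VcA R F) (hG : VcA R G) (φ : ℝ → ℝ → ℝ) : VcA R (fun x => φ (F x) (G x)) :=
  ⟨hF.toVcT.comp2 hG.toVcT φ, fun i hi x y => by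
    show φ (F _) (G _) = φ (F x) (G x)
    rw [hF.lvl i hi x y, hG.lvl i hi x y]⟩

theorem VcA.add {R : ℕ} {F G : VcX → ℝ} (hF : VcA R F) (hG : VcA R G) : VcA R (fun x => F x + G x) := hF.comp2 hG (· + ·)
theorem VcA.sub {R : ℕ} {F G : VcX → ℝ} (hF : VcA R F) (hG : VcA R G) : VcA R (fun x => F x - G x) := hF.comp2 hG (· - ·)
theorem VcA.mul {R : ℕ} {F G : VcX → ℝ} (hF : VcA R F) (hG : VcA R G) : VcA R (fun x => F x * G x) := hF.comp2 hG (· * ·)
theorem VcA.const_mul {R : ℕ} {F : VcX → ℝ} (hF : VcA R F) (c : ℝ) : VcA R (fun x => c * F x) :=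
  hF.comp2 hF fun a _ => c * a

theorem VcA.sum {R : ℕ} {α : Type} (s : Finset α) {F : α → VcX → ℝ} (hF : ∀ k ∈ s, VcA R (F k)) :
    VcA R (fun x => ∑ k ∈ s, F k x) :=
  ⟨VcT.sum s fun k hk => (hF k hk).toVcT, fun i hi x y =>
    Finset.sum_congr rfl fun k hk => (hF k hk).lvl i hi x y⟩

/-- an admissible array only sees the levels `≤ R` -/
theorem VcA.congr_lvl {R : ℕ} {F : VcX → ℝ} (hF : VcA R F) {x x' : VcX} (h : ∀ k : ℕ × ℕ, k.2 ≤ R → x k = x' k) :
    F x = F x' := by
  classical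
  obtain ⟨W, hW⟩ := hF.fin
  have key : ∀ T : Finset (ℕ × ℕ), (∀ k ∈ T, R < k.2) → F (fun k => if k ∈ T then x' k else x k) = F x := by
    intro T
    induction T using Finset.induction_on with
    | empty => intro _; simp
    | insert i T hi ih =>
      intro hT
      have e1 : (fun k => if k ∈ insert i T then x' k else x k)
          = Function.update (fun k => if k ∈ T then x' k else x k) i (x' i) := by
        funext k
        by_cases hk : k = i
        · subst hk
          simp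
        · rw [Function.update_of_ne hk]
          simp [Finset.mem_insert, hk]
      rw [e1, hF.lvl i (hT i (Finset.mem_insert_self _ _))]
      exact ih fun k hk => hT k (Finset.mem_insert_of_mem hk)
  rw [← key (W.filter fun k => R < k.2) fun k hk => (Finset.mem_filter.1 hk).2]
  refine hW _ _ fun k hk => ?_
  by_cases hkR : R < k.2
  · rw [if_pos (Finset.mem_filter.2 ⟨hk, hkR⟩)]
  · have hnot : k ∉ W.filter fun k => R < k.2 := fun hmem => hkR (Finset.mem_filter.1 hmem).2
    rw [if_neg hnot]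
    exact h k (not_lt.1 hkR)

theorem VcA.rel {R : ℕ} {F : VcX → ℝ} (hF : VcA R F) (e : ℕ → ℕ) : VcA R (fun x => F (vcRel e x)) := by
  refine ⟨hF.toVcT.rel e, fun i hi x y => hF.congr_lvl fun k hk => ?_⟩
  show Function.update x i y (e k.1, k.2) = x (e k.1, k.2)
  refine Function.update_of_ne (fun h => ?_) _ _
  have : k.2 = i.2 := by rw [← h]
  omega

theorem VcT.out {F : VcX → ℝ} (hF : VcT F) (ρ : ℕ → ℝ) (a : ℕ) (n : ℕ) : ∀ j, VcT (vcOut ρ a j n F) := by
  induction n with
  | zero => exact fun _ => hF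
  | succ n ih => exact fun j => (ih (j + 1)).U ρ (a, j)

theorem VcInd.out {F : VcX → ℝ} {k : ℕ × ℕ} (h : VcInd k F) (ρ : ℕ → ℝ) (a : ℕ) (n : ℕ) :
    ∀ j, VcInd k (vcOut ρ a j n F) := by
  induction n with
  | zero => exact fun _ => h
  | succ n ih => exact fun j => (ih (j + 1)).U ρ (a, j)

theorem VcA.S {R : ℕ} {F : VcX → ℝ} (hF : VcA R F) (p : ℕ → ℝ) (a j : ℕ) : VcA R (vcS p R a j F) :=
  ⟨hF.toVcT.out _ a _ j, fun i hi => (hF.lvl i hi).out _ a _ j⟩

/-! ## calculus of `vcS`  (unit BLK-1) -/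

theorem vc_S_top (p : ℕ → ℝ) {R j : ℕ} (hj : R + 1 ≤ j) (a : ℕ) (F : VcX → ℝ) : vcS p R a j F = F := by
  unfold vcS
  rw [Nat.sub_eq_zero_of_le hj]
  rfl

theorem vc_S_succ (p : ℕ → ℝ) {R j : ℕ} (hj : j ≤ R) (a : ℕ) (F : VcX → ℝ) :
    vcS p R a j F = vcU (vcRho p) (a, j) (vcS p R a (j + 1) F) := by
  unfold vcS
  have : R + 1 - j = (R + 1 - (j + 1)) + 1 := by omega
  rw [this]
  rfl

/-- the integrated levels have disappeared -/
theorem vc_out_ind (ρ : ℕ → ℝ) (a : ℕ) (F : VcX → ℝ) (n : ℕ) :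
    ∀ j i, j ≤ i → i < j + n → VcInd (a, i) (vcOut ρ a j n F) := by
  induction n with
  | zero => intro j i h1 h2; omega
  | succ n ih =>
    intro j i h1 h2
    by_cases hij : i = j
    · rw [hij]; exact vc_U_ind ρ (a, j) _
    · exact (ih (j + 1) i (by omega) (by omega)).U ρ (a, j)

/-- `S_j F` does not depend on the levels `≥ j` of the label -/
theorem vc_S_ind {R : ℕ} {F : VcX → ℝ} (hF : VcA R F) (p : ℕ → ℝ) (a : ℕ) {j i : ℕ} (hji : j ≤ i) :
    VcInd (a, i) (vcS p R a j F) := by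
  by_cases hi : i ≤ R
  · exact vc_out_ind _ a F _ j i hji (by omega)
  · exact (hF.lvl (a, i) (by simpa using hi)).out _ a _ j

theorem VcInd.S {F : VcX → ℝ} {k : ℕ × ℕ} (h : VcInd k F) (p : ℕ → ℝ) (R a j : ℕ) : VcInd k (vcS p R a j F) :=
  h.out _ a _ j

theorem vc_out_add {F G : VcX → ℝ} (hF : VcT F) (hG : VcT G) (ρ : ℕ → ℝ) (a : ℕ) (n : ℕ) :
    ∀ j, vcOut ρ a j n (fun x => F x + G x) = fun x => vcOut ρ a j n F x + vcOut ρ a j n G x := by
  induction n with
  | zero => exact fun _ => rfl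
  | succ n ih =>
    intro j
    show vcU ρ (a, j) (vcOut ρ a (j + 1) n fun x => F x + G x) = _
    rw [ih (j + 1), vc_U_add (hF.out ρ a n (j + 1)) (hG.out ρ a n (j + 1))]
    rfl

theorem vc_S_add {R : ℕ} {F G : VcX → ℝ} (hF : VcA R F) (hG : VcA R G) (p : ℕ → ℝ) (a j : ℕ) :
    vcS p R a j (fun x => F x + G x) = fun x => vcS p R a j F x + vcS p R a j G x :=
  vc_out_add hF.toVcT hG.toVcT _ a _ j

theorem vc_out_sub {F G : VcX → ℝ} (hF : VcT F) (hG : VcT G) (ρ : ℕ → ℝ) (a : ℕ) (n : ℕ) :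
    ∀ j, vcOut ρ a j n (fun x => F x - G x) = fun x => vcOut ρ a j n F x - vcOut ρ a j n G x := by
  induction n with
  | zero => exact fun _ => rfl
  | succ n ih =>
    intro j
    show vcU ρ (a, j) (vcOut ρ a (j + 1) n fun x => F x - G x) = _
    rw [ih (j + 1), vc_U_sub (hF.out ρ a n (j + 1)) (hG.out ρ a n (j + 1))]
    rfl

theorem vc_S_sub {R : ℕ} {F G : VcX → ℝ} (hF : VcA R F) (hG : VcA R G) (p : ℕ → ℝ) (a j : ℕ) :
    vcS p R a j (fun x => F x - G x) = fun x => vcS p R a j F x - vcS p R a j G x :=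
  vc_out_sub hF.toVcT hG.toVcT _ a _ j

theorem vc_out_sum {α : Type} (s : Finset α) {F : α → VcX → ℝ} (hF : ∀ k ∈ s, VcT (F k)) (ρ : ℕ → ℝ) (a : ℕ) (n : ℕ) :
    ∀ j, vcOut ρ a j n (fun x => ∑ k ∈ s, F k x) = fun x => ∑ k ∈ s, vcOut ρ a j n (F k) x := by
  induction n with
  | zero => exact fun _ => rfl
  | succ n ih =>
    intro j
    show vcU ρ (a, j) (vcOut ρ a (j + 1) n fun x => ∑ k ∈ s, F k x) = _
    rw [ih (j + 1), vc_U_sum s fun k hk => (hF k hk).out ρ a n (j + 1)]
    rfl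

theorem vc_S_sum {R : ℕ} {α : Type} (s : Finset α) {F : α → VcX → ℝ} (hF : ∀ k ∈ s, VcA R (F k)) (p : ℕ → ℝ) (a j : ℕ) :
    vcS p R a j (fun x => ∑ k ∈ s, F k x) = fun x => ∑ k ∈ s, vcS p R a j (F k) x :=
  vc_out_sum s (fun k hk => (hF k hk).toVcT) _ a _ j

theorem vc_out_mul_left {F G : VcX → ℝ} (hF : VcT F) (ρ : ℕ → ℝ) (a : ℕ) (n : ℕ) :
    ∀ j, (∀ i, j ≤ i → i < j + n → VcInd (a, i) G) →
      vcOut ρ a j n (fun x => G x * F x) = fun x => G x * vcOut ρ a j n F x := by
  induction n with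
  | zero => exact fun _ _ => rfl
  | succ n ih =>
    intro j hG
    show vcU ρ (a, j) (vcOut ρ a (j + 1) n fun x => G x * F x) = _
    rw [ih (j + 1) fun i h1 h2 => hG i (by omega) (by omega),
      vc_U_mul_left (hF.out ρ a n (j + 1)) (hG j le_rfl (by omega))]
    rfl

/-- a factor which does not depend on the integrated levels comes out -/
theorem vc_S_mul_left {R : ℕ} {F G : VcX → ℝ} (hF : VcA R F) (p : ℕ → ℝ) (a j : ℕ)
    (hG : ∀ i, j ≤ i → i ≤ R → VcInd (a, i) G) :
    vcS p R a j (fun x => G x * F x) = fun x => G x * vcS p R a j F x :=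
  vc_out_mul_left hF.toVcT _ a _ j fun i h1 h2 => hG i h1 (by omega)

theorem vc_S_const_mul {R : ℕ} {F : VcX → ℝ} (hF : VcA R F) (p : ℕ → ℝ) (a j : ℕ) (c : ℝ) :
    vcS p R a j (fun x => c * F x) = fun x => c * vcS p R a j F x :=
  vc_S_mul_left (G := fun _ => c) hF p a j fun _ _ _ _ _ => rfl

theorem vc_out_of_ind {p : ℕ → ℝ} {R : ℕ} (hM : VcMass p R) {F : VcX → ℝ} (a : ℕ) (n : ℕ) :
    ∀ j, j + n = R + 1 → (∀ i, j ≤ i → i ≤ R → VcInd (a, i) F) →
      vcOut (vcRho p) a j n F = fun x => p j * F x := by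
  induction n with
  | zero =>
    intro j hj _
    funext x
    have : j = R + 1 := by omega
    show F x = p j * F x
    rw [this, hM.top, one_mul]
  | succ n ih =>
    intro j hj hF
    show vcU (vcRho p) (a, j) (vcOut (vcRho p) a (j + 1) n F) = _
    rw [ih (j + 1) (by omega) fun i h1 h2 => hF i (by omega) h2]
    have hind : VcInd (a, j) (fun x => p (j + 1) * F x) := fun x y => by
      show p (j + 1) * F _ = p (j + 1) * F x
      rw [hF j le_rfl (by omega) x y]
    rw [vc_U_of_ind hind]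
    funext x
    have hp : p (j + 1) ≠ 0 := (hM.pos (j + 1) (by omega)).ne'
    show vcRho p j * (p (j + 1) * F x) = p j * F x
    unfold vcRho
    field_simp

/-- ROW SUM: the block has mass `p j` -/
theorem vc_S_of_ind {p : ℕ → ℝ} {R : ℕ} (hM : VcMass p R) {F : VcX → ℝ} (a : ℕ) {j : ℕ} (hj : j ≤ R + 1)
    (hF : ∀ i, j ≤ i → i ≤ R → VcInd (a, i) F) : vcS p R a j F = fun x => p j * F x :=
  vc_out_of_ind hM a _ j (by omega) hF

theorem vc_out_split (ρ : ℕ → ℝ) (a : ℕ) (F : VcX → ℝ) (n m : ℕ) :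
    ∀ j, vcOut ρ a j (n + m) F = vcOut ρ a j n (vcOut ρ a (j + n) m F) := by
  induction n with
  | zero => intro j; simp [vcOut]
  | succ n ih =>
    intro j
    have h1 : n + 1 + m = (n + m) + 1 := by omega
    rw [h1]
    show vcU ρ (a, j) (vcOut ρ a (j + 1) (n + m) F) = vcU ρ (a, j) (vcOut ρ a (j + 1) n (vcOut ρ a (j + (n + 1)) m F))
    rw [ih (j + 1)]
    congr 3
    omega

/-- nested block sums: `S_i S_j = p_(max i j) S_(min i j)` -/
theorem vc_S_S {p : ℕ → ℝ} {R : ℕ} (hM : VcMass p R) {F : VcX → ℝ} (hF : VcA R F) (a : ℕ) {i j : ℕ}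
    (hi : i ≤ R + 1) (hj : j ≤ R + 1) :
    vcS p R a i (vcS p R a j F) = fun x => p (max i j) * vcS p R a (min i j) F x := by
  rcases le_total j i with hji | hij
  · rw [max_eq_left hji, min_eq_right hji]
    exact vc_S_of_ind hM a hi fun k h1 _ => vc_S_ind hF p a (hji.trans h1)
  · rw [max_eq_right hij, min_eq_left hij]
    have hsplit : ∀ G : VcX → ℝ, vcS p R a i G = vcOut (vcRho p) a i (j - i) (vcS p R a j G) := by
      intro G
      unfold vcS
      have h1 : R + 1 - i = (j - i) + (R + 1 - j) := by omega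
      have h2 := vc_out_split (vcRho p) a G (j - i) (R + 1 - j) i
      rw [h1, h2]
      congr 2
      omega
    rw [hsplit, hsplit F, vc_S_of_ind hM a hj fun k h1 _ => vc_S_ind hF p a h1]
    exact vc_out_mul_left (G := fun _ => p j) (hF.S p a j).toVcT _ a _ i fun _ _ _ _ _ => rfl

theorem vc_U_out_comm {F : VcX → ℝ} (hF : VcT F) (ρ : ℕ → ℝ) (k : ℕ × ℕ) (a : ℕ) (n : ℕ) :
    ∀ j, vcU ρ k (vcOut ρ a j n F) = vcOut ρ a j n (vcU ρ k F) := by
  induction n with
  | zero => exact fun _ => rfl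
  | succ n ih =>
    intro j
    show vcU ρ k (vcU ρ (a, j) (vcOut ρ a (j + 1) n F)) = vcU ρ (a, j) (vcOut ρ a (j + 1) n (vcU ρ k F))
    rw [vc_U_comm (hF.out ρ a n (j + 1)), ih (j + 1)]

theorem vc_out_comm {F : VcX → ℝ} (hF : VcT F) (ρ : ℕ → ℝ) (a b : ℕ) (n m : ℕ) :
    ∀ i j, vcOut ρ a i n (vcOut ρ b j m F) = vcOut ρ b j m (vcOut ρ a i n F) := by
  induction n with
  | zero => exact fun _ _ => rfl
  | succ n ih =>
    intro i j
    show vcU ρ (a, i) (vcOut ρ a (i + 1) n (vcOut ρ b j m F)) = vcOut ρ b j m (vcU ρ (a, i) (vcOut ρ a (i + 1) n F))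
    rw [ih (i + 1) j, vc_U_out_comm (hF.out ρ a n (i + 1))]

/-- block sums on (equal or different) labels commute -/
theorem vc_S_comm {R : ℕ} {F : VcX → ℝ} (hF : VcA R F) (p : ℕ → ℝ) (a b i j : ℕ) :
    vcS p R a i (vcS p R b j F) = vcS p R b j (vcS p R a i F) :=
  vc_out_comm hF.toVcT _ a b _ _ i j

theorem vc_out_rel (ρ : ℕ → ℝ) (F : VcX → ℝ) (e : ℕ → ℕ) (he : Function.Injective e) (a : ℕ) (n : ℕ) :
    ∀ j, vcOut ρ (e a) j n (fun x => F (vcRel e x)) = fun x => vcOut ρ a j n F (vcRel e x) := by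
  induction n with
  | zero => exact fun _ => rfl
  | succ n ih =>
    intro j
    show vcU ρ (e a, j) (vcOut ρ (e a) (j + 1) n fun x => F (vcRel e x)) = _
    rw [ih (j + 1), vc_U_rel ρ e he a j]
    rfl

theorem vc_S_rel (p : ℕ → ℝ) (R : ℕ) (F : VcX → ℝ) (e : ℕ → ℕ) (he : Function.Injective e) (a j : ℕ) :
    vcS p R (e a) j (fun x => F (vcRel e x)) = fun x => vcS p R a j F (vcRel e x) :=
  vc_out_rel _ F e he a _ j

/-! ## blocks and levels  (unit BLK-2) -/

/-- same `p_k`-block -/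
def vcBlk (k : ℕ) (x : VcX) (a b : ℕ) : Prop := ∀ j, j < k → x (a, j) = x (b, j)

instance vcBlk_dec (k : ℕ) (x : VcX) (a b : ℕ) : Decidable (vcBlk k x a b) := by
  unfold vcBlk; infer_instance

/-- number of common initial levels, at most `R + 1` -/
def vcLev (R : ℕ) (x : VcX) (a b : ℕ) : ℕ := ((range (R + 1)).filter fun k => vcBlk (k + 1) x a b).card

theorem vc_b2_blk_anti {k k' : ℕ} (h : k ≤ k') {x : VcX} {a b : ℕ} (hb : vcBlk k' x a b) : vcBlk k x a b :=
  fun j hj => hb j (lt_of_lt_of_le hj h)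

theorem vc_lev_le (R : ℕ) (x : VcX) (a b : ℕ) : vcLev R x a b ≤ R + 1 := by
  unfold vcLev
  exact (Finset.card_filter_le _ _).trans (by simp)

theorem vc_le_lev {R k : ℕ} (hk : k ≤ R + 1) (x : VcX) (a b : ℕ) : k ≤ vcLev R x a b ↔ vcBlk k x a b := by
  unfold vcLev
  constructor
  · intro h
    by_contra hb
    have hsub : ((range (R + 1)).filter fun k => vcBlk (k + 1) x a b) ⊆ range (k - 1) := by
      intro k' hk'
      rw [Finset.mem_filter] at hk'
      rw [Finset.mem_range]
      by_contra hlt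
      exact hb (vc_b2_blk_anti (by omega) hk'.2)
    have := Finset.card_le_card hsub
    rw [Finset.card_range] at this
    have hk0 : k ≠ 0 := by
      rintro rfl
      exact hb fun j hj => absurd hj (Nat.not_lt_zero j)
    omega
  · intro hb
    have hsub : range k ⊆ ((range (R + 1)).filter fun k => vcBlk (k + 1) x a b) := by
      intro k' hk'
      rw [Finset.mem_range] at hk'
      rw [Finset.mem_filter, Finset.mem_range]
      exact ⟨by omega, vc_b2_blk_anti (by omega) hb⟩
    have := Finset.card_le_card hsub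
    rwa [Finset.card_range] at this

theorem vc_lev_self (R : ℕ) (x : VcX) (a : ℕ) : vcLev R x a a = R + 1 :=
  le_antisymm (vc_lev_le R x a a) ((vc_le_lev le_rfl x a a).2 fun _ _ => rfl)

/-- the level only sees the equality pattern of the levels `≤ R` -/
theorem vc_b2_lev_congr {R : ℕ} {x x' : VcX} {a b a' b' : ℕ} (h : ∀ j, j ≤ R → (x (a, j) = x (b, j) ↔ x' (a', j) = x' (b', j))) :
    vcLev R x a b = vcLev R x' a' b' := by
  have key : ∀ k, k ≤ R + 1 → (vcBlk k x a b ↔ vcBlk k x' a' b') := fun k hk =>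
    ⟨fun hb j hj => (h j (by omega)).1 (hb j hj), fun hb j hj => (h j (by omega)).2 (hb j hj)⟩
  refine le_antisymm ?_ ?_
  · exact (vc_le_lev (vc_lev_le R x a b) x' a' b').2 ((key _ (vc_lev_le R x a b)).1 ((vc_le_lev (vc_lev_le R x a b) x a b).1 le_rfl))
  · exact (vc_le_lev (vc_lev_le R x' a' b') x a b).2 ((key _ (vc_lev_le R x' a' b')).2 ((vc_le_lev (vc_lev_le R x' a' b') x' a' b').1 le_rfl))

theorem vc_lev_symm (R : ℕ) (x : VcX) (a b : ℕ) : vcLev R x a b = vcLev R x b a :=
  vc_b2_lev_congr fun _ _ => eq_comm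

theorem vc_lev_ultra (R : ℕ) (x : VcX) (a b c : ℕ) : min (vcLev R x a b) (vcLev R x b c) ≤ vcLev R x a c := by
  have hk : min (vcLev R x a b) (vcLev R x b c) ≤ R + 1 := (min_le_left _ _).trans (vc_lev_le R x a b)
  have h1 := (vc_le_lev hk x a b).1 (min_le_left _ _)
  have h2 := (vc_le_lev hk x b c).1 (min_le_right _ _)
  exact (vc_le_lev hk x a c).2 fun j hj => (h1 j hj).trans (h2 j hj)

theorem vc_lev_rel (R : ℕ) (x : VcX) (e : ℕ → ℕ) (a b : ℕ) : vcLev R (vcRel e x) a b = vcLev R x (e a) (e b) :=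
  vc_b2_lev_congr fun _ _ => Iff.rfl

/-- any function of finitely many levels is an admissible array -/
theorem vc_A_lev (R a b : ℕ) (f : ℕ → ℝ) : VcA R (fun x => f (vcLev R x a b)) := by
  refine ⟨⟨⟨(range (R + 1)).image (fun j => (a, j)) ∪ (range (R + 1)).image (fun j => (b, j)), fun x x' h => ?_⟩, fun π x => ?_⟩, fun i hi x y => ?_⟩
  · show f _ = f _
    congr 1
    refine vc_b2_lev_congr fun j hj => ?_
    rw [h (a, j) (Finset.mem_union_left _ (Finset.mem_image.2 ⟨j, Finset.mem_range.2 (by omega), rfl⟩)),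
      h (b, j) (Finset.mem_union_right _ (Finset.mem_image.2 ⟨j, Finset.mem_range.2 (by omega), rfl⟩))]
  · show f _ = f _
    congr 1
    exact vc_b2_lev_congr fun j _ => (π j).injective.eq_iff
  · show f _ = f _
    congr 1
    refine vc_b2_lev_congr fun j hj => ?_
    rw [Function.update_of_ne (fun e => by rw [← e] at hi; exact absurd hi (by simpa using hj)),
      Function.update_of_ne (fun e => by rw [← e] at hi; exact absurd hi (by simpa using hj))]

theorem vc_A_blk (R : ℕ) {k : ℕ} (hk : k ≤ R + 1) (a b : ℕ) (u v : ℝ) : VcA R (fun x => if vcBlk k x a b then u else v) := by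
  have e : (fun x => if vcBlk k x a b then u else v) = fun x => (fun n => if k ≤ n then u else v) (vcLev R x a b) := by
    funext x
    exact if_congr (vc_le_lev hk x a b).symm rfl rfl
  rw [e]
  exact vc_A_lev R a b fun n => if k ≤ n then u else v

/-- changing a level `≥ k` does not change the `p_k`-blocks -/
theorem vc_blk_update {k : ℕ} {i : ℕ × ℕ} (hi : k ≤ i.2) (x : VcX) (y a b : ℕ) :
    vcBlk k (Function.update x i y) a b ↔ vcBlk k x a b := by
  have h : ∀ (c j : ℕ), j < k → Function.update x i y (c, j) = x (c, j) := fun c j hj =>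
    Function.update_of_ne (fun e => by rw [← e] at hi; exact absurd hi (by simpa using hj)) _ _
  constructor
  · intro hb j hj
    have := hb j hj
    rwa [h a j hj, h b j hj] at this
  · intro hb j hj
    rw [h a j hj, h b j hj]
    exact hb j hj

/-- changing a level `> t` does not change the statement "the level is `t`" -/
theorem vc_lev_update {R t : ℕ} {i : ℕ × ℕ} (hi : t < i.2) (x : VcX) (y a b : ℕ) :
    vcLev R (Function.update x i y) a b = t ↔ vcLev R x a b = t := by
  have key : ∀ z : VcX, vcLev R z a b = t ↔ (t ≤ R + 1 ∧ vcBlk t z a b ∧ (t ≤ R → ¬ vcBlk (t + 1) z a b)) := by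
    intro z
    constructor
    · rintro rfl
      refine ⟨vc_lev_le R z a b, (vc_le_lev (vc_lev_le R z a b) z a b).1 le_rfl, fun hR hb => ?_⟩
      have := (vc_le_lev (R := R) (k := vcLev R z a b + 1) (by omega) z a b).2 hb
      omega
    · rintro ⟨h1, h2, h3⟩
      have h4 := (vc_le_lev h1 z a b).2 h2
      have h5 := vc_lev_le R z a b
      by_contra hne
      have h6 : t + 1 ≤ vcLev R z a b := by omega
      exact h3 (by omega) ((vc_le_lev (by omega) z a b).1 h6)
  rw [key, key, vc_blk_update hi.le, vc_blk_update (Nat.succ_le_of_lt hi)]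

/-- copy the levels `< k` of the label `a` to the label `b` -/
def vcCopy (k a b : ℕ) (x : VcX) : VcX := fun i => if i.1 = b ∧ i.2 < k then x (a, i.2) else x i

/-- splitting of the integrated levels -/
theorem vc_b2_out_split (ρ : ℕ → ℝ) (a : ℕ) (n m : ℕ) : ∀ (j : ℕ) (F : VcX → ℝ), vcOut ρ a j (n + m) F = vcOut ρ a j n (vcOut ρ a (j + n) m F) := by
  induction n with
  | zero =>
    intro j F
    rw [Nat.zero_add, Nat.add_zero]
    rfl
  | succ n ih =>
    intro j F
    have : n + 1 + m = (n + m) + 1 := by omega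
    rw [this]
    show vcU ρ (a, j) (vcOut ρ a (j + 1) (n + m) F) = vcU ρ (a, j) (vcOut ρ a (j + 1) n (vcOut ρ a (j + (n + 1)) m F))
    rw [ih (j + 1) F]
    have : j + 1 + n = j + (n + 1) := by omega
    rw [this]

/-- integration of the levels `j, .., j+n-1` of `b` against the deltas `x (b, l) = x (a, l)` = substitution -/
theorem vc_b2_out_delta (ρ : ℕ → ℝ) {a b : ℕ} (hab : a ≠ b) (n : ℕ) : ∀ (j : ℕ) (H : VcX → ℝ),
    vcOut ρ b j n (fun x => if (∀ l, j ≤ l → l < j + n → x (b, l) = x (a, l)) then H x else 0)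
      = fun x => H fun i => if i.1 = b ∧ j ≤ i.2 ∧ i.2 < j + n then x (a, i.2) else x i := by
  induction n with
  | zero =>
    intro j H
    show (fun x => if (∀ l, j ≤ l → l < j + 0 → x (b, l) = x (a, l)) then H x else 0) = _
    funext x
    rw [if_pos (fun l h1 h2 => by omega)]
    congr 1
    funext i
    rw [if_neg (by omega)]
  | succ n ih =>
    intro j H
    show vcU ρ (b, j) (vcOut ρ b (j + 1) n _) = _
    have e1 : (fun x : VcX => if (∀ l, j ≤ l → l < j + (n + 1) → x (b, l) = x (a, l)) then H x else 0)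
        = fun x => if (∀ l, j + 1 ≤ l → l < j + 1 + n → x (b, l) = x (a, l)) then (if x (b, j) = x (a, j) then H x else 0) else 0 := by
      funext x
      by_cases h1 : ∀ l, j ≤ l → l < j + (n + 1) → x (b, l) = x (a, l)
      · rw [if_pos h1, if_pos (fun l h2 h3 => h1 l (by omega) (by omega)), if_pos (h1 j le_rfl (by omega))]
      · rw [if_neg h1]
        by_cases h2 : ∀ l, j + 1 ≤ l → l < j + 1 + n → x (b, l) = x (a, l)
        · rw [if_pos h2]
          by_cases h3 : x (b, j) = x (a, j)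
          · exfalso
            apply h1
            intro l h4 h5
            rcases Nat.eq_or_lt_of_le h4 with h6 | h6
            · rw [← h6]; exact h3
            · exact h2 l h6 (by omega)
          · rw [if_neg h3]
        · rw [if_neg h2]
    rw [e1, ih (j + 1) fun x => if x (b, j) = x (a, j) then H x else 0]
    have e2 : (fun x : VcX => if (fun i : ℕ × ℕ => if i.1 = b ∧ j + 1 ≤ i.2 ∧ i.2 < j + 1 + n then x (a, i.2) else x i) (b, j)
          = (fun i : ℕ × ℕ => if i.1 = b ∧ j + 1 ≤ i.2 ∧ i.2 < j + 1 + n then x (a, i.2) else x i) (a, j)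
          then H (fun i : ℕ × ℕ => if i.1 = b ∧ j + 1 ≤ i.2 ∧ i.2 < j + 1 + n then x (a, i.2) else x i) else 0)
        = fun x => if x (b, j) = x (a, j) then (fun x : VcX => H (fun i : ℕ × ℕ => if i.1 = b ∧ j + 1 ≤ i.2 ∧ i.2 < j + 1 + n then x (a, i.2) else x i)) x else 0 := by
      funext x
      refine if_congr ?_ rfl rfl
      dsimp only
      rw [if_neg (by omega), if_neg (by omega)]
    rw [e2, vc_U_delta ρ (b, j) (a, j) (fun e => hab (congrArg Prod.fst e).symm)]
    funext x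
    congr 1
    funext i
    by_cases h1 : i.1 = b ∧ j + 1 ≤ i.2 ∧ i.2 < j + 1 + n
    · rw [if_pos h1, if_pos ⟨h1.1, by omega, by omega⟩, Function.update_of_ne (fun e => hab (congrArg Prod.fst e))]
    · rw [if_neg h1]
      by_cases h2 : i = (b, j)
      · rw [h2, Function.update_self, if_pos ⟨rfl, le_rfl, by omega⟩]
      · rw [Function.update_of_ne h2, if_neg]
        rintro ⟨h3, h4, h5⟩
        rcases Nat.eq_or_lt_of_le h4 with h6 | h6
        · exact h2 (Prod.ext h3 h6.symm)
        · exact h1 ⟨h3, h6, by omega⟩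

/-- DELTA LEMMA: summing the label `b` over the `p_k`-block of `a` -/
theorem vc_S_blk {p : ℕ → ℝ} {R : ℕ} {G : VcX → ℝ} (hG : VcA R G) {a b : ℕ} (hab : a ≠ b) {k : ℕ} (hk : k ≤ R + 1) :
    vcS p R b 0 (fun x => if vcBlk k x b a then G x else 0) = fun x => vcS p R b k G (vcCopy k a b x) := by
  have e1 : vcS p R b 0 (fun x => if vcBlk k x b a then G x else 0) = vcOut (vcRho p) b 0 k (vcS p R b k fun x => if vcBlk k x b a then G x else 0) := by
    unfold vcS
    have : R + 1 - 0 = k + (R + 1 - k) := by omega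
    rw [this, vc_b2_out_split, Nat.zero_add]
  have e2 : (vcS p R b k fun x => if vcBlk k x b a then G x else 0) = fun x => if vcBlk k x b a then vcS p R b k G x else 0 := by
    have e3 : (fun x => if vcBlk k x b a then G x else 0) = fun x => (if vcBlk k x b a then (1:ℝ) else 0) * G x := by
      funext x
      split_ifs <;> simp
    rw [e3, vc_S_mul_left hG p b k fun i hi _ x y => by
      show (if vcBlk k (Function.update x (b, i) y) b a then (1:ℝ) else 0) = if vcBlk k x b a then (1:ℝ) else 0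
      exact if_congr (vc_blk_update (i := (b, i)) hi x y b a) rfl rfl]
    funext x
    split_ifs <;> simp
  rw [e1, e2]
  have e4 := vc_b2_out_delta (vcRho p) hab k 0 (vcS p R b k G)
  have e5 : (fun x => if (∀ l, 0 ≤ l → l < 0 + k → x (b, l) = x (a, l)) then vcS p R b k G x else 0) = fun x => if vcBlk k x b a then vcS p R b k G x else 0 := by
    funext x
    refine if_congr ?_ rfl rfl
    unfold vcBlk
    simp
  rw [e5] at e4
  rw [e4]
  funext x
  congr 1
  funext i
  unfold vcCopy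
  simp

end Claimed.Agent.R286
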