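import Claimed.Agent.R286.Inv.Blk
import Claimed.Agent.R286.Fd.PlcLem

/-!
# Row 286 (S0533), LL Section 5, unit BRG: VIRTUAL SUMS = SIGNED ROWS OF `Defs/Plc`      (owner helper296; head helper84; prefix `vc_brg_`)

Bridge between the proof device `Inv/Virt`, `Inv/Blk` (virtual sets of real cardinality) and the official vocabulary `Defs/Plc` (`GhTree.row`, `GhTree.att`, `GhTree.coef`).
* `vcTree R q x : GhTree q`   the tree of the labels `0, .., q-1` of the configuration `x` (`sh a b = vcLev R x a b`, zero diagonal);      `vcM p R` = the masses `p` on `[0, R+1]`, `0` beyond.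
MASSES: only `0 < p k` for `1 ≤ k ≤ R+1` and `p (R+1) = 1` are used: the incoming mass `p 0` is ARBITRARY (`0` allowed).
* `vc_brg_rowIn`   **block sum of a fresh label = signed row inside a node**:   if the label `q` follows `a0` through `j` levels,
      `vcS p R q j (Φ ∘ vcTree R (q+1)) x = (vcTree R q x).rowIn (vcM p R) R j a0 fun l a => Φ ((vcTree R q x).att l a)`
* `vc_brg_row`     `j = 0`:   `vcS p R q 0 (Φ ∘ vcTree R (q+1)) x = (vcTree R q x).row (vcM p R) R 0 fun l a => Φ ((vcTree R q x).att l a)`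
* `vc_brg_row2`    two fresh labels = two successive rows
* `vc_brg_A`       `Φ ∘ vcTree R q` is an admissible array (`VcA R`);     `vc_brg_surj`  every normalised tree is `vcTree R q x`;     `vc_brg_rel`  relabelling = `GhTree.comap`
* pure tree lemmas: `vc_brg_ext`, `vc_brg_sum_can`, `vc_brg_att_congr`, `vc_brg_sum_nd`, `vc_brg_rowIn_succ` (recursion of `rowIn` over the children of a node)
-/

set_option autoImplicit false

namespace Claimed.Agent.R286

open Finset

/-! ## pure tree lemmas -/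

theorem vc_brg_ext {q : ℕ} {T T' : GhTree q} (h : ∀ a b, T.sh a b = T'.sh a b) : T = T' := by
  cases T
  cases T'
  simp only [GhTree.mk.injEq]
  funext a b
  exact h a b

/-- a node has exactly one canonical anchor -/
theorem vc_brg_sum_can {q : ℕ} (T : GhTree q) (l : ℕ) (a0 : Fin q) (f : Fin q → ℝ) :
    (∑ a ∈ T.nd l a0, if T.can l a then f a else 0) = f (T.anc l a0) := by
  rw [Finset.sum_eq_single (T.anc l a0)]
  · rw [if_pos (ghp_anc_can T l a0)]
  · intro b hb hne
    rw [if_neg]
    intro hc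
    exact hne ((ghp_anc_eq_iff T l b a0).2 ⟨ghp_nd_symm T l hb, hc⟩).symm
  · intro h
    exact absurd (ghp_anc_mem T l a0) h

/-- the attachment depends only on the node -/
theorem vc_brg_att_congr {q : ℕ} (T : GhTree q) (l : ℕ) {a a0 : Fin q} (h : a ∈ T.nd l a0) : T.att l a = T.att l a0 := by
  by_cases haa : a = a0
  · rw [haa]
  have hl : l ≤ T.sh a0 a := by
    rcases (ghp_mem_nd T l a0 a).1 h with h | h
    · exact absurd h haa
    · exact h
  have hrow : ∀ b, (if b = a then l else min l (T.sh a b)) = if b = a0 then l else min l (T.sh a0 b) := by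
    intro b
    by_cases hb : b = a
    · rw [if_pos hb, if_neg (by rw [hb]; exact haa), hb, min_eq_left hl]
    · rw [if_neg hb]
      by_cases hb0 : b = a0
      · rw [if_pos hb0, hb0, T.symm a a0, min_eq_left hl]
      · rw [if_neg hb0]
        have u1 := T.ultra a0 a b (fun e => hb0 e.symm)
        have u2 := T.ultra a a0 b (fun e => hb e.symm)
        rw [T.symm a a0] at u2
        refine le_antisymm (le_min (min_le_left _ _) (le_trans ?_ u1)) (le_min (min_le_left _ _) (le_trans ?_ u2))
        · exact le_min ((min_le_left _ _).trans hl) (min_le_right _ _)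
        · exact le_min ((min_le_left _ _).trans hl) (min_le_right _ _)
  refine vc_brg_ext fun x y => ?_
  induction x using Fin.lastCases with
  | last =>
    induction y using Fin.lastCases with
    | last => simp [GhTree.att, GhTree.ext]
    | cast b => rw [ghp_att_lc, ghp_att_lc]; exact hrow b
  | cast c =>
    induction y using Fin.lastCases with
    | last => rw [ghp_att_cl, ghp_att_cl]; exact hrow c
    | cast b => rw [ghp_att_cc, ghp_att_cc]

theorem vc_brg_coef_congr {q : ℕ} (T : GhTree q) (M : ℕ → ℝ) (l : ℕ) {a a0 : Fin q} (h : a ∈ T.nd l a0) : T.coef M l a = T.coef M l a0 := by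
  unfold GhTree.coef GhTree.kids
  rw [ghp_nd_eq T l h]

/-- a node is the disjoint union of its children -/
theorem vc_brg_sum_nd {q : ℕ} (T : GhTree q) (j : ℕ) (a0 : Fin q) (g : Fin q → ℝ) :
    ∑ a ∈ T.nd j a0, g a = ∑ b ∈ (T.nd j a0).filter (fun b => T.can (j + 1) b), ∑ a ∈ T.nd (j + 1) b, g a := by
  have hmaps : ∀ a ∈ T.nd j a0, T.anc (j + 1) a ∈ (T.nd j a0).filter (fun b => T.can (j + 1) b) := by
    intro a ha
    rw [Finset.mem_filter]
    exact ⟨ghp_nd_trans T j ha (ghp_nd_anti T (Nat.le_succ j) a (ghp_anc_mem T (j + 1) a)), ghp_anc_can T (j + 1) a⟩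
  rw [← Finset.sum_fiberwise_of_maps_to hmaps g]
  refine Finset.sum_congr rfl fun b hb => ?_
  rw [Finset.mem_filter] at hb
  refine Finset.sum_congr ?_ fun _ _ => rfl
  ext a
  rw [Finset.mem_filter, ghp_anc_eq_iff]
  constructor
  · rintro ⟨-, h, -⟩
    exact h
  · intro h
    exact ⟨ghp_nd_trans T j hb.1 (ghp_nd_anti T (Nat.le_succ j) b h), h, hb.2⟩

/-- **recursion of the signed row over the children of a node** -/
theorem vc_brg_rowIn_succ {q : ℕ} (T : GhTree q) (M : ℕ → ℝ) {N j : ℕ} (hj : j ≤ N + 1) (a0 : Fin q) (Ψ : ℕ → Fin q → ℝ)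
    (hΨ : ∀ a ∈ T.nd j a0, Ψ j a = Ψ j a0) :
    T.rowIn M N j a0 Ψ = T.coef M j a0 * Ψ j a0 + ∑ b ∈ (T.nd j a0).filter (fun b => T.can (j + 1) b), T.rowIn M N (j + 1) b Ψ := by
  unfold GhTree.rowIn
  rw [← Finset.insert_Icc_add_one_left_eq_Icc hj, Finset.sum_insert (by simp), vc_brg_sum_can T j a0 fun a => T.coef M j a * Ψ j a,
    vc_brg_coef_congr T M j (ghp_anc_mem T j a0), hΨ _ (ghp_anc_mem T j a0)]
  congr 1
  rw [Finset.sum_congr rfl fun l _ => vc_brg_sum_nd T j a0 fun a => if T.can l a then T.coef M l a * Ψ l a else 0]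
  exact Finset.sum_comm

theorem vc_brg_rowIn_zero {q : ℕ} (T : GhTree q) (M : ℕ → ℝ) (N : ℕ) (a0 : Fin q) (Ψ : ℕ → Fin q → ℝ) : T.rowIn M N 0 a0 Ψ = T.row M N 0 Ψ := by
  unfold GhTree.rowIn GhTree.row
  have : T.nd 0 a0 = Finset.univ := by
    ext b
    simp [ghp_mem_nd]
  rw [this]

/-! ## the tree of a configuration -/

/-- the tree of the labels `0, .., q-1` of a configuration (zero diagonal) -/
def vcTree (R q : ℕ) (x : VcX) : GhTree q where
  sh := fun a b => if a = b then 0 else vcLev R x a b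
  symm := fun a b => by
    by_cases h : a = b
    · rw [if_pos h, if_pos h.symm]
    · rw [if_neg h, if_neg (fun e => h e.symm), vc_lev_symm]
  ultra := fun a b c hac => by
    rw [if_neg hac]
    by_cases hab : a = b
    · rw [if_pos hab]
      simp
    · by_cases hbc : b = c
      · rw [if_pos hbc]
        simp
      · rw [if_neg hab, if_neg hbc]
        exact vc_lev_ultra R x a b c

/-- the masses seen by the signed calculus -/
def vcM (p : ℕ → ℝ) (R : ℕ) (k : ℕ) : ℝ := if k ≤ R + 1 then p k else 0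

theorem vc_brg_eqns_cite : True := by
  have := @vcTree.eq_1
  have := @vcM.eq_1
  trivial

theorem vc_brg_sh {R q : ℕ} (x : VcX) {a b : Fin q} (h : a ≠ b) : (vcTree R q x).sh a b = vcLev R x a b := if_neg h

theorem vc_brg_sh_self {R q : ℕ} (x : VcX) (a : Fin q) : (vcTree R q x).sh a a = 0 := if_pos rfl

theorem vc_brg_sh_le {R q : ℕ} (x : VcX) (a b : Fin q) : (vcTree R q x).sh a b ≤ R + 1 := by
  by_cases h : a = b
  · rw [h, vc_brg_sh_self]
    exact Nat.zero_le _
  · rw [vc_brg_sh x h]
    exact vc_lev_le R x a b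

theorem vc_brg_tree_congr {R q : ℕ} {x x' : VcX} (h : ∀ a b : ℕ, a < q → b < q → a ≠ b → vcLev R x a b = vcLev R x' a b) : vcTree R q x = vcTree R q x' := by
  refine vc_brg_ext fun a b => ?_
  by_cases hab : a = b
  · rw [hab, vc_brg_sh_self, vc_brg_sh_self]
  · rw [vc_brg_sh x hab, vc_brg_sh x' hab]
    exact h a b a.isLt b.isLt fun e => hab (Fin.ext e)

theorem vc_brg_mem_nd {R q : ℕ} (x : VcX) {l : ℕ} (hl : l ≤ R + 1) (a b : Fin q) : b ∈ (vcTree R q x).nd l a ↔ vcBlk l x a b := by
  rw [ghp_mem_nd]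
  by_cases hab : a = b
  · rw [hab]
    exact ⟨fun _ _ _ => rfl, fun _ => Or.inl rfl⟩
  · rw [vc_brg_sh x hab, vc_le_lev hl]
    exact ⟨fun h => h.resolve_left fun e => hab e.symm, Or.inr⟩

/-- the tree of the first `q` labels does not see the other labels -/
theorem vc_brg_tree_update {R q : ℕ} (y : VcX) {c : ℕ} (hc : q ≤ c) (i z : ℕ) : vcTree R q (Function.update y (c, i) z) = vcTree R q y := by
  refine vc_brg_tree_congr fun a b ha hb _ => vc_b2_lev_congr fun j _ => ?_
  rw [Function.update_of_ne (fun e => by have := congrArg Prod.fst e; simp at this; omega),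
    Function.update_of_ne (fun e => by have := congrArg Prod.fst e; simp at this; omega)]

theorem vc_brg_blk_trans {k : ℕ} {x : VcX} {a b c : ℕ} (h1 : vcBlk k x a b) (h2 : vcBlk k x b c) : vcBlk k x a c :=
  fun j hj => (h1 j hj).trans (h2 j hj)

theorem vc_brg_blk_symm {k : ℕ} {x : VcX} {a b : ℕ} (h1 : vcBlk k x a b) : vcBlk k x b a := fun j hj => (h1 j hj).symm

theorem vc_brg_blk_succ {k : ℕ} {x : VcX} {a b : ℕ} : vcBlk (k + 1) x a b ↔ vcBlk k x a b ∧ x (a, k) = x (b, k) := by
  constructor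
  · intro h
    exact ⟨vc_b2_blk_anti (Nat.le_succ k) h, h k (Nat.lt_succ_self k)⟩
  · rintro ⟨h1, h2⟩ j hj
    rcases Nat.lt_succ_iff_lt_or_eq.1 hj with h | h
    · exact h1 j h
    · rw [h]
      exact h2

/-- levels of a label which follows `a0` through `l` levels and is then fresh -/
theorem vc_brg_lev_att {R : ℕ} (y : VcX) {l : ℕ} (hl : l ≤ R + 1) {c a0 : ℕ} (h1 : vcBlk l y c a0) (b : ℕ)
    (h2 : l ≤ R → vcBlk l y a0 b → y (c, l) ≠ y (b, l)) : vcLev R y c b = min l (vcLev R y a0 b) := by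
  have hk : min l (vcLev R y a0 b) ≤ R + 1 := (min_le_left _ _).trans hl
  refine le_antisymm ?_ ?_
  · by_contra hlt
    have h3 : min l (vcLev R y a0 b) + 1 ≤ vcLev R y c b := by omega
    have h4 : min l (vcLev R y a0 b) + 1 ≤ R + 1 := h3.trans (vc_lev_le R y c b)
    have h5 := (vc_le_lev h4 y c b).1 h3
    rcases le_total l (vcLev R y a0 b) with h6 | h6
    · rw [min_eq_left h6] at h4 h5
      exact h2 (by omega) ((vc_le_lev hl y a0 b).1 h6) (vc_brg_blk_succ.1 h5).2
    · rw [min_eq_right h6] at h3 h4 h5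
      by_cases h7 : vcLev R y a0 b = l
      · rw [h7] at h4 h5
        exact h2 (by omega) ((vc_le_lev hl y a0 b).1 h7.ge) (vc_brg_blk_succ.1 h5).2
      · have h8 : vcLev R y a0 b + 1 ≤ l := by omega
        have h9 := vc_brg_blk_trans (vc_brg_blk_symm (vc_b2_blk_anti h8 h1)) h5
        have := (vc_le_lev h4 y a0 b).2 h9
        omega
  · refine (vc_le_lev hk y c b).2 (vc_brg_blk_trans (vc_b2_blk_anti (min_le_left _ _) h1) ?_)
    exact (vc_le_lev hk y a0 b).1 (min_le_right _ _)

/-- **the tree of an attached configuration** -/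
theorem vc_brg_tree_att {R q : ℕ} (y : VcX) {l : ℕ} (hl : l ≤ R + 1) (a0 : Fin q) (h1 : vcBlk l y q a0)
    (h2 : l ≤ R → ∀ b : Fin q, vcBlk l y a0 b → y (q, l) ≠ y (b, l)) : vcTree R (q + 1) y = (vcTree R q y).att l a0 := by
  have hrow : ∀ b : Fin q, vcLev R y q b = if b = a0 then l else min l ((vcTree R q y).sh a0 b) := by
    intro b
    rw [vc_brg_lev_att y hl h1 b fun h3 => h2 h3 b]
    by_cases hb : b = a0
    · rw [if_pos hb, hb, vc_lev_self, min_eq_left hl]
    · rw [if_neg hb, vc_brg_sh y fun e => hb e.symm]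
  refine vc_brg_ext fun u v => ?_
  induction u using Fin.lastCases with
  | last =>
    induction v using Fin.lastCases with
    | last => rw [vc_brg_sh_self]; simp [GhTree.att, GhTree.ext]
    | cast b =>
      rw [ghp_att_lc, vc_brg_sh y (Fin.castSucc_lt_last b).ne', ← hrow b]
      simp
  | cast c =>
    induction v using Fin.lastCases with
    | last =>
      rw [ghp_att_cl, vc_brg_sh y (Fin.castSucc_lt_last c).ne, ← hrow c, vc_lev_symm]
      simp
    | cast b =>
      rw [ghp_att_cc]
      by_cases hcb : c = b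
      · rw [hcb, vc_brg_sh_self, vc_brg_sh_self]
      · rw [vc_brg_sh y hcb, vc_brg_sh y fun e => hcb (Fin.castSucc_injective q e)]
        simp

/-! ## block sums of a fresh label -/

/-- an update of the label `q` above all its levels of separation does not change the tree -/
theorem vc_brg_tree_sep {R q : ℕ} (y : VcX) {j : ℕ} (hy : ∀ b, b < q → vcLev R y q b < j) (z : ℕ) :
    vcTree R (q + 1) (Function.update y (q, j) z) = vcTree R (q + 1) y := by
  have h0 : ∀ b, b < q → vcLev R (Function.update y (q, j) z) q b = vcLev R y q b := fun b hb =>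
    (vc_lev_update (i := (q, j)) (hy b hb) y z q b).2 rfl
  refine vc_brg_tree_congr fun a b ha hb hab => ?_
  by_cases haq : a = q
  · rw [haq]
    exact h0 b (by omega)
  · by_cases hbq : b = q
    · rw [hbq, vc_lev_symm, vc_lev_symm R y]
      exact h0 a (by omega)
    · refine vc_b2_lev_congr fun i _ => ?_
      rw [Function.update_of_ne (fun e => haq (congrArg Prod.fst e)), Function.update_of_ne (fun e => hbq (congrArg Prod.fst e))]

/-- a label which is already separated from all the others: the block sum is the mass of the block -/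
theorem vc_brg_sep {p : ℕ → ℝ} {R : ℕ} (hpos : ∀ k, 1 ≤ k → k ≤ R + 1 → 0 < p k) (htop : p (R + 1) = 1) {q : ℕ} (Φ : GhTree (q + 1) → ℝ) : ∀ (n j : ℕ), j + n = R + 1 → ∀ y : VcX,
    (∀ b, b < q → vcLev R y q b < j) → vcS p R q j (fun y => Φ (vcTree R (q + 1) y)) y = p j * Φ (vcTree R (q + 1) y) := by
  intro n
  induction n with
  | zero =>
    intro j hj y _
    have hj' : j = R + 1 := by omega
    rw [vc_S_top p (by omega), hj', htop, one_mul]
  | succ n ih =>
    intro j hj y hy
    rw [vc_S_succ p (by omega)]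
    show vcI (vcRho p j) (fun z => vcS p R q (j + 1) (fun y => Φ (vcTree R (q + 1) y)) (Function.update y (q, j) z)) = _
    have h2 : ∀ z, vcS p R q (j + 1) (fun y => Φ (vcTree R (q + 1) y)) (Function.update y (q, j) z) = p (j + 1) * Φ (vcTree R (q + 1) y) := by
      intro z
      rw [ih (j + 1) (by omega) _ fun b hb => ?_, vc_brg_tree_sep y hy z]
      rw [(vc_lev_update (i := (q, j)) (hy b hb) y z q b).2 rfl]
      exact (hy b hb).trans (Nat.lt_succ_self j)
    rw [funext h2, vc_I_const]
    unfold vcRho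
    have := (hpos (j + 1) (by omega) (by omega)).ne'
    field_simp

/-- **block sum of a fresh label = signed row inside a node** (induction on the number of integrated levels) -/
theorem vc_brg_rowIn_aux {p : ℕ → ℝ} {R : ℕ} (hpos : ∀ k, 1 ≤ k → k ≤ R + 1 → 0 < p k) (htop : p (R + 1) = 1) {q : ℕ} (Φ : GhTree (q + 1) → ℝ) : ∀ (n j : ℕ), j + n = R + 1 → ∀ (y : VcX) (a0 : Fin q),
    vcBlk j y q a0 → vcS p R q j (fun y => Φ (vcTree R (q + 1) y)) y
      = (vcTree R q y).rowIn (vcM p R) R j a0 fun l a => Φ ((vcTree R q y).att l a) := by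
  intro n
  induction n with
  | zero =>
    intro j hj y a0 h
    have hj' : j = R + 1 := by omega
    subst hj'
    rw [vc_S_top p le_rfl, vc_brg_rowIn_succ _ _ le_rfl a0 _ fun a ha => by rw [vc_brg_att_congr _ _ ha]]
    have h0 : ∀ b : Fin q, (vcTree R q y).rowIn (vcM p R) R (R + 1 + 1) b (fun l a => Φ ((vcTree R q y).att l a)) = 0 := by
      intro b
      unfold GhTree.rowIn
      rw [Finset.Icc_eq_empty (by omega), Finset.sum_empty]
    rw [Finset.sum_congr rfl fun b _ => h0 b, Finset.sum_const_zero, add_zero, ← vc_brg_tree_att y le_rfl a0 h fun h' => absurd h' (by omega)]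
    unfold GhTree.coef vcM
    rw [if_pos le_rfl, if_neg (by omega), htop]
    ring
  | succ n ih =>
    intro j hj y a0 h
    have hjR : j ≤ R := by omega
    set T := vcTree R q y with hT
    have hnd : ∀ b : Fin q, b ∈ T.nd j a0 ↔ vcBlk j y a0 b := fun b => vc_brg_mem_nd y (by omega) a0 b
    have hnd1 : ∀ b b' : Fin q, b' ∈ T.nd (j + 1) b ↔ vcBlk (j + 1) y b b' := fun b b' => vc_brg_mem_nd y (by omega) b b'
    have hq : ∀ b : Fin q, ((b : ℕ), j) ≠ (q, j) := fun b e => by
      have := congrArg Prod.fst e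
      simp at this
      omega
    -- the occupied children
    have hA : ∀ b : Fin q, vcBlk j y a0 b → y (b, j) ∈ ((T.nd j a0).filter fun b => T.can (j + 1) b).image fun b : Fin q => y (b, j) := by
      intro b hb
      refine Finset.mem_image.2 ⟨T.anc (j + 1) b, Finset.mem_filter.2 ⟨?_, ghp_anc_can T (j + 1) b⟩, ?_⟩
      · exact ghp_nd_trans T j ((hnd b).2 hb) (ghp_nd_anti T (Nat.le_succ j) b (ghp_anc_mem T (j + 1) b))
      · exact ((vc_brg_blk_succ.1 ((hnd1 b _).1 (ghp_anc_mem T (j + 1) b))).2).symm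
    have hinj : Set.InjOn (fun b : Fin q => y (b, j)) ↑((T.nd j a0).filter fun b => T.can (j + 1) b) := by
      intro b hb b' hb' e
      rw [Finset.mem_coe, Finset.mem_filter] at hb hb'
      have h1 : vcBlk (j + 1) y b b' :=
        vc_brg_blk_succ.2 ⟨vc_brg_blk_trans (vc_brg_blk_symm ((hnd b).1 hb.1)) ((hnd b').1 hb'.1), e⟩
      have h2 : T.anc (j + 1) b' = b := (ghp_anc_eq_iff T (j + 1) b b').2 ⟨(hnd1 b b').2 h1, hb.2⟩
      have h3 : T.anc (j + 1) b' = b' := (ghp_anc_eq_iff T (j + 1) b' b').2 ⟨ghp_nd_self T (j + 1) b', hb'.2⟩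
      exact h2.symm.trans h3
    have hblk : ∀ z, vcBlk j (Function.update y (q, j) z) q a0 := fun z => (vc_blk_update (i := (q, j)) le_rfl y z q a0).2 h
    have hTz : ∀ z, vcTree R q (Function.update y (q, j) z) = T := fun z => vc_brg_tree_update y le_rfl j z
    -- off the occupied children the label is fresh
    have hoff : VcOff (((T.nd j a0).filter fun b => T.can (j + 1) b).image fun b : Fin q => y (b, j)) (p (j + 1) * Φ (T.att j a0))
        fun z => vcS p R q (j + 1) (fun y => Φ (vcTree R (q + 1) y)) (Function.update y (q, j) z) := by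
      intro z hz
      have hfresh : ∀ b : Fin q, vcBlk j (Function.update y (q, j) z) a0 b → Function.update y (q, j) z (q, j) ≠ Function.update y (q, j) z (b, j) := by
        intro b hb e
        rw [Function.update_self, Function.update_of_ne (hq b)] at e
        exact hz (e ▸ hA b ((vc_blk_update (i := (q, j)) le_rfl y z a0 b).1 hb))
      show vcS p R q (j + 1) (fun y => Φ (vcTree R (q + 1) y)) (Function.update y (q, j) z) = _
      rw [vc_brg_sep hpos htop Φ n (j + 1) (by omega) _ fun b hb => ?_, vc_brg_tree_att _ (by omega) a0 (hblk z) fun _ => hfresh, hTz]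
      rw [vc_brg_lev_att _ (by omega : j ≤ R + 1) (hblk z) b fun _ hb' => hfresh ⟨b, hb⟩ hb']
      exact lt_of_le_of_lt (min_le_left _ _) (Nat.lt_succ_self j)
    -- on an occupied child: induction
    have hon : ∀ b ∈ (T.nd j a0).filter fun b => T.can (j + 1) b,
        vcS p R q (j + 1) (fun y => Φ (vcTree R (q + 1) y)) (Function.update y (q, j) (y (b, j))) = T.rowIn (vcM p R) R (j + 1) b fun l a => Φ (T.att l a) := by
      intro b hb
      rw [Finset.mem_filter] at hb
      rw [ih (j + 1) (by omega) _ b ?_, hTz]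
      refine vc_brg_blk_succ.2 ⟨?_, ?_⟩
      · exact (vc_blk_update (i := (q, j)) le_rfl y _ q b).2 (vc_brg_blk_trans h ((hnd b).1 hb.1))
      · rw [Function.update_self, Function.update_of_ne (hq b)]
    rw [vc_S_succ p hjR]
    show vcI (vcRho p j) (fun z => vcS p R q (j + 1) (fun y => Φ (vcTree R (q + 1) y)) (Function.update y (q, j) z)) = _
    rw [vc_I_eq hoff, Finset.card_image_of_injOn hinj, Finset.sum_image hinj, Finset.sum_congr rfl hon,
      vc_brg_rowIn_succ T _ (by omega : j ≤ R + 1) a0 _ fun a ha => by rw [vc_brg_att_congr _ _ ha]]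
    congr 1
    unfold GhTree.coef GhTree.kids vcM vcRho
    rw [if_pos (by omega), if_pos (by omega)]
    have := (hpos (j + 1) (by omega) (by omega)).ne'
    field_simp

/-- **block sum of a fresh label = signed row inside a node** -/
theorem vc_brg_rowIn {p : ℕ → ℝ} {R : ℕ} (hpos : ∀ k, 1 ≤ k → k ≤ R + 1 → 0 < p k) (htop : p (R + 1) = 1) {q : ℕ} (Φ : GhTree (q + 1) → ℝ) {j : ℕ} (hj : j ≤ R + 1) (x : VcX) (a0 : Fin q)
    (h : vcBlk j x q a0) : vcS p R q j (fun y => Φ (vcTree R (q + 1) y)) x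
      = (vcTree R q x).rowIn (vcM p R) R j a0 fun l a => Φ ((vcTree R q x).att l a) :=
  vc_brg_rowIn_aux hpos htop Φ (R + 1 - j) j (by omega) x a0 h

/-- **sum over a fresh label = signed row** -/
theorem vc_brg_row {p : ℕ → ℝ} {R : ℕ} (hpos : ∀ k, 1 ≤ k → k ≤ R + 1 → 0 < p k) (htop : p (R + 1) = 1) {q : ℕ} (hq : 0 < q) (Φ : GhTree (q + 1) → ℝ) (x : VcX) :
    vcS p R q 0 (fun y => Φ (vcTree R (q + 1) y)) x = (vcTree R q x).row (vcM p R) R 0 fun l a => Φ ((vcTree R q x).att l a) := by
  rw [vc_brg_rowIn hpos htop Φ (Nat.zero_le _) x ⟨0, hq⟩ fun j hj => absurd hj (Nat.not_lt_zero j), vc_brg_rowIn_zero]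

/-- two fresh labels = two successive rows -/
theorem vc_brg_row2 {p : ℕ → ℝ} {R : ℕ} (hpos : ∀ k, 1 ≤ k → k ≤ R + 1 → 0 < p k) (htop : p (R + 1) = 1) {q : ℕ} (hq : 0 < q) (Φ : GhTree (q + 2) → ℝ) (x : VcX) :
    vcS p R q 0 (vcS p R (q + 1) 0 fun y => Φ (vcTree R (q + 2) y)) x
      = (vcTree R q x).row (vcM p R) R 0 fun l a => ((vcTree R q x).att l a).row (vcM p R) R 0 fun l' a' => Φ (((vcTree R q x).att l a).att l' a') := by
  have e : (vcS p R (q + 1) 0 fun y => Φ (vcTree R (q + 2) y))
      = fun y => (fun T : GhTree (q + 1) => T.row (vcM p R) R 0 fun l' a' => Φ (T.att l' a')) (vcTree R (q + 1) y) :=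
    funext fun y => vc_brg_row hpos htop (Nat.succ_pos q) Φ y
  rw [e]
  exact vc_brg_row hpos htop hq (fun T : GhTree (q + 1) => T.row (vcM p R) R 0 fun l' a' => Φ (T.att l' a')) x

/-! ## arrays which are functions of the tree -/

/-- a function of the tree is an admissible array -/
theorem vc_brg_A (R q : ℕ) (Φ : GhTree q → ℝ) : VcA R (fun x => Φ (vcTree R q x)) := by
  refine ⟨⟨⟨(range q) ×ˢ (range (R + 1)), fun x x' h => ?_⟩, fun π x => ?_⟩, fun i hi x y => ?_⟩
  · show Φ _ = Φ _
    congr 1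
    refine vc_brg_tree_congr fun a b ha hb _ => vc_b2_lev_congr fun j hj => ?_
    rw [h (a, j) (Finset.mem_product.2 ⟨Finset.mem_range.2 ha, Finset.mem_range.2 (by omega)⟩),
      h (b, j) (Finset.mem_product.2 ⟨Finset.mem_range.2 hb, Finset.mem_range.2 (by omega)⟩)]
  · show Φ _ = Φ _
    congr 1
    exact vc_brg_tree_congr fun a b _ _ _ => vc_b2_lev_congr fun j _ => (π j).injective.eq_iff
  · show Φ _ = Φ _
    congr 1
    refine vc_brg_tree_congr fun a b _ _ _ => vc_b2_lev_congr fun j hj => ?_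
    rw [Function.update_of_ne (fun e => by rw [← e] at hi; exact absurd hi (by simpa using hj)),
      Function.update_of_ne (fun e => by rw [← e] at hi; exact absurd hi (by simpa using hj))]

/-- relabelling -/
theorem vc_brg_rel {R q q' : ℕ} (x : VcX) (e : ℕ → ℕ) (e' : Fin q → Fin q') (he' : Function.Injective e') (h : ∀ a : Fin q, e a = e' a) :
    vcTree R q (vcRel e x) = (vcTree R q' x).comap e' he' := by
  refine vc_brg_ext fun a b => ?_
  show _ = (vcTree R q' x).sh (e' a) (e' b)
  by_cases hab : a = b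
  · rw [hab, vc_brg_sh_self, vc_brg_sh_self]
  · rw [vc_brg_sh _ hab, vc_brg_sh _ fun e => hab (he' e), vc_lev_rel, h a, h b]

/-- **every normalised tree is the tree of a configuration** (child index = canonical anchor of the child) -/
theorem vc_brg_surj {R q : ℕ} (T : GhTree q) (h0 : ∀ a, T.sh a a = 0) (hR : ∀ a b, T.sh a b ≤ R + 1) : ∃ x : VcX, vcTree R q x = T := by
  refine ⟨fun i => if h : i.1 < q then (T.anc (i.2 + 1) ⟨i.1, h⟩ : ℕ) else 0, vc_brg_ext fun a b => ?_⟩
  by_cases hab : a = b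
  · rw [hab, vc_brg_sh_self, h0]
  rw [vc_brg_sh _ hab]
  set x : VcX := fun i => if h : i.1 < q then (T.anc (i.2 + 1) ⟨i.1, h⟩ : ℕ) else 0 with hx
  have hxa : ∀ (c : Fin q) (j : ℕ), x (c, j) = T.anc (j + 1) c := fun c j => by
    simp only [hx]
    rw [dif_pos c.isLt]
  have key : ∀ k, vcBlk k x a b ↔ k ≤ T.sh a b := by
    intro k
    constructor
    · intro hb
      rcases Nat.eq_zero_or_pos k with rfl | hk
      · exact Nat.zero_le _
      have h1 := hb (k - 1) (by omega)
      rw [hxa, hxa] at h1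
      have h2 : T.anc (k - 1 + 1) a = T.anc (k - 1 + 1) b := Fin.ext h1
      have h3 : b ∈ T.nd (k - 1 + 1) (T.anc (k - 1 + 1) a) := ((ghp_anc_eq_iff T _ _ b).1 h2.symm).1
      have h4 := ghp_nd_trans T _ (ghp_anc_mem T (k - 1 + 1) a) h3
      rcases (ghp_mem_nd T _ a b).1 h4 with h5 | h5
      · exact absurd h5.symm hab
      · omega
    · intro hk j hj
      rw [hxa, hxa]
      have h1 : b ∈ T.nd (j + 1) a := (ghp_mem_nd T _ a b).2 (Or.inr (by omega))
      have h2 : T.anc (j + 1) b = T.anc (j + 1) a :=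
        (ghp_anc_eq_iff T _ _ b).2 ⟨ghp_nd_trans T _ (ghp_nd_symm T _ (ghp_anc_mem T (j + 1) a)) h1, ghp_anc_can T _ a⟩
      rw [h2]
  refine le_antisymm ?_ ?_
  · exact (key _).1 ((vc_le_lev (vc_lev_le R x a b) x a b).1 le_rfl)
  · exact (vc_le_lev (hR a b) x a b).2 ((key _).2 le_rfl)

end Claimed.Agent.R286
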