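import Claimed.Agent.R286.Inv.BrgTau
import Claimed.Agent.R286.Inv.Opk

/-!
# Row 286 (S0533), LL Section 5, unit BRG-TR: VIRTUAL SUMS = SIGNED SUMS OF `Defs/Tr`      (author helper296; kept on main by helper177; head helper84; prefix `vt_`)

FILES (final, after the collisions of 04:30-04:50Z): `Inv/BrgTau.lean` = the `vcTau` form of helper177 (cited by `Inv/Long`);   THIS FILE = the `vt_` form of helper296 (cited by `Inv/Main`); it IMPORTS `Inv/BrgTau`, so `import Inv.BrgTr` gives both.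

The exits of LL05 are typed on `llJs` (`trSumK`, `trAbsK`, `IsTr`).   This file carries `Inv/Brg` (virtual sums = `GhTree.row`) over to that vocabulary.
TABLE OF A CONFIGURATION = `vcLev N x : ℕ → ℕ → ℕ` (all labels; diagonal `N + 1`): `vt_isTr : IsTr N q (vcLev N x)` for every `q`.
MASSES: `ms j` = mass of the stage `j ≤ N` (`ms N` = terminal mass), all `> 0`;   `vtP ms N k = trPm ms k / ms N`  (`vtP 0 = 0`, `vtP (N+1) = 1`).
* `vt_sum`    `trSum ms N q (vcLev N x) Φ = ms N * vcS (vtP ms N) N q 0 (Φ ∘ vcLev N) x`            (`Φ` reads the labels `< q + 1`: `VtUses (q+1) Φ`)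
* `vt_sum2`   `trSumK ms N 2 q (vcLev N x) Φ = (ms N)² * vcS .. q 0 (vcS .. (q+1) 0 (Φ ∘ vcLev N)) x`   (`VtUses (q+2) Φ`)
* `vt_surj`   every `IsTr N q τ` is `vcLev N x` on the labels `< q`;      `vt_A`  `Φ ∘ vcLev N` is admissible;      `vt_absK_tree_congr`.
-/

set_option autoImplicit false

namespace Claimed.Agent.R286

open Finset

/-- `Φ` reads the entries `< q` only -/
def VtUses (q : ℕ) (Φ : (ℕ → ℕ → ℕ) → ℝ) : Prop :=
  ∀ τ₁ τ₂ : ℕ → ℕ → ℕ, (∀ y z, y < q → z < q → τ₁ y z = τ₂ y z) → Φ τ₁ = Φ τ₂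

/-- normalised masses of the virtual tree -/
noncomputable def vtP (ms : ℕ → ℝ) (N : ℕ) (k : ℕ) : ℝ := trPm ms k / ms N

/-- the table of a tree of `Defs/Plc`, diagonal `N + 1` -/
def vtTab {q : ℕ} (N : ℕ) (T : GhTree q) : ℕ → ℕ → ℕ := fun y z =>
  if h : y < q ∧ z < q then (if y = z then N + 1 else T.sh ⟨y, h.1⟩ ⟨z, h.2⟩) else 0

theorem vt_eqns_cite : True := by
  have := @VtUses.eq_1
  have := @vtP.eq_1
  have := @vtTab.eq_1
  trivial

theorem VtUses.mono {q q' : ℕ} {Φ : (ℕ → ℕ → ℕ) → ℝ} (h : VtUses q Φ) (hq : q ≤ q') : VtUses q' Φ :=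
  fun τ₁ τ₂ H => h τ₁ τ₂ fun y z hy hz => H y z (by omega) (by omega)

theorem vt_isTr (N q : ℕ) (x : VcX) : IsTr N q (vcLev N x) :=
  ⟨fun a b _ _ => vc_lev_le N x a b, fun a _ => vc_lev_self N x a, fun a b _ _ => vc_lev_symm N x a b,
    fun a b c _ _ _ => vc_lev_ultra N x a b c⟩

theorem vt_P_zero (ms : ℕ → ℝ) (N : ℕ) : vtP ms N 0 = 0 := by simp [vtP, trPm]

theorem vt_P_succ (ms : ℕ → ℝ) (N k : ℕ) : vtP ms N (k + 1) = ms k / ms N := by simp [vtP, trPm]

theorem vt_P_top {ms : ℕ → ℝ} {N : ℕ} (h : 0 < ms N) : vtP ms N (N + 1) = 1 := by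
  rw [vt_P_succ, div_self h.ne']

theorem vt_P_pos {ms : ℕ → ℝ} {N : ℕ} (h : ∀ j, j ≤ N → 0 < ms j) (k : ℕ) (h1 : 1 ≤ k) (h2 : k ≤ N + 1) : 0 < vtP ms N k := by
  obtain ⟨j, rfl⟩ : ∃ j, k = j + 1 := ⟨k - 1, by omega⟩
  rw [vt_P_succ]
  exact div_pos (h j (by omega)) (h N le_rfl)

/-! ## the dictionary `vcTree` / `vcLev` -/

theorem vt_tab_tree (N : ℕ) {q : ℕ} (x : VcX) {y z : ℕ} (hy : y < q) (hz : z < q) : vtTab N (vcTree N q x) y z = vcLev N x y z := by
  unfold vtTab
  rw [dif_pos ⟨hy, hz⟩]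
  by_cases h : y = z
  · rw [if_pos h, h, vc_lev_self]
  · rw [if_neg h, vc_brg_sh x fun e => h (congrArg Fin.val e)]

theorem vt_isMin (N : ℕ) {q : ℕ} (x : VcX) (l : ℕ) (a : Fin q) : trIsMin (vcLev N x) l a ↔ (vcTree N q x).can l a := by
  constructor
  · intro h b hb
    by_contra hlt
    have hba : b.1 < a.1 := not_le.1 hlt
    have hne : a ≠ b := fun e => by rw [e] at hba; exact lt_irrefl _ hba
    rw [vc_brg_sh x hne] at hb
    exact absurd (h b hba) (by omega)
  · intro h y hy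
    by_contra hge
    have hyq : y < q := hy.trans a.2
    have hne : a ≠ ⟨y, hyq⟩ := fun e => by
      have := congrArg Fin.val e
      simp at this
      omega
    have := h ⟨y, hyq⟩ (by rw [vc_brg_sh x hne]; exact not_lt.1 hge)
    exact absurd (show a.1 ≤ y from this) (by omega)

theorem vt_deg {N : ℕ} {q : ℕ} (x : VcX) {l : ℕ} (hl : l ≤ N + 1) (a : Fin q) :
    trDeg q (vcLev N x) l a = (vcTree N q x).kids l a := by
  unfold trDeg GhTree.kids
  rw [Finset.card_filter, Finset.card_filter, Finset.sum_range, GhTree.nd, Finset.sum_filter]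
  refine Finset.sum_congr rfl fun b _ => ?_
  by_cases hb : b = a
  · rw [hb, vc_lev_self, if_pos (Or.inl rfl)]
    exact if_congr ⟨fun h => (vt_isMin N x (l + 1) a).1 h.2, fun h => ⟨hl, (vt_isMin N x (l + 1) a).2 h⟩⟩ rfl rfl
  · rw [vc_brg_sh x fun e => hb e.symm]
    by_cases h1 : l ≤ vcLev N x a b
    · rw [if_pos (Or.inr h1)]
      exact if_congr ⟨fun h => (vt_isMin N x (l + 1) b).1 h.2, fun h => ⟨h1, (vt_isMin N x (l + 1) b).2 h⟩⟩ rfl rfl
    · rw [if_neg (fun h => h1 h.1), if_neg (fun h => h.elim hb h1)]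

theorem vt_tab_att {N : ℕ} {q : ℕ} (x : VcX) {l : ℕ} (hl : l ≤ N + 1) (a : Fin q) {y z : ℕ} (hy : y < q + 1) (hz : z < q + 1) :
    vtTab N ((vcTree N q x).att l a) y z = trAtt N q (vcLev N x) a l y z := by
  have hrow : ∀ b : Fin q, (if b = a then l else min l ((vcTree N q x).sh a b)) = min l (vcLev N x a b) := by
    intro b
    by_cases hb : b = a
    · rw [if_pos hb, hb, vc_lev_self, min_eq_left hl]
    · rw [if_neg hb, vc_brg_sh x fun e => hb e.symm]
  unfold vtTab trAtt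
  rw [dif_pos ⟨hy, hz⟩]
  by_cases h1 : y = q
  · subst h1
    by_cases h2 : z = y
    · subst h2
      simp
    · have hz' : z < y := by omega
      rw [if_neg (Ne.symm h2), if_pos rfl, if_neg h2]
      have := ghp_att_lc (vcTree N y x) l a ⟨z, hz'⟩
      rw [hrow] at this
      exact this
  · have hy' : y < q := by omega
    rw [if_neg h1]
    by_cases h2 : z = q
    · subst h2
      rw [if_neg h1, if_pos rfl]
      have := ghp_att_cl (vcTree N z x) l a ⟨y, hy'⟩
      rw [hrow, vc_lev_symm] at this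
      exact this
    · have hz' : z < q := by omega
      rw [if_neg h2]
      have := ghp_att_cc (vcTree N q x) l a ⟨y, hy'⟩ ⟨z, hz'⟩
      by_cases h3 : y = z
      · rw [if_pos h3, h3, vc_lev_self]
      · rw [if_neg h3]
        rw [vc_brg_sh x fun e => h3 (congrArg Fin.val e)] at this
        exact this

/-- `Φ ∘ vcLev N` is an admissible array -/
theorem vt_A (N : ℕ) {q : ℕ} {Φ : (ℕ → ℕ → ℕ) → ℝ} (hΦ : VtUses q Φ) : VcA N (fun y => Φ (vcLev N y)) := by
  have e : (fun y => Φ (vcLev N y)) = fun y => (fun T : GhTree q => Φ (vtTab N T)) (vcTree N q y) := by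
    funext y
    exact hΦ _ _ fun a b ha hb => (vt_tab_tree N y ha hb).symm
  rw [e]
  exact vc_brg_A N q fun T : GhTree q => Φ (vtTab N T)

/-! ## one label -/

/-- **signed sum over the attachments of one label = block sum of a fresh label** -/
theorem vt_sum {ms : ℕ → ℝ} {N : ℕ} (hms : ∀ j, j ≤ N → 0 < ms j) {q : ℕ} (hq : 0 < q) {Φ : (ℕ → ℕ → ℕ) → ℝ} (hΦ : VtUses (q + 1) Φ)
    (x : VcX) : trSum ms N q (vcLev N x) Φ = ms N * vcS (vtP ms N) N q 0 (fun y => Φ (vcLev N y)) x := by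
  have hN : ms N ≠ 0 := (hms N le_rfl).ne'
  have e : (fun y => Φ (vcLev N y)) = fun y => (fun T : GhTree (q + 1) => Φ (vtTab N T)) (vcTree N (q + 1) y) := by
    funext y
    exact hΦ _ _ fun a b ha hb => (vt_tab_tree N y ha hb).symm
  rw [e, vc_brg_row (vt_P_pos hms) (vt_P_top (hms N le_rfl)) hq (fun T : GhTree (q + 1) => Φ (vtTab N T)) x]
  unfold trSum GhTree.row
  rw [Finset.sum_range, Finset.sum_comm, Finset.mul_sum]
  have hI : Finset.Icc 0 (N + 1) = Finset.range (N + 2) := by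
    ext l
    simp only [Finset.mem_Icc, Finset.mem_range]
    omega
  rw [hI]
  refine Finset.sum_congr rfl fun l hl => ?_
  have hl' : l ≤ N + 1 := by have := Finset.mem_range.1 hl; omega
  rw [Finset.mul_sum]
  refine Finset.sum_congr rfl fun a _ => ?_
  have hatt : Φ (vtTab N ((vcTree N q x).att l a)) = Φ (trAtt N q (vcLev N x) a l) :=
    hΦ _ _ fun y z hy hz => vt_tab_att x hl' a hy hz
  show _ = ms N * if (vcTree N q x).can l a then (vcTree N q x).coef (vcM (vtP ms N) N) l a * Φ (vtTab N ((vcTree N q x).att l a)) else 0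
  rw [hatt]
  unfold trWt
  by_cases hc : (vcTree N q x).can l a
  · rw [if_pos hc, if_pos ((vt_isMin N x l a).2 hc)]
    unfold GhTree.coef
    rw [← vt_deg x hl' a]
    by_cases hlN : l = N + 1
    · rw [if_pos hlN, hlN]
      unfold vcM
      rw [if_pos le_rfl, if_neg (by omega), vt_P_top (hms N le_rfl)]
      ring
    · rw [if_neg hlN]
      unfold vcM
      rw [if_pos hl', if_pos (by omega), vt_P_succ]
      unfold vtP
      field_simp
  · rw [if_neg hc, if_neg fun h => hc ((vt_isMin N x l a).1 h)]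
    ring

/-! ## two labels -/

theorem vt_uses_sum {ms : ℕ → ℝ} {N q : ℕ} {Φ : (ℕ → ℕ → ℕ) → ℝ} (hΦ : VtUses (q + 1) Φ) : VtUses q (fun τ => trSum ms N q τ Φ) :=
  fun _ _ h => tr_sumK_tree_congr (ms := ms) (N := N) h 1 Φ hΦ

theorem vt_uses_sumK {ms : ℕ → ℝ} {N q : ℕ} (k : ℕ) {Φ : (ℕ → ℕ → ℕ) → ℝ} (hΦ : VtUses (q + k) Φ) :
    VtUses q (fun τ => trSumK ms N k q τ Φ) :=
  fun _ _ h => tr_sumK_tree_congr (ms := ms) (N := N) h k Φ hΦ

/-- **signed sum over the attachments of two labels = double block sum of two fresh labels** -/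
theorem vt_sum2 {ms : ℕ → ℝ} {N : ℕ} (hms : ∀ j, j ≤ N → 0 < ms j) {q : ℕ} (hq : 0 < q) {Φ : (ℕ → ℕ → ℕ) → ℝ} (hΦ : VtUses (q + 2) Φ)
    (x : VcX) :
    trSumK ms N 2 q (vcLev N x) Φ = ms N ^ 2 * vcS (vtP ms N) N q 0 (vcS (vtP ms N) N (q + 1) 0 fun y => Φ (vcLev N y)) x := by
  have e1 : trSumK ms N 2 q (vcLev N x) Φ = trSum ms N q (vcLev N x) fun τ' => trSum ms N (q + 1) τ' Φ := rfl
  have e2 : (fun y => trSum ms N (q + 1) (vcLev N y) Φ) = fun y => ms N * vcS (vtP ms N) N (q + 1) 0 (fun y => Φ (vcLev N y)) y :=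
    funext fun y => vt_sum hms (Nat.succ_pos q) hΦ y
  rw [e1, vt_sum hms hq (vt_uses_sum hΦ) x, e2, vc_S_const_mul ((vt_A N hΦ).S _ (q + 1) 0)]
  ring

/-- every tree is the table of a configuration -/
theorem vt_surj {N q : ℕ} {τ : ℕ → ℕ → ℕ} (hτ : IsTr N q τ) : ∃ x : VcX, ∀ a b, a < q → b < q → vcLev N x a b = τ a b := by
  let T : GhTree q :=
    { sh := fun a b => if a = b then 0 else τ a b
      symm := fun a b => by
        by_cases h : a = b
        · rw [if_pos h, if_pos h.symm]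
        · rw [if_neg h, if_neg fun e => h e.symm, hτ.symm a b a.2 b.2]
      ultra := fun a b c hac => by
        rw [if_neg hac]
        by_cases h1 : a = b
        · rw [if_pos h1]; simp
        · by_cases h2 : b = c
          · rw [if_pos h2]; simp
          · rw [if_neg h1, if_neg h2]
            exact hτ.ultra a b c a.2 b.2 c.2 }
  obtain ⟨x, hx⟩ := vc_brg_surj (R := N) T (fun a => if_pos rfl) (fun a b => by
    show (if a = b then 0 else τ a b) ≤ N + 1
    split_ifs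
    · exact Nat.zero_le _
    · exact hτ.le a b a.2 b.2)
  refine ⟨x, fun a b ha hb => ?_⟩
  by_cases hab : a = b
  · rw [hab, vc_lev_self, hτ.diag b hb]
  · have hne : (⟨a, ha⟩ : Fin q) ≠ ⟨b, hb⟩ := fun e => hab (congrArg Fin.val e)
    have h1 := vc_brg_sh (R := N) x hne
    rw [hx] at h1
    rw [← h1]
    exact if_neg hne

/-- the total variation sums depend on the old tree only through its values on the labels -/
theorem vt_absK_tree_congr {N q : ℕ} {τ τ' : ℕ → ℕ → ℕ} {ms : ℕ → ℝ} (h : ∀ y z, y < q → z < q → τ y z = τ' y z) (k : ℕ)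
    (Φ : (ℕ → ℕ → ℕ) → ℝ) (hΦ : VtUses (q + k) Φ) : trAbsK ms N k q τ Φ = trAbsK ms N k q τ' Φ := by
  induction k generalizing q τ τ' with
  | zero => exact hΦ τ τ' h
  | succ k ih =>
    rw [trAbsK, trAbsK]
    unfold trAbs
    refine Finset.sum_congr rfl fun x hx => Finset.sum_congr rfl fun j hj => ?_
    have hx' := Finset.mem_range.mp hx
    rw [tr_wt_congr h x j hx']
    congr 1
    refine ih ?_ ?_
    · intro y z hy hz
      unfold trAtt
      split_ifs with h1 h2 h2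
      · rfl
      · rw [h x z hx' (by omega)]
      · rw [h y x (by omega) hx']
      · exact h y z (by omega) (by omega)
    · intro τ₁ τ₂ H
      exact hΦ τ₁ τ₂ (by rwa [show q + (k + 1) = q + 1 + k by omega])

end Claimed.Agent.R286
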