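import Claimed.Agent.R286.Inv.ResKit

/-!
# Row 286 (S0533), LL Section 5 (pair inverse), paragraph "The additive resolvent": THE WEIGHTED DIFFERENCE ESTIMATE      (helper287; prefix `inv_kd_`)

On `Inv/ResKit.lean` (helper296: `InvPsd`, `invC`, `invA`).   TEX[LL:inv:pair-inverse] (part: `‖A^{k+1} - A^k‖_∞ ≲_pol p_k ρ_k`, 05-inverse.tex l.236-266).
* `invMu p k t`      the sheet measure `μ_t^k = - d_t^k`;   `inv_kd_mu_nonneg`, `inv_kd_mu_sum_le` (`≤ 2`), `inv_kd_mu_succ` : `μ^{k+1} - μ^k = p_k (δ_k - δ_{k-1})`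
* `inv_kd_C_kdiff`, `inv_kd_A_kdiff`      abstract finite index set: change of `C`, `A` when `B`, the gaps `l` (size `η`) and the sheet measure (SIGNED contribution `X`) change
* `inv_kd_atoms`     the two atoms subtracted before absolute values
* `InvSec R p K b Bk gk Λ e`      = the outputs (3)-(5) of LL Lemma 5.2 (`inv:sector-response`) on the sheets `0..R`, as HYPOTHESES.
  `b` = the multiplier MASKED by the retained sheets (`b t = 0` on the discarded sheets: then the columns of the discarded sheets vanish, `l = 1` there, and the jump of the masked `b`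
  at the first retained sheet is the indicator `1_{k = min retained}` of the paper); conventions `K_{-1} = 0`, `b_{-1} = 0` (`invPrev`).
* `InvSec.Ak_diff`   `|A^{k+1}_rt - A^k_rt| ≤ 20 Λ^7 / e^4 * (p_k ρ_k)`,   `ρ_k = K_k - K_{k-1} + |b_k - b_{k-1}|`
* `InvSec.kappa_le`  `|Σ_k (A^k_rt - A^{k+1}_rt) / p_k c_k| ≤ 20 Λ^7 / e^4 (K_R + var b)`;   `InvSec.Ak_abs_le`  `|A^k_rt| ≤ Λ² / e²`
-/

set_option autoImplicit false

namespace Claimed.Agent.R286

open Matrix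

section adapters

variable {ι : Type} [Fintype ι] [DecidableEq ι]

theorem inv_kd_C_abs_le {B : Matrix ι ι ℝ} (hB : InvPsd B) {w : ι → ℝ} (hw : ∀ i, 0 ≤ w i) {b : ℝ}
    (hb : ∀ r, B r r ≤ b) (r t : ι) : |invC B w r t| ≤ b := inv_rk_C_entry hB hw hb r t

theorem inv_kd_C_row_lip {B : Matrix ι ι ℝ} (hB : InvPsd B) {w : ι → ℝ} (hw : ∀ i, 0 ≤ w i) {β δ Wt : ℝ}
    (hβ : ∀ s, B s s ≤ β) (hβ0 : 0 ≤ β) (hW : ∑ s, w s ≤ Wt) (r r' : ι) (hδ : ∀ s, |B r s - B r' s| ≤ δ) (t : ι) :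
    |invC B w r t - invC B w r' t| ≤ δ * (1 + Wt * β) := by
  have hδ0 : 0 ≤ δ := le_trans (abs_nonneg _) (hδ t)
  refine le_trans (inv_rk_lip hB hw hβ r r' hδ t) (mul_le_mul_of_nonneg_left ?_ hδ0)
  have := mul_le_mul_of_nonneg_left hW hβ0
  linarith

theorem inv_kd_C_col_lip {B : Matrix ι ι ℝ} (hB : InvPsd B) {w : ι → ℝ} (hw : ∀ i, 0 ≤ w i) {β δ Wt : ℝ}
    (hβ : ∀ s, B s s ≤ β) (hβ0 : 0 ≤ β) (hW : ∑ s, w s ≤ Wt) (t t' : ι) (hδ : ∀ s, |B t s - B t' s| ≤ δ) (r : ι) :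
    |invC B w r t - invC B w r t'| ≤ δ * (1 + Wt * β) := by
  have hδ0 : 0 ≤ δ := le_trans (abs_nonneg _) (hδ t)
  refine le_trans (inv_rk_lip' hB hw hβ t t' hδ r) (mul_le_mul_of_nonneg_left ?_ hδ0)
  have := mul_le_mul_of_nonneg_left hW hβ0
  linarith

theorem inv_kd_C_diff_le {B B' : Matrix ι ι ℝ} (hB : InvPsd B) (hB' : InvPsd B') {w w' : ι → ℝ} (hw : ∀ i, 0 ≤ w i)
    (hw' : ∀ i, 0 ≤ w' i) {β δ Wt : ℝ} (hβ : ∀ s, B s s ≤ β) (hβ' : ∀ s, B' s s ≤ β) (hβ0 : 0 ≤ β)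
    (hW : ∑ s, w s ≤ Wt) (hW' : ∑ s, w' s ≤ Wt) (hδ : ∀ s t, |B' s t - B s t| ≤ δ) (r t : ι) :
    |invC B' w' r t - invC B w r t| ≤ (1 + β * Wt) * δ * (1 + β * Wt)
      + |∑ s, invC B' w' r s * (w' s - w s) * invC B w s t| := by
  have hδ0 : 0 ≤ δ := le_trans (abs_nonneg _) (hδ r t)
  refine le_trans (inv_rk_diff hB hB' hw hw' hβ hβ' hδ r t) (add_le_add ?_ le_rfl)
  have a1 : 1 + β * ∑ s, w' s ≤ 1 + β * Wt := by have := mul_le_mul_of_nonneg_left hW' hβ0; linarith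
  have a2 : 1 + β * ∑ s, w s ≤ 1 + β * Wt := by have := mul_le_mul_of_nonneg_left hW hβ0; linarith
  have s1 : 0 ≤ ∑ s, w s := Finset.sum_nonneg fun s _ => hw s
  have s2 : 0 ≤ ∑ s, w' s := Finset.sum_nonneg fun s _ => hw' s
  have p1 : 0 ≤ 1 + β * ∑ s, w s := by have := mul_nonneg hβ0 s1; linarith
  have p2 : 0 ≤ 1 + β * ∑ s, w' s := by have := mul_nonneg hβ0 s2; linarith
  exact mul_le_mul (mul_le_mul_of_nonneg_right a1 hδ0) a2 p1 (mul_nonneg (le_trans p2 a1) hδ0)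

end adapters

/-! ## the additive resolvent: dependence on the resolution index -/

section addres

variable {ι : Type} [Fintype ι] [DecidableEq ι]

/-- the weights of the additive resolvent -/
noncomputable def invW (mu b l : ι → ℝ) : ι → ℝ := fun s => mu s * b s / l s

theorem inv_kd_addres_eqns_cite : True := by
  have := @invW.eq_1
  trivial

/-- the kernel `invA` of `Inv/ResKit` in terms of `invW` -/
theorem inv_kd_A_apply (B : Matrix ι ι ℝ) (mu b l : ι → ℝ) (r t : ι) :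
    invA B l mu b r t = - invC B (invW mu b l) r t * b t / (l r * l t) := rfl

omit [Fintype ι] [DecidableEq ι] in
theorem inv_kd_W_nonneg {mu b l : ι → ℝ} (hmu : ∀ s, 0 ≤ mu s) (hb : ∀ s, 0 ≤ b s) (hl : ∀ s, 0 < l s) (s : ι) :
    0 ≤ invW mu b l s := div_nonneg (mul_nonneg (hmu s) (hb s)) (hl s).le

omit [DecidableEq ι] in
theorem inv_kd_W_sum_le {mu b l : ι → ℝ} {Λ e m : ℝ} (hΛ : 0 ≤ Λ) (he : 0 < e) (hmu : ∀ s, 0 ≤ mu s) (hbΛ : ∀ s, b s ≤ Λ)
    (hl : ∀ s, e ≤ l s) (hm : ∑ s, mu s ≤ m) : ∑ s, invW mu b l s ≤ m * Λ / e := by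
  calc ∑ s, invW mu b l s ≤ ∑ s, mu s * (Λ / e) := by
        refine Finset.sum_le_sum fun s _ => ?_
        unfold invW
        rw [mul_div_assoc]
        refine mul_le_mul_of_nonneg_left ?_ (hmu s)
        exact div_le_div₀ hΛ (hbΛ s) he (hl s)
    _ = (∑ s, mu s) * (Λ / e) := by rw [Finset.sum_mul]
    _ ≤ m * (Λ / e) := mul_le_mul_of_nonneg_right hm (div_nonneg hΛ he.le)
    _ = m * Λ / e := by ring

/-- difference of reciprocals under a gap -/
theorem inv_kd_inv_diff {e a a' : ℝ} (he : 0 < e) (h : e ≤ a) (h' : e ≤ a') : |1 / a' - 1 / a| ≤ |a' - a| / e ^ 2 := by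
  have p : 0 < a := lt_of_lt_of_le he h
  have p' : 0 < a' := lt_of_lt_of_le he h'
  have e1 : 1 / a' - 1 / a = (a - a') / (a' * a) := by field_simp
  rw [e1, abs_div, abs_of_pos (mul_pos p' p), abs_sub_comm]
  exact div_le_div_of_nonneg_left (abs_nonneg _) (by positivity) (by nlinarith)

/-- **the resolvent kernels at two resolution indices.**  `η` = size of the change of `B` and of the gaps `l`;
`X` = size of the SIGNED contribution of the change of the sheet measure `mu`. -/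
theorem inv_kd_C_kdiff {B B' : Matrix ι ι ℝ} (hB : InvPsd B) (hB' : InvPsd B') {mu mu' b l l' : ι → ℝ} {Λ e η X : ℝ}
    (hΛ : 1 ≤ Λ) (he : 0 < e) (he1 : e ≤ 1)
    (hmu : ∀ s, 0 ≤ mu s) (hmu' : ∀ s, 0 ≤ mu' s) (hm : ∑ s, mu s ≤ 2) (hm' : ∑ s, mu' s ≤ 2)
    (hb : ∀ s, 0 ≤ b s) (hbΛ : ∀ s, b s ≤ Λ) (hl : ∀ s, e ≤ l s) (hl' : ∀ s, e ≤ l' s)
    (hll : ∀ s, |l' s - l s| ≤ η) (hBd : ∀ s, B s s ≤ Λ) (hBd' : ∀ s, B' s s ≤ Λ) (hBB : ∀ s t, |B' s t - B s t| ≤ η)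
    (hX : ∀ r t, |∑ s, invC B' (invW mu' b l') r s * ((mu' s - mu s) * (b s / l' s)) * invC B (invW mu b l) s t| ≤ X)
    (r t : ι) :
    |invC B' (invW mu' b l') r t - invC B (invW mu b l) r t| ≤ 11 * Λ ^ 4 / e ^ 2 * η + X := by
  have hΛ0 : 0 ≤ Λ := by linarith
  have hη0 : 0 ≤ η := le_trans (abs_nonneg _) (hBB r t)
  have pl : ∀ s, 0 < l s := fun s => lt_of_lt_of_le he (hl s)
  have pl' : ∀ s, 0 < l' s := fun s => lt_of_lt_of_le he (hl' s)
  have hw := inv_kd_W_nonneg hmu hb pl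
  have hw' := inv_kd_W_nonneg hmu' hb pl'
  have hWs := inv_kd_W_sum_le hΛ0 he hmu hbΛ hl hm
  have hWs' := inv_kd_W_sum_le hΛ0 he hmu' hbΛ hl' hm'
  have hC := inv_kd_C_abs_le hB hw hBd
  have hC' := inv_kd_C_abs_le hB' hw' hBd'
  have h0 := inv_kd_C_diff_le hB hB' hw hw' hBd hBd' hΛ0 hWs hWs' hBB r t
  set C := invC B (invW mu b l) with hCdef
  set C' := invC B' (invW mu' b l') with hCdef'
  -- splitting of the change of the weights
  have hsplit : ∀ s, invW mu' b l' s - invW mu b l s = (mu' s - mu s) * (b s / l' s) + mu s * b s * (1 / l' s - 1 / l s) := by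
    intro s
    unfold invW
    have := (pl s).ne'; have := (pl' s).ne'
    field_simp
    ring
  have e1 : ∑ s, C' r s * (invW mu' b l' s - invW mu b l s) * C s t
      = ∑ s, C' r s * ((mu' s - mu s) * (b s / l' s)) * C s t + ∑ s, C' r s * (mu s * b s * (1 / l' s - 1 / l s)) * C s t := by
    rw [← Finset.sum_add_distrib]
    refine Finset.sum_congr rfl fun s _ => ?_
    rw [hsplit]; ring
  have h2 : |∑ s, C' r s * (mu s * b s * (1 / l' s - 1 / l s)) * C s t| ≤ 2 * Λ ^ 3 / e ^ 2 * η := by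
    calc |∑ s, C' r s * (mu s * b s * (1 / l' s - 1 / l s)) * C s t|
        ≤ ∑ s, mu s * (Λ ^ 3 / e ^ 2 * η) := by
          refine le_trans (Finset.abs_sum_le_sum_abs _ _) (Finset.sum_le_sum fun s _ => ?_)
          rw [abs_mul, abs_mul, abs_mul, abs_mul, abs_of_nonneg (hmu s), abs_of_nonneg (hb s)]
          have a1 := hC' r s
          have a2 := hC s t
          have a3 : |1 / l' s - 1 / l s| ≤ η / e ^ 2 :=
            le_trans (inv_kd_inv_diff he (hl s) (hl' s)) (div_le_div_of_nonneg_right (hll s) (by positivity))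
          have a4 : b s * |1 / l' s - 1 / l s| ≤ Λ * (η / e ^ 2) :=
            mul_le_mul (hbΛ s) a3 (abs_nonneg _) hΛ0
          have a5 : |C' r s| * (mu s * b s * |1 / l' s - 1 / l s|) ≤ Λ * (mu s * (Λ * (η / e ^ 2))) := by
            refine mul_le_mul a1 ?_ (by have := hmu s; have := hb s; positivity) hΛ0
            rw [mul_assoc]
            exact mul_le_mul_of_nonneg_left a4 (hmu s)
          calc |C' r s| * (mu s * b s * |1 / l' s - 1 / l s|) * |C s t|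
              ≤ Λ * (mu s * (Λ * (η / e ^ 2))) * Λ :=
                mul_le_mul a5 a2 (abs_nonneg _) (by have := hmu s; positivity)
            _ = mu s * (Λ ^ 3 / e ^ 2 * η) := by ring
      _ = (∑ s, mu s) * (Λ ^ 3 / e ^ 2 * η) := by rw [Finset.sum_mul]
      _ ≤ 2 * (Λ ^ 3 / e ^ 2 * η) := mul_le_mul_of_nonneg_right hm (by positivity)
      _ = 2 * Λ ^ 3 / e ^ 2 * η := by ring
  have h3 : |∑ s, C' r s * (invW mu' b l' s - invW mu b l s) * C s t| ≤ X + 2 * Λ ^ 3 / e ^ 2 * η := by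
    rw [e1]
    exact le_trans (abs_add_le _ _) (add_le_add (hX r t) h2)
  have h4 : (1 + Λ * (2 * Λ / e)) * η * (1 + Λ * (2 * Λ / e)) ≤ 9 * Λ ^ 4 / e ^ 2 * η := by
    have a1 : 1 + Λ * (2 * Λ / e) ≤ 3 * Λ ^ 2 / e := by
      have : 1 ≤ Λ ^ 2 / e := by
        rw [le_div_iff₀ he]; nlinarith
      have e2 : Λ * (2 * Λ / e) = 2 * (Λ ^ 2 / e) := by ring
      have e3 : 3 * Λ ^ 2 / e = 3 * (Λ ^ 2 / e) := by ring
      rw [e2, e3]; linarith
    have a0 : 0 ≤ 1 + Λ * (2 * Λ / e) := by positivity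
    calc (1 + Λ * (2 * Λ / e)) * η * (1 + Λ * (2 * Λ / e))
        ≤ (3 * Λ ^ 2 / e) * η * (3 * Λ ^ 2 / e) :=
          mul_le_mul (mul_le_mul_of_nonneg_right a1 hη0) a1 a0 (by positivity)
      _ = 9 * Λ ^ 4 / e ^ 2 * η := by ring
  have h5 : 2 * Λ ^ 3 / e ^ 2 * η ≤ 2 * Λ ^ 4 / e ^ 2 * η := by
    apply mul_le_mul_of_nonneg_right _ hη0
    apply div_le_div_of_nonneg_right _ (by positivity)
    have : Λ ^ 3 ≤ Λ ^ 4 := pow_le_pow_right₀ hΛ (by norm_num)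
    linarith
  have e6 : 11 * Λ ^ 4 / e ^ 2 * η = 9 * Λ ^ 4 / e ^ 2 * η + 2 * Λ ^ 4 / e ^ 2 * η := by ring
  rw [e6]
  linarith

/-- **the kernels `A` at two resolution indices** -/
theorem inv_kd_A_kdiff {B B' : Matrix ι ι ℝ} (hB : InvPsd B) (hB' : InvPsd B') {mu mu' b l l' : ι → ℝ} {Λ e η X : ℝ}
    (hΛ : 1 ≤ Λ) (he : 0 < e) (he1 : e ≤ 1)
    (hmu : ∀ s, 0 ≤ mu s) (hmu' : ∀ s, 0 ≤ mu' s) (hm : ∑ s, mu s ≤ 2) (hm' : ∑ s, mu' s ≤ 2)
    (hb : ∀ s, 0 ≤ b s) (hbΛ : ∀ s, b s ≤ Λ) (hl : ∀ s, e ≤ l s) (hl' : ∀ s, e ≤ l' s) (hl1 : ∀ s, l s ≤ 1) (hl1' : ∀ s, l' s ≤ 1)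
    (hll : ∀ s, |l' s - l s| ≤ η) (hBd : ∀ s, B s s ≤ Λ) (hBd' : ∀ s, B' s s ≤ Λ) (hBB : ∀ s t, |B' s t - B s t| ≤ η)
    (hX : ∀ r t, |∑ s, invC B' (invW mu' b l') r s * ((mu' s - mu s) * (b s / l' s)) * invC B (invW mu b l) s t| ≤ X)
    (r t : ι) :
    |invA B' l' mu' b r t - invA B l mu b r t| ≤ 13 * Λ ^ 5 / e ^ 4 * η + Λ / e ^ 2 * X := by
  have hΛ0 : 0 ≤ Λ := by linarith
  have hη0 : 0 ≤ η := le_trans (abs_nonneg _) (hBB r t)
  have hX0 : 0 ≤ X := le_trans (abs_nonneg _) (hX r t)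
  have pl : ∀ s, 0 < l s := fun s => lt_of_lt_of_le he (hl s)
  have pl' : ∀ s, 0 < l' s := fun s => lt_of_lt_of_le he (hl' s)
  have hC := inv_kd_C_abs_le hB (inv_kd_W_nonneg hmu hb pl) hBd r t
  have hd := inv_kd_C_kdiff hB hB' hΛ he he1 hmu hmu' hm hm' hb hbΛ hl hl' hll hBd hBd' hBB hX r t
  rw [inv_kd_A_apply, inv_kd_A_apply]
  set C := invC B (invW mu b l) r t with hCdef
  set C' := invC B' (invW mu' b l') r t with hCdef'
  have e1 : -C' * b t / (l' r * l' t) - -C * b t / (l r * l t)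
      = - (b t * ((C' - C) * (1 / (l' r * l' t)) + C * (1 / (l' r * l' t) - 1 / (l r * l t)))) := by
    have := (pl r).ne'; have := (pl t).ne'; have := (pl' r).ne'; have := (pl' t).ne'
    field_simp
    ring
  rw [e1, abs_neg, abs_mul, abs_of_nonneg (hb t)]
  have q1 : e ^ 2 ≤ l' r * l' t := by nlinarith [hl' r, hl' t]
  have q2 : e ^ 2 ≤ l r * l t := by nlinarith [hl r, hl t]
  have a1 : |1 / (l' r * l' t)| ≤ 1 / e ^ 2 := by
    rw [abs_of_pos (by have := pl' r; have := pl' t; positivity)]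
    exact one_div_le_one_div_of_le (by positivity) q1
  have a2 : |1 / (l' r * l' t) - 1 / (l r * l t)| ≤ 2 * η / e ^ 4 := by
    have h := inv_kd_inv_diff (by positivity : (0:ℝ) < e ^ 2) q2 q1
    have h2 : |l' r * l' t - l r * l t| ≤ 2 * η := by
      have e2 : l' r * l' t - l r * l t = (l' r - l r) * l' t + l r * (l' t - l t) := by ring
      rw [e2]
      refine le_trans (abs_add_le _ _) ?_
      rw [abs_mul, abs_mul, abs_of_pos (pl' t), abs_of_pos (pl r)]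
      have b1 : |l' r - l r| * l' t ≤ η * 1 := mul_le_mul (hll r) (hl1' t) (pl' t).le hη0
      have b2 : l r * |l' t - l t| ≤ 1 * η := mul_le_mul (hl1 r) (hll t) (abs_nonneg _) (by norm_num)
      linarith
    calc |1 / (l' r * l' t) - 1 / (l r * l t)| ≤ |l' r * l' t - l r * l t| / (e ^ 2) ^ 2 := h
      _ ≤ 2 * η / (e ^ 2) ^ 2 := div_le_div_of_nonneg_right h2 (by positivity)
      _ = 2 * η / e ^ 4 := by ring
  have a3 : |(C' - C) * (1 / (l' r * l' t)) + C * (1 / (l' r * l' t) - 1 / (l r * l t))|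
      ≤ (11 * Λ ^ 4 / e ^ 2 * η + X) * (1 / e ^ 2) + Λ * (2 * η / e ^ 4) := by
    refine le_trans (abs_add_le _ _) (add_le_add ?_ ?_)
    · rw [abs_mul]; exact mul_le_mul hd a1 (abs_nonneg _) (by positivity)
    · rw [abs_mul]; exact mul_le_mul hC a2 (abs_nonneg _) hΛ0
  calc b t * |(C' - C) * (1 / (l' r * l' t)) + C * (1 / (l' r * l' t) - 1 / (l r * l t))|
      ≤ Λ * ((11 * Λ ^ 4 / e ^ 2 * η + X) * (1 / e ^ 2) + Λ * (2 * η / e ^ 4)) :=
        mul_le_mul (hbΛ t) a3 (abs_nonneg _) hΛ0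
    _ = (11 * Λ ^ 5 + 2 * Λ ^ 2) / e ^ 4 * η + Λ / e ^ 2 * X := by
        field_simp
        ring
    _ ≤ 13 * Λ ^ 5 / e ^ 4 * η + Λ / e ^ 2 * X := by
        have : Λ ^ 2 ≤ Λ ^ 5 := pow_le_pow_right₀ hΛ (by norm_num)
        have h6 : (11 * Λ ^ 5 + 2 * Λ ^ 2) / e ^ 4 * η ≤ 13 * Λ ^ 5 / e ^ 4 * η := by
          apply mul_le_mul_of_nonneg_right _ hη0
          apply div_le_div_of_nonneg_right _ (by positivity)
          linarith
        linarith

/-- **the two atoms, subtracted before taking absolute values**: variation of `s ↦ C' r s * q s * C s t` between two sheets -/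
theorem inv_kd_atoms {C C' : Matrix ι ι ℝ} {q : ι → ℝ} {Λ Q d dq : ℝ} (hΛ : 0 ≤ Λ) (hQ : 0 ≤ Q) (hC : ∀ s t, |C s t| ≤ Λ) (hC' : ∀ s t, |C' s t| ≤ Λ)
    (hq : ∀ s, |q s| ≤ Q) (i0 i1 : ι) (hd : ∀ t, |C i1 t - C i0 t| ≤ d) (hd' : ∀ r, |C' r i1 - C' r i0| ≤ d)
    (hdq : |q i1 - q i0| ≤ dq) (r t : ι) :
    |C' r i1 * q i1 * C i1 t - C' r i0 * q i0 * C i0 t| ≤ 2 * Λ * Q * d + Λ ^ 2 * dq := by
  have e1 : C' r i1 * q i1 * C i1 t - C' r i0 * q i0 * C i0 t
      = (C' r i1 - C' r i0) * q i1 * C i1 t + C' r i0 * (q i1 - q i0) * C i1 t + C' r i0 * q i0 * (C i1 t - C i0 t) := by ring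
  have hd0 : 0 ≤ d := le_trans (abs_nonneg _) (hd t)
  have hdq0 : 0 ≤ dq := le_trans (abs_nonneg _) hdq
  rw [e1]
  refine le_trans (abs_add_le _ _) ?_
  have b1 : |(C' r i1 - C' r i0) * q i1 * C i1 t| ≤ d * Q * Λ := by
    rw [abs_mul, abs_mul]
    exact mul_le_mul (mul_le_mul (hd' r) (hq i1) (abs_nonneg _) hd0) (hC i1 t) (abs_nonneg _) (by positivity)
  have b2 : |C' r i0 * (q i1 - q i0) * C i1 t| ≤ Λ * dq * Λ := by
    rw [abs_mul, abs_mul]
    exact mul_le_mul (mul_le_mul (hC' r i0) hdq (abs_nonneg _) hΛ) (hC i1 t) (abs_nonneg _) (by positivity)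
  have b3 : |C' r i0 * q i0 * (C i1 t - C i0 t)| ≤ Λ * Q * d := by
    rw [abs_mul, abs_mul]
    exact mul_le_mul (mul_le_mul (hC' r i0) (hq i0) (abs_nonneg _) hΛ) (hd t) (abs_nonneg _) (by positivity)
  have b4 := abs_add_le ((C' r i1 - C' r i0) * q i1 * C i1 t) (C' r i0 * (q i1 - q i0) * C i1 t)
  nlinarith [b1, b2, b3, b4]

end addres

/-! ## the concrete sheets `0, .., R` -/

section sheets

/-- previous value of a sequence (`0` before the first one) -/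
def invPrev (f : ℕ → ℝ) : ℕ → ℝ
  | 0 => 0
  | k + 1 => f k

/-- the sheet measure `μ_t^k = - d_t^k` -/
noncomputable def invMu (p : ℕ → ℝ) (k t : ℕ) : ℝ :=
  (p (t + 1) - p t) + (if k ≤ t + 1 then p (t + 1) else 0) - (if k ≤ t then p t else 0)

theorem inv_kd_sheets_eqns_cite : True := by
  have := @invPrev.eq_1; have := @invPrev.eq_2; have := @invMu.eq_1
  trivial

theorem inv_kd_mu_nonneg {p : ℕ → ℝ} {t : ℕ} (h0 : 0 ≤ p t) (h : p t ≤ p (t + 1)) (k : ℕ) : 0 ≤ invMu p k t := by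
  unfold invMu
  by_cases h1 : k ≤ t
  · have h2 : k ≤ t + 1 := by omega
    rw [if_pos h1, if_pos h2]; linarith
  · rw [if_neg h1]
    split_ifs <;> linarith

theorem inv_kd_mu_succ (p : ℕ → ℝ) (k t : ℕ) :
    invMu p (k + 1) t - invMu p k t = p k * ((if t = k then 1 else 0) - (if t + 1 = k then 1 else 0)) := by
  unfold invMu
  rcases lt_trichotomy t k with h | h | h
  · by_cases h2 : t + 1 = k
    · subst h2
      simp
    · have a1 : ¬ k + 1 ≤ t + 1 := by omega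
      have a2 : ¬ k + 1 ≤ t := by omega
      have a3 : ¬ k ≤ t + 1 := by omega
      have a4 : ¬ k ≤ t := by omega
      have a5 : ¬ t = k := by omega
      simp [a1, a2, a3, a4, a5, h2]
  · subst h
    simp
  · have a1 : k + 1 ≤ t + 1 := by omega
    have a2 : k + 1 ≤ t := by omega
    have a3 : k ≤ t + 1 := by omega
    have a4 : k ≤ t := by omega
    have a5 : ¬ t = k := by omega
    have a6 : ¬ t + 1 = k := by omega
    simp [a1, a2, a3, a4, a5, a6]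

theorem inv_kd_mu_sum (p : ℕ → ℝ) (k R : ℕ) :
    ∑ t ∈ Finset.range (R + 1), invMu p k t
      = (p (R + 1) - p 0) + ((if k ≤ R + 1 then p (R + 1) else 0) - (if k ≤ 0 then p 0 else 0)) := by
  unfold invMu
  have h1 := Finset.sum_range_sub p (R + 1)
  have h2 := Finset.sum_range_sub (fun t => if k ≤ t then p t else 0) (R + 1)
  simp only [add_sub_assoc, Finset.sum_add_distrib]
  rw [h1, h2]

theorem inv_kd_mu_sum_le {p : ℕ → ℝ} {R : ℕ} (h0 : 0 ≤ p 0) (h1 : p (R + 1) = 1) (k : ℕ) :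
    ∑ t : Fin (R + 1), invMu p k t ≤ 2 := by
  rw [Fin.sum_univ_eq_sum_range (fun t => invMu p k t), inv_kd_mu_sum, h1]
  split_ifs <;> linarith

/-- a sum against an atom -/
theorem inv_kd_sum_atom {n : ℕ} (F : Fin n → ℝ) (k : ℕ) (hk : k < n) :
    ∑ s : Fin n, F s * (if (s : ℕ) = k then 1 else 0) = F ⟨k, hk⟩ := by
  rw [Finset.sum_eq_single (⟨k, hk⟩ : Fin n)]
  · simp
  · intro s _ hs
    have : (s : ℕ) ≠ k := fun h => hs (Fin.ext h)
    simp [this]
  · intro h; exact absurd (Finset.mem_univ _) h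

/-- the data of Lemma 5.2 (3)-(5) on the sheets `0, .., R` (`b` = the multiplier MASKED by the retained sheets) -/
structure InvSec (R : ℕ) (p K b : ℕ → ℝ) (Bk : ℕ → ℕ → ℕ → ℝ) (gk : ℕ → ℕ → ℝ) (Λ e : ℝ) : Prop where
  hΛ : 1 ≤ Λ
  he : 0 < e
  he1 : e ≤ 1
  p0 : 0 ≤ p 0
  pmono : ∀ t ≤ R, p t ≤ p (t + 1)
  ptop : p (R + 1) = 1
  K0 : 0 ≤ K 0
  Kmono : ∀ t < R, K t ≤ K (t + 1)
  b0 : ∀ t ≤ R, 0 ≤ b t
  bΛ : ∀ t ≤ R, b t ≤ Λ
  psd : ∀ k ≤ R + 1, InvPsd (Matrix.of fun r t : Fin (R + 1) => Bk k r t)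
  Bd : ∀ k ≤ R + 1, ∀ t ≤ R, Bk k t t ≤ Λ
  Blip : ∀ k ≤ R + 1, ∀ r ≤ R, ∀ r' ≤ R, ∀ t ≤ R, |Bk k r t - Bk k r' t| ≤ Λ * |K r - K r'|
  Bkd : ∀ k ≤ R, ∀ r ≤ R, ∀ t ≤ R, |Bk (k + 1) r t - Bk k r t| ≤ Λ * (p k * (K k - invPrev K k))
  g0 : ∀ k ≤ R + 1, ∀ t ≤ R, 0 ≤ gk k t
  g1 : ∀ k ≤ R + 1, ∀ t ≤ R, gk k t ≤ 1
  glip : ∀ k ≤ R + 1, ∀ t ≤ R, ∀ t' ≤ R, |gk k t - gk k t'| ≤ Λ * |K t - K t'|
  gkd : ∀ k ≤ R, ∀ t ≤ R, |gk (k + 1) t - gk k t| ≤ Λ * (p k * (K k - invPrev K k))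
  gap : ∀ k ≤ R + 1, ∀ t ≤ R, e ≤ 1 - b t * gk k t

/-- the kernel `A^k` on the sheets -/
noncomputable def invAk (R : ℕ) (p b : ℕ → ℝ) (Bk : ℕ → ℕ → ℕ → ℝ) (gk : ℕ → ℕ → ℝ) (k : ℕ) (r t : Fin (R + 1)) : ℝ :=
  invA (Matrix.of fun r t : Fin (R + 1) => Bk k r t) (fun s => 1 - b s * gk k s) (fun s => invMu p k s) (fun s => b s) r t

/-- the summable weight `ρ_k` -/
noncomputable def invRho (K b : ℕ → ℝ) (k : ℕ) : ℝ := (K k - invPrev K k) + |b k - invPrev b k|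

theorem inv_kd_sheets2_eqns_cite : True := by
  have := @invAk.eq_1; have := @invRho.eq_1
  trivial

/-- comparison of the monomials `Λ^a / e^c` -/
theorem inv_kd_mono_pow {Λ e : ℝ} (hΛ : 1 ≤ Λ) (he : 0 < e) (he1 : e ≤ 1) {a a' c c' : ℕ} (ha : a ≤ a') (hc : c ≤ c') :
    Λ ^ a / e ^ c ≤ Λ ^ a' / e ^ c' :=
  div_le_div₀ (by positivity) (pow_le_pow_right₀ hΛ ha) (by positivity) (pow_le_pow_of_le_one he.le he1 hc)

namespace InvSec

variable {R : ℕ} {p K b : ℕ → ℝ} {Bk : ℕ → ℕ → ℕ → ℝ} {gk : ℕ → ℕ → ℝ} {Λ e : ℝ}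

theorem p_nonneg (D : InvSec R p K b Bk gk Λ e) : ∀ t ≤ R + 1, 0 ≤ p t := by
  intro t
  induction t with
  | zero => intro _; exact D.p0
  | succ n ih => intro h; exact le_trans (ih (by omega)) (D.pmono n (by omega))

theorem dK_nonneg (D : InvSec R p K b Bk gk Λ e) : ∀ k ≤ R, 0 ≤ K k - invPrev K k := by
  intro k hk
  cases k with
  | zero => simp only [invPrev]; linarith [D.K0]
  | succ n => simp only [invPrev]; linarith [D.Kmono n (by omega)]

theorem rho_nonneg (D : InvSec R p K b Bk gk Λ e) (k : ℕ) (hk : k ≤ R) : 0 ≤ invRho K b k :=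
  add_nonneg (D.dK_nonneg k hk) (abs_nonneg _)

/-- the signed contribution of the two atoms of `μ^{k+1} - μ^k` -/
theorem atoms_le (D : InvSec R p K b Bk gk Λ e) (k : ℕ) (hk : k ≤ R) (r t : Fin (R + 1)) :
    |∑ s : Fin (R + 1), invC (Matrix.of fun r t : Fin (R + 1) => Bk (k + 1) r t)
          (invW (fun s : Fin (R + 1) => invMu p (k + 1) s) (fun s => b s) (fun s => 1 - b s * gk (k + 1) s)) r s
        * ((invMu p (k + 1) s - invMu p k s) * (b s / (1 - b s * gk (k + 1) s)))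
        * invC (Matrix.of fun r t : Fin (R + 1) => Bk k r t)
          (invW (fun s : Fin (R + 1) => invMu p k s) (fun s => b s) (fun s => 1 - b s * gk k s)) s t|
      ≤ p k * (7 * Λ ^ 5 / e ^ 2 * invRho K b k) := by
  have hΛ := D.hΛ; have he := D.he; have he1 := D.he1
  have hΛ0 : 0 ≤ Λ := by linarith
  have hpk : 0 ≤ p k := D.p_nonneg k (by omega)
  have hdK := D.dK_nonneg k hk
  have fle : ∀ s : Fin (R + 1), (s : ℕ) ≤ R := fun s => by have := s.2; omega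
  have hB := D.psd k (by omega)
  have hB' := D.psd (k + 1) (by omega)
  have hmu : ∀ j, ∀ s : Fin (R + 1), 0 ≤ invMu p j s :=
    fun j s => inv_kd_mu_nonneg (D.p_nonneg s (by have := fle s; omega)) (D.pmono s (fle s)) j
  have hb : ∀ s : Fin (R + 1), 0 ≤ b s := fun s => D.b0 s (fle s)
  have hbΛ : ∀ s : Fin (R + 1), b s ≤ Λ := fun s => D.bΛ s (fle s)
  have hl : ∀ s : Fin (R + 1), e ≤ 1 - b s * gk k s := fun s => D.gap k (by omega) s (fle s)
  have hl' : ∀ s : Fin (R + 1), e ≤ 1 - b s * gk (k + 1) s := fun s => D.gap (k + 1) (by omega) s (fle s)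
  have hw := inv_kd_W_nonneg (hmu k) hb (fun s => lt_of_lt_of_le he (hl s))
  have hw' := inv_kd_W_nonneg (hmu (k + 1)) hb (fun s => lt_of_lt_of_le he (hl' s))
  have hWs := inv_kd_W_sum_le hΛ0 he (hmu k) hbΛ hl (inv_kd_mu_sum_le D.p0 D.ptop k)
  have hWs' := inv_kd_W_sum_le hΛ0 he (hmu (k + 1)) hbΛ hl' (inv_kd_mu_sum_le D.p0 D.ptop (k + 1))
  have hC := inv_kd_C_abs_le hB hw (fun s => D.Bd k (by omega) s (fle s))
  have hC' := inv_kd_C_abs_le hB' hw' (fun s => D.Bd (k + 1) (by omega) s (fle s))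
  set C := invC (Matrix.of fun r t : Fin (R + 1) => Bk k r t)
    (invW (fun s : Fin (R + 1) => invMu p k s) (fun s => b s) (fun s => 1 - b s * gk k s)) with hCdef
  set C' := invC (Matrix.of fun r t : Fin (R + 1) => Bk (k + 1) r t)
    (invW (fun s : Fin (R + 1) => invMu p (k + 1) s) (fun s => b s) (fun s => 1 - b s * gk (k + 1) s)) with hCdef'
  set q : Fin (R + 1) → ℝ := fun s => b s / (1 - b s * gk (k + 1) s) with hq
  have hq0 : ∀ s, 0 ≤ q s := fun s => div_nonneg (hb s) (le_trans he.le (hl' s))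
  have hqb : ∀ s, q s ≤ b s / e := fun s => div_le_div_of_nonneg_left (hb s) he (hl' s)
  have hqQ : ∀ s, |q s| ≤ Λ / e := fun s => by
    rw [abs_of_nonneg (hq0 s)]
    exact le_trans (hqb s) (div_le_div_of_nonneg_right (hbΛ s) he.le)
  -- the sum is the difference of two atoms
  have e1 : ∑ s : Fin (R + 1), C' r s * ((invMu p (k + 1) s - invMu p k s) * q s) * C s t
      = p k * (∑ s : Fin (R + 1), (C' r s * q s * C s t) * (if (s : ℕ) = k then 1 else 0)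
        - ∑ s : Fin (R + 1), (C' r s * q s * C s t) * (if (s : ℕ) + 1 = k then 1 else 0)) := by
    rw [← Finset.sum_sub_distrib, Finset.mul_sum]
    refine Finset.sum_congr rfl fun s _ => ?_
    rw [inv_kd_mu_succ]; ring
  rw [e1, abs_mul, abs_of_nonneg hpk]
  refine mul_le_mul_of_nonneg_left ?_ hpk
  rw [inv_kd_sum_atom _ k (by omega)]
  have t21 : Λ ^ 2 / e ^ 1 ≤ Λ ^ 5 / e ^ 2 := inv_kd_mono_pow hΛ he he1 (by norm_num) (by norm_num)
  have t31 : Λ ^ 3 / e ^ 1 ≤ Λ ^ 5 / e ^ 2 := inv_kd_mono_pow hΛ he he1 (by norm_num) (by norm_num)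
  have t32 : Λ ^ 3 / e ^ 2 ≤ Λ ^ 5 / e ^ 2 := inv_kd_mono_pow hΛ he he1 (by norm_num) (by norm_num)
  have tpos : 0 ≤ Λ ^ 5 / e ^ 2 := by positivity
  cases k with
  | zero =>
    have z : ∑ s : Fin (R + 1), (C' r s * q s * C s t) * (if (s : ℕ) + 1 = 0 then 1 else 0) = 0 := by
      refine Finset.sum_eq_zero fun s _ => ?_
      simp
    rw [z, sub_zero, abs_mul, abs_mul, abs_of_nonneg (hq0 _)]
    have a1 : |C' r ⟨0, by omega⟩| * q ⟨0, by omega⟩ * |C ⟨0, by omega⟩ t| ≤ Λ * (b 0 / e) * Λ :=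
      mul_le_mul (mul_le_mul (hC' _ _) (hqb _) (hq0 _) hΛ0) (hC _ _) (abs_nonneg _)
        (mul_nonneg hΛ0 (div_nonneg (D.b0 0 (by omega)) he.le))
    have a2 : b 0 ≤ invRho K b 0 := by
      unfold invRho
      simp only [invPrev, sub_zero]
      have := D.K0; have := le_abs_self (b 0); linarith
    have a3 : Λ * (b 0 / e) * Λ = Λ ^ 2 / e ^ 1 * b 0 := by ring
    have hb00 := D.b0 0 (by omega)
    have a4 : Λ ^ 2 / e ^ 1 * b 0 ≤ Λ ^ 5 / e ^ 2 * invRho K b 0 := mul_le_mul t21 a2 hb00 tpos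
    have a5 : 0 ≤ Λ ^ 5 / e ^ 2 * invRho K b 0 := le_trans (by positivity) a4
    have a6 : 7 * Λ ^ 5 / e ^ 2 * invRho K b 0 = 7 * (Λ ^ 5 / e ^ 2 * invRho K b 0) := by ring
    rw [a6]; linarith
  | succ n =>
    have z : ∑ s : Fin (R + 1), (C' r s * q s * C s t) * (if (s : ℕ) + 1 = n + 1 then 1 else 0)
        = ∑ s : Fin (R + 1), (C' r s * q s * C s t) * (if (s : ℕ) = n then 1 else 0) := by
      refine Finset.sum_congr rfl fun s _ => ?_
      simp
    rw [z, inv_kd_sum_atom _ n (by omega)]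
    set i1 : Fin (R + 1) := ⟨n + 1, by omega⟩ with hi1
    set i0 : Fin (R + 1) := ⟨n, by omega⟩ with hi0
    set dK := K (n + 1) - K n with hdKdef
    have hdK0 : 0 ≤ dK := hdK
    set db := |b (n + 1) - b n| with hdb
    have hdb0 : 0 ≤ db := abs_nonneg _
    have hrho : invRho K b (n + 1) = dK + db := by simp [invRho, invPrev, hdKdef, hdb]
    have habsK : |K (n + 1) - K n| = dK := abs_of_nonneg hdK0
    -- rows of `C`
    have hd : ∀ t', |C i1 t' - C i0 t'| ≤ Λ * dK * (1 + 2 * Λ / e * Λ) := fun t' =>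
      inv_kd_C_row_lip hB hw (fun s => D.Bd (n + 1) (by omega) s (fle s)) hΛ0 hWs i1 i0 (fun s => by
        have := D.Blip (n + 1) (by omega) (n + 1) (by omega) n (by omega) s (fle s)
        rw [habsK] at this
        simpa [Matrix.of_apply, hi1, hi0] using this) t'
    -- columns of `C'`
    have hd' : ∀ r', |C' r' i1 - C' r' i0| ≤ Λ * dK * (1 + 2 * Λ / e * Λ) := fun r' =>
      inv_kd_C_col_lip hB' hw' (fun s => D.Bd (n + 1 + 1) (by omega) s (fle s)) hΛ0 hWs' i1 i0 (fun s => by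
        have h1 := D.Blip (n + 1 + 1) (by omega) (n + 1) (by omega) n (by omega) s (fle s)
        rw [habsK] at h1
        simpa [Matrix.of_apply, hi1, hi0] using h1) r'
    -- the multiplier `q`
    have hdq : |q i1 - q i0| ≤ db / e + Λ * (db + Λ ^ 2 * dK) / e ^ 2 := by
      have g1 := D.g1 (n + 1 + 1) (by omega) (n + 1) (by omega)
      have g0 := D.g0 (n + 1 + 1) (by omega) (n + 1) (by omega)
      have gl := D.glip (n + 1 + 1) (by omega) (n + 1) (by omega) n (by omega)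
      rw [habsK] at gl
      have l1 := hl' i1
      have l0 := hl' i0
      simp only [hi1, hi0] at l1 l0
      have p1 : 0 < 1 - b (n + 1) * gk (n + 1 + 1) (n + 1) := lt_of_lt_of_le he l1
      have p0 : 0 < 1 - b n * gk (n + 1 + 1) n := lt_of_lt_of_le he l0
      have hbn := D.b0 n (by omega)
      have hbnΛ := D.bΛ n (by omega)
      have e2 : q i1 - q i0 = (b (n + 1) - b n) * (1 / (1 - b (n + 1) * gk (n + 1 + 1) (n + 1)))
          + b n * (1 / (1 - b (n + 1) * gk (n + 1 + 1) (n + 1)) - 1 / (1 - b n * gk (n + 1 + 1) n)) := by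
        simp only [hq, hi1, hi0]
        field_simp
        ring
      rw [e2]
      refine le_trans (abs_add_le _ _) (add_le_add ?_ ?_)
      · rw [abs_mul, abs_of_pos (by positivity : (0:ℝ) < 1 / (1 - b (n + 1) * gk (n + 1 + 1) (n + 1))), div_eq_mul_one_div db e]
        exact mul_le_mul_of_nonneg_left (one_div_le_one_div_of_le he l1) hdb0
      · rw [abs_mul, abs_of_nonneg hbn]
        have h3 := inv_kd_inv_diff he l0 l1
        have h4 : |(1 - b (n + 1) * gk (n + 1 + 1) (n + 1)) - (1 - b n * gk (n + 1 + 1) n)| ≤ db + Λ ^ 2 * dK := by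
          have e3 : (1 - b (n + 1) * gk (n + 1 + 1) (n + 1)) - (1 - b n * gk (n + 1 + 1) n)
              = - ((b (n + 1) - b n) * gk (n + 1 + 1) (n + 1) + b n * (gk (n + 1 + 1) (n + 1) - gk (n + 1 + 1) n)) := by ring
          rw [e3, abs_neg]
          refine le_trans (abs_add_le _ _) (add_le_add ?_ ?_)
          · rw [abs_mul, abs_of_nonneg g0]
            exact mul_le_of_le_one_right hdb0 g1
          · rw [abs_mul, abs_of_nonneg hbn]
            calc b n * |gk (n + 1 + 1) (n + 1) - gk (n + 1 + 1) n| ≤ Λ * (Λ * dK) :=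
                  mul_le_mul hbnΛ gl (abs_nonneg _) hΛ0
              _ = Λ ^ 2 * dK := by ring
        calc b n * |1 / (1 - b (n + 1) * gk (n + 1 + 1) (n + 1)) - 1 / (1 - b n * gk (n + 1 + 1) n)|
            ≤ Λ * ((db + Λ ^ 2 * dK) / e ^ 2) :=
              mul_le_mul hbnΛ (le_trans h3 (div_le_div_of_nonneg_right h4 (by positivity))) (abs_nonneg _) hΛ0
          _ = Λ * (db + Λ ^ 2 * dK) / e ^ 2 := by ring
    have hat := inv_kd_atoms hΛ0 (by positivity : (0:ℝ) ≤ Λ / e) hC hC' hqQ i0 i1 hd hd' hdq r t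
    refine le_trans hat ?_
    rw [hrho]
    have e4 : 2 * Λ * (Λ / e) * (Λ * dK * (1 + 2 * Λ / e * Λ)) + Λ ^ 2 * (db / e + Λ * (db + Λ ^ 2 * dK) / e ^ 2)
        = 2 * (Λ ^ 3 / e ^ 1 * dK) + 5 * (Λ ^ 5 / e ^ 2 * dK) + Λ ^ 2 / e ^ 1 * db + Λ ^ 3 / e ^ 2 * db := by
      field_simp
      ring
    rw [e4]
    have u1 := mul_le_mul_of_nonneg_right t31 hdK0
    have u2 := mul_le_mul_of_nonneg_right t21 hdb0
    have u3 := mul_le_mul_of_nonneg_right t32 hdb0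
    have u4 : 0 ≤ Λ ^ 5 / e ^ 2 * db := by positivity
    have e5 : 7 * Λ ^ 5 / e ^ 2 * (dK + db) = 7 * (Λ ^ 5 / e ^ 2 * dK) + 7 * (Λ ^ 5 / e ^ 2 * db) := by ring
    rw [e5]
    linarith

/-- **the weighted difference estimate** `|A^{k+1} - A^k| ≤ Pol p_k ρ_k` -/
theorem Ak_diff (D : InvSec R p K b Bk gk Λ e) (k : ℕ) (hk : k ≤ R) (r t : Fin (R + 1)) :
    |invAk R p b Bk gk (k + 1) r t - invAk R p b Bk gk k r t| ≤ 20 * Λ ^ 7 / e ^ 4 * (p k * invRho K b k) := by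
  have hΛ := D.hΛ; have he := D.he; have he1 := D.he1
  have hΛ0 : 0 ≤ Λ := by linarith
  have hpk : 0 ≤ p k := D.p_nonneg k (by omega)
  have hdK := D.dK_nonneg k hk
  have fle : ∀ s : Fin (R + 1), (s : ℕ) ≤ R := fun s => by have := s.2; omega
  have hmu : ∀ j, ∀ s : Fin (R + 1), 0 ≤ invMu p j s :=
    fun j s => inv_kd_mu_nonneg (D.p_nonneg s (by have := fle s; omega)) (D.pmono s (fle s)) j
  have hx0 : 0 ≤ p k * (K k - invPrev K k) := mul_nonneg hpk hdK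
  have hΛ2 : Λ ≤ Λ ^ 2 := by nlinarith
  have h := inv_kd_A_kdiff (D.psd k (by omega)) (D.psd (k + 1) (by omega)) (mu := fun s : Fin (R + 1) => invMu p k s)
    (mu' := fun s : Fin (R + 1) => invMu p (k + 1) s) (b := fun s : Fin (R + 1) => b s)
    (l := fun s : Fin (R + 1) => 1 - b s * gk k s) (l' := fun s : Fin (R + 1) => 1 - b s * gk (k + 1) s)
    (η := Λ ^ 2 * (p k * (K k - invPrev K k))) (X := p k * (7 * Λ ^ 5 / e ^ 2 * invRho K b k))
    hΛ he he1 (hmu k) (hmu (k + 1)) (inv_kd_mu_sum_le D.p0 D.ptop k) (inv_kd_mu_sum_le D.p0 D.ptop (k + 1))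
    (fun s => D.b0 s (fle s)) (fun s => D.bΛ s (fle s)) (fun s => D.gap k (by omega) s (fle s))
    (fun s => D.gap (k + 1) (by omega) s (fle s))
    (fun s => by have := mul_nonneg (D.b0 s (fle s)) (D.g0 k (by omega) s (fle s)); linarith)
    (fun s => by have := mul_nonneg (D.b0 s (fle s)) (D.g0 (k + 1) (by omega) s (fle s)); linarith)
    (fun s => by
      have e1 : (1 - b s * gk (k + 1) s) - (1 - b s * gk k s) = - (b s * (gk (k + 1) s - gk k s)) := by ring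
      rw [e1, abs_neg, abs_mul, abs_of_nonneg (D.b0 s (fle s))]
      calc b s * |gk (k + 1) s - gk k s| ≤ Λ * (Λ * (p k * (K k - invPrev K k))) :=
            mul_le_mul (D.bΛ s (fle s)) (D.gkd k hk s (fle s)) (abs_nonneg _) hΛ0
        _ = Λ ^ 2 * (p k * (K k - invPrev K k)) := by ring)
    (fun s => D.Bd k (by omega) s (fle s)) (fun s => D.Bd (k + 1) (by omega) s (fle s))
    (fun s t' => le_trans (D.Bkd k hk s (fle s) t' (fle t')) (mul_le_mul_of_nonneg_right hΛ2 hx0))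
    (fun r' t' => D.atoms_le k hk r' t') r t
  unfold invAk
  refine le_trans h ?_
  have hρ : K k - invPrev K k ≤ invRho K b k := by
    unfold invRho; have := abs_nonneg (b k - invPrev b k); linarith
  have hρ0 := D.rho_nonneg k hk
  have t64 : Λ ^ 6 / e ^ 4 ≤ Λ ^ 7 / e ^ 4 := inv_kd_mono_pow hΛ he he1 (by norm_num) (by norm_num)
  have e2 : 13 * Λ ^ 5 / e ^ 4 * (Λ ^ 2 * (p k * (K k - invPrev K k))) + Λ / e ^ 2 * (p k * (7 * Λ ^ 5 / e ^ 2 * invRho K b k))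
      = 13 * (Λ ^ 7 / e ^ 4 * (p k * (K k - invPrev K k))) + 7 * (Λ ^ 6 / e ^ 4 * (p k * invRho K b k)) := by
    field_simp
  rw [e2]
  have u1 : Λ ^ 7 / e ^ 4 * (p k * (K k - invPrev K k)) ≤ Λ ^ 7 / e ^ 4 * (p k * invRho K b k) :=
    mul_le_mul_of_nonneg_left (mul_le_mul_of_nonneg_left hρ hpk) (by positivity)
  have u2 : Λ ^ 6 / e ^ 4 * (p k * invRho K b k) ≤ Λ ^ 7 / e ^ 4 * (p k * invRho K b k) :=
    mul_le_mul_of_nonneg_right t64 (mul_nonneg hpk hρ0)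
  have e3 : 20 * Λ ^ 7 / e ^ 4 * (p k * invRho K b k) = 20 * (Λ ^ 7 / e ^ 4 * (p k * invRho K b k)) := by ring
  rw [e3]
  linarith

/-- the total of the weights `ρ_k` -/
theorem rho_sum (K b : ℕ → ℝ) (n : ℕ) :
    ∑ k ∈ Finset.range (n + 1), invRho K b k = K n + ∑ k ∈ Finset.range (n + 1), |b k - invPrev b k| := by
  unfold invRho
  rw [Finset.sum_add_distrib]
  congr 1
  induction n with
  | zero => simp [invPrev]
  | succ m ih => rw [Finset.sum_range_succ, ih]; simp [invPrev]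

/-- **the coefficient `κ_a (c, d)` of the nonterminal row correction**: after division by the block masses, any selection
`0 ≤ c k ≤ 1` of the resolution indices -/
theorem kappa_le (D : InvSec R p K b Bk gk Λ e) (hp : 0 < p 0) (c : ℕ → ℝ) (hc0 : ∀ k, 0 ≤ c k) (hc1 : ∀ k, c k ≤ 1)
    (r t : Fin (R + 1)) :
    |∑ k ∈ Finset.range (R + 1), (invAk R p b Bk gk k r t - invAk R p b Bk gk (k + 1) r t) / p k * c k|
      ≤ 20 * Λ ^ 7 / e ^ 4 * (K R + ∑ k ∈ Finset.range (R + 1), |b k - invPrev b k|) := by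
  have hΛ := D.hΛ; have he := D.he
  rw [← rho_sum, Finset.mul_sum]
  refine le_trans (Finset.abs_sum_le_sum_abs _ _) (Finset.sum_le_sum fun k hk => ?_)
  have hk' : k ≤ R := by have := Finset.mem_range.1 hk; omega
  have hpk : 0 < p k := by
    have : ∀ j ≤ R + 1, 0 < p j := by
      intro j
      induction j with
      | zero => intro _; exact hp
      | succ n ih => intro h; exact lt_of_lt_of_le (ih (by omega)) (D.pmono n (by omega))
    exact this k (by omega)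
  have h := D.Ak_diff k hk' r t
  rw [abs_sub_comm] at h
  rw [abs_mul, abs_div, abs_of_pos hpk, abs_of_nonneg (hc0 k)]
  have hρ0 := D.rho_nonneg k hk'
  have h2 : |invAk R p b Bk gk k r t - invAk R p b Bk gk (k + 1) r t| / p k ≤ 20 * Λ ^ 7 / e ^ 4 * invRho K b k := by
    rw [div_le_iff₀ hpk]
    calc _ ≤ 20 * Λ ^ 7 / e ^ 4 * (p k * invRho K b k) := h
      _ = 20 * Λ ^ 7 / e ^ 4 * invRho K b k * p k := by ring
  calc |invAk R p b Bk gk k r t - invAk R p b Bk gk (k + 1) r t| / p k * c k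
      ≤ 20 * Λ ^ 7 / e ^ 4 * invRho K b k * 1 :=
        mul_le_mul h2 (hc1 k) (hc0 k) (by positivity)
    _ = 20 * Λ ^ 7 / e ^ 4 * invRho K b k := by ring

/-- bound of the kernels `A^k` themselves -/
theorem Ak_abs_le (D : InvSec R p K b Bk gk Λ e) (k : ℕ) (hk : k ≤ R + 1) (r t : Fin (R + 1)) :
    |invAk R p b Bk gk k r t| ≤ Λ ^ 2 / e ^ 2 := by
  have hΛ := D.hΛ; have he := D.he
  have hΛ0 : 0 ≤ Λ := by linarith
  have fle : ∀ s : Fin (R + 1), (s : ℕ) ≤ R := fun s => by have := s.2; omega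
  have hmu : ∀ s : Fin (R + 1), 0 ≤ invMu p k s :=
    fun s => inv_kd_mu_nonneg (D.p_nonneg s (by have := fle s; omega)) (D.pmono s (fle s)) k
  have hl : ∀ s : Fin (R + 1), e ≤ 1 - b s * gk k s := fun s => D.gap k hk s (fle s)
  have hC := inv_kd_C_abs_le (D.psd k hk) (inv_kd_W_nonneg hmu (fun s => D.b0 s (fle s)) (fun s => lt_of_lt_of_le he (hl s)))
    (fun s => D.Bd k hk s (fle s)) r t
  unfold invAk
  rw [inv_kd_A_apply]
  have pr := lt_of_lt_of_le he (hl r)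
  have pt := lt_of_lt_of_le he (hl t)
  rw [abs_div, abs_mul, abs_neg, abs_of_nonneg (D.b0 t (fle t)), abs_of_pos (mul_pos pr pt)]
  have q : e ^ 2 ≤ (1 - b r * gk k r) * (1 - b t * gk k t) := by nlinarith [hl r, hl t]
  calc _ ≤ Λ * Λ / ((1 - b r * gk k r) * (1 - b t * gk k t)) := by
        apply div_le_div_of_nonneg_right _ (mul_pos pr pt).le
        exact mul_le_mul hC (D.bΛ t (fle t)) (D.b0 t (fle t)) hΛ0
    _ ≤ Λ * Λ / e ^ 2 := div_le_div_of_nonneg_left (by positivity) (by positivity) q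
    _ = Λ ^ 2 / e ^ 2 := by ring

end InvSec

end sheets

end Claimed.Agent.R286
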