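import Claimed.Agent.R286.Inv.PairDefs
import Claimed.Agent.R286.Inv.Alg
import Claimed.Agent.R286.Inv.Coef0
import Claimed.Agent.R286.Inv.BrgTr
import Claimed.Agent.R286.Fd.TrA2

/-!
# Row 286 (S0533), LL Section 5: unit MAIN, part 1 = THE ABSTRACT A-PRIORI INEQUALITY `pk_core`      (owner: helper84; prefix `pk_`)

TEX[LL:inv:pair-inverse]   Official vocabulary (`Defs/Tr`, `Inv/PairDefs`): old labels `0..q0-1`, the pair `q0, q0+1`, inserted labels `c = q0+2`, `d = q0+3`.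
ABSTRACT DATA: tables `dG` (child kernel), `dP` (row kernel), masses `ms` (positive, `ms N = 1`), multiplier `b`.
* `pkKer γ ψ i j c d τ`  = the kernel (W) read on a table;   `pkMA`, `pkLA` = (A8)-sum and (H1) with the kernel `2⁻¹ pkKer dG dP`   (unit KER: `pkL (llJs ..) = pkLA (llMs a P) .. (icC ..) (icBk ..)`).
* `pk_core` : `VcCoef0 (trPm ms) N 1 ..` (unit COEF)  ⟹  `|U τ| ≤ 90 Λ^11 (κ + ∑ db)² trAbsK ms N 2 (q0+2) τ (pkRet * |pkLA U ∘ pkPull|)`.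
Route: `U ∘ table` is a pair array on the virtual tree (labels relabelled by `pkE`), `vc_inverse0` (ALG), `vc_op_eq_kop`, `vc_opk_kop_W` (OPK), `vt_sum2` (BRG-Tr, helper296), `vc_coef0` (COEF), `tr_sumK_le`.
-/

set_option autoImplicit false

namespace Claimed.Agent.R286

open Finset

/-! ## 0. definitions -/

/-- the kernel (W) read on a table: observed pair `i j`, inserted pair `c d` -/
def pkKer (γ ψ : ℕ → ℕ → ℕ → ℝ) (i j c d : ℕ) (τ : JtTopo) : ℝ :=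
  vcGam γ (τ i j) (τ c i) (τ d j) + vcGam γ (τ i j) (τ d i) (τ c j)
    + vcPhi ψ (τ i j) (τ c d) (τ c i) + vcPhi ψ (τ i j) (τ c d) (τ c j)
    + vcPhi ψ (τ i j) (τ c d) (τ d i) + vcPhi ψ (τ i j) (τ c d) (τ d j)

/-- the one-sided kernel of `vcOp .. 1 γ ψ` read on a table -/
def pkKer1 (N : ℕ) (γ ψ : ℕ → ℕ → ℕ → ℝ) (i j c d : ℕ) (τ : JtTopo) : ℝ :=
  (∑ k ∈ Ioc (τ i j) (τ c i), ∑ k' ∈ Ioc (τ i j) (τ d j), γ (τ i j) k k')
    + if 1 ≤ τ c d ∧ τ c d ≤ N then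
        (∑ k ∈ range (τ c i + 1), ψ (τ i j) (τ c d) k) + ∑ k ∈ range (τ c j + 1), ψ (τ i j) (τ c d) k
      else 0

/-- the abstract cavity sum: kernel `2⁻¹ pkKer γ ψ`, distinct leaves -/
noncomputable def pkMA (ms : ℕ → ℝ) (N q0 : ℕ) (γ ψ : ℕ → ℕ → ℕ → ℝ) (w : JtTopo → ℝ) (τ : JtTopo) : ℝ :=
  trSumK ms N 2 (q0 + 2) τ fun τ' =>
    (if τ' (q0 + 2) (q0 + 3) ≤ N then (1 : ℝ) else 0) * (2⁻¹ * pkKer γ ψ q0 (q0 + 1) (q0 + 2) (q0 + 3) τ') * w τ'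

/-- the abstract (H1) -/
noncomputable def pkLA (ms : ℕ → ℝ) (N q0 : ℕ) (γ ψ : ℕ → ℕ → ℕ → ℝ) (b : ℕ → ℝ) (U : JtTopo → ℝ) (τ : JtTopo) : ℝ :=
  U τ - pkMA ms N q0 γ ψ (fun τ' => b (τ' (q0 + 2) (q0 + 3)) * U (pkPull q0 (q0 + 2) (q0 + 3) τ')) τ

/-- relabelling official → virtual: old labels `u < q0 ↦ u + 2`, the pair `q0, q0+1 ↦ 0, 1`, the other labels are fixed -/
def pkE (q0 u : ℕ) : ℕ := if u < q0 then u + 2 else if u < q0 + 2 then u - q0 else u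

/-- its inverse -/
def pkEi (q0 v : ℕ) : ℕ := if v < 2 then v + q0 else if v < q0 + 2 then v - 2 else v

/-- a function of tables, read on the configurations -/
def pkUp (N q0 : ℕ) (Φ : JtTopo → ℝ) : VcX → ℝ := fun y => Φ (vcLev N (vcRel (pkE q0) y))

theorem pk_main_eqns_cite : True := by
  have := @pkKer.eq_1
  have := @pkKer1.eq_1
  have := @pkMA.eq_1
  have := @pkLA.eq_1
  have := @pkE.eq_1
  have := @pkEi.eq_1
  have := @pkUp.eq_1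
  trivial

/-! ## 1. the relabelling -/

theorem pk_E_inj (q0 : ℕ) : Function.Injective (pkE q0) := by
  intro u v h
  unfold pkE at h
  split_ifs at h <;> omega

theorem pk_Ei_E (q0 u : ℕ) : pkEi q0 (pkE q0 u) = u := by
  unfold pkEi pkE
  split_ifs <;> omega

theorem pk_E_a (q0 : ℕ) : pkE q0 q0 = 0 := by
  unfold pkE
  split_ifs <;> omega

theorem pk_E_b (q0 : ℕ) : pkE q0 (q0 + 1) = 1 := by
  unfold pkE
  split_ifs <;> omega

theorem pk_E_ge {q0 u : ℕ} (h : q0 + 2 ≤ u) : pkE q0 u = u := by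
  unfold pkE
  split_ifs <;> omega

theorem pk_E_lt {q0 u : ℕ} (h : u < q0 + 2) : pkE q0 u < q0 + 2 := by
  unfold pkE
  split_ifs <;> omega

theorem pk_tb (N q0 : ℕ) (y : VcX) (u v : ℕ) : vcLev N (vcRel (pkE q0) y) u v = vcLev N y (pkE q0 u) (pkE q0 v) :=
  vc_lev_rel N y _ u v

/-- reading the pair at `c, d` -/
theorem pk_tb_sub (N q0 : ℕ) (y : VcX) :
    vcLev N (vcRel (pkE q0) (vcSub (q0 + 2) (q0 + 3) y)) = pkPull q0 (q0 + 2) (q0 + 3) (vcLev N (vcRel (pkE q0) y)) := by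
  have key : ∀ u, vcE2 (q0 + 2) (q0 + 3) (pkE q0 u) = pkE q0 (pkSub q0 (q0 + 2) (q0 + 3) u) := by
    intro u
    by_cases h0 : u = q0
    · subst h0
      have : pkSub u (u + 2) (u + 3) u = u + 2 := by simp [pkSub]
      rw [this, pk_E_a, pk_E_ge (le_refl _)]
      simp [vcE2]
    · by_cases h1 : u = q0 + 1
      · subst h1
        have : pkSub q0 (q0 + 2) (q0 + 3) (q0 + 1) = q0 + 3 := by simp [pkSub]
        rw [this, pk_E_b, pk_E_ge (by omega)]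
        simp [vcE2]
      · have : pkSub q0 (q0 + 2) (q0 + 3) u = u := by simp [pkSub, h0, h1]
        rw [this]
        have h2 : pkE q0 u ≠ 0 := by
          unfold pkE
          split_ifs <;> omega
        have h3 : pkE q0 u ≠ 1 := by
          unfold pkE
          split_ifs <;> omega
        simp [vcE2, h2, h3]
  funext u v
  show vcLev N (vcRel (pkE q0) (vcSub (q0 + 2) (q0 + 3) y)) u v
    = vcLev N (vcRel (pkE q0) y) (pkSub q0 (q0 + 2) (q0 + 3) u) (pkSub q0 (q0 + 2) (q0 + 3) v)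
  rw [pk_tb, pk_tb]
  unfold vcSub
  rw [vc_lev_rel, key, key]

/-- exchange of the pair -/
theorem pk_tb_sw (N q0 : ℕ) (y : VcX) :
    vcLev N (vcRel (pkE q0) (vcSw y)) = pkPull q0 (q0 + 1) q0 (vcLev N (vcRel (pkE q0) y)) := by
  have key : ∀ u, Equiv.swap 0 1 (pkE q0 u) = pkE q0 (pkSub q0 (q0 + 1) q0 u) := by
    intro u
    by_cases h0 : u = q0
    · subst h0
      have : pkSub u (u + 1) u u = u + 1 := by simp [pkSub]
      rw [this, pk_E_a, pk_E_b, Equiv.swap_apply_left]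
    · by_cases h1 : u = q0 + 1
      · subst h1
        have : pkSub q0 (q0 + 1) q0 (q0 + 1) = q0 := by simp [pkSub]
        rw [this, pk_E_a, pk_E_b, Equiv.swap_apply_right]
      · have : pkSub q0 (q0 + 1) q0 u = u := by simp [pkSub, h0, h1]
        rw [this]
        refine Equiv.swap_apply_of_ne_of_ne ?_ ?_
        · unfold pkE
          split_ifs <;> omega
        · unfold pkE
          split_ifs <;> omega
  funext u v
  show vcLev N (vcRel (pkE q0) (vcSw y)) u v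
    = vcLev N (vcRel (pkE q0) y) (pkSub q0 (q0 + 1) q0 u) (pkSub q0 (q0 + 1) q0 v)
  rw [pk_tb, pk_tb]
  unfold vcSw
  rw [vc_lev_rel, key, key]

/-! ## 2. locality -/

theorem pk_loc_pull {q0 : ℕ} {Φ : JtTopo → ℝ} (h : VtUses (q0 + 2) Φ) : VtUses (q0 + 4) fun τ => Φ (pkPull q0 (q0 + 2) (q0 + 3) τ) := by
  intro τ₁ τ₂ H
  refine h _ _ fun y z hy hz => ?_
  have hs : ∀ u, u < q0 + 2 → pkSub q0 (q0 + 2) (q0 + 3) u < q0 + 4 := by
    intro u hu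
    unfold pkSub
    split_ifs <;> omega
  exact H _ _ (hs y hy) (hs z hz)

theorem pk_loc_ent {q : ℕ} {u v : ℕ} (hu : u < q) (hv : v < q) (f : ℕ → ℝ) : VtUses q fun τ => f (τ u v) :=
  fun τ₁ τ₂ H => by show f (τ₁ u v) = f (τ₂ u v); rw [H u v hu hv]

theorem VtUses.mul {q : ℕ} {Φ Ψ : JtTopo → ℝ} (h : VtUses q Φ) (h' : VtUses q Ψ) : VtUses q fun τ => Φ τ * Ψ τ :=
  fun τ₁ τ₂ H => by show Φ τ₁ * Ψ τ₁ = Φ τ₂ * Ψ τ₂; rw [h τ₁ τ₂ H, h' τ₁ τ₂ H]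

theorem VtUses.abs {q : ℕ} {Φ : JtTopo → ℝ} (h : VtUses q Φ) : VtUses q fun τ => |Φ τ| :=
  fun τ₁ τ₂ H => by show |Φ τ₁| = |Φ τ₂|; rw [h τ₁ τ₂ H]

theorem pk_loc_ker (γ ψ : ℕ → ℕ → ℕ → ℝ) {q i j c d : ℕ} (hi : i < q) (hj : j < q) (hc : c < q) (hd : d < q) :
    VtUses q (pkKer γ ψ i j c d) := by
  intro τ₁ τ₂ H
  unfold pkKer
  rw [H i j hi hj, H c i hc hi, H d j hd hj, H d i hd hi, H c j hc hj, H c d hc hd]

theorem pk_loc_ker1 (N : ℕ) (γ ψ : ℕ → ℕ → ℕ → ℝ) {q i j c d : ℕ} (hi : i < q) (hj : j < q) (hc : c < q) (hd : d < q) :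
    VtUses q (pkKer1 N γ ψ i j c d) := by
  intro τ₁ τ₂ H
  unfold pkKer1
  rw [H i j hi hj, H c i hc hi, H d j hd hj, H c j hc hj, H c d hc hd]

/-- the summand of `pkMA` -/
theorem pk_loc_MA_summand (N q0 : ℕ) (γ ψ : ℕ → ℕ → ℕ → ℝ) {w : JtTopo → ℝ} (hw : VtUses (q0 + 4) w) :
    VtUses (q0 + 4) fun τ' =>
      (if τ' (q0 + 2) (q0 + 3) ≤ N then (1 : ℝ) else 0) * (2⁻¹ * pkKer γ ψ q0 (q0 + 1) (q0 + 2) (q0 + 3) τ') * w τ' := by
  intro τ₁ τ₂ H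
  dsimp only
  rw [H (q0 + 2) (q0 + 3) (by omega) (by omega), hw τ₁ τ₂ H,
    pk_loc_ker γ ψ (by omega : q0 < q0 + 4) (by omega : q0 + 1 < q0 + 4) (by omega : q0 + 2 < q0 + 4) (by omega : q0 + 3 < q0 + 4) τ₁ τ₂ H]

theorem pk_loc_MA (ms : ℕ → ℝ) (N q0 : ℕ) (γ ψ : ℕ → ℕ → ℕ → ℝ) {w : JtTopo → ℝ} (hw : VtUses (q0 + 4) w) :
    VtUses (q0 + 2) (pkMA ms N q0 γ ψ w) := by
  intro τ₁ τ₂ H
  exact tr_sumK_tree_congr H 2 _ (pk_loc_MA_summand N q0 γ ψ hw)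

theorem pk_loc_bU {q0 : ℕ} (b : ℕ → ℝ) {U : JtTopo → ℝ} (hU : VtUses (q0 + 2) U) :
    VtUses (q0 + 4) fun τ' => b (τ' (q0 + 2) (q0 + 3)) * U (pkPull q0 (q0 + 2) (q0 + 3) τ') :=
  (pk_loc_ent (by omega) (by omega) b).mul (pk_loc_pull hU)

theorem pk_loc_LA (ms : ℕ → ℝ) (N q0 : ℕ) (γ ψ : ℕ → ℕ → ℕ → ℝ) (b : ℕ → ℝ) {U : JtTopo → ℝ} (hU : VtUses (q0 + 2) U) :
    VtUses (q0 + 2) (pkLA ms N q0 γ ψ b U) := by
  intro τ₁ τ₂ H
  unfold pkLA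
  rw [hU τ₁ τ₂ H, pk_loc_MA ms N q0 γ ψ (pk_loc_bU b hU) τ₁ τ₂ H]

/-! ## 3. functions of tables on the virtual tree -/

theorem pk_up_A (N q0 : ℕ) {m : ℕ} {Φ : JtTopo → ℝ} (hΦ : VtUses m Φ) : VcA N (pkUp N q0 Φ) :=
  (vt_A N hΦ).rel (pkE q0)

theorem pk_up_lab (N q0 : ℕ) {Φ : JtTopo → ℝ} (hΦ : VtUses (q0 + 2) Φ) : VcLab (q0 + 2) (pkUp N q0 Φ) := by
  intro i hi x v
  refine hΦ _ _ fun y z hy hz => ?_
  rw [pk_tb, pk_tb]
  have hne : ∀ u, u < q0 + 2 → ∀ j, Function.update x i v (pkE q0 u, j) = x (pkE q0 u, j) := by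
    intro u hu j
    refine Function.update_of_ne (fun e => ?_) _ _
    have h1 := pk_E_lt hu
    have h2 : pkE q0 u = i.1 := by rw [← e]
    omega
  exact vc_opk_lev_congr (hne y hy) (hne z hz)

theorem pk_up_sw (N q0 : ℕ) {U : JtTopo → ℝ} (hU : PkFn q0 U) (y : VcX) : pkUp N q0 U (vcSw y) = pkUp N q0 U y := by
  unfold pkUp
  rw [pk_tb_sw, hU.symm]

/-- **transfer**: `trSumK .. 2` on the table of a configuration is the double virtual sum over the fresh labels `q0+2, q0+3` -/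
theorem pk_trf {N : ℕ} {ms : ℕ → ℝ} (hpos : ∀ j, j ≤ N → 0 < ms j) (q0 : ℕ) {Φ : JtTopo → ℝ} (hΦ : VtUses (q0 + 4) Φ) (y : VcX) :
    trSumK ms N 2 (q0 + 2) (vcLev N (vcRel (pkE q0) y)) Φ
      = ms N ^ 2 * vcS (vtP ms N) N (q0 + 2) 0 (vcS (vtP ms N) N (q0 + 3) 0 (pkUp N q0 Φ)) y := by
  have h1 := vc_S_rel (vtP ms N) N (fun x' => Φ (vcLev N x')) (pkE q0) (pk_E_inj q0) (q0 + 3) 0
  rw [pk_E_ge (by omega : q0 + 2 ≤ q0 + 3)] at h1
  have h2 := vc_S_rel (vtP ms N) N (vcS (vtP ms N) N (q0 + 3) 0 fun x' => Φ (vcLev N x')) (pkE q0) (pk_E_inj q0) (q0 + 2) 0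
  rw [pk_E_ge (le_refl (q0 + 2))] at h2
  have h3 : pkUp N q0 Φ = fun x => (fun x' => Φ (vcLev N x')) (vcRel (pkE q0) x) := rfl
  rw [h3, h1, h2]
  exact vt_sum2 hpos (by omega) hΦ (vcRel (pkE q0) y)

/-! ## 4. the official `L` is the virtual `L` -/

/-- tables multiplied by a constant -/
def pkSc (c : ℝ) (γ : ℕ → ℕ → ℕ → ℝ) : ℕ → ℕ → ℕ → ℝ := fun r j j' => c * γ r j j'

theorem pk_sc_eqns_cite : True := by
  have := @pkSc.eq_1
  trivial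

theorem pk_gam_sc (c : ℝ) (γ : ℕ → ℕ → ℕ → ℝ) (r n n' : ℕ) : vcGam (pkSc c γ) r n n' = c * vcGam γ r n n' := by
  unfold vcGam pkSc
  rw [Finset.mul_sum]
  exact Finset.sum_congr rfl fun j _ => (Finset.mul_sum _ _ _).symm

theorem pk_phi_sc (c : ℝ) (ψ : ℕ → ℕ → ℕ → ℝ) (r t n : ℕ) : vcPhi (pkSc c ψ) r t n = c * vcPhi ψ r t n := by
  unfold vcPhi pkSc
  rw [Finset.mul_sum]

theorem pk_ker_sc (c : ℝ) (γ ψ : ℕ → ℕ → ℕ → ℝ) (i j k l : ℕ) (τ : JtTopo) :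
    pkKer (pkSc c γ) (pkSc c ψ) i j k l τ = c * pkKer γ ψ i j k l τ := by
  unfold pkKer
  simp only [pk_gam_sc, pk_phi_sc]
  ring

theorem pk_op_r0 (p : ℕ → ℝ) (R : ℕ) (γ ψ : ℕ → ℕ → ℕ → ℝ) (hψ : ∀ r k, ψ r 0 k = 0) (w : VcX → ℝ) (x : VcX) :
    vcOp p R 0 γ ψ w x = vcOp p R 1 γ ψ w x := by
  unfold vcOp
  congr 1
  rw [vc_c0_split _ 0 R (Nat.zero_le R)]
  simp [hψ]

theorem pk_ker_up (N q0 : ℕ) (γ ψ : ℕ → ℕ → ℕ → ℝ) (y : VcX) :
    vcKerW N γ ψ (q0 + 2) (q0 + 3) y = pkKer γ ψ q0 (q0 + 1) (q0 + 2) (q0 + 3) (vcLev N (vcRel (pkE q0) y)) := by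
  unfold vcKerW pkKer
  simp only [pk_tb, pk_E_a, pk_E_b, pk_E_ge (le_refl (q0 + 2)), pk_E_ge (show q0 + 2 ≤ q0 + 3 by omega)]

theorem pk_ker1_up (N q0 : ℕ) (γ ψ : ℕ → ℕ → ℕ → ℝ) (y : VcX) :
    vcKer N 1 (q0 + 2) γ ψ y = pkKer1 N γ ψ q0 (q0 + 1) (q0 + 2) (q0 + 3) (vcLev N (vcRel (pkE q0) y)) := by
  unfold vcKer pkKer1
  simp only [pk_tb, pk_E_a, pk_E_b, pk_E_ge (le_refl (q0 + 2)), pk_E_ge (show q0 + 2 ≤ q0 + 3 by omega)]

theorem pk_pull_ab (q0 c d : ℕ) (τ : JtTopo) : pkPull q0 c d τ q0 (q0 + 1) = τ c d := by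
  simp [pkPull, pkSub]

/-- **(H1) on the virtual tree = (H1) on tables**   (terminal mass `ms N`: virtual masses `vtP ms N`, virtual tables `(ms N)² dG`, `(ms N)² dP`) -/
theorem pk_L_up {N : ℕ} {ms : ℕ → ℝ} (hpos : ∀ j, j ≤ N → 0 < ms j) (q0 : ℕ) (dG dP : ℕ → ℕ → ℕ → ℝ)
    (hrow0 : ∀ r k, dP r 0 k = 0) (b : ℕ → ℝ) {U : JtTopo → ℝ} (hU : PkFn q0 U) (z : VcX) (hz : vcLev N z 0 1 ≤ N) :
    vcL (vtP ms N) N 1 (pkSc (ms N ^ 2) dG) (pkSc (ms N ^ 2) dP) b (pkUp N q0 U) z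
      = pkLA ms N q0 dG dP b U (vcLev N (vcRel (pkE q0) z)) := by
  have hloc : VtUses (q0 + 2) U := hU.uses
  set Ub : JtTopo → ℝ := fun τ => b (τ q0 (q0 + 1)) * U τ with hUb
  have hUbloc : VtUses (q0 + 2) Ub := (pk_loc_ent (by omega) (by omega) b).mul hloc
  have e1 : (fun y => b (vcLev N y 0 1) * pkUp N q0 U y) = pkUp N q0 Ub := by
    funext y
    show _ = b (vcLev N (vcRel (pkE q0) y) q0 (q0 + 1)) * U _
    rw [pk_tb, pk_E_a, pk_E_b]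
    rfl
  have hsym : ∀ x, pkUp N q0 Ub (vcSw x) = pkUp N q0 Ub x := by
    intro x
    rw [← e1]
    dsimp only
    rw [vc_lev_sw, pk_up_sw N q0 hU]
  have hrow0' : ∀ r k, pkSc (ms N ^ 2) dP r 0 k = 0 := fun r k => by unfold pkSc; rw [hrow0, mul_zero]
  have h3 := vc_opk_kop_W (pk_up_A N q0 hUbloc) hsym (by omega : 2 ≤ q0 + 2) (pk_up_lab N q0 hUbloc) (vtP ms N) 0
    (pkSc (ms N ^ 2) dG) (pkSc (ms N ^ 2) dP)
    (κ := vcKerW N (pkSc (ms N ^ 2) dG) (pkSc (ms N ^ 2) dP) (q0 + 2) (q0 + 3)) (fun _ _ _ => rfl) z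
    (Finset.mem_Icc.2 ⟨Nat.zero_le _, hz⟩)
  unfold vcL pkLA
  congr 1
  rw [e1, ← pk_op_r0 (vtP ms N) N _ _ hrow0', ← h3]
  unfold vcKop pkMA
  rw [pk_trf hpos q0 (pk_loc_MA_summand N q0 dG dP (pk_loc_bU b hloc)) z,
    ← congrFun (vc_S_const_mul (((pk_up_A N q0 (pk_loc_MA_summand N q0 dG dP (pk_loc_bU b hloc))).S (vtP ms N) (q0 + 3) 0))
      (vtP ms N) (q0 + 2) 0 (ms N ^ 2)) z,
    ← vc_S_const_mul (pk_up_A N q0 (pk_loc_MA_summand N q0 dG dP (pk_loc_bU b hloc))) (vtP ms N) (q0 + 3) 0 (ms N ^ 2)]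
  congr 2
  funext x
  show _ = ms N ^ 2 * ((if vcLev N (vcRel (pkE q0) x) (q0 + 2) (q0 + 3) ≤ N then (1 : ℝ) else 0)
    * (2⁻¹ * pkKer dG dP q0 (q0 + 1) (q0 + 2) (q0 + 3) (vcLev N (vcRel (pkE q0) x)))
    * (b (vcLev N (vcRel (pkE q0) x) (q0 + 2) (q0 + 3)) * U (pkPull q0 (q0 + 2) (q0 + 3) (vcLev N (vcRel (pkE q0) x)))))
  have e3 : pkUp N q0 Ub (vcSub (q0 + 2) (q0 + 2 + 1) x)
      = b (vcLev N (vcRel (pkE q0) x) (q0 + 2) (q0 + 3)) * U (pkPull q0 (q0 + 2) (q0 + 3) (vcLev N (vcRel (pkE q0) x))) := by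
    show Ub (vcLev N (vcRel (pkE q0) (vcSub (q0 + 2) (q0 + 3) x))) = _
    rw [pk_tb_sub, hUb]
    dsimp only
    rw [pk_pull_ab]
  have e4 : vcLev N x (q0 + 2) (q0 + 2 + 1) = vcLev N (vcRel (pkE q0) x) (q0 + 2) (q0 + 3) := by
    rw [pk_tb, pk_E_ge (le_refl (q0 + 2)), pk_E_ge (show q0 + 2 ≤ q0 + 3 by omega)]
  rw [e3]
  dsimp only
  rw [e4, pk_ker_up, pk_ker_sc]
  have e5 : (if vcLev N (vcRel (pkE q0) x) (q0 + 2) (q0 + 3) ∈ Icc 0 N then (1 : ℝ) else 0)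
      = if vcLev N (vcRel (pkE q0) x) (q0 + 2) (q0 + 3) ≤ N then (1 : ℝ) else 0 :=
    if_congr (by simp) rfl rfl
  rw [e5]
  ring

/-! ## 5. the inverse on tables -/

/-- support of the one-sided kernel   (proof: helper123) -/
theorem pk_ker1_supp {N q : ℕ} {τ : JtTopo} (hτ : IsTr N q τ) {i j c d : ℕ} (hi : i < q) (hj : j < q) (hc : c < q) (hd : d < q)
    (b : ℕ → ℝ) (δ a : ℕ → ℕ → ℕ → ℝ) (ha : ∀ r t k, b t = 0 → a r t k = 0) (hij : τ i j ≤ N)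
    (h : pkRet N b (τ i j) (τ c d) = 0) : pkKer1 N δ a i j c d τ = 0 := by
  have hn : ¬ (τ c d ≤ N ∧ (τ c d = τ i j ∨ b (τ c d) ≠ 0)) := by
    intro hh
    unfold pkRet at h
    rw [if_pos hh] at h
    exact one_ne_zero h
  unfold pkKer1
  have h1 : (∑ k ∈ Ioc (τ i j) (τ c i), ∑ k' ∈ Ioc (τ i j) (τ d j), δ (τ i j) k k') = 0 := by
    by_cases h1 : τ i j < τ c i
    · by_cases h2 : τ i j < τ d j
      · exfalso
        apply hn
        have e1 := hτ.ultra i c j hi hc hj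
        have e2 := hτ.ultra c d j hc hd hj
        have e3 := hτ.ultra c i d hc hi hd
        have e4 := hτ.ultra i j d hi hj hd
        have s1 := hτ.symm i c hi hc
        have s2 := hτ.symm j d hj hd
        have : τ c d = τ i j := by
          rw [s1] at e1
          rw [s2] at e4
          rcases le_total (τ c i) (τ c j) with u1 | u1 <;> rcases le_total (τ c d) (τ d j) with u2 | u2 <;>
            rcases le_total (τ c i) (τ i d) with u3 | u3 <;> rcases le_total (τ i j) (τ d j) with u4 | u4 <;>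
            simp only [min_eq_left, min_eq_right, u1, u2, u3, u4] at e1 e2 e3 e4 <;> omega
        exact ⟨by omega, Or.inl this⟩
      · rw [Ioc_eq_empty_of_le (a := τ i j) (b := τ d j) (by omega)]
        simp
    · rw [Ioc_eq_empty_of_le (a := τ i j) (b := τ c i) (by omega)]
      simp
  rw [h1, zero_add]
  split_ifs with h2
  · have hb : b (τ c d) = 0 := by
      by_contra hb
      exact hn ⟨h2.2, Or.inr hb⟩
    simp [ha _ _ _ hb]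
  · rfl

/-- size of the one-sided kernel   (proof: helper17) -/
theorem pk_ker1_abs {N q : ℕ} {τ : JtTopo} (hτ : IsTr N q τ) {i j c d : ℕ} (hi : i < q) (hj : j < q) (hc : c < q) (hd : d < q)
    {δ a : ℕ → ℕ → ℕ → ℝ} {dK db : ℕ → ℝ} {A : ℝ} (hA : 0 ≤ A) (hK : ∀ s ≤ N + 1, 0 ≤ dK s) (hKt : dK (N + 1) = 1)
    (hb : ∀ s ≤ N + 1, 0 ≤ db s)
    (hδ : ∀ r ≤ N, ∀ k ∈ Ioc r (N + 1), ∀ k' ∈ Ioc r (N + 1), |δ r k k'| ≤ A * (dK k * dK k'))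
    (ha : ∀ r t k, k ≤ N + 1 → |a r t k| ≤ A * (dK k + db k)) :
    |pkKer1 N δ a i j c d τ| ≤ 3 * A * (vcCfKap N dK + ∑ k ∈ range (N + 2), db k) ^ 2 := by
  set κ : ℝ := vcCfKap N dK with hκ
  set B : ℝ := ∑ k ∈ range (N + 2), db k with hB
  have hK' : ∀ s ∈ range (N + 2), 0 ≤ dK s := fun s hs => hK s (by have := mem_range.1 hs; omega)
  have hb' : ∀ s ∈ range (N + 2), 0 ≤ db s := fun s hs => hb s (by have := mem_range.1 hs; omega)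
  have hκ1 : 1 ≤ κ := by
    rw [hκ, vcCfKap, ← hKt]
    exact single_le_sum hK' (mem_range.2 (by omega))
  have hB0 : 0 ≤ B := sum_nonneg hb'
  have hT1 : 1 ≤ κ + B := by linarith
  have hTT : κ + B ≤ (κ + B) ^ 2 := by nlinarith
  -- partial sums of the clock
  have hpart : ∀ r n, n ≤ N + 1 → ∑ k ∈ Ioc r n, dK k ≤ κ := by
    intro r n hn
    rw [hκ, vcCfKap]
    refine sum_le_sum_of_subset_of_nonneg (fun k hk => ?_) fun k hk _ => hK' k hk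
    have := mem_Ioc.1 hk
    exact mem_range.2 (by omega)
  have hpart0 : ∀ r n, n ≤ N + 1 → 0 ≤ ∑ k ∈ Ioc r n, dK k := fun r n hn =>
    sum_nonneg fun k hk => hK k (by have := mem_Ioc.1 hk; omega)
  -- the rows
  have hrow : ∀ r t n, n ≤ N + 1 → |∑ k ∈ range (n + 1), a r t k| ≤ A * (κ + B) := by
    intro r t n hn
    calc |∑ k ∈ range (n + 1), a r t k| ≤ ∑ k ∈ range (n + 1), |a r t k| := abs_sum_le_sum_abs _ _
      _ ≤ ∑ k ∈ range (n + 1), A * (dK k + db k) := sum_le_sum fun k hk => ha r t k (by have := mem_range.1 hk; omega)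
      _ ≤ ∑ k ∈ range (N + 2), A * (dK k + db k) := by
          refine sum_le_sum_of_subset_of_nonneg (fun k hk => ?_) fun k hk _ => mul_nonneg hA (add_nonneg (hK' k hk) (hb' k hk))
          have := mem_range.1 hk
          exact mem_range.2 (by omega)
      _ = A * (κ + B) := by rw [← mul_sum, sum_add_distrib]; rfl
  -- the child part
  have hch : |∑ k ∈ Ioc (τ i j) (τ c i), ∑ k' ∈ Ioc (τ i j) (τ d j), δ (τ i j) k k'| ≤ A * (κ + B) ^ 2 := by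
    have h1 : τ c i ≤ N + 1 := hτ.le c i hc hi
    have h2 : τ d j ≤ N + 1 := hτ.le d j hd hj
    by_cases hr : τ i j ≤ N
    · calc |∑ k ∈ Ioc (τ i j) (τ c i), ∑ k' ∈ Ioc (τ i j) (τ d j), δ (τ i j) k k'|
          ≤ ∑ k ∈ Ioc (τ i j) (τ c i), ∑ k' ∈ Ioc (τ i j) (τ d j), |δ (τ i j) k k'| :=
            (abs_sum_le_sum_abs _ _).trans (sum_le_sum fun k _ => abs_sum_le_sum_abs _ _)
        _ ≤ ∑ k ∈ Ioc (τ i j) (τ c i), ∑ k' ∈ Ioc (τ i j) (τ d j), A * (dK k * dK k') := by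
            refine sum_le_sum fun k hk => sum_le_sum fun k' hk' => hδ _ hr k ?_ k' ?_
            · have := mem_Ioc.1 hk
              exact mem_Ioc.2 ⟨this.1, by omega⟩
            · have := mem_Ioc.1 hk'
              exact mem_Ioc.2 ⟨this.1, by omega⟩
        _ = A * ((∑ k ∈ Ioc (τ i j) (τ c i), dK k) * ∑ k' ∈ Ioc (τ i j) (τ d j), dK k') := by
            rw [sum_mul_sum, mul_sum]
            exact sum_congr rfl fun k _ => (mul_sum _ _ _).symm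
        _ ≤ A * (κ * κ) := mul_le_mul_of_nonneg_left
            (mul_le_mul (hpart _ _ h1) (hpart _ _ h2) (hpart0 _ _ h2) (by linarith)) hA
        _ ≤ A * (κ + B) ^ 2 := mul_le_mul_of_nonneg_left (by nlinarith) hA
    · have : Ioc (τ i j) (τ c i) = ∅ := Ioc_eq_empty (by omega)
      rw [this, sum_empty, abs_zero]
      positivity
  have hAT : A * (κ + B) ≤ A * (κ + B) ^ 2 := mul_le_mul_of_nonneg_left hTT hA
  unfold pkKer1
  refine (abs_add_le _ _).trans ?_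
  split_ifs with hcd
  · have h3 := hrow (τ i j) (τ c d) (τ c i) (hτ.le c i hc hi)
    have h4 := hrow (τ i j) (τ c d) (τ c j) (hτ.le c j hc hj)
    have h5 := abs_add_le (∑ k ∈ range (τ c i + 1), a (τ i j) (τ c d) k) (∑ k ∈ range (τ c j + 1), a (τ i j) (τ c d) k)
    linarith
  · rw [abs_zero]
    have : 0 ≤ A * (κ + B) ^ 2 := by positivity
    linarith

/-- the summand of the inverse, on tables -/
noncomputable def pkNs (ms : ℕ → ℝ) (N q0 : ℕ) (dG dP δ a : ℕ → ℕ → ℕ → ℝ) (b : ℕ → ℝ) (U : JtTopo → ℝ) (τ' : JtTopo) : ℝ :=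
  pkKer1 N δ a q0 (q0 + 1) (q0 + 2) (q0 + 3) τ'
    * (pkRet N b (τ' q0 (q0 + 1)) (τ' (q0 + 2) (q0 + 3)) * pkLA ms N q0 dG dP b U (pkPull q0 (q0 + 2) (q0 + 3) τ'))

theorem pk_ns_eqns_cite : True := by
  have := @pkNs.eq_1
  trivial

theorem pk_loc_Ns (ms : ℕ → ℝ) (N q0 : ℕ) (dG dP δ a : ℕ → ℕ → ℕ → ℝ) (b : ℕ → ℝ) {U : JtTopo → ℝ} (hU : VtUses (q0 + 2) U) :
    VtUses (q0 + 4) (pkNs ms N q0 dG dP δ a b U) := by
  intro τ₁ τ₂ H
  unfold pkNs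
  rw [pk_loc_ker1 N δ a (by omega : q0 < q0 + 4) (by omega : q0 + 1 < q0 + 4) (by omega : q0 + 2 < q0 + 4) (by omega : q0 + 3 < q0 + 4) τ₁ τ₂ H,
    H q0 (q0 + 1) (by omega) (by omega), H (q0 + 2) (q0 + 3) (by omega) (by omega),
    show pkLA ms N q0 dG dP b U (pkPull q0 (q0 + 2) (q0 + 3) τ₁) = pkLA ms N q0 dG dP b U (pkPull q0 (q0 + 2) (q0 + 3) τ₂) from
      pk_loc_pull (pk_loc_LA ms N q0 dG dP b hU) τ₁ τ₂ H]

theorem pk_L_lab (p : ℕ → ℝ) (N q0 : ℕ) (dG dP : ℕ → ℕ → ℕ → ℝ) (b : ℕ → ℝ) {w : VcX → ℝ} (h : VcLab (q0 + 2) w) :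
    VcLab (q0 + 2) (vcL p N 1 dG dP b w) := by
  have h2 : VcLab (q0 + 2) fun y => b (vcLev N y 0 1) * w y := by
    intro i hi x v
    show b (vcLev N (Function.update x i v) 0 1) * w (Function.update x i v) = b (vcLev N x 0 1) * w x
    have h0 : i.1 ≠ 0 := by omega
    have h1 : i.1 ≠ 1 := by omega
    rw [h i hi x v, vc_opk_lev_congr (x := x) (fun j => Function.update_of_ne (fun e => h0 (by rw [← e])) _ _)
      (fun j => Function.update_of_ne (fun e => h1 (by rw [← e])) _ _)]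
  intro i hi x v
  unfold vcL
  rw [h i hi x v, h2.op (by omega) p N 1 dG dP i hi x v]

/-- **THE INVERSE ON TABLES**: `(ms N)² U = ∑_{cd} (kernel of the inverse) (H1)_{cd}` -/
theorem pk_inv_tab {N : ℕ} {ms : ℕ → ℝ} (hpos : ∀ j, j ≤ N → 0 < ms j) (hmono : ∀ k, 1 ≤ k → k ≤ N → vtP ms N k ≤ vtP ms N (k + 1)) (q0 : ℕ)
    (dG dP δ a : ℕ → ℕ → ℕ → ℝ) (b : ℕ → ℝ) (hsG : ∀ r j j', dG r j j' = dG r j' j) (hrow0 : ∀ r k, dP r 0 k = 0)
    (hP0 : ∀ r t, dP r t 0 = 0) (ha0 : ∀ r t, a r t 0 = 0)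
    (h1 : ∀ r ∈ range (N + 1), ∀ i ∈ Ioc r (N + 1), ∀ l ∈ Ioc r (N + 1),
      vcHatG (vtP ms N) N δ r i l * (1 - b r * vcHatG (vtP ms N) N (pkSc (ms N ^ 2) dG) r i l) = 1)
    (h2 : ∀ k ∈ Icc 1 (N + 1), ∀ r ∈ range (N + 1), ∀ t ∈ Icc 1 N,
      vcHatP (vtP ms N) N a r t k * (1 - b t * vcHatK (vtP ms N) N (pkSc (ms N ^ 2) dG) k t)
        + ∑ s ∈ Icc 1 N, vcHatP (vtP ms N) N a r s k * vcMu (vtP ms N) k s * vcHatP (vtP ms N) N (pkSc (ms N ^ 2) dP) s t k * b t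
        = - (vcHatP (vtP ms N) N (pkSc (ms N ^ 2) dP) r t k * b t * vcHatK (vtP ms N) N δ k r))
    (haz : ∀ r t k, b t = 0 → a r t k = 0)
    {U : JtTopo → ℝ} (hU : PkFn q0 U) (x : VcX) (hx : vcLev N x 0 1 ≤ N) :
    trSumK ms N 2 (q0 + 2) (vcLev N (vcRel (pkE q0) x)) (pkNs ms N q0 dG dP δ (fun r t k => - a r t k) b U)
      = ms N ^ 2 * pkUp N q0 U x := by
  have hloc : VtUses (q0 + 2) U := hU.uses
  have hw : VcA N (pkUp N q0 U) := pk_up_A N q0 hloc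
  have hlab : VcLab (q0 + 2) (pkUp N q0 U) := pk_up_lab N q0 hloc
  have inv := vc_inverse0 (r0 := 1) le_rfl (fun k h1 h2 => vt_P_pos hpos k h1 h2) hmono (vt_P_top (hpos N le_rfl))
    (pkSc (ms N ^ 2) dG) (pkSc (ms N ^ 2) dP) δ a b (fun r j j' => by unfold pkSc; rw [hsG])
    (fun r t => by unfold pkSc; rw [hP0, mul_zero]) ha0 h1 h2 hw (pk_up_sw N q0 hU) x hx
  rw [vc_op_eq_kop (hw.L (vtP ms N) 1 _ _ b) (by omega : 2 ≤ q0 + 2) (pk_L_lab (vtP ms N) N q0 _ _ b hlab) (vtP ms N) 1 δ _ x hx] at inv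
  rw [pk_trf hpos q0 (pk_loc_Ns ms N q0 dG dP δ _ b hloc) x, ← inv]
  congr 1
  refine vc_opk_DS_congr (vtP ms N) N (q0 + 2) (q0 + 3) x fun y hy => ?_
  have hl : vcLev N y 0 1 = vcLev N x 0 1 :=
    vc_opk_lev_congr (fun j => hy (0, j) (by show (0:ℕ) ≠ q0 + 2; omega) (by show (0:ℕ) ≠ q0 + 3; omega))
      (fun j => hy (1, j) (by show (1:ℕ) ≠ q0 + 2; omega) (by show (1:ℕ) ≠ q0 + 3; omega))
  set τy : JtTopo := vcLev N (vcRel (pkE q0) y) with hτy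
  have hab : τy q0 (q0 + 1) = vcLev N y 0 1 := by rw [hτy, pk_tb, pk_E_a, pk_E_b]
  have hcd : τy (q0 + 2) (q0 + 3) = vcLev N y (q0 + 2) (q0 + 3) := by
    rw [hτy, pk_tb, pk_E_ge (le_refl (q0 + 2)), pk_E_ge (show q0 + 2 ≤ q0 + 3 by omega)]
  show pkNs ms N q0 dG dP δ (fun r t k => - a r t k) b U τy = _
  rw [pk_ker1_up, ← hτy]
  unfold pkNs
  by_cases hret : pkRet N b (τy q0 (q0 + 1)) (τy (q0 + 2) (q0 + 3)) = 0
  · rw [pk_ker1_supp (vt_isTr N (q0 + 4) _) (by omega) (by omega) (by omega) (by omega) b δ _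
      (fun r t k ht => by rw [haz r t k ht, neg_zero]) (by rw [← hτy, hab, hl]; exact hx) hret, zero_mul, zero_mul]
  · have hret1 : pkRet N b (τy q0 (q0 + 1)) (τy (q0 + 2) (q0 + 3)) = 1 ∧ τy (q0 + 2) (q0 + 3) ≤ N := by
      unfold pkRet at hret ⊢
      split_ifs at hret ⊢ with hh
      · exact ⟨rfl, hh.1⟩
      · exact absurd rfl hret
    have hz : vcLev N (vcSub (q0 + 2) (q0 + 3) y) 0 1 ≤ N := by
      unfold vcSub
      rw [vc_lev_rel]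
      have e0 : vcE2 (q0 + 2) (q0 + 3) 0 = q0 + 2 := by simp [vcE2]
      have e1 : vcE2 (q0 + 2) (q0 + 3) 1 = q0 + 3 := by simp [vcE2]
      rw [e0, e1, ← hcd]
      exact hret1.2
    rw [hret1.1, one_mul, pk_L_up hpos q0 dG dP hrow0 b hU _ hz, pk_tb_sub]

/-- **UNIT MAIN, part 1: THE ABSTRACT A-PRIORI INEQUALITY** TEX[LL:inv:pair-inverse]   (positive masses, ANY terminal mass `ms N`;
virtual masses `vtP ms N`, virtual tables `(ms N)² dG`, `(ms N)² dP`) -/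
theorem pk_core {N : ℕ} {ms : ℕ → ℝ} (hpos : ∀ j, j ≤ N → 0 < ms j) (q0 : ℕ) {dK db b : ℕ → ℝ} {dG dP : ℕ → ℕ → ℕ → ℝ} {β bm e : ℝ}
    (H : VcCoef0 (vtP ms N) N 1 dK db b (pkSc (ms N ^ 2) dG) (pkSc (ms N ^ 2) dP) β bm e)
    (hsG : ∀ r j j', dG r j j' = dG r j' j) (hrow0 : ∀ r k, dP r 0 k = 0)
    {U : JtTopo → ℝ} (hU : PkFn q0 U) {τ : JtTopo} (hτ : IsTr N (q0 + 2) τ) (hab : τ q0 (q0 + 1) ≤ N) :
    |U τ| ≤ 90 * vcCfLam N dK β bm e ^ 11 * (vcCfKap N dK + ∑ k ∈ range (N + 2), db k) ^ 2 * (ms N ^ 2)⁻¹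
      * trAbsK ms N 2 (q0 + 2) τ fun τ' =>
          pkRet N b (τ q0 (q0 + 1)) (τ' (q0 + 2) (q0 + 3)) * |pkLA ms N q0 dG dP b U (pkPull q0 (q0 + 2) (q0 + 3) τ')| := by
  have hc : 0 < ms N ^ 2 := by have := hpos N le_rfl; positivity
  have hP0 : ∀ r t, dP r t 0 = 0 := by
    intro r t
    have := H.P0 r t
    unfold pkSc at this
    rcases mul_eq_zero.1 this with h | h
    · exact absurd h hc.ne'
    · exact h
  obtain ⟨x0, hx0⟩ := vt_surj hτ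
  set x : VcX := vcRel (pkEi q0) x0 with hxdef
  have hxx : vcRel (pkE q0) x = x0 := by
    funext i
    show x0 (pkEi q0 (pkE q0 i.1), i.2) = x0 i
    rw [pk_Ei_E]
  have htab : ∀ u v, u < q0 + 2 → v < q0 + 2 → vcLev N (vcRel (pkE q0) x) u v = τ u v := by
    intro u v hu hv
    rw [hxx]
    exact hx0 u v hu hv
  have hx : vcLev N x 0 1 ≤ N := by
    have := htab q0 (q0 + 1) (by omega) (by omega)
    rw [pk_tb, pk_E_a, pk_E_b] at this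
    rw [this]
    exact hab
  obtain ⟨δ, a, ha0, h1, h2, hδ, haa, haz⟩ := vc_coef0 H
  have key := pk_inv_tab hpos H.mono q0 dG dP δ a b hsG hrow0 hP0 ha0 h1 h2 haz hU x hx
  have hUx : pkUp N q0 U x = U τ := hU.uses _ _ htab
  rw [hUx, tr_sumK_tree_congr htab 2 _ (pk_loc_Ns ms N q0 dG dP δ _ b hU.uses)] at key
  set A : ℝ := 30 * vcCfLam N dK β bm e ^ 11 with hA
  have hL1 : 1 ≤ vcCfLam N dK β bm e := H.toCoef.lam.1
  have hA0 : 0 ≤ A := by positivity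
  set C : ℝ := 3 * A * (vcCfKap N dK + ∑ k ∈ range (N + 2), db k) ^ 2 with hC
  have hret0 : ∀ r t, 0 ≤ pkRet N b r t := by
    intro r t
    unfold pkRet
    split_ifs <;> norm_num
  have b1 : |trSumK ms N 2 (q0 + 2) τ (pkNs ms N q0 dG dP δ (fun r t k => - a r t k) b U)|
      ≤ C * trAbsK ms N 2 (q0 + 2) τ fun τ' =>
          pkRet N b (τ q0 (q0 + 1)) (τ' (q0 + 2) (q0 + 3)) * |pkLA ms N q0 dG dP b U (pkPull q0 (q0 + 2) (q0 + 3) τ')| := by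
    refine (tr_sumK_le 2 _).trans ?_
    rw [← tra2_absK_const_mul]
    rw [tr_absK_congr hτ 2 (fun τ' => C * (pkRet N b (τ q0 (q0 + 1)) (τ' (q0 + 2) (q0 + 3))
        * |pkLA ms N q0 dG dP b U (pkPull q0 (q0 + 2) (q0 + 3) τ')|))
      (fun τ' => C * (pkRet N b (τ' q0 (q0 + 1)) (τ' (q0 + 2) (q0 + 3))
        * |pkLA ms N q0 dG dP b U (pkPull q0 (q0 + 2) (q0 + 3) τ')|))
      (fun τ' _ hext => by rw [hext q0 (q0 + 1) (by omega) (by omega)])]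
    refine tr_absK_mono hτ 2 _ _ fun τ' hτ' => ?_
    unfold pkNs
    rw [abs_mul, abs_mul, abs_of_nonneg (hret0 _ _)]
    refine mul_le_mul_of_nonneg_right ?_ (mul_nonneg (hret0 _ _) (abs_nonneg _))
    exact pk_ker1_abs hτ' (by omega) (by omega) (by omega) (by omega) hA0 H.dK0 H.dKtop H.db0 hδ
      (fun r t k hk => by rw [abs_neg]; exact haa r t k hk)
  have e1 : U τ = (ms N ^ 2)⁻¹ * trSumK ms N 2 (q0 + 2) τ (pkNs ms N q0 dG dP δ (fun r t k => - a r t k) b U) := by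
    rw [key, ← mul_assoc, inv_mul_cancel₀ hc.ne', one_mul]
  rw [e1, abs_mul, abs_of_pos (inv_pos.2 hc)]
  calc (ms N ^ 2)⁻¹ * |trSumK ms N 2 (q0 + 2) τ (pkNs ms N q0 dG dP δ (fun r t k => - a r t k) b U)|
      ≤ (ms N ^ 2)⁻¹ * (C * trAbsK ms N 2 (q0 + 2) τ fun τ' =>
          pkRet N b (τ q0 (q0 + 1)) (τ' (q0 + 2) (q0 + 3)) * |pkLA ms N q0 dG dP b U (pkPull q0 (q0 + 2) (q0 + 3) τ')|) :=
        mul_le_mul_of_nonneg_left b1 (inv_pos.2 hc).le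
    _ = _ := by rw [hC, hA]; ring

end Claimed.Agent.R286
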