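import Claimed.Agent.R286.Inv.ResKit

/-!
# Row 286 (S0533), LL Section 5 (pair inverse), MATHLIB-ONLY KIT 2: THE WEIGHTED DIFFERENCE OF THE ADDITIVE RESOLVENTS      (owner helper296; prefix `inv_rd_`)

LL 05-inverse.tex l.240-283: `‖A^(k+1) - A^k‖_∞ ≲_pol p_k (K_k - K_(k-1) + |b_k - b_(k-1)| + 1_{k = min retained})`.
ABSTRACT FORM.   `ι` = the retained sheets.   Unprimed = resolution index `k`, primed = `k + 1`.   `l s = 1 - b s * g s`, `w s = μ s * b s / l s`, `C = invC B w`, `A = invA B l μ b`.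
* `inv_rd_w_sum`    `Σ w ≤ m0 bm / e`
* `inv_rd_main`     `|A' - A| ≤ K δ + (bm / e²) |Σ_s (μ' s - μ s) C'_rs (b_s / l'_s) C_st|`:   the changes of the kernels are paid in sup norm, the change of the sheet measure is kept SIGNED
* `inv_rd_atom1`    one atom:  `μ' - μ = p 1_{k}`
* `inv_rd_atom2`    two atoms: `μ' - μ = p (1_{k} - 1_{k0})`: the two contributions are subtracted before absolute values are taken
* `inv_rd_P0/P1/P2` the same with ONE polynomial constant `P` (`B r r, b, Σ μ, |g| ≤ P`, `1 / P ≤ 1 - b g`):   `|A' - A| ≤ 7 P^11 (δ + p (η + db))`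
* `invRdMu p k t`     the sheet measure `μ_t^k = - d_t^k` on masses `p : ℕ → ℝ`;  `inv_mu_lt/eq/ge` (its three values), `inv_mu_nonneg`, `inv_mu_succ` (`μ^(k+1) - μ^k = p_k (δ_k - δ_(k-1))`), `inv_mu_sum`, `inv_mu_sum_le`, `inv_mu_sum_ret` (mass ≤ 2)
* `inv_rd_step`     **the display l.250**: `|A^(k+1) - A^k| ≤ 14 P^12 p_k (ΔK_k + Δb_k + 1_{k = r0})`, retained levels `r0..R` indexed by any `lv : ι → ℕ`
* `inv_rd_total`    `Σ_{k ≤ R} |A^(k+1) - A^k| / p_k ≤ 14 P^12 (Σ ΔK + Σ Δb + 1)`  (the bound of `κ_a(c,d)`, l.330-345)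
-/

set_option autoImplicit false

namespace Claimed.Agent.R286

open Matrix Finset

variable {ι : Type} [Fintype ι] [DecidableEq ι]

omit [DecidableEq ι] in
/-- the total mass of `w = μ b / l` -/
theorem inv_rd_w_sum {μ b l : ι → ℝ} {e bm m0 : ℝ} (he : 0 < e) (hbm : 0 ≤ bm) (hl : ∀ s, e ≤ l s) (hb : ∀ s, 0 ≤ b s ∧ b s ≤ bm) (hμ : ∀ s, 0 ≤ μ s) (hm : ∑ s, μ s ≤ m0) :
    (∀ s, 0 ≤ μ s * b s / l s) ∧ ∑ s, μ s * b s / l s ≤ m0 * bm / e := by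
  have hl0 : ∀ s, 0 < l s := fun s => lt_of_lt_of_le he (hl s)
  refine ⟨fun s => div_nonneg (mul_nonneg (hμ s) (hb s).1) (hl0 s).le, ?_⟩
  have h1 : ∀ s, μ s * b s / l s ≤ μ s * (bm / e) := by
    intro s
    rw [mul_div_assoc]
    refine mul_le_mul_of_nonneg_left ?_ (hμ s)
    exact div_le_div₀ hbm (hb s).2 he (hl s)
  calc ∑ s, μ s * b s / l s ≤ ∑ s, μ s * (bm / e) := Finset.sum_le_sum fun s _ => h1 s
    _ = (∑ s, μ s) * (bm / e) := by rw [Finset.sum_mul]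
    _ ≤ m0 * (bm / e) := mul_le_mul_of_nonneg_right hm (by positivity)
    _ = m0 * bm / e := by ring

/-- **the difference of two additive resolvents**: kernels in sup norm, sheet measure signed -/
theorem inv_rd_main {B B' : Matrix ι ι ℝ} (hB : InvPsd B) (hB' : InvPsd B') {μ μ' b g g' : ι → ℝ} {e bm m0 β δ : ℝ} (he : 0 < e) (hbm : 0 ≤ bm)
    (hl : ∀ s, e ≤ 1 - b s * g s) (hl' : ∀ s, e ≤ 1 - b s * g' s) (hb : ∀ s, 0 ≤ b s ∧ b s ≤ bm) (hμ : ∀ s, 0 ≤ μ s) (hμ' : ∀ s, 0 ≤ μ' s)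
    (hm : ∑ s, μ s ≤ m0) (hm' : ∑ s, μ' s ≤ m0) (hβ : ∀ r, B r r ≤ β) (hβ' : ∀ r, B' r r ≤ β) (hδ : ∀ r t, |B' r t - B r t| ≤ δ) (hg : ∀ s, |g' s - g s| ≤ δ) (r t : ι) :
    |invA B' (fun s => 1 - b s * g' s) μ' b r t - invA B (fun s => 1 - b s * g s) μ b r t|
      ≤ bm / e ^ 2 * ((1 + β * (m0 * bm / e)) ^ 2 * δ + β ^ 2 * bm ^ 2 * m0 / e ^ 2 * δ
          + |∑ s, (μ' s - μ s) * (invC B' (fun s => μ' s * b s / (1 - b s * g' s)) r s * (b s / (1 - b s * g' s)) * invC B (fun s => μ s * b s / (1 - b s * g s)) s t)|)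
        + 2 * β * bm ^ 2 / e ^ 3 * δ := by
  obtain ⟨hw, hws⟩ := inv_rd_w_sum he hbm hl hb hμ hm
  obtain ⟨hw', hws'⟩ := inv_rd_w_sum he hbm hl' hb hμ' hm'
  simp only [invA, Matrix.of_apply]
  set w : ι → ℝ := fun s => μ s * b s / (1 - b s * g s) with hwdef
  set w' : ι → ℝ := fun s => μ' s * b s / (1 - b s * g' s) with hwdef'
  set C := invC B w with hCdef
  set C' := invC B' w' with hCdef'
  have hC : ∀ a c, |C a c| ≤ β := inv_rk_C_entry hB hw hβ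
  have hC' : ∀ a c, |C' a c| ≤ β := inv_rk_C_entry hB' hw' hβ'
  have hβ0 : 0 ≤ β := (abs_nonneg _).trans (hC r t)
  have hδ0 : 0 ≤ δ := (abs_nonneg _).trans (hδ r t)
  have hm0 : 0 ≤ m0 := (Finset.sum_nonneg fun s _ => hμ s).trans hm
  have hF : ∀ s, 0 < 1 / (1 - b s * g s) ∧ 1 / (1 - b s * g s) ≤ 1 / e := fun s => inv_rk_F_bd he (hl s)
  have hF' : ∀ s, 0 < 1 / (1 - b s * g' s) ∧ 1 / (1 - b s * g' s) ≤ 1 / e := fun s => inv_rk_F_bd he (hl' s)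
  have hFF : ∀ s, |1 / (1 - b s * g' s) - 1 / (1 - b s * g s)| ≤ bm / e ^ 2 * δ := by
    intro s
    refine (inv_rk_mixed1 (hb s).1 he (hl' s) (hl s) (hg s)).trans ?_
    have := (hb s).2
    gcongr
  -- the difference of `C`
  have hd := inv_rk_diff hB hB' hw hw' hβ hβ' hδ r t
  have hsplit : ∑ s, C' r s * (w' s - w s) * C s t
      = ∑ s, (μ' s - μ s) * (C' r s * (b s / (1 - b s * g' s)) * C s t)
        + ∑ s, C' r s * (μ s * b s * (1 / (1 - b s * g' s) - 1 / (1 - b s * g s))) * C s t := by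
    rw [← Finset.sum_add_distrib]
    refine Finset.sum_congr rfl fun s _ => ?_
    simp only [hwdef, hwdef']
    ring
  have hsec : |∑ s, C' r s * (μ s * b s * (1 / (1 - b s * g' s) - 1 / (1 - b s * g s))) * C s t| ≤ β ^ 2 * bm ^ 2 * m0 / e ^ 2 * δ := by
    refine (Finset.abs_sum_le_sum_abs _ _).trans ?_
    have h1 : ∀ s, |C' r s * (μ s * b s * (1 / (1 - b s * g' s) - 1 / (1 - b s * g s))) * C s t| ≤ μ s * (β ^ 2 * bm ^ 2 / e ^ 2 * δ) := by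
      intro s
      rw [abs_mul, abs_mul, abs_mul, abs_mul, abs_of_nonneg (hμ s), abs_of_nonneg (hb s).1]
      calc |C' r s| * (μ s * b s * |1 / (1 - b s * g' s) - 1 / (1 - b s * g s)|) * |C s t|
          ≤ β * (μ s * bm * (bm / e ^ 2 * δ)) * β := by
            have h2 := hC' r s
            have h3 := hC s t
            have h4 := hFF s
            have h5 := (hb s).2
            have h6 := hμ s
            have h7 := (hb s).1
            gcongr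
        _ = μ s * (β ^ 2 * bm ^ 2 / e ^ 2 * δ) := by ring
    calc ∑ s, |C' r s * (μ s * b s * (1 / (1 - b s * g' s) - 1 / (1 - b s * g s))) * C s t|
        ≤ ∑ s, μ s * (β ^ 2 * bm ^ 2 / e ^ 2 * δ) := Finset.sum_le_sum fun s _ => h1 s
      _ = (∑ s, μ s) * (β ^ 2 * bm ^ 2 / e ^ 2 * δ) := by rw [Finset.sum_mul]
      _ ≤ m0 * (β ^ 2 * bm ^ 2 / e ^ 2 * δ) := mul_le_mul_of_nonneg_right hm (by positivity)
      _ = β ^ 2 * bm ^ 2 * m0 / e ^ 2 * δ := by ring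
  set S := ∑ s, (μ' s - μ s) * (C' r s * (b s / (1 - b s * g' s)) * C s t) with hS
  have hCC : |C' r t - C r t| ≤ (1 + β * (m0 * bm / e)) ^ 2 * δ + β ^ 2 * bm ^ 2 * m0 / e ^ 2 * δ + |S| := by
    refine hd.trans ?_
    rw [hsplit]
    have h1 : (1 + β * ∑ s, w' s) * δ * (1 + β * ∑ s, w s) ≤ (1 + β * (m0 * bm / e)) ^ 2 * δ := by
      have hs0 : 0 ≤ ∑ s, w s := Finset.sum_nonneg fun s _ => hw s
      have hs0' : 0 ≤ ∑ s, w' s := Finset.sum_nonneg fun s _ => hw' s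
      calc (1 + β * ∑ s, w' s) * δ * (1 + β * ∑ s, w s) ≤ (1 + β * (m0 * bm / e)) * δ * (1 + β * (m0 * bm / e)) := by gcongr
        _ = _ := by ring
    have h2 := abs_add_le S (∑ s, C' r s * (μ s * b s * (1 / (1 - b s * g' s) - 1 / (1 - b s * g s))) * C s t)
    linarith
  -- the difference of `A`
  have hid : -C' r t * b t / ((1 - b r * g' r) * (1 - b t * g' t)) - -C r t * b t / ((1 - b r * g r) * (1 - b t * g t))
      = - b t * ((C' r t - C r t) * (1 / (1 - b r * g' r)) * (1 / (1 - b t * g' t))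
        + C r t * ((1 / (1 - b r * g' r) - 1 / (1 - b r * g r)) * (1 / (1 - b t * g' t)) + 1 / (1 - b r * g r) * (1 / (1 - b t * g' t) - 1 / (1 - b t * g t)))) := by
    simp only [div_eq_mul_inv, mul_inv, one_mul]
    ring
  rw [hid, abs_mul, abs_neg, abs_of_nonneg (hb t).1]
  have hie : 0 < 1 / e := by positivity
  have t1 : |(C' r t - C r t) * (1 / (1 - b r * g' r)) * (1 / (1 - b t * g' t))|
      ≤ ((1 + β * (m0 * bm / e)) ^ 2 * δ + β ^ 2 * bm ^ 2 * m0 / e ^ 2 * δ + |S|) * (1 / e) * (1 / e) := by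
    rw [abs_mul, abs_mul, abs_of_pos (hF' r).1, abs_of_pos (hF' t).1]
    have h1 := (hF' r).2
    have h2 := (hF' t).2
    have h3 := (hF' r).1.le
    have h4 := (hF' t).1.le
    gcongr
  have t2 : |(1 / (1 - b r * g' r) - 1 / (1 - b r * g r)) * (1 / (1 - b t * g' t))| ≤ bm / e ^ 2 * δ * (1 / e) := by
    rw [abs_mul, abs_of_pos (hF' t).1]
    have h1 := hFF r
    have h2 := (hF' t).2
    have h4 := (hF' t).1.le
    gcongr
  have t3 : |1 / (1 - b r * g r) * (1 / (1 - b t * g' t) - 1 / (1 - b t * g t))| ≤ 1 / e * (bm / e ^ 2 * δ) := by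
    rw [abs_mul, abs_of_pos (hF r).1]
    have h1 := hFF t
    have h2 := (hF r).2
    have h4 := (hF r).1.le
    gcongr
  have t4 : |C r t * ((1 / (1 - b r * g' r) - 1 / (1 - b r * g r)) * (1 / (1 - b t * g' t)) + 1 / (1 - b r * g r) * (1 / (1 - b t * g' t) - 1 / (1 - b t * g t)))|
      ≤ β * (bm / e ^ 2 * δ * (1 / e) + 1 / e * (bm / e ^ 2 * δ)) := by
    rw [abs_mul]
    have h1 := hC r t
    have h2 := (abs_add_le _ _).trans (add_le_add t2 t3)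
    gcongr
  have t5 := (abs_add_le _ _).trans (add_le_add t1 t4)
  calc b t * _ ≤ bm * (((1 + β * (m0 * bm / e)) ^ 2 * δ + β ^ 2 * bm ^ 2 * m0 / e ^ 2 * δ + |S|) * (1 / e) * (1 / e) + β * (bm / e ^ 2 * δ * (1 / e) + 1 / e * (bm / e ^ 2 * δ))) := by
        have h1 := (hb t).2
        gcongr
    _ = _ := by
        field_simp
        ring

/-! ## the atoms of the change of the sheet measure -/

/-- a product of three factors at two places -/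
theorem inv_rd_three {a a0 x x0 c c0 β X η ξ : ℝ} (ha0 : |a0| ≤ β) (hc : |c| ≤ β) (hx : |x| ≤ X) (hx0 : |x0| ≤ X) (hη : |a - a0| ≤ η) (hη' : |c - c0| ≤ η) (hξ : |x - x0| ≤ ξ) :
    |a * x * c - a0 * x0 * c0| ≤ η * X * β + β * ξ * β + β * X * η := by
  have e : a * x * c - a0 * x0 * c0 = (a - a0) * x * c + a0 * (x - x0) * c + a0 * x0 * (c - c0) := by ring
  have hβ0 : 0 ≤ β := (abs_nonneg _).trans hc
  have hX0 : 0 ≤ X := (abs_nonneg _).trans hx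
  have hη0 : 0 ≤ η := (abs_nonneg _).trans hη
  have hξ0 : 0 ≤ ξ := (abs_nonneg _).trans hξ
  have t1 : |(a - a0) * x * c| ≤ η * X * β := by
    rw [abs_mul, abs_mul]
    gcongr
  have t2 : |a0 * (x - x0) * c| ≤ β * ξ * β := by
    rw [abs_mul, abs_mul]
    gcongr
  have t3 : |a0 * x0 * (c - c0)| ≤ β * X * η := by
    rw [abs_mul, abs_mul]
    gcongr
  rw [e]
  exact (abs_add_le _ _).trans (add_le_add ((abs_add_le _ _).trans (add_le_add t1 t2)) t3)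

/-- the weight `b / (1 - b g)` -/
theorem inv_rd_x_bd {b g e bm : ℝ} (he : 0 < e) (hb : 0 ≤ b ∧ b ≤ bm) (hl : e ≤ 1 - b * g) : |b / (1 - b * g)| ≤ bm / e := by
  have h0 : 0 < 1 - b * g := lt_of_lt_of_le he hl
  rw [abs_of_nonneg (div_nonneg hb.1 h0.le)]
  exact div_le_div₀ (hb.1.trans hb.2) hb.2 he hl

/-- the weight `b / (1 - b g)` at two sheets -/
theorem inv_rd_x {b b0 g g0 e bm γ db dg : ℝ} (he : 0 < e) (hb0 : 0 ≤ b0 ∧ b0 ≤ bm) (hl : e ≤ 1 - b * g) (hl0 : e ≤ 1 - b0 * g0) (hγ : |g| ≤ γ) (hdb : |b - b0| ≤ db)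
    (hdg : |g - g0| ≤ dg) : |b / (1 - b * g) - b0 / (1 - b0 * g0)| ≤ db / e + bm * (db * γ + bm * dg) / e ^ 2 := by
  obtain ⟨x0, x1⟩ := inv_rk_F_bd he hl
  obtain ⟨y0, y1⟩ := inv_rk_F_bd he hl0
  have hl1 : (1 - b * g) ≠ 0 := by linarith
  have hl2 : (1 - b0 * g0) ≠ 0 := by linarith
  have e1 : b / (1 - b * g) - b0 / (1 - b0 * g0) = (b - b0) * (1 / (1 - b * g)) + b0 * ((b - b0) * g + b0 * (g - g0)) * (1 / (1 - b * g)) * (1 / (1 - b0 * g0)) := by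
    field_simp
    ring
  have hdb0 : 0 ≤ db := (abs_nonneg _).trans hdb
  have hdg0 : 0 ≤ dg := (abs_nonneg _).trans hdg
  have hγ0 : 0 ≤ γ := (abs_nonneg _).trans hγ
  have hbm : 0 ≤ bm := hb0.1.trans hb0.2
  have t1 : |(b - b0) * (1 / (1 - b * g))| ≤ db * (1 / e) := by
    rw [abs_mul, abs_of_pos x0]
    gcongr
  have t2 : |(b - b0) * g + b0 * (g - g0)| ≤ db * γ + bm * dg := by
    refine (abs_add_le _ _).trans (add_le_add ?_ ?_)
    · rw [abs_mul]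
      gcongr
    · rw [abs_mul, abs_of_nonneg hb0.1]
      have := hb0.2
      gcongr
  have t3 : |b0 * ((b - b0) * g + b0 * (g - g0)) * (1 / (1 - b * g)) * (1 / (1 - b0 * g0))| ≤ bm * (db * γ + bm * dg) * (1 / e) * (1 / e) := by
    rw [abs_mul, abs_mul, abs_mul, abs_of_nonneg hb0.1, abs_of_pos x0, abs_of_pos y0]
    have := hb0.2
    have := hb0.1
    gcongr
  rw [e1]
  refine (abs_add_le _ _).trans ((add_le_add t1 t3).trans (le_of_eq ?_))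
  field_simp

/-- **one atom** -/
theorem inv_rd_atom1 {B B' : Matrix ι ι ℝ} (hB : InvPsd B) (hB' : InvPsd B') {w w' μ μ' b g' : ι → ℝ} {e bm β p : ℝ} (he : 0 < e) (hw : ∀ s, 0 ≤ w s) (hw' : ∀ s, 0 ≤ w' s)
    (hl' : ∀ s, e ≤ 1 - b s * g' s) (hb : ∀ s, 0 ≤ b s ∧ b s ≤ bm) (hβ : ∀ r, B r r ≤ β) (hβ' : ∀ r, B' r r ≤ β) (k : ι)
    (hμμ : ∀ s, μ' s - μ s = if s = k then p else 0) (r t : ι) :
    |∑ s, (μ' s - μ s) * (invC B' w' r s * (b s / (1 - b s * g' s)) * invC B w s t)| ≤ |p| * (β ^ 2 * bm / e) := by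
  have hC : ∀ a c, |invC B w a c| ≤ β := inv_rk_C_entry hB hw hβ
  have hC' : ∀ a c, |invC B' w' a c| ≤ β := inv_rk_C_entry hB' hw' hβ'
  have hβ0 : 0 ≤ β := (abs_nonneg _).trans (hC r t)
  have e1 : ∑ s, (μ' s - μ s) * (invC B' w' r s * (b s / (1 - b s * g' s)) * invC B w s t) = p * (invC B' w' r k * (b k / (1 - b k * g' k)) * invC B w k t) := by
    simp only [hμμ, ite_mul, zero_mul, Finset.sum_ite_eq', Finset.mem_univ, if_true]
  rw [e1, abs_mul, abs_mul, abs_mul]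
  have h1 := hC' r k
  have h2 := hC k t
  have h3 := inv_rd_x_bd he (hb k) (hl' k)
  have hbm : 0 ≤ bm := (hb k).1.trans (hb k).2
  calc |p| * (|invC B' w' r k| * |b k / (1 - b k * g' k)| * |invC B w k t|) ≤ |p| * (β * (bm / e) * β) := by gcongr
    _ = _ := by ring

/-- **two atoms**: subtracted before absolute values are taken -/
theorem inv_rd_atom2 {B B' : Matrix ι ι ℝ} (hB : InvPsd B) (hB' : InvPsd B') {w w' μ μ' b g' : ι → ℝ} {e bm β p ω η γ db : ℝ} (he : 0 < e) (hw : ∀ s, 0 ≤ w s) (hw' : ∀ s, 0 ≤ w' s)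
    (hws : ∑ s, w s ≤ ω) (hws' : ∑ s, w' s ≤ ω)
    (hl' : ∀ s, e ≤ 1 - b s * g' s) (hb : ∀ s, 0 ≤ b s ∧ b s ≤ bm) (hβ : ∀ r, B r r ≤ β) (hβ' : ∀ r, B' r r ≤ β) (k k0 : ι)
    (hμμ : ∀ s, μ' s - μ s = (if s = k then p else 0) - (if s = k0 then p else 0))
    (hη : ∀ s, |B k s - B k0 s| ≤ η) (hη' : ∀ s, |B' k s - B' k0 s| ≤ η) (hgη : |g' k - g' k0| ≤ η) (hγ : |g' k| ≤ γ) (hdb : |b k - b k0| ≤ db) (r t : ι) :
    |∑ s, (μ' s - μ s) * (invC B' w' r s * (b s / (1 - b s * g' s)) * invC B w s t)|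
      ≤ |p| * (2 * (η * (1 + β * ω)) * (bm / e) * β + β ^ 2 * (db / e + bm * (db * γ + bm * η) / e ^ 2)) := by
  have hC : ∀ a c, |invC B w a c| ≤ β := inv_rk_C_entry hB hw hβ
  have hC' : ∀ a c, |invC B' w' a c| ≤ β := inv_rk_C_entry hB' hw' hβ'
  have hβ0 : 0 ≤ β := (abs_nonneg _).trans (hC r t)
  have hη0 : 0 ≤ η := (abs_nonneg _).trans hgη
  have e1 : ∑ s, (μ' s - μ s) * (invC B' w' r s * (b s / (1 - b s * g' s)) * invC B w s t)
      = p * (invC B' w' r k * (b k / (1 - b k * g' k)) * invC B w k t - invC B' w' r k0 * (b k0 / (1 - b k0 * g' k0)) * invC B w k0 t) := by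
    simp only [hμμ, sub_mul, ite_mul, zero_mul, Finset.sum_sub_distrib, Finset.sum_ite_eq', Finset.mem_univ, if_true]
    ring
  rw [e1, abs_mul]
  refine mul_le_mul_of_nonneg_left ?_ (abs_nonneg p)
  have h1 : |invC B' w' r k - invC B' w' r k0| ≤ η * (1 + β * ω) := by
    refine (inv_rk_lip' hB' hw' hβ' k k0 hη' r).trans ?_
    gcongr
  have h2 : |invC B w k t - invC B w k0 t| ≤ η * (1 + β * ω) := by
    refine (inv_rk_lip hB hw hβ k k0 hη t).trans ?_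
    gcongr
  have h3 := inv_rd_three (hC' r k0) (hC k t) (inv_rd_x_bd he (hb k) (hl' k)) (inv_rd_x_bd he (hb k0) (hl' k0)) h1 h2
    (inv_rd_x he (hb k0) (hl' k) (hl' k0) hγ hdb hgη)
  refine h3.trans (le_of_eq ?_)
  ring

/-! ## one polynomial constant `P`:   `B r r, b, Σ μ, |g| ≤ P`, `1 / P ≤ 1 - b g` -/

/-- the common part -/
theorem inv_rd_P {B B' : Matrix ι ι ℝ} (hB : InvPsd B) (hB' : InvPsd B') {μ μ' b g g' : ι → ℝ} {P δ : ℝ} (hP : 1 ≤ P)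
    (hl : ∀ s, 1 / P ≤ 1 - b s * g s) (hl' : ∀ s, 1 / P ≤ 1 - b s * g' s) (hb : ∀ s, 0 ≤ b s ∧ b s ≤ P) (hμ : ∀ s, 0 ≤ μ s) (hμ' : ∀ s, 0 ≤ μ' s)
    (hm : ∑ s, μ s ≤ P) (hm' : ∑ s, μ' s ≤ P) (hβ : ∀ r, B r r ≤ P) (hβ' : ∀ r, B' r r ≤ P) (hδ : ∀ r t, |B' r t - B r t| ≤ δ) (hg : ∀ s, |g' s - g s| ≤ δ) (r t : ι) :
    |invA B' (fun s => 1 - b s * g' s) μ' b r t - invA B (fun s => 1 - b s * g s) μ b r t|
      ≤ 7 * P ^ 11 * δ + P ^ 3 * |∑ s, (μ' s - μ s) * (invC B' (fun s => μ' s * b s / (1 - b s * g' s)) r s * (b s / (1 - b s * g' s)) * invC B (fun s => μ s * b s / (1 - b s * g s)) s t)| := by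
  have hP0 : 0 < P := by linarith
  have hδ0 : 0 ≤ δ := (abs_nonneg _).trans (hδ r t)
  refine (inv_rd_main hB hB' (by positivity) hP0.le hl hl' hb hμ hμ' hm hm' hβ hβ' hδ hg r t).trans ?_
  generalize |∑ s, (μ' s - μ s) * (invC B' (fun s => μ' s * b s / (1 - b s * g' s)) r s * (b s / (1 - b s * g' s)) * invC B (fun s => μ s * b s / (1 - b s * g s)) s t)| = S
  have e1 : P / (1 / P) ^ 2 * ((1 + P * (P * P / (1 / P))) ^ 2 * δ + P ^ 2 * P ^ 2 * P / (1 / P) ^ 2 * δ + S) + 2 * P * P ^ 2 / (1 / P) ^ 3 * δ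
      = (P ^ 3 + 2 * P ^ 7 + P ^ 11 + P ^ 10 + 2 * P ^ 6) * δ + P ^ 3 * S := by
    field_simp
    ring
  rw [e1]
  have hpw : ∀ i, i ≤ 11 → P ^ i ≤ P ^ 11 := fun i hi => pow_le_pow_right₀ hP hi
  have h3 := hpw 3 (by norm_num)
  have h7 := hpw 7 (by norm_num)
  have h10 := hpw 10 (by norm_num)
  have h6 := hpw 6 (by norm_num)
  have : (P ^ 3 + 2 * P ^ 7 + P ^ 11 + P ^ 10 + 2 * P ^ 6) * δ ≤ 7 * P ^ 11 * δ := mul_le_mul_of_nonneg_right (by linarith) hδ0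
  linarith

/-- no atom -/
theorem inv_rd_P0 {B B' : Matrix ι ι ℝ} (hB : InvPsd B) (hB' : InvPsd B') {μ b g g' : ι → ℝ} {P δ : ℝ} (hP : 1 ≤ P)
    (hl : ∀ s, 1 / P ≤ 1 - b s * g s) (hl' : ∀ s, 1 / P ≤ 1 - b s * g' s) (hb : ∀ s, 0 ≤ b s ∧ b s ≤ P) (hμ : ∀ s, 0 ≤ μ s)
    (hm : ∑ s, μ s ≤ P) (hβ : ∀ r, B r r ≤ P) (hβ' : ∀ r, B' r r ≤ P) (hδ : ∀ r t, |B' r t - B r t| ≤ δ) (hg : ∀ s, |g' s - g s| ≤ δ) (r t : ι) :
    |invA B' (fun s => 1 - b s * g' s) μ b r t - invA B (fun s => 1 - b s * g s) μ b r t| ≤ 7 * P ^ 11 * δ := by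
  refine (inv_rd_P hB hB' hP hl hl' hb hμ hμ hm hm hβ hβ' hδ hg r t).trans (le_of_eq ?_)
  simp

/-- one atom -/
theorem inv_rd_P1 {B B' : Matrix ι ι ℝ} (hB : InvPsd B) (hB' : InvPsd B') {μ μ' b g g' : ι → ℝ} {P δ p : ℝ} (hP : 1 ≤ P)
    (hl : ∀ s, 1 / P ≤ 1 - b s * g s) (hl' : ∀ s, 1 / P ≤ 1 - b s * g' s) (hb : ∀ s, 0 ≤ b s ∧ b s ≤ P) (hμ : ∀ s, 0 ≤ μ s) (hμ' : ∀ s, 0 ≤ μ' s)
    (hm : ∑ s, μ s ≤ P) (hm' : ∑ s, μ' s ≤ P) (hβ : ∀ r, B r r ≤ P) (hβ' : ∀ r, B' r r ≤ P) (hδ : ∀ r t, |B' r t - B r t| ≤ δ) (hg : ∀ s, |g' s - g s| ≤ δ)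
    (k : ι) (hμμ : ∀ s, μ' s - μ s = if s = k then p else 0) (r t : ι) :
    |invA B' (fun s => 1 - b s * g' s) μ' b r t - invA B (fun s => 1 - b s * g s) μ b r t| ≤ 7 * P ^ 11 * (δ + |p|) := by
  have hP0 : 0 < P := by linarith
  have he : 0 < 1 / P := by positivity
  obtain ⟨hw, -⟩ := inv_rd_w_sum he hP0.le hl hb hμ hm
  obtain ⟨hw', -⟩ := inv_rd_w_sum he hP0.le hl' hb hμ' hm'
  refine (inv_rd_P hB hB' hP hl hl' hb hμ hμ' hm hm' hβ hβ' hδ hg r t).trans ?_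
  have h1 := inv_rd_atom1 hB hB' he hw hw' hl' hb hβ hβ' k hμμ r t
  have e1 : P ^ 2 * P / (1 / P) = P ^ 4 := by
    field_simp
  rw [e1] at h1
  have h2 : P ^ 3 * (|p| * P ^ 4) ≤ 7 * P ^ 11 * |p| := by
    have h7 : P ^ 7 ≤ P ^ 11 := pow_le_pow_right₀ hP (by norm_num)
    have h0 : 0 ≤ P ^ 11 := by positivity
    have : P ^ 7 * |p| ≤ 7 * P ^ 11 * |p| := mul_le_mul_of_nonneg_right (by linarith) (abs_nonneg p)
    calc P ^ 3 * (|p| * P ^ 4) = P ^ 7 * |p| := by ring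
      _ ≤ _ := this
  have h3 := mul_le_mul_of_nonneg_left h1 (by positivity : (0:ℝ) ≤ P ^ 3)
  linarith

/-- two atoms -/
theorem inv_rd_P2 {B B' : Matrix ι ι ℝ} (hB : InvPsd B) (hB' : InvPsd B') {μ μ' b g g' : ι → ℝ} {P δ p η db : ℝ} (hP : 1 ≤ P)
    (hl : ∀ s, 1 / P ≤ 1 - b s * g s) (hl' : ∀ s, 1 / P ≤ 1 - b s * g' s) (hb : ∀ s, 0 ≤ b s ∧ b s ≤ P) (hμ : ∀ s, 0 ≤ μ s) (hμ' : ∀ s, 0 ≤ μ' s)
    (hm : ∑ s, μ s ≤ P) (hm' : ∑ s, μ' s ≤ P) (hβ : ∀ r, B r r ≤ P) (hβ' : ∀ r, B' r r ≤ P) (hδ : ∀ r t, |B' r t - B r t| ≤ δ) (hg : ∀ s, |g' s - g s| ≤ δ)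
    (k k0 : ι) (hμμ : ∀ s, μ' s - μ s = (if s = k then p else 0) - (if s = k0 then p else 0))
    (hη : ∀ s, |B k s - B k0 s| ≤ η) (hη' : ∀ s, |B' k s - B' k0 s| ≤ η) (hgη : |g' k - g' k0| ≤ η) (hγ : |g' k| ≤ P) (hdb : |b k - b k0| ≤ db) (r t : ι) :
    |invA B' (fun s => 1 - b s * g' s) μ' b r t - invA B (fun s => 1 - b s * g s) μ b r t| ≤ 7 * P ^ 11 * (δ + |p| * (η + db)) := by
  have hP0 : 0 < P := by linarith
  have he : 0 < 1 / P := by positivity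
  have hη0 : 0 ≤ η := (abs_nonneg _).trans hgη
  have hdb0 : 0 ≤ db := (abs_nonneg _).trans hdb
  obtain ⟨hw, hws⟩ := inv_rd_w_sum he hP0.le hl hb hμ hm
  obtain ⟨hw', hws'⟩ := inv_rd_w_sum he hP0.le hl' hb hμ' hm'
  refine (inv_rd_P hB hB' hP hl hl' hb hμ hμ' hm hm' hβ hβ' hδ hg r t).trans ?_
  have h1 := inv_rd_atom2 hB hB' he hw hw' hws hws' hl' hb hβ hβ' k k0 hμμ hη hη' hgη hγ hdb r t
  have e1 : 2 * (η * (1 + P * (P * P / (1 / P)))) * (P / (1 / P)) * P + P ^ 2 * (db / (1 / P) + P * (db * P + P * η) / (1 / P) ^ 2)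
      = (2 * P ^ 3 + 2 * P ^ 7 + P ^ 6) * η + (P ^ 3 + P ^ 6) * db := by
    field_simp
    ring
  rw [e1] at h1
  have hpw : ∀ i, i ≤ 8 → P ^ i ≤ P ^ 8 := fun i hi => pow_le_pow_right₀ hP hi
  have h3 := hpw 3 (by norm_num)
  have h7 := hpw 7 (by norm_num)
  have h6 := hpw 6 (by norm_num)
  have h0 : 0 ≤ P ^ 8 := by positivity
  have h2 : (2 * P ^ 3 + 2 * P ^ 7 + P ^ 6) * η + (P ^ 3 + P ^ 6) * db ≤ 7 * P ^ 8 * (η + db) := by
    have a1 : (2 * P ^ 3 + 2 * P ^ 7 + P ^ 6) * η ≤ 7 * P ^ 8 * η := mul_le_mul_of_nonneg_right (by linarith) hη0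
    have a2 : (P ^ 3 + P ^ 6) * db ≤ 7 * P ^ 8 * db := mul_le_mul_of_nonneg_right (by linarith) hdb0
    linarith
  have h4 := h1.trans (mul_le_mul_of_nonneg_left h2 (abs_nonneg p))
  have h5 := mul_le_mul_of_nonneg_left h4 (by positivity : (0:ℝ) ≤ P ^ 3)
  have e2 : P ^ 3 * (|p| * (7 * P ^ 8 * (η + db))) = 7 * P ^ 11 * (|p| * (η + db)) := by ring
  rw [e2] at h5
  linarith

/-! ## the sheet measure `μ_t^k = - d_t^k` (LL 05 l.96-100), masses `p : ℕ → ℝ` -/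

/-- `φ_k(t) = p_t (1 + 1_{k ≤ t})` -/
noncomputable def invRdPhi (p : ℕ → ℝ) (k t : ℕ) : ℝ := p t + if k ≤ t then p t else 0

/-- `μ_t^k = p_(t+1) - p_t + p_(t+1) 1_{k ≤ t+1} - p_t 1_{k ≤ t}` -/
noncomputable def invRdMu (p : ℕ → ℝ) (k t : ℕ) : ℝ := invRdPhi p k (t + 1) - invRdPhi p k t

theorem inv_mu_eqns_cite : True := by
  have := @invRdPhi.eq_1
  have := @invRdMu.eq_1
  trivial

theorem inv_mu_lt (p : ℕ → ℝ) {k t : ℕ} (h : t + 1 < k) : invRdMu p k t = p (t + 1) - p t := by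
  rw [invRdMu, invRdPhi, invRdPhi, if_neg (by omega), if_neg (by omega)]
  ring

theorem inv_mu_eq (p : ℕ → ℝ) {k t : ℕ} (h : t + 1 = k) : invRdMu p k t = 2 * p (t + 1) - p t := by
  rw [invRdMu, invRdPhi, invRdPhi, if_pos (by omega), if_neg (by omega)]
  ring

theorem inv_mu_ge (p : ℕ → ℝ) {k t : ℕ} (h : k ≤ t) : invRdMu p k t = 2 * (p (t + 1) - p t) := by
  rw [invRdMu, invRdPhi, invRdPhi, if_pos (by omega), if_pos (by omega)]
  ring

theorem inv_mu_nonneg {p : ℕ → ℝ} (hpm : Monotone p) (hp0 : 0 ≤ p 0) (k t : ℕ) : 0 ≤ invRdMu p k t := by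
  have h1 : p t ≤ p (t + 1) := hpm (Nat.le_succ t)
  have h2 : 0 ≤ p (t + 1) := hp0.trans (hpm (Nat.zero_le _))
  rcases lt_trichotomy (t + 1) k with h | h | h
  · rw [inv_mu_lt p h]
    linarith
  · rw [inv_mu_eq p h]
    linarith
  · rw [inv_mu_ge p (by omega)]
    linarith

/-- `μ^(k+1) - μ^k = p_k (δ_k - δ_(k-1))` -/
theorem inv_mu_succ (p : ℕ → ℝ) (k t : ℕ) : invRdMu p (k + 1) t - invRdMu p k t = (if t = k then p k else 0) - (if t + 1 = k then p k else 0) := by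
  rcases lt_trichotomy (t + 1) k with h | h | h
  · rw [inv_mu_lt p h, inv_mu_lt p (by omega), if_neg (by omega), if_neg (by omega)]
    ring
  · rw [inv_mu_eq p h, inv_mu_lt p (by omega), if_neg (by omega), if_pos h, ← h]
    ring
  · rcases Nat.lt_or_ge k t with h' | h'
    · rw [inv_mu_ge p (by omega), inv_mu_ge p (by omega), if_neg (by omega), if_neg (by omega)]
      ring
    · have : t = k := by omega
      subst this
      rw [inv_mu_ge p le_rfl, inv_mu_eq p rfl, if_pos rfl, if_neg (by omega)]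
      ring

theorem inv_mu_sum (p : ℕ → ℝ) (k n : ℕ) : ∑ t ∈ Finset.range n, invRdMu p k t = invRdPhi p k n - invRdPhi p k 0 :=
  Finset.sum_range_sub (invRdPhi p k) n

theorem inv_mu_sum_le {p : ℕ → ℝ} (hpm : Monotone p) (hp0 : 0 ≤ p 0) (k n : ℕ) : ∑ t ∈ Finset.range n, invRdMu p k t ≤ 2 * p n := by
  rw [inv_mu_sum]
  have h2 : 0 ≤ p n := hp0.trans (hpm (Nat.zero_le _))
  have h3 : invRdPhi p k n ≤ 2 * p n := by
    rw [invRdPhi]
    split_ifs <;> linarith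
  have h4 : 0 ≤ invRdPhi p k 0 := by
    rw [invRdPhi]
    split_ifs <;> linarith
  linarith

omit [DecidableEq ι] in
/-- the mass of the retained sheets -/
theorem inv_mu_sum_ret {p : ℕ → ℝ} (hpm : Monotone p) (hp0 : 0 ≤ p 0) (k : ℕ) {lv : ι → ℕ} (hinj : Function.Injective lv) {R : ℕ} (hR : ∀ s, lv s ≤ R) :
    ∑ s, invRdMu p k (lv s) ≤ 2 * p (R + 1) := by
  refine le_trans ?_ (inv_mu_sum_le hpm hp0 k (R + 1))
  rw [← Finset.sum_image (f := fun t => invRdMu p k t) (g := lv) (s := Finset.univ) (fun a _ c _ h => hinj h)]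
  refine Finset.sum_le_sum_of_subset_of_nonneg ?_ fun t _ _ => inv_mu_nonneg hpm hp0 k t
  intro t ht
  obtain ⟨s, -, rfl⟩ := Finset.mem_image.1 ht
  exact Finset.mem_range.2 (Nat.lt_succ_of_le (hR s))

/-! ## the weighted difference estimate -/

/-- **LL 05 l.250-283**: `‖A^(k+1) - A^k‖_∞ ≤ 14 P^12 p_k (ΔK_k + Δb_k + 1_{k = min retained})`.   `lv` = the level of a retained sheet, the retained levels are `r0, …, R`. -/
theorem inv_rd_step {lv : ι → ℕ} (hinj : Function.Injective lv) {r0 R : ℕ} (hlv : ∀ n, (∃ i, lv i = n) ↔ r0 ≤ n ∧ n ≤ R)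
    {p : ℕ → ℝ} (hpm : Monotone p) (hp0 : 0 ≤ p 0) (hp1 : p (R + 1) ≤ 1)
    {b dK db : ℕ → ℝ} {B : ℕ → Matrix ι ι ℝ} {g : ℕ → ι → ℝ} {P : ℝ} (hP : 2 ≤ P) (hdK : ∀ n, 0 ≤ dK n) (hdb0 : ∀ n, 0 ≤ db n)
    (hB : ∀ k, InvPsd (B k)) (hb : ∀ n, 0 ≤ b n ∧ b n ≤ P) (hl : ∀ k s, 1 / P ≤ 1 - b (lv s) * g k s)
    (hβ : ∀ k r, B k r r ≤ P) (hγ : ∀ k s, |g k s| ≤ P)
    (hBk : ∀ k r t, |B (k + 1) r t - B k r t| ≤ P * (p k * dK k)) (hgk : ∀ k s, |g (k + 1) s - g k s| ≤ P * (p k * dK k))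
    (hBl : ∀ k a a0 s, lv a = lv a0 + 1 → |B k a s - B k a0 s| ≤ P * dK (lv a))
    (hgl : ∀ k a a0, lv a = lv a0 + 1 → |g k a - g k a0| ≤ P * dK (lv a))
    (hdb : ∀ n, |b (n + 1) - b n| ≤ db (n + 1)) (k : ℕ) (hk : k ≤ R) (r t : ι) :
    |invA (B (k + 1)) (fun s => 1 - b (lv s) * g (k + 1) s) (fun s => invRdMu p (k + 1) (lv s)) (fun s => b (lv s)) r t
      - invA (B k) (fun s => 1 - b (lv s) * g k s) (fun s => invRdMu p k (lv s)) (fun s => b (lv s)) r t|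
     ≤ 14 * P ^ 12 * (p k * (dK k + db k + if k = r0 then 1 else 0)) := by
  have hP1 : 1 ≤ P := by linarith
  have hP0 : 0 < P := by linarith
  have hpk : 0 ≤ p k := hp0.trans (hpm (Nat.zero_le _))
  have hR : ∀ s, lv s ≤ R := fun s => ((hlv (lv s)).1 ⟨s, rfl⟩).2
  have hr0 : ∀ s, r0 ≤ lv s := fun s => ((hlv (lv s)).1 ⟨s, rfl⟩).1
  have hm : ∀ k, ∑ s, invRdMu p k (lv s) ≤ P := fun k => (inv_mu_sum_ret hpm hp0 k hinj hR).trans (by linarith)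
  have hμ : ∀ k s, 0 ≤ invRdMu p k (lv s) := fun k s => inv_mu_nonneg hpm hp0 k (lv s)
  have hb' : ∀ s : ι, 0 ≤ b (lv s) ∧ b (lv s) ≤ P := fun s => hb (lv s)
  have hP11 : 0 ≤ 7 * P ^ 11 := by positivity
  have hdKk := hdK k
  have hdbk := hdb0 k
  have hpd : 0 ≤ p k * dK k := mul_nonneg hpk hdKk
  have hpb : 0 ≤ p k * db k := mul_nonneg hpk hdbk
  -- `7 P^11 X ≤ 14 P^12 Y` as soon as `X ≤ 2 P Y`
  have hfin : ∀ X Y : ℝ, X ≤ 2 * P * Y → 7 * P ^ 11 * X ≤ 14 * P ^ 12 * Y := by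
    intro X Y h
    calc 7 * P ^ 11 * X ≤ 7 * P ^ 11 * (2 * P * Y) := mul_le_mul_of_nonneg_left h hP11
      _ = _ := by ring
  rcases lt_trichotomy k r0 with h | h | h
  · -- no atom
    have hμμ : (fun s => invRdMu p (k + 1) (lv s)) = fun s => invRdMu p k (lv s) := by
      funext s
      have := inv_mu_succ p k (lv s)
      have h1 := hr0 s
      rw [if_neg (by omega), if_neg (by omega)] at this
      linarith
    rw [hμμ, if_neg (by omega)]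
    refine (inv_rd_P0 (hB k) (hB (k + 1)) hP1 (hl k) (hl (k + 1)) hb' (hμ k) (hm k) (hβ k) (hβ (k + 1)) (hBk k) (hgk k) r t).trans ?_
    refine hfin _ _ ?_
    nlinarith
  · -- one atom
    obtain ⟨a, ha⟩ := (hlv k).2 ⟨h.ge, hk⟩
    have hμμ : ∀ s, invRdMu p (k + 1) (lv s) - invRdMu p k (lv s) = if s = a then p k else 0 := by
      intro s
      have h1 := hr0 s
      rw [inv_mu_succ, if_neg (by omega : ¬ lv s + 1 = k), sub_zero]
      by_cases hs : s = a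
      · rw [if_pos hs, if_pos (by rw [hs, ha])]
      · rw [if_neg hs, if_neg (fun h' => hs (hinj (h'.trans ha.symm)))]
    rw [if_pos h]
    refine (inv_rd_P1 (hB k) (hB (k + 1)) hP1 (hl k) (hl (k + 1)) hb' (hμ k) (hμ (k + 1)) (hm k) (hm (k + 1)) (hβ k) (hβ (k + 1)) (hBk k) (hgk k) a hμμ r t).trans ?_
    refine hfin _ _ ?_
    rw [abs_of_nonneg hpk]
    nlinarith
  · -- two atoms
    obtain ⟨a, ha⟩ := (hlv k).2 ⟨h.le, hk⟩
    obtain ⟨a0, ha0⟩ := (hlv (k - 1)).2 ⟨by omega, by omega⟩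
    have haa : lv a = lv a0 + 1 := by omega
    have hμμ : ∀ s, invRdMu p (k + 1) (lv s) - invRdMu p k (lv s) = (if s = a then p k else 0) - (if s = a0 then p k else 0) := by
      intro s
      rw [inv_mu_succ]
      congr 1
      · by_cases hs : s = a
        · rw [if_pos hs, if_pos (by rw [hs, ha])]
        · rw [if_neg hs, if_neg (fun h' => hs (hinj (h'.trans ha.symm)))]
      · by_cases hs : s = a0
        · rw [if_pos hs, if_pos (by rw [hs]; omega)]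
        · rw [if_neg hs, if_neg (fun h' => hs (hinj (by omega)))]
    have hdb' : |b (lv a) - b (lv a0)| ≤ db k := by
      have := hdb (lv a0)
      rw [← haa] at this
      rwa [ha] at this ⊢
    rw [if_neg (by omega)]
    have h1 := inv_rd_P2 (hB k) (hB (k + 1)) hP1 (hl k) (hl (k + 1)) hb' (hμ k) (hμ (k + 1)) (hm k) (hm (k + 1)) (hβ k) (hβ (k + 1)) (hBk k) (hgk k) a a0 hμμ
      (η := P * dK k) (fun s => by have := hBl k a a0 s haa; rwa [ha] at this) (fun s => by have := hBl (k + 1) a a0 s haa; rwa [ha] at this)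
      (by have := hgl (k + 1) a a0 haa; rwa [ha] at this) (hγ (k + 1) a) hdb' r t
    refine h1.trans ?_
    refine hfin _ _ ?_
    rw [abs_of_nonneg hpk]
    nlinarith

/-- **the coefficient of the two-attachment term** (LL 05 l.330-345): `Σ_k |A^k - A^(k+1)| / p_k ≤ 14 P^12 (Σ ΔK + Σ Δb + 1)` -/
theorem inv_rd_total {lv : ι → ℕ} (hinj : Function.Injective lv) {r0 R : ℕ} (hlv : ∀ n, (∃ i, lv i = n) ↔ r0 ≤ n ∧ n ≤ R)
    {p : ℕ → ℝ} (hpm : Monotone p) (hp0 : 0 < p 0) (hp1 : p (R + 1) ≤ 1)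
    {b dK db : ℕ → ℝ} {B : ℕ → Matrix ι ι ℝ} {g : ℕ → ι → ℝ} {P : ℝ} (hP : 2 ≤ P) (hdK : ∀ n, 0 ≤ dK n) (hdb0 : ∀ n, 0 ≤ db n)
    (hB : ∀ k, InvPsd (B k)) (hb : ∀ n, 0 ≤ b n ∧ b n ≤ P) (hl : ∀ k s, 1 / P ≤ 1 - b (lv s) * g k s)
    (hβ : ∀ k r, B k r r ≤ P) (hγ : ∀ k s, |g k s| ≤ P)
    (hBk : ∀ k r t, |B (k + 1) r t - B k r t| ≤ P * (p k * dK k)) (hgk : ∀ k s, |g (k + 1) s - g k s| ≤ P * (p k * dK k))
    (hBl : ∀ k a a0 s, lv a = lv a0 + 1 → |B k a s - B k a0 s| ≤ P * dK (lv a))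
    (hgl : ∀ k a a0, lv a = lv a0 + 1 → |g k a - g k a0| ≤ P * dK (lv a))
    (hdb : ∀ n, |b (n + 1) - b n| ≤ db (n + 1)) (r t : ι) :
    ∑ k ∈ Finset.range (R + 1), |invA (B (k + 1)) (fun s => 1 - b (lv s) * g (k + 1) s) (fun s => invRdMu p (k + 1) (lv s)) (fun s => b (lv s)) r t
      - invA (B k) (fun s => 1 - b (lv s) * g k s) (fun s => invRdMu p k (lv s)) (fun s => b (lv s)) r t| / p k
     ≤ 14 * P ^ 12 * (∑ k ∈ Finset.range (R + 1), dK k + ∑ k ∈ Finset.range (R + 1), db k + 1) := by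
  have hpk : ∀ k, 0 < p k := fun k => lt_of_lt_of_le hp0 (hpm (Nat.zero_le _))
  have h1 : ∀ k ∈ Finset.range (R + 1), |invA (B (k + 1)) (fun s => 1 - b (lv s) * g (k + 1) s) (fun s => invRdMu p (k + 1) (lv s)) (fun s => b (lv s)) r t
      - invA (B k) (fun s => 1 - b (lv s) * g k s) (fun s => invRdMu p k (lv s)) (fun s => b (lv s)) r t| / p k
      ≤ 14 * P ^ 12 * (dK k + db k + if k = r0 then 1 else 0) := by
    intro k hk
    rw [div_le_iff₀ (hpk k)]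
    refine (inv_rd_step hinj hlv hpm hp0.le hp1 hP hdK hdb0 hB hb hl hβ hγ hBk hgk hBl hgl hdb k (Nat.lt_succ_iff.1 (Finset.mem_range.1 hk)) r t).trans (le_of_eq ?_)
    ring
  refine (Finset.sum_le_sum h1).trans ?_
  rw [← Finset.mul_sum, Finset.sum_add_distrib, Finset.sum_add_distrib]
  have h2 : ∑ k ∈ Finset.range (R + 1), (if k = r0 then (1:ℝ) else 0) ≤ 1 := by
    rw [Finset.sum_ite_eq']
    split_ifs <;> norm_num
  have : 0 ≤ 14 * P ^ 12 := by positivity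
  gcongr

end Claimed.Agent.R286
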