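import Mathlib

/-!
# The additive resolvent (row 286, LL 05-inverse, paragraph "The additive resolvent"): matrix kit

Owner: helper292.   Paper-free.   `B` positive semidefinite, `w ≥ 0` a diagonal weight.

* `skRes B w = (1 + B W)⁻¹ B`  (the matrix `C` of the paper)
* `sk_res_isUnit`, `sk_res_mul`, `sk_res_fix`, `sk_res_fix'`, `sk_res_inv`, `sk_res_inv'`
* `sk_res_symm`, `sk_res_psd`, `sk_res_le`            : `C` symmetric, `0 ⪯ C ⪯ B`
* `sk_psd_entry_sq`, `sk_psd_entry_abs`, `sk_res_entry_abs` : entry bounds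
* `sk_res_lip`                                          : Lipschitz transfer `B → C`
* `sk_res_resolvent`, `sk_res_diff_abs`                 : resolvent identity and its entrywise bound
* `sk_res_sector_inv`                                   : `(diag ℓ + B diag (μ b))⁻¹ = diag (1/ℓ) + A diag μ`
-/

set_option autoImplicit false
open Matrix

namespace Claimed.Agent.R286

variable {n : Type*} [Fintype n] [DecidableEq n]

/-- The additive resolvent `C = (1 + B W)⁻¹ B`, `W = diag w`. -/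
noncomputable def skRes (B : Matrix n n ℝ) (w : n → ℝ) : Matrix n n ℝ :=
  (1 + B * diagonal w)⁻¹ * B

theorem sk_res_ker {B : Matrix n n ℝ} (hB : B.PosSemidef) {w : n → ℝ} (hw : ∀ i, 0 ≤ w i)
    (x : n → ℝ) (hx : (1 + B * diagonal w) *ᵥ x = 0) : x = 0 := by
  set y : n → ℝ := fun i => w i * x i with hy
  have hWx : diagonal w *ᵥ x = y := by
    funext i
    rw [mulVec_diagonal]
  have h1 : x + B *ᵥ y = 0 := by
    rw [← hx, add_mulVec, one_mulVec, ← mulVec_mulVec, hWx]
  have h2 : y ⬝ᵥ x + y ⬝ᵥ (B *ᵥ y) = 0 := by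
    rw [← dotProduct_add, h1, dotProduct_zero]
  have h3 : 0 ≤ y ⬝ᵥ (B *ᵥ y) := by simpa using hB.dotProduct_mulVec_nonneg y
  have hterm : ∀ i ∈ Finset.univ, 0 ≤ y i * x i := fun i _ => by
    have : y i * x i = w i * (x i * x i) := by simp only [hy]; ring
    rw [this]
    exact mul_nonneg (hw i) (mul_self_nonneg _)
  have h4 : 0 ≤ y ⬝ᵥ x := Finset.sum_nonneg hterm
  have h5 : y ⬝ᵥ x = 0 := by linarith
  have h6 := (Finset.sum_eq_zero_iff_of_nonneg hterm).1 h5
  have h7 : y = 0 := by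
    funext i
    rcases mul_eq_zero.1 (h6 i (Finset.mem_univ i)) with h | h
    · exact h
    · simp [hy, h]
  rw [h7, mulVec_zero, add_zero] at h1
  exact h1

theorem sk_res_isUnit {B : Matrix n n ℝ} (hB : B.PosSemidef) {w : n → ℝ} (hw : ∀ i, 0 ≤ w i) :
    IsUnit (1 + B * diagonal w) := by
  rw [← mulVec_injective_iff_isUnit]
  intro x y hxy
  have : (1 + B * diagonal w) *ᵥ (x - y) = 0 := by rw [mulVec_sub, hxy, sub_self]
  exact sub_eq_zero.1 (sk_res_ker hB hw _ this)

theorem sk_res_isUnit_det {B : Matrix n n ℝ} (hB : B.PosSemidef) {w : n → ℝ}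
    (hw : ∀ i, 0 ≤ w i) : IsUnit (1 + B * diagonal w).det :=
  (isUnit_iff_isUnit_det _).1 (sk_res_isUnit hB hw)

/-- `(1 + B W) C = B`. -/
theorem sk_res_mul {B : Matrix n n ℝ} (hB : B.PosSemidef) {w : n → ℝ} (hw : ∀ i, 0 ≤ w i) :
    (1 + B * diagonal w) * skRes B w = B := by
  rw [skRes, ← Matrix.mul_assoc, mul_nonsing_inv _ (sk_res_isUnit_det hB hw), Matrix.one_mul]

/-- `C = B - B W C`. -/
theorem sk_res_fix {B : Matrix n n ℝ} (hB : B.PosSemidef) {w : n → ℝ} (hw : ∀ i, 0 ≤ w i) :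
    skRes B w = B - B * diagonal w * skRes B w := by
  have h := sk_res_mul hB hw
  rw [Matrix.add_mul, Matrix.one_mul] at h
  exact eq_sub_of_add_eq h

/-- `(1 + B W)⁻¹ = 1 - C W`. -/
theorem sk_res_inv {B : Matrix n n ℝ} (hB : B.PosSemidef) {w : n → ℝ} (hw : ∀ i, 0 ≤ w i) :
    (1 + B * diagonal w)⁻¹ = 1 - skRes B w * diagonal w := by
  apply inv_eq_right_inv
  rw [Matrix.mul_sub, Matrix.mul_one, ← Matrix.mul_assoc, sk_res_mul hB hw]
  abel

omit [Fintype n] [DecidableEq n] in
theorem sk_res_transpose_B {B : Matrix n n ℝ} (hB : B.PosSemidef) : Bᵀ = B := by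
  have := hB.isHermitian
  rwa [IsHermitian, conjTranspose_eq_transpose_of_trivial] at this

/-- `C` is symmetric. -/
theorem sk_res_symm {B : Matrix n n ℝ} (hB : B.PosSemidef) {w : n → ℝ} (hw : ∀ i, 0 ≤ w i) :
    (skRes B w)ᵀ = skRes B w := by
  have hBt := sk_res_transpose_B hB
  have hu := sk_res_isUnit_det hB hw
  -- `(1 + B W) Cᵀ (1 + W B) = (1 + B W) C (1 + W B)`
  have h1 : (skRes B w)ᵀ * (1 + diagonal w * B) = B := by
    have := congrArg transpose (sk_res_mul hB hw)
    rw [transpose_mul, transpose_add, transpose_one, transpose_mul, diagonal_transpose, hBt] at this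
    exact this
  -- push-through
  have h2 : (1 + B * diagonal w) * (skRes B w)ᵀ * (1 + diagonal w * B)
      = (1 + B * diagonal w) * skRes B w * (1 + diagonal w * B) := by
    rw [Matrix.mul_assoc, h1, sk_res_mul hB hw]
    simp only [Matrix.add_mul, Matrix.mul_add, Matrix.one_mul, Matrix.mul_one, Matrix.mul_assoc]
  have hu' : IsUnit (1 + diagonal w * B).det := by
    have : (1 + diagonal w * B) = (1 + B * diagonal w)ᵀ := by
      rw [transpose_add, transpose_one, transpose_mul, diagonal_transpose, hBt]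
    rw [this, det_transpose]
    exact hu
  have h3 : (1 + B * diagonal w) * (skRes B w)ᵀ = (1 + B * diagonal w) * skRes B w := by
    have := congrArg (· * (1 + diagonal w * B)⁻¹) h2
    simpa only [Matrix.mul_assoc, mul_nonsing_inv _ hu', Matrix.mul_one] using this
  have := congrArg ((1 + B * diagonal w)⁻¹ * ·) h3
  simpa only [← Matrix.mul_assoc, nonsing_inv_mul _ hu, Matrix.one_mul] using this

theorem sk_res_symm_apply {B : Matrix n n ℝ} (hB : B.PosSemidef) {w : n → ℝ}
    (hw : ∀ i, 0 ≤ w i) (r t : n) : skRes B w r t = skRes B w t r := by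
  have := congrFun (congrFun (sk_res_symm hB hw) t) r
  simpa [transpose_apply] using this

/-- `C (1 + W B) = B`. -/
theorem sk_res_mul' {B : Matrix n n ℝ} (hB : B.PosSemidef) {w : n → ℝ} (hw : ∀ i, 0 ≤ w i) :
    skRes B w * (1 + diagonal w * B) = B := by
  have := congrArg transpose (sk_res_mul hB hw)
  rw [transpose_mul, transpose_add, transpose_one, transpose_mul, diagonal_transpose,
    sk_res_transpose_B hB, sk_res_symm hB hw] at this
  exact this

/-- `C = B - C W B`. -/
theorem sk_res_fix' {B : Matrix n n ℝ} (hB : B.PosSemidef) {w : n → ℝ} (hw : ∀ i, 0 ≤ w i) :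
    skRes B w = B - skRes B w * diagonal w * B := by
  have h := sk_res_mul' hB hw
  rw [Matrix.mul_add, Matrix.mul_one, ← Matrix.mul_assoc] at h
  exact eq_sub_of_add_eq h

/-- `(1 - C W) B = C`. -/
theorem sk_res_left {B : Matrix n n ℝ} (hB : B.PosSemidef) {w : n → ℝ} (hw : ∀ i, 0 ≤ w i) :
    (1 - skRes B w * diagonal w) * B = skRes B w := by
  rw [Matrix.sub_mul, Matrix.one_mul]
  exact (sk_res_fix' hB hw).symm

/-- `B (1 - W C) = C`. -/
theorem sk_res_right {B : Matrix n n ℝ} (hB : B.PosSemidef) {w : n → ℝ} (hw : ∀ i, 0 ≤ w i) :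
    B * (1 - diagonal w * skRes B w) = skRes B w := by
  rw [Matrix.mul_sub, Matrix.mul_one, ← Matrix.mul_assoc]
  exact (sk_res_fix hB hw).symm

omit [Fintype n] in
theorem sk_res_diag_psd {w : n → ℝ} (hw : ∀ i, 0 ≤ w i) : (diagonal w).PosSemidef :=
  PosSemidef.diagonal hw

/-- `C = C W C + C W B W C + ...`: the two sandwich formulas. `B - C = C W C + (W C)ᵀ B (W C)`. -/
theorem sk_res_sub_eq {B : Matrix n n ℝ} (hB : B.PosSemidef) {w : n → ℝ} (hw : ∀ i, 0 ≤ w i) :
    B - skRes B w = (skRes B w)ᴴ * diagonal w * skRes B w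
      + (diagonal w * skRes B w)ᴴ * B * (diagonal w * skRes B w) := by
  have hs := sk_res_symm hB hw
  rw [conjTranspose_eq_transpose_of_trivial, conjTranspose_eq_transpose_of_trivial, transpose_mul,
    diagonal_transpose, hs]
  -- `B - C = B W C = C (1 + W B) W C`
  have h1 : B - skRes B w = B * diagonal w * skRes B w := by
    have := sk_res_fix hB hw
    rw [sub_eq_iff_eq_add]
    nth_rewrite 1 [← sub_add_cancel B (B * diagonal w * skRes B w)]
    rw [← this]
    abel
  rw [h1]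
  nth_rewrite 1 [← sk_res_mul' hB hw]
  simp only [Matrix.add_mul, Matrix.mul_add, Matrix.mul_one, Matrix.mul_assoc]

/-- `C ⪯ B`. -/
theorem sk_res_le {B : Matrix n n ℝ} (hB : B.PosSemidef) {w : n → ℝ} (hw : ∀ i, 0 ≤ w i) :
    (B - skRes B w).PosSemidef := by
  rw [sk_res_sub_eq hB hw]
  exact ((sk_res_diag_psd hw).conjTranspose_mul_mul_same _).add (hB.conjTranspose_mul_mul_same _)

/-- `0 ⪯ C`. -/
theorem sk_res_psd {B : Matrix n n ℝ} (hB : B.PosSemidef) {w : n → ℝ} (hw : ∀ i, 0 ≤ w i) :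
    (skRes B w).PosSemidef := by
  -- `C = (1 - W C)ᵀ (B + B W B) (1 - W C)`
  have hs := sk_res_symm hB hw
  have hBt := sk_res_transpose_B hB
  have key : skRes B w = (1 - diagonal w * skRes B w)ᴴ * (B + Bᴴ * diagonal w * B)
      * (1 - diagonal w * skRes B w) := by
    rw [conjTranspose_eq_transpose_of_trivial, conjTranspose_eq_transpose_of_trivial, hBt,
      transpose_sub, transpose_one, transpose_mul, diagonal_transpose, hs]
    have h1 : B + B * diagonal w * B = (1 + B * diagonal w) * B := by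
      rw [Matrix.add_mul, Matrix.one_mul]
    rw [h1, ← Matrix.mul_assoc, ← sk_res_inv hB hw, nonsing_inv_mul _ (sk_res_isUnit_det hB hw),
      Matrix.one_mul, sk_res_right hB hw]
  rw [key]
  exact (hB.add ((sk_res_diag_psd hw).conjTranspose_mul_mul_same _)).conjTranspose_mul_mul_same _

/-! ### Entry bounds -/

omit [Fintype n] [DecidableEq n] in
/-- The `2 × 2` minors of a positive semidefinite matrix are nonnegative. -/
theorem sk_psd_entry_sq {M : Matrix n n ℝ} (hM : M.PosSemidef) (r t : n) :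
    M r t ^ 2 ≤ M r r * M t t := by
  have h2 := (hM.submatrix ![r, t]).det_nonneg
  rw [det_fin_two] at h2
  have hs : M t r = M r t := by
    have := hM.isHermitian.apply r t
    simpa using this
  simp only [submatrix_apply, Matrix.cons_val_zero, Matrix.cons_val_one] at h2
  rw [hs] at h2
  nlinarith

omit [Fintype n] [DecidableEq n] in
theorem sk_psd_entry_abs {M : Matrix n n ℝ} (hM : M.PosSemidef) {β : ℝ} (hβ : ∀ r, M r r ≤ β)
    (r t : n) : |M r t| ≤ β := by
  have h0 : 0 ≤ M r r := hM.diag_nonneg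
  have h1 : 0 ≤ M t t := hM.diag_nonneg
  have hβ0 : 0 ≤ β := h0.trans (hβ r)
  have h2 := sk_psd_entry_sq hM r t
  have h3 : M r r * M t t ≤ β * β := mul_le_mul (hβ r) (hβ t) h1 hβ0
  apply abs_le_of_sq_le_sq' _ hβ0 |> abs_le.2
  nlinarith

/-- `C r r ≤ B r r`. -/
theorem sk_res_diag_le {B : Matrix n n ℝ} (hB : B.PosSemidef) {w : n → ℝ} (hw : ∀ i, 0 ≤ w i)
    (r : n) : skRes B w r r ≤ B r r := by
  have := (sk_res_le hB hw).diag_nonneg (i := r)
  simpa using this

/-- `|C r t| ≤ sup diag B`. -/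
theorem sk_res_entry_abs {B : Matrix n n ℝ} (hB : B.PosSemidef) {w : n → ℝ} (hw : ∀ i, 0 ≤ w i)
    {β : ℝ} (hβ : ∀ r, B r r ≤ β) (r t : n) : |skRes B w r t| ≤ β :=
  sk_psd_entry_abs (sk_res_psd hB hw) (fun r => (sk_res_diag_le hB hw r).trans (hβ r)) r t

/-- entry form of `C = B - B W C`. -/
theorem sk_res_fix_apply {B : Matrix n n ℝ} (hB : B.PosSemidef) {w : n → ℝ} (hw : ∀ i, 0 ≤ w i)
    (r t : n) : skRes B w r t = B r t - ∑ j, B r j * w j * skRes B w j t := by
  have := congrFun (congrFun (sk_res_fix hB hw) r) t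
  rw [this, Matrix.sub_apply, Matrix.mul_apply]
  simp only [mul_diagonal]

/-- **Lipschitz transfer** `B → C` (first index; use `sk_res_symm_apply` for the second). -/
theorem sk_res_lip {B : Matrix n n ℝ} (hB : B.PosSemidef) {w : n → ℝ} (hw : ∀ i, 0 ≤ w i)
    {β ω L : ℝ} (hβ : ∀ r, B r r ≤ β) (hω : ∑ i, w i ≤ ω) (r s : n)
    (hL : ∀ j, |B r j - B s j| ≤ L) (t : n) :
    |skRes B w r t - skRes B w s t| ≤ L * (1 + ω * β) := by
  have hL0 : 0 ≤ L := (abs_nonneg _).trans (hL t)
  have hβ0 : 0 ≤ β := (hB.diag_nonneg (i := t)).trans (hβ t)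
  rw [sk_res_fix_apply hB hw r t, sk_res_fix_apply hB hw s t]
  have e1 : B r t - ∑ j, B r j * w j * skRes B w j t - (B s t - ∑ j, B s j * w j * skRes B w j t)
      = (B r t - B s t) - ∑ j, (B r j - B s j) * w j * skRes B w j t := by
    rw [sub_sub_sub_comm, ← Finset.sum_sub_distrib]
    congr 1
    exact Finset.sum_congr rfl fun j _ => by ring
  rw [e1]
  have e2 : |∑ j, (B r j - B s j) * w j * skRes B w j t| ≤ ∑ j, L * w j * β := by
    refine (Finset.abs_sum_le_sum_abs _ _).trans (Finset.sum_le_sum fun j _ => ?_)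
    rw [abs_mul, abs_mul, abs_of_nonneg (hw j)]
    exact mul_le_mul (mul_le_mul_of_nonneg_right (hL j) (hw j)) (sk_res_entry_abs hB hw hβ j t)
      (abs_nonneg _) (mul_nonneg hL0 (hw j))
  have e3 : ∑ j, L * w j * β = L * (∑ j, w j) * β := by
    rw [Finset.mul_sum, Finset.sum_mul]
  have e4 : L * (∑ j, w j) * β ≤ L * ω * β :=
    mul_le_mul_of_nonneg_right (mul_le_mul_of_nonneg_left hω hL0) hβ0
  calc |(B r t - B s t) - ∑ j, (B r j - B s j) * w j * skRes B w j t|
      ≤ |B r t - B s t| + |∑ j, (B r j - B s j) * w j * skRes B w j t| := abs_sub _ _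
    _ ≤ L + L * ω * β := add_le_add (hL t) (e2.trans (e3.le.trans e4))
    _ = L * (1 + ω * β) := by ring

/-! ### The resolvent identity -/

/-- `C' - C = (1 - C' W') (B' - B) (1 - W C) - C' (W' - W) C`. -/
theorem sk_res_resolvent {B B' : Matrix n n ℝ} (hB : B.PosSemidef) (hB' : B'.PosSemidef)
    {w w' : n → ℝ} (hw : ∀ i, 0 ≤ w i) (hw' : ∀ i, 0 ≤ w' i) :
    skRes B' w' - skRes B w
      = (1 - skRes B' w' * diagonal w') * (B' - B) * (1 - diagonal w * skRes B w)
        - skRes B' w' * (diagonal w' - diagonal w) * skRes B w := by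
  have h1 : (1 - skRes B' w' * diagonal w') * (B' - B) * (1 - diagonal w * skRes B w)
      = skRes B' w' * (1 - diagonal w * skRes B w)
        - (1 - skRes B' w' * diagonal w') * skRes B w := by
    rw [Matrix.mul_sub (1 - skRes B' w' * diagonal w') B' B, sk_res_left hB' hw',
      Matrix.sub_mul, Matrix.mul_assoc _ B, sk_res_right hB hw]
  rw [h1]
  simp only [Matrix.mul_sub, Matrix.sub_mul, Matrix.mul_one, Matrix.one_mul, Matrix.mul_assoc]
  abel

omit [DecidableEq n] in
/-- entrywise bound of a sandwich `X D Y`. -/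
theorem sk_mat_sandwich_abs (X D Y : Matrix n n ℝ) {a d c : ℝ} (r t : n)
    (hX : ∑ i, |X r i| ≤ a) (hD : ∀ i j, |D i j| ≤ d) (hY : ∑ j, |Y j t| ≤ c) :
    |(X * D * Y) r t| ≤ a * d * c := by
  have hd0 : 0 ≤ d := (abs_nonneg _).trans (hD r t)
  have hc0 : 0 ≤ c := (Finset.sum_nonneg fun j _ => abs_nonneg _).trans hY
  have h1 : ∀ j, |(X * D) r j| ≤ a * d := fun j => by
    rw [Matrix.mul_apply]
    refine (Finset.abs_sum_le_sum_abs _ _).trans ?_
    calc ∑ i, |X r i * D i j| ≤ ∑ i, |X r i| * d :=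
          Finset.sum_le_sum fun i _ => by
            rw [abs_mul]; exact mul_le_mul_of_nonneg_left (hD i j) (abs_nonneg _)
      _ = (∑ i, |X r i|) * d := by rw [Finset.sum_mul]
      _ ≤ a * d := mul_le_mul_of_nonneg_right hX hd0
  have had : 0 ≤ a * d := (abs_nonneg _).trans (h1 t)
  rw [Matrix.mul_apply]
  refine (Finset.abs_sum_le_sum_abs _ _).trans ?_
  calc ∑ j, |(X * D) r j * Y j t| ≤ ∑ j, a * d * |Y j t| :=
        Finset.sum_le_sum fun j _ => by
          rw [abs_mul]; exact mul_le_mul_of_nonneg_right (h1 j) (abs_nonneg _)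
    _ = a * d * ∑ j, |Y j t| := by rw [Finset.mul_sum]
    _ ≤ a * d * c := mul_le_mul_of_nonneg_left hY had

/-- row sums of `1 - C W`. -/
theorem sk_res_row_abs {B : Matrix n n ℝ} (hB : B.PosSemidef) {w : n → ℝ} (hw : ∀ i, 0 ≤ w i)
    {β ω : ℝ} (hβ : ∀ r, B r r ≤ β) (hω : ∑ i, w i ≤ ω) (r : n) :
    ∑ i, |(1 - skRes B w * diagonal w) r i| ≤ 1 + ω * β := by
  have hβ0 : 0 ≤ β := (hB.diag_nonneg (i := r)).trans (hβ r)
  have h1 : ∀ i, |(1 - skRes B w * diagonal w) r i| ≤ (if r = i then 1 else 0) + w i * β := by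
    intro i
    rw [Matrix.sub_apply, mul_diagonal, one_apply]
    refine (abs_sub _ _).trans (add_le_add ?_ ?_)
    · split_ifs <;> simp
    · rw [abs_mul, abs_of_nonneg (hw i), mul_comm]
      exact mul_le_mul_of_nonneg_left (sk_res_entry_abs hB hw hβ r i) (hw i)
  refine (Finset.sum_le_sum fun i _ => h1 i).trans ?_
  rw [Finset.sum_add_distrib, ← Finset.sum_mul]
  simp only [Finset.sum_ite_eq, Finset.mem_univ, if_true]
  exact add_le_add le_rfl (mul_le_mul_of_nonneg_right hω hβ0)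

/-- column sums of `1 - W C`. -/
theorem sk_res_col_abs {B : Matrix n n ℝ} (hB : B.PosSemidef) {w : n → ℝ} (hw : ∀ i, 0 ≤ w i)
    {β ω : ℝ} (hβ : ∀ r, B r r ≤ β) (hω : ∑ i, w i ≤ ω) (t : n) :
    ∑ j, |(1 - diagonal w * skRes B w) j t| ≤ 1 + ω * β := by
  have hβ0 : 0 ≤ β := (hB.diag_nonneg (i := t)).trans (hβ t)
  have h1 : ∀ j, |(1 - diagonal w * skRes B w) j t| ≤ (if t = j then 1 else 0) + w j * β := by
    intro j
    rw [Matrix.sub_apply, diagonal_mul, one_apply]
    refine (abs_sub _ _).trans (add_le_add ?_ ?_)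
    · by_cases h : j = t
      · simp [h]
      · simp [h, Ne.symm h]
    · rw [abs_mul, abs_of_nonneg (hw j)]
      exact mul_le_mul_of_nonneg_left (sk_res_entry_abs hB hw hβ j t) (hw j)
  refine (Finset.sum_le_sum fun i _ => h1 i).trans ?_
  rw [Finset.sum_add_distrib, ← Finset.sum_mul]
  simp only [Finset.sum_ite_eq, Finset.mem_univ, if_true]
  exact add_le_add le_rfl (mul_le_mul_of_nonneg_right hω hβ0)

/-- entrywise form of the resolvent identity with the kernel part estimated: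
`|C' - C + C' (W' - W) C| ≤ (1 + ω' β') d (1 + ω β)`. -/
theorem sk_res_diff_abs {B B' : Matrix n n ℝ} (hB : B.PosSemidef) (hB' : B'.PosSemidef)
    {w w' : n → ℝ} (hw : ∀ i, 0 ≤ w i) (hw' : ∀ i, 0 ≤ w' i) {β β' ω ω' d : ℝ}
    (hβ : ∀ r, B r r ≤ β) (hβ' : ∀ r, B' r r ≤ β') (hω : ∑ i, w i ≤ ω) (hω' : ∑ i, w' i ≤ ω')
    (hd : ∀ i j, |B' i j - B i j| ≤ d) (r t : n) :
    |skRes B' w' r t - skRes B w r t + ∑ j, skRes B' w' r j * (w' j - w j) * skRes B w j t|
      ≤ (1 + ω' * β') * d * (1 + ω * β) := by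
  have h := congrFun (congrFun (sk_res_resolvent hB hB' hw hw') r) t
  have h2 : (skRes B' w' * (diagonal w' - diagonal w) * skRes B w) r t
      = ∑ j, skRes B' w' r j * (w' j - w j) * skRes B w j t := by
    rw [Matrix.mul_apply]
    refine Finset.sum_congr rfl fun j _ => ?_
    rw [Matrix.mul_sub, Matrix.sub_apply, mul_diagonal, mul_diagonal]
    ring
  rw [Matrix.sub_apply, Matrix.sub_apply, h2] at h
  rw [h, sub_add_cancel]
  exact sk_mat_sandwich_abs _ _ _ r t (sk_res_row_abs hB' hw' hβ' hω' r)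
    (fun i j => by rw [Matrix.sub_apply]; exact hd i j) (sk_res_col_abs hB hw hβ hω t)

/-! ### The inverse on the additive sector -/

/-- The kernel `A r t = - C r t b t / (ℓ r ℓ t)`, `C = skRes B (μ b / ℓ)`. -/
noncomputable def skResA (B : Matrix n n ℝ) (l μ b : n → ℝ) : Matrix n n ℝ :=
  of fun r t => -(skRes B (fun i => μ i * b i / l i) r t) * b t / (l r * l t)

/-- `(diag ℓ + B diag (μ b))⁻¹ = diag (1/ℓ) + A diag μ`  (both products). -/
theorem sk_res_sector_inv {B : Matrix n n ℝ} (hB : B.PosSemidef) {l μ b : n → ℝ}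
    (hl : ∀ i, 0 < l i) (hμ : ∀ i, 0 ≤ μ i) (hb : ∀ i, 0 ≤ b i) :
    (diagonal l + B * diagonal (fun i => μ i * b i))
        * (diagonal (fun i => (l i)⁻¹) + skResA B l μ b * diagonal μ) = 1 ∧
    (diagonal (fun i => (l i)⁻¹) + skResA B l μ b * diagonal μ)
        * (diagonal l + B * diagonal (fun i => μ i * b i)) = 1 := by
  set w : n → ℝ := fun i => μ i * b i / l i with hwdef
  have hw : ∀ i, 0 ≤ w i := fun i => div_nonneg (mul_nonneg (hμ i) (hb i)) (hl i).le
  have hT : diagonal l + B * diagonal (fun i => μ i * b i) = (1 + B * diagonal w) * diagonal l := by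
    rw [Matrix.add_mul, Matrix.one_mul, Matrix.mul_assoc, diagonal_mul_diagonal]
    congr 3
    funext i
    simp only [hwdef]
    field_simp [(hl i).ne']
  have hS : diagonal (fun i => (l i)⁻¹) + skResA B l μ b * diagonal μ
      = diagonal (fun i => (l i)⁻¹) * (1 - skRes B w * diagonal w) := by
    ext r t
    rw [Matrix.add_apply, mul_diagonal, diagonal_mul, Matrix.sub_apply, mul_diagonal, skResA, of_apply,
      diagonal_apply, one_apply]
    have h1 := (hl r).ne'
    have h2 := (hl t).ne'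
    by_cases hrt : r = t
    · subst hrt
      simp only [if_true, hwdef]
      field_simp
      ring
    · simp only [hrt, if_false, hwdef]
      field_simp
      ring
  have hll : diagonal l * diagonal (fun i => (l i)⁻¹) = (1 : Matrix n n ℝ) := by
    rw [diagonal_mul_diagonal, ← diagonal_one]
    congr 1
    funext i
    exact mul_inv_cancel₀ (hl i).ne'
  have hprod : (diagonal l + B * diagonal (fun i => μ i * b i))
        * (diagonal (fun i => (l i)⁻¹) + skResA B l μ b * diagonal μ) = 1 := by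
    rw [hT, hS, Matrix.mul_assoc, ← Matrix.mul_assoc (diagonal l), hll, Matrix.one_mul,
      ← sk_res_inv hB hw, mul_nonsing_inv _ (sk_res_isUnit_det hB hw)]
  exact ⟨hprod, mul_eq_one_comm.1 hprod⟩

end Claimed.Agent.R286
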