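import Claimed.Agent.R286.Sc.GenDefs

/-!
# Row 286 (S0533), LL Section 5, unit KER: THE SCALAR CHAIN      (head helper19; plan = origin/helper177:notes/R286/L04_PLAN_177.md, sec. 0-1)

DEFINITIONS (frozen) + basic calculus.   Data: terminal mass `a`, profile `π = [(ms 0, v 0), .., (ms (N-1), v (N-1))]`, `N = π.length`  (vocabulary of `Sc/Prof.lean`).
DEPTH `j ∈ 0..N` = after `j` Gaussian stages (`Defs/Tr.lean`: `τ x y` = number of shared stages);   depth `N + 1` = the spin itself.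
* `icF a π j = F_j`  (`F_N = a⁻¹ log cosh (a z)`, `F_j = scStep (ms j) (v j) F_(j+1)`),   `icM = m_j = F_j'`,   `icX = χ_j = F_j''`
* `icE a π i j φ = E_i[φ(Z_j)] = T_i .. T_(j-1) φ`  (function of the field at the depth `i`; `= φ` for `j ≤ i`);    `icEx a π j φ = E φ(Z_j)`, `Z_0 = 0`
* `icS a π i = mh_i²`  (`m_i²` for `i ≤ N`, `1` for `i = N + 1`: a coincidence),   `icQ a π j i = E_j[mh_i²]`,   `icq a π r = q_r`
* the THREE moment shapes:  `icA j r t = E[E_j mh_r² E_j mh_t²]`  (balanced),   `icCat k j i = E[m_k m_j mh_i²]`  (caterpillar, `k ≤ j ≤ i`),   `icGam r i l`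
* `icBet r t j = BET_rt(j)`,  `icBk k r t = bk^k_rt` (increments in `j`),  `icC r i l = c_r(i,l)` (mixed difference of `GAM_r`)
* `icMs a π j` mass of the stage `j` (`a` for `j ≥ N`),   `icP a π j = p_j` (`p_0 = 0`, `p_(j+1) = ms j`, `p_(N+1) = a`)
* `icBB k r t = B^k_rt = ∑_{k' ≥ k} p_k' bk^k'_rt`,    `icG r i l = g_r^{il} = ∑_{i' ≥ i, l' ≥ l} p_i' p_l' c_r(i',l')`
-/

set_option autoImplicit false

namespace Claimed.Agent.R286

open Finset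

noncomputable section

/-! ## 0. definitions -/

/-- the continuation at the depth `j` -/
def icF (a : ℝ) (π : List (ℝ × ℝ)) (j : ℕ) : ℝ → ℝ := scV (scLC a) (π.drop j)

/-- `m_j = F_j'` -/
def icM (a : ℝ) (π : List (ℝ × ℝ)) (j : ℕ) : ℝ → ℝ := deriv (icF a π j)

/-- `χ_j = F_j''` -/
def icX (a : ℝ) (π : List (ℝ × ℝ)) (j : ℕ) : ℝ → ℝ := deriv (deriv (icF a π j))

/-- `E_i[φ(Z_j)]` as a function of the field at the depth `i` -/
def icE (a : ℝ) (π : List (ℝ × ℝ)) (i j : ℕ) (φ : ℝ → ℝ) : ℝ → ℝ := scP (icF a π j) ((π.take j).drop i) φ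

/-- `E φ(Z_j)` from the root field `0` -/
def icEx (a : ℝ) (π : List (ℝ × ℝ)) (j : ℕ) (φ : ℝ → ℝ) : ℝ := icE a π 0 j φ 0

/-- `mh_i²` -/
def icS (a : ℝ) (π : List (ℝ × ℝ)) (i : ℕ) : ℝ → ℝ := if i ≤ π.length then fun z => icM a π i z ^ 2 else fun _ => 1

/-- `E_j[mh_i²]` -/
def icQ (a : ℝ) (π : List (ℝ × ℝ)) (j i : ℕ) : ℝ → ℝ := icE a π j i (icS a π i)

/-- `q_r = E mh_r²` -/
def icq (a : ℝ) (π : List (ℝ × ℝ)) (r : ℕ) : ℝ := icEx a π r (icS a π r)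

/-- balanced shape `E[E_j mh_r² E_j mh_t²]` -/
def icA (a : ℝ) (π : List (ℝ × ℝ)) (j r t : ℕ) : ℝ := icEx a π j fun z => icQ a π j r z * icQ a π j t z

/-- caterpillar shape `E[m_k m_j mh_i²]`, `k ≤ j ≤ i`, `j ≤ N` -/
def icCat (a : ℝ) (π : List (ℝ × ℝ)) (k j i : ℕ) : ℝ :=
  icEx a π k fun z => icM a π k z * icE a π k j (fun y => icM a π j y * icQ a π j i y) z

/-- `GAM_r(i,l) = E[(E_r mh_i² - m_r²)(E_r mh_l² - m_r²)]` for `i, l > r`, `0` otherwise -/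
def icGam (a : ℝ) (π : List (ℝ × ℝ)) (r i l : ℕ) : ℝ :=
  if r < i ∧ r < l then icEx a π r fun z => (icQ a π r i z - icM a π r z ^ 2) * (icQ a π r l z - icM a π r z ^ 2) else 0

/-- `BET_rt(j)` for `r ≤ t` -/
def icBet0 (a : ℝ) (π : List (ℝ × ℝ)) (r t j : ℕ) : ℝ :=
  if j ≤ r then (icA a π j r t - icq a π r * icq a π t) / 4
  else if j ≤ t then (icCat a π r r t - icq a π r * icq a π t) / 4 + (icCat a π r j t - icCat a π r r t) / 2
  else (icCat a π r r t - icq a π r * icq a π t) / 4 + (icCat a π r t t - icCat a π r r t) / 2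
    + (icCat a π r t j - icCat a π r t t)

/-- `BET_rt(j)` -/
def icBet (a : ℝ) (π : List (ℝ × ℝ)) (r t j : ℕ) : ℝ := icBet0 a π (min r t) (max r t) j

/-- `bk^k_rt = BET_rt(k) - BET_rt(k-1)`, `bk^0 = 0` -/
def icBk (a : ℝ) (π : List (ℝ × ℝ)) (k r t : ℕ) : ℝ := if k = 0 then 0 else icBet a π r t k - icBet a π r t (k - 1)

/-- `c_r(i,l)` = mixed difference of `GAM_r` -/
def icC (a : ℝ) (π : List (ℝ × ℝ)) (r i l : ℕ) : ℝ :=
  icGam a π r i l - icGam a π r (i - 1) l - icGam a π r i (l - 1) + icGam a π r (i - 1) (l - 1)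

/-- mass of the stage `j` -/
def icMs (a : ℝ) (π : List (ℝ × ℝ)) (j : ℕ) : ℝ := (π[j]?.map Prod.fst).getD a

/-- variance of the stage `j` -/
def icVr (π : List (ℝ × ℝ)) (j : ℕ) : ℝ := (π[j]?.map Prod.snd).getD 0

/-- `p_j`: incoming mass of a node of depth `j` -/
def icP (a : ℝ) (π : List (ℝ × ℝ)) (j : ℕ) : ℝ := if j = 0 then 0 else icMs a π (j - 1)

/-- `B^k_rt` -/
def icBB (a : ℝ) (π : List (ℝ × ℝ)) (k r t : ℕ) : ℝ := ∑ k' ∈ Finset.Icc k (π.length + 1), icP a π k' * icBk a π k' r t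

/-- `g_r^{il}` -/
def icG (a : ℝ) (π : List (ℝ × ℝ)) (r i l : ℕ) : ℝ :=
  ∑ i' ∈ Finset.Icc i (π.length + 1), ∑ l' ∈ Finset.Icc l (π.length + 1), icP a π i' * icP a π l' * icC a π r i' l'

/-- one step `T_j` (depth `j` to depth `j + 1`) -/
def icT (a : ℝ) (π : List (ℝ × ℝ)) (j : ℕ) (φ : ℝ → ℝ) : ℝ → ℝ := scTr (icMs a π j) (icVr π j) (icF a π (j + 1)) φ

/-- conditional covariance over the stage `j` -/
def icCov (a : ℝ) (π : List (ℝ × ℝ)) (j : ℕ) (f g : ℝ → ℝ) : ℝ → ℝ :=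
  fun z => icT a π j (fun y => f y * g y) z - icT a π j f z * icT a π j g z

/-- admissible chain: `0 < a`, masses in `[0,a]` and nondecreasing, variances `≥ 0` -/
structure IcAdm (a : ℝ) (π : List (ℝ × ℝ)) : Prop where
  pos : 0 < a
  adm : ScAdm a π
  inc : ScInc π

end

/-! ## 1. calculus of `scP` (list induction on the one-step lemmas of `Sc/Step.lean`) -/

theorem ic_P_const {F : ℝ → ℝ} (hF : ScBI F) (π : List (ℝ × ℝ)) (c : ℝ) : scP F π (fun _ => c) = fun _ => c := by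
  induction π with
  | nil => rfl
  | cons p π ih => simp only [scP, ih]; exact sc_tr_const (sc_V_BI hF π 1) p.1 p.2 c

theorem ic_P_add {F φ ψ : ℝ → ℝ} (hF : ScBI F) (hφ : ScE 0 φ) (hψ : ScE 0 ψ) (π : List (ℝ × ℝ)) :
    scP F π (fun z => φ z + ψ z) = fun z => scP F π φ z + scP F π ψ z := by
  induction π with
  | nil => rfl
  | cons p π ih =>
    simp only [scP, ih]
    exact sc_tr_add (sc_V_BI hF π 1) (sc_P_E hF hφ π) (sc_P_E hF hψ π) p.1 p.2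

theorem ic_P_sub {F φ ψ : ℝ → ℝ} (hF : ScBI F) (hφ : ScE 0 φ) (hψ : ScE 0 ψ) (π : List (ℝ × ℝ)) :
    scP F π (fun z => φ z - ψ z) = fun z => scP F π φ z - scP F π ψ z := by
  induction π with
  | nil => rfl
  | cons p π ih =>
    simp only [scP, ih]
    exact sc_tr_sub (sc_V_BI hF π 1) (sc_P_E hF hφ π) (sc_P_E hF hψ π) p.1 p.2

theorem ic_P_const_mul (F φ : ℝ → ℝ) (π : List (ℝ × ℝ)) (c : ℝ) :
    scP F π (fun z => c * φ z) = fun z => c * scP F π φ z := by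
  induction π with
  | nil => rfl
  | cons p π ih =>
    simp only [scP, ih]
    exact sc_tr_const_mul p.1 p.2 c (scV F π) (scP F π φ)

theorem ic_P_mono {F φ ψ : ℝ → ℝ} (hF : ScBI F) (hφ : ScE 0 φ) (hψ : ScE 0 ψ) (h : ∀ z, φ z ≤ ψ z) (π : List (ℝ × ℝ))
    (z : ℝ) : scP F π φ z ≤ scP F π ψ z := by
  induction π generalizing z with
  | nil => exact h z
  | cons p π ih => exact sc_tr_mono (sc_V_BI hF π 1) (sc_P_E hF hφ π) (sc_P_E hF hψ π) ih p.1 p.2 z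

theorem ic_P_Bd {n : ℕ} {F φ : ℝ → ℝ} (hF : ScBI F) (hφ : ScBd n φ) (π : List (ℝ × ℝ)) : ScBd n (scP F π φ) := by
  induction π with
  | nil => exact hφ
  | cons p π ih => exact sc_tr_Bd (sc_V_BI hF π (n + 1)) ih p.1 p.2

theorem ic_P_abs_le {F φ : ℝ → ℝ} (hF : ScBI F) (hφ : Continuous φ) {C : ℝ} (h : ∀ z, |φ z| ≤ C) (π : List (ℝ × ℝ))
    (z : ℝ) : |scP F π φ z| ≤ C := by
  have hE : ScE 0 φ := ⟨hφ, ⟨C, 0, fun z => by simpa using h z⟩⟩
  induction π generalizing z with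
  | nil => exact h z
  | cons p π ih => exact sc_tr_abs_le (sc_V_BI hF π 1) (sc_P_E hF hE π).continuous ih p.1 p.2 z

/-! ## 2. the chain -/

theorem ic_LC_BI (a : ℝ) : ScBI (scLC a) := sc_logcosh_BI a

theorem ic_F_BI (a : ℝ) (π : List (ℝ × ℝ)) (j : ℕ) : ScBI (icF a π j) := sc_V_BI (ic_LC_BI a) _

theorem ic_F_top (a : ℝ) {π : List (ℝ × ℝ)} {j : ℕ} (hj : π.length ≤ j) : icF a π j = scLC a := by
  unfold icF; rw [List.drop_eq_nil_of_le hj]; rfl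

theorem ic_drop_cons {π : List (ℝ × ℝ)} {j : ℕ} (hj : j < π.length) (a : ℝ) :
    π.drop j = (icMs a π j, icVr π j) :: π.drop (j + 1) := by
  rw [List.drop_eq_getElem_cons hj]
  simp [icMs, icVr, List.getElem?_eq_getElem hj]

theorem ic_F_succ (a : ℝ) {π : List (ℝ × ℝ)} {j : ℕ} (hj : j < π.length) :
    icF a π j = scStep (icMs a π j) (icVr π j) (icF a π (j + 1)) := by
  unfold icF; rw [ic_drop_cons hj a]; rfl

theorem ic_E_of_le (a : ℝ) (π : List (ℝ × ℝ)) {i j : ℕ} (h : j ≤ i) (φ : ℝ → ℝ) : icE a π i j φ = φ := by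
  unfold icE
  rw [List.drop_eq_nil_of_le (by rw [List.length_take]; omega)]; rfl

theorem ic_E_self (a : ℝ) (π : List (ℝ × ℝ)) (i : ℕ) (φ : ℝ → ℝ) : icE a π i i φ = φ := ic_E_of_le a π le_rfl φ

theorem ic_E_top (a : ℝ) {π : List (ℝ × ℝ)} (i : ℕ) {j : ℕ} (hj : π.length ≤ j) (φ : ℝ → ℝ) :
    icE a π i j φ = icE a π i π.length φ := by
  unfold icE
  rw [ic_F_top a hj, ic_F_top a le_rfl, List.take_of_length_le hj, List.take_length]

theorem ic_seg_append (π : List (ℝ × ℝ)) {i j k : ℕ} (hij : i ≤ j) (hjk : j ≤ k) :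
    (π.take k).drop i = (π.take j).drop i ++ (π.take k).drop j := by
  have h1 : π.take k = π.take j ++ (π.take k).drop j := by
    conv_lhs => rw [← List.take_append_drop j (π.take k)]
    rw [List.take_take, min_eq_left hjk]
  conv_lhs => rw [h1]
  rw [List.drop_append]
  have : i - (π.take j).length = 0 ∨ (π.take j).drop i = [] ∧ π.length ≤ i := by
    rw [List.length_take]
    rcases le_total j π.length with h | h
    · left; omega
    · rcases le_total i π.length with h' | h'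
      · left; omega
      · right; exact ⟨List.drop_eq_nil_of_le (by rw [List.length_take]; omega), h'⟩
  rcases this with h | ⟨_, h2⟩
  · rw [h]; rfl
  · have e1 : (π.take k).drop j = [] := List.drop_eq_nil_of_le (by rw [List.length_take]; omega)
    rw [e1]; simp

theorem ic_F_seg (a : ℝ) (π : List (ℝ × ℝ)) {j k : ℕ} (hjk : j ≤ k) : scV (icF a π k) ((π.take k).drop j) = icF a π j := by
  unfold icF
  rw [← sc_V_append]
  congr 1
  have h1 : π.drop j = ((π.take k) ++ π.drop k).drop j := by rw [List.take_append_drop]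
  rw [h1, List.drop_append]
  congr 1
  rw [List.length_take]
  rcases le_total k π.length with h | h
  · rw [min_eq_left h, Nat.sub_eq_zero_of_le hjk]; rfl
  · rw [List.drop_eq_nil_of_le h]; simp

/-- TOWER -/
theorem ic_E_tower (a : ℝ) (π : List (ℝ × ℝ)) {i j k : ℕ} (hij : i ≤ j) (hjk : j ≤ k) (φ : ℝ → ℝ) :
    icE a π i j (icE a π j k φ) = icE a π i k φ := by
  unfold icE
  rw [ic_seg_append π hij hjk, sc_P_append, ic_F_seg a π hjk]

/-- one step -/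
theorem ic_E_step (a : ℝ) {π : List (ℝ × ℝ)} {j : ℕ} (hj : j < π.length) (φ : ℝ → ℝ) :
    icE a π j (j + 1) φ = icT a π j φ := by
  unfold icE icT
  have : (π.take (j + 1)).drop j = [(icMs a π j, icVr π j)] := by
    rw [List.drop_take, ic_drop_cons hj a]
    simp
  rw [this]; rfl

theorem ic_E_succ (a : ℝ) {π : List (ℝ × ℝ)} {i j : ℕ} (hij : i < j) (hi : i < π.length) (φ : ℝ → ℝ) :
    icE a π i j φ = icT a π i (icE a π (i + 1) j φ) := by
  rw [← ic_E_step a hi, ic_E_tower a π (Nat.le_succ i) hij]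

theorem ic_E_succ' (a : ℝ) {π : List (ℝ × ℝ)} {i j : ℕ} (hij : i ≤ j) (hj : j < π.length) (φ : ℝ → ℝ) :
    icE a π i (j + 1) φ = icE a π i j (icT a π j φ) := by
  rw [← ic_E_step a hj, ic_E_tower a π hij (Nat.le_succ j)]

theorem ic_E_const (a : ℝ) (π : List (ℝ × ℝ)) (i j : ℕ) (c : ℝ) : icE a π i j (fun _ => c) = fun _ => c :=
  ic_P_const (ic_F_BI a π j) _ c

theorem ic_E_add (a : ℝ) (π : List (ℝ × ℝ)) (i j : ℕ) {φ ψ : ℝ → ℝ} (hφ : ScE 0 φ) (hψ : ScE 0 ψ) :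
    icE a π i j (fun z => φ z + ψ z) = fun z => icE a π i j φ z + icE a π i j ψ z :=
  ic_P_add (ic_F_BI a π j) hφ hψ _

theorem ic_E_sub (a : ℝ) (π : List (ℝ × ℝ)) (i j : ℕ) {φ ψ : ℝ → ℝ} (hφ : ScE 0 φ) (hψ : ScE 0 ψ) :
    icE a π i j (fun z => φ z - ψ z) = fun z => icE a π i j φ z - icE a π i j ψ z :=
  ic_P_sub (ic_F_BI a π j) hφ hψ _

theorem ic_E_const_mul (a : ℝ) (π : List (ℝ × ℝ)) (i j : ℕ) (c : ℝ) (φ : ℝ → ℝ) :
    icE a π i j (fun z => c * φ z) = fun z => c * icE a π i j φ z :=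
  ic_P_const_mul _ φ _ c

theorem ic_E_mono (a : ℝ) (π : List (ℝ × ℝ)) (i j : ℕ) {φ ψ : ℝ → ℝ} (hφ : ScE 0 φ) (hψ : ScE 0 ψ) (h : ∀ z, φ z ≤ ψ z)
    (z : ℝ) : icE a π i j φ z ≤ icE a π i j ψ z :=
  ic_P_mono (ic_F_BI a π j) hφ hψ h _ z

theorem ic_E_nonneg (a : ℝ) (π : List (ℝ × ℝ)) (i j : ℕ) {φ : ℝ → ℝ} (hφ : ScE 0 φ) (h : ∀ z, 0 ≤ φ z) (z : ℝ) :
    0 ≤ icE a π i j φ z := by
  have := ic_E_mono a π i j (ScE.const 0 0) hφ h z
  rwa [ic_E_const] at this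

theorem ic_E_E (a : ℝ) (π : List (ℝ × ℝ)) (i j : ℕ) {n : ℕ} {φ : ℝ → ℝ} (hφ : ScE n φ) : ScE n (icE a π i j φ) :=
  sc_P_E (ic_F_BI a π j) hφ _

theorem ic_E_Bd (a : ℝ) (π : List (ℝ × ℝ)) (i j : ℕ) {n : ℕ} {φ : ℝ → ℝ} (hφ : ScBd n φ) : ScBd n (icE a π i j φ) :=
  ic_P_Bd (ic_F_BI a π j) hφ _

theorem ic_E_abs_le (a : ℝ) (π : List (ℝ × ℝ)) (i j : ℕ) {φ : ℝ → ℝ} (hφ : Continuous φ) {C : ℝ} (h : ∀ z, |φ z| ≤ C)
    (z : ℝ) : |icE a π i j φ z| ≤ C :=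
  ic_P_abs_le (ic_F_BI a π j) hφ h _ z

/-! ### the magnetisation martingale -/

theorem ic_M_Bd (a : ℝ) (π : List (ℝ × ℝ)) (j n : ℕ) : ScBd n (icM a π j) := (ic_F_BI a π j (n + 1)).deriv_bd

theorem ic_X_Bd (a : ℝ) (π : List (ℝ × ℝ)) (j n : ℕ) : ScBd n (icX a π j) := (ic_M_Bd a π j (n + 1)).deriv

/-- MARTINGALE: `E_i m_j = m_i` -/
theorem ic_M_mart (a : ℝ) (π : List (ℝ × ℝ)) {i j : ℕ} (hij : i ≤ j) : icE a π i j (icM a π j) = icM a π i := by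
  unfold icE icM
  rw [← sc_V_deriv (ic_F_BI a π j), ic_F_seg a π hij]

/-! ### the terminal datum -/

theorem ic_LC_hasDerivAt {a : ℝ} (ha : a ≠ 0) (z : ℝ) : HasDerivAt (scLC a) (Real.tanh (a * z)) z := by
  have h1 : HasDerivAt (fun z : ℝ => a * z) a z := by simpa using (hasDerivAt_id z).const_mul a
  have h2 : HasDerivAt (fun z : ℝ => Real.cosh (a * z)) (Real.sinh (a * z) * a) z := (Real.hasDerivAt_cosh (a * z)).comp z h1
  have h3 := (h2.log (Real.cosh_pos _).ne').const_mul a⁻¹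
  refine h3.congr_deriv ?_
  rw [Real.tanh_eq_sinh_div_cosh]
  field_simp

theorem ic_M_top {a : ℝ} (ha : a ≠ 0) {π : List (ℝ × ℝ)} {j : ℕ} (hj : π.length ≤ j) :
    icM a π j = fun z => Real.tanh (a * z) := by
  unfold icM; rw [ic_F_top a hj]
  exact funext fun z => (ic_LC_hasDerivAt ha z).deriv

/-- `χ_N = a (1 - m_N²)` -/
theorem ic_X_top {a : ℝ} (ha : a ≠ 0) {π : List (ℝ × ℝ)} {j : ℕ} (hj : π.length ≤ j) (z : ℝ) :
    icX a π j z = a * (1 - icM a π j z ^ 2) := by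
  have e : icX a π j = deriv (icM a π j) := rfl
  rw [e, ic_M_top ha hj]
  have h1 : HasDerivAt (fun z : ℝ => a * z) a z := by simpa using (hasDerivAt_id z).const_mul a
  have h2 : HasDerivAt (fun z : ℝ => Real.tanh (a * z)) ((1 - Real.tanh (a * z) ^ 2) * a) z :=
    (sc_hasDerivAt_tanh (a * z)).comp z h1
  rw [h2.deriv]; ring

theorem ic_tanh_abs_le (x : ℝ) : |Real.tanh x| ≤ 1 := by
  rw [abs_le]
  exact ⟨(Real.neg_one_lt_tanh x).le, (Real.tanh_lt_one x).le⟩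

/-- `|m_j| ≤ 1` -/
theorem ic_M_abs_le {a : ℝ} (ha : a ≠ 0) (π : List (ℝ × ℝ)) (j : ℕ) (z : ℝ) : |icM a π j z| ≤ 1 := by
  rw [← ic_M_mart a π (le_max_left j π.length)]
  refine ic_E_abs_le a π _ _ (ic_M_Bd a π _ 0).2 (fun y => ?_) z
  rw [ic_M_top ha (le_max_right j π.length)]
  exact ic_tanh_abs_le _

theorem ic_M_sq_le {a : ℝ} (ha : a ≠ 0) (π : List (ℝ × ℝ)) (j : ℕ) (z : ℝ) : icM a π j z ^ 2 ≤ 1 := by
  have := ic_M_abs_le ha π j z
  rw [← sq_abs]; nlinarith [abs_nonneg (icM a π j z)]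

/-- `χ_j = T_j χ_(j+1) + ms_j Var_j(m_(j+1))` -/
theorem ic_X_succ (a : ℝ) {π : List (ℝ × ℝ)} {j : ℕ} (hj : j < π.length) (z : ℝ) :
    icX a π j z = icT a π j (icX a π (j + 1)) z + icMs a π j * icCov a π j (icM a π (j + 1)) (icM a π (j + 1)) z := by
  unfold icX icCov icT icM
  rw [ic_F_succ a hj, sc_step_deriv2 (ic_F_BI a π (j + 1) 2)]
  have : (fun y => deriv (icF a π (j + 1)) y * deriv (icF a π (j + 1)) y) = fun y => deriv (icF a π (j + 1)) y ^ 2 := by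
    funext y; ring
  rw [this]; ring

/-! ### parity -/

theorem ic_F_even (a : ℝ) (π : List (ℝ × ℝ)) (j : ℕ) (z : ℝ) : icF a π j (-z) = icF a π j z :=
  sc_V_even (fun z => by unfold scLC; rw [mul_neg, Real.cosh_neg]) _ z

theorem ic_P_even {F φ : ℝ → ℝ} (h : ∀ z, F (-z) = F z) (hφ : ∀ z, φ (-z) = φ z) (π : List (ℝ × ℝ)) (z : ℝ) :
    scP F π φ (-z) = scP F π φ z := by
  induction π generalizing z with
  | nil => exact hφ z
  | cons p π ih => exact sc_tr_even (sc_V_even h π) ih p.1 p.2 z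

theorem ic_P_odd {F φ : ℝ → ℝ} (h : ∀ z, F (-z) = F z) (hφ : ∀ z, φ (-z) = - φ z) (π : List (ℝ × ℝ)) (z : ℝ) :
    scP F π φ (-z) = - scP F π φ z := by
  induction π generalizing z with
  | nil => exact hφ z
  | cons p π ih => exact sc_tr_odd (sc_V_even h π) ih p.1 p.2 z

theorem ic_E_even (a : ℝ) (π : List (ℝ × ℝ)) (i j : ℕ) {φ : ℝ → ℝ} (hφ : ∀ z, φ (-z) = φ z) (z : ℝ) :
    icE a π i j φ (-z) = icE a π i j φ z := ic_P_even (ic_F_even a π j) hφ _ z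

theorem ic_E_odd (a : ℝ) (π : List (ℝ × ℝ)) (i j : ℕ) {φ : ℝ → ℝ} (hφ : ∀ z, φ (-z) = - φ z) (z : ℝ) :
    icE a π i j φ (-z) = - icE a π i j φ z := ic_P_odd (ic_F_even a π j) hφ _ z

theorem ic_M_odd {a : ℝ} (ha : a ≠ 0) (π : List (ℝ × ℝ)) (j : ℕ) (z : ℝ) : icM a π j (-z) = - icM a π j z := by
  rw [← ic_M_mart a π (le_max_left j π.length)]
  refine ic_E_odd a π _ _ (fun y => ?_) z
  rw [ic_M_top ha (le_max_right j π.length)]
  simp only [mul_neg, Real.tanh_neg]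

/-- `m_j(0) = 0` -/
theorem ic_M_zero {a : ℝ} (ha : a ≠ 0) (π : List (ℝ × ℝ)) (j : ℕ) : icM a π j 0 = 0 := by
  have := ic_M_odd ha π j 0
  rw [neg_zero] at this
  linarith

/-! ### `mh²` and `E_j mh_i²` -/

theorem ic_S_of_le (a : ℝ) {π : List (ℝ × ℝ)} {i : ℕ} (h : i ≤ π.length) : icS a π i = fun z => icM a π i z ^ 2 := if_pos h

theorem ic_S_of_lt (a : ℝ) {π : List (ℝ × ℝ)} {i : ℕ} (h : π.length < i) : icS a π i = fun _ => 1 := if_neg (by omega)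

theorem ic_S_Bd (a : ℝ) (π : List (ℝ × ℝ)) (i n : ℕ) : ScBd n (icS a π i) := by
  by_cases h : i ≤ π.length
  · rw [ic_S_of_le a h]; exact (ic_M_Bd a π i n).pow 2
  · rw [ic_S_of_lt a (by omega)]; exact ScBd.const n 1

theorem ic_S_nonneg (a : ℝ) (π : List (ℝ × ℝ)) (i : ℕ) (z : ℝ) : 0 ≤ icS a π i z := by
  by_cases h : i ≤ π.length
  · rw [ic_S_of_le a h]; positivity
  · rw [ic_S_of_lt a (by omega)]; exact zero_le_one

theorem ic_S_le_one {a : ℝ} (ha : a ≠ 0) (π : List (ℝ × ℝ)) (i : ℕ) (z : ℝ) : icS a π i z ≤ 1 := by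
  by_cases h : i ≤ π.length
  · rw [ic_S_of_le a h]; exact ic_M_sq_le ha π i z
  · rw [ic_S_of_lt a (by omega)]

theorem ic_Q_Bd (a : ℝ) (π : List (ℝ × ℝ)) (j i n : ℕ) : ScBd n (icQ a π j i) := ic_E_Bd a π j i (ic_S_Bd a π i n)

theorem ic_Q_of_le (a : ℝ) (π : List (ℝ × ℝ)) {j i : ℕ} (h : i ≤ j) : icQ a π j i = icS a π i := ic_E_of_le a π h _

theorem ic_Q_self (a : ℝ) (π : List (ℝ × ℝ)) (i : ℕ) : icQ a π i i = icS a π i := ic_Q_of_le a π le_rfl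

theorem ic_Q_top (a : ℝ) {π : List (ℝ × ℝ)} (j : ℕ) {i : ℕ} (h : π.length < i) : icQ a π j i = fun _ => 1 := by
  unfold icQ; rw [ic_S_of_lt a h, ic_E_const]

theorem ic_Q_tower (a : ℝ) (π : List (ℝ × ℝ)) {k j i : ℕ} (hkj : k ≤ j) (hji : j ≤ i) :
    icE a π k j (icQ a π j i) = icQ a π k i := ic_E_tower a π hkj hji _

theorem ic_Q_nonneg (a : ℝ) (π : List (ℝ × ℝ)) (j i : ℕ) (z : ℝ) : 0 ≤ icQ a π j i z :=
  ic_E_nonneg a π j i (ic_S_Bd a π i 0).scE (ic_S_nonneg a π i) z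

theorem ic_Q_le_one {a : ℝ} (ha : a ≠ 0) (π : List (ℝ × ℝ)) (j i : ℕ) (z : ℝ) : icQ a π j i z ≤ 1 := by
  have := ic_E_mono a π j i (ic_S_Bd a π i 0).scE (ScE.const 0 1) (ic_S_le_one ha π i) z
  rwa [ic_E_const] at this

theorem ic_Q_root (a : ℝ) (π : List (ℝ × ℝ)) (r : ℕ) : icQ a π 0 r 0 = icq a π r := rfl

end Claimed.Agent.R286
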