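import Mathlib

/-!
# Row 286 (S0533), LL Section 5: VIRTUAL SETS OF REAL CARDINALITY      (head: helper84)

The signed replica sums at real masses (PE Prop 2.5, Lemma 2.6; `Defs/Plc.lean`) are MODELLED by honest linear functionals:
for `f : ℕ → ℝ` which is constant (`= c`) off a finite set `A`,
      `vcI ρ f = (ρ - |A|) c + ∑ y ∈ A, f y`         ("sum of `f` over a set with `ρ` elements").
A leaf of the hierarchy is a word `(y_0, .., y_R)` of child indices; a configuration `x : VcX = ℕ × ℕ → ℕ` gives the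
child index `x (a, j)` of the label `a` at the level `j`.   Summation of a label over its block = iterated `vcI`
with `ρ_j = p_j / p_(j+1)`.   This reproduces exactly the real-power weights `p_j - occ * p_(j+1)`.
ORDER SYMMETRY = Fubini (`vc_U_comm`), ROW SUM = `vc_I_const`.

`VcT F` ("tame"): `F` depends on finitely many coordinates and is invariant under level-wise permutations of the child indices.
-/

set_option autoImplicit false

namespace Claimed.Agent.R286

open Finset

/-! ## 1. one virtual sum -/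

/-- `f = c` off the finite set `A` -/
def VcOff (A : Finset ℕ) (c : ℝ) (f : ℕ → ℝ) : Prop := ∀ y, y ∉ A → f y = c

/-- the generic value of a cofinitely constant function (`0` for the others) -/
noncomputable def vcLim (f : ℕ → ℝ) : ℝ := by
  classical exact if h : ∃ c : ℝ, ∃ A : Finset ℕ, VcOff A c f then h.choose else 0

/-- the sum of `f` over a virtual set with `ρ` elements -/
noncomputable def vcI (ρ : ℝ) (f : ℕ → ℝ) : ℝ := ρ * vcLim f + ∑ᶠ y, (f y - vcLim f)

theorem vc_off_unique {A A' : Finset ℕ} {c c' : ℝ} {f : ℕ → ℝ} (h : VcOff A c f) (h' : VcOff A' c' f) : c = c' := by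
  obtain ⟨y, hy⟩ := Infinite.exists_notMem_finset (A ∪ A')
  rw [Finset.mem_union, not_or] at hy
  rw [← h y hy.1, ← h' y hy.2]

theorem vc_lim_eq {A : Finset ℕ} {c : ℝ} {f : ℕ → ℝ} (h : VcOff A c f) : vcLim f = c := by
  classical
  have hex : ∃ c : ℝ, ∃ A : Finset ℕ, VcOff A c f := ⟨c, A, h⟩
  unfold vcLim
  rw [dif_pos hex]
  obtain ⟨A', hA'⟩ := hex.choose_spec
  exact vc_off_unique hA' h

/-- THE evaluation formula -/
theorem vc_I_eq {A : Finset ℕ} {c : ℝ} {f : ℕ → ℝ} (h : VcOff A c f) (ρ : ℝ) :
    vcI ρ f = (ρ - A.card) * c + ∑ y ∈ A, f y := by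
  unfold vcI
  rw [vc_lim_eq h]
  have hs : (Function.support fun y => f y - c) ⊆ ↑A := by
    intro y hy
    by_contra hyA
    exact hy (by simp [h y hyA])
  rw [finsum_eq_sum_of_support_subset _ hs, Finset.sum_sub_distrib]
  simp
  ring

theorem VcOff.mono {A A' : Finset ℕ} {c : ℝ} {f : ℕ → ℝ} (h : VcOff A c f) (hA : A ⊆ A') : VcOff A' c f :=
  fun y hy => h y fun hy' => hy (hA hy')

theorem vc_I_const (ρ c : ℝ) : vcI ρ (fun _ => c) = ρ * c := by
  have h : VcOff ∅ c (fun _ => c) := fun _ _ => rfl
  rw [vc_I_eq h]; simp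

theorem vc_I_add {A A' : Finset ℕ} {c c' : ℝ} {f f' : ℕ → ℝ} (h : VcOff A c f) (h' : VcOff A' c' f') (ρ : ℝ) :
    vcI ρ (fun y => f y + f' y) = vcI ρ f + vcI ρ f' := by
  classical
  have h1 := h.mono (Finset.subset_union_left (s₂ := A'))
  have h2 := h'.mono (Finset.subset_union_right (s₁ := A))
  have h3 : VcOff (A ∪ A') (c + c') (fun y => f y + f' y) := fun y hy => by
    show f y + f' y = c + c'
    rw [h1 y hy, h2 y hy]
  rw [vc_I_eq h1, vc_I_eq h2, vc_I_eq h3, Finset.sum_add_distrib]; ring

theorem vc_I_const_mul {A : Finset ℕ} {c : ℝ} {f : ℕ → ℝ} (h : VcOff A c f) (ρ k : ℝ) :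
    vcI ρ (fun y => k * f y) = k * vcI ρ f := by
  have h3 : VcOff A (k * c) (fun y => k * f y) := fun y hy => by
    show k * f y = k * c
    rw [h y hy]
  rw [vc_I_eq h, vc_I_eq h3, ← Finset.mul_sum]; ring

/-- a Kronecker delta has mass one -/
theorem vc_I_delta (ρ : ℝ) (a : ℕ) (f : ℕ → ℝ) : vcI ρ (fun y => if y = a then f y else 0) = f a := by
  have h : VcOff {a} 0 (fun y => if y = a then f y else 0) := fun y hy => by
    rw [Finset.mem_singleton] at hy; simp [hy]
  rw [vc_I_eq h]; simp

theorem vc_I_congr {f f' : ℕ → ℝ} (h : ∀ y, f y = f' y) (ρ : ℝ) : vcI ρ f = vcI ρ f' := by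
  rw [funext h]

/-- invariance under a permutation of the virtual set -/
theorem vc_I_perm {A : Finset ℕ} {c : ℝ} {f : ℕ → ℝ} (h : VcOff A c f) (π : Equiv.Perm ℕ) (ρ : ℝ) :
    vcI ρ (fun y => f (π y)) = vcI ρ f := by
  classical
  have h' : VcOff (A.map π.symm.toEmbedding) c (fun y => f (π y)) := by
    intro y hy
    apply h
    intro hmem
    apply hy
    rw [Finset.mem_map]
    exact ⟨π y, hmem, by simp⟩
  rw [vc_I_eq h, vc_I_eq h', Finset.card_map, Finset.sum_map]
  simp

theorem vc_I_abs_le {A : Finset ℕ} {c : ℝ} {f : ℕ → ℝ} (h : VcOff A c f) (ρ : ℝ) :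
    |vcI ρ f| ≤ |ρ - A.card| * |c| + ∑ y ∈ A, |f y| := by
  rw [vc_I_eq h]
  refine (abs_add_le _ _).trans ?_
  rw [abs_mul]
  exact add_le_add le_rfl (Finset.abs_sum_le_sum_abs _ _)


/-! ## 2. configurations, tame functions, integration of one coordinate -/

/-- configurations: `x (a, j)` = child index of the label `a` at the level `j` -/
abbrev VcX : Type := ℕ × ℕ → ℕ

/-- level-wise action of permutations of the child indices -/
def vcAct (π : ℕ → Equiv.Perm ℕ) (x : VcX) : VcX := fun i => π i.2 (x i)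

/-- `F` depends only on the coordinates in `W` -/
def VcDep (W : Finset (ℕ × ℕ)) (F : VcX → ℝ) : Prop := ∀ x x' : VcX, (∀ i ∈ W, x i = x' i) → F x = F x'

/-- `F` does not depend on the coordinate `i` -/
def VcInd (i : ℕ × ℕ) (F : VcX → ℝ) : Prop := ∀ (x : VcX) (y : ℕ), F (Function.update x i y) = F x

/-- TAME: finitely many coordinates, invariant under level-wise permutations -/
structure VcT (F : VcX → ℝ) : Prop where
  fin : ∃ W : Finset (ℕ × ℕ), VcDep W F
  inv : ∀ (π : ℕ → Equiv.Perm ℕ) (x : VcX), F (vcAct π x) = F x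

/-- integration of the coordinate `i`; the cardinality `ρ i.2` depends on the LEVEL only -/
noncomputable def vcU (ρ : ℕ → ℝ) (i : ℕ × ℕ) (F : VcX → ℝ) : VcX → ℝ :=
  fun x => vcI (ρ i.2) fun y => F (Function.update x i y)

/-! ### closure properties of `VcT` (owner: see the board) -/

theorem VcT.const (c : ℝ) : VcT (fun _ => c) := ⟨⟨∅, fun _ _ _ => rfl⟩, fun _ _ => rfl⟩

/-- any pointwise operation -/
theorem VcT.comp2 {F G : VcX → ℝ} (hF : VcT F) (hG : VcT G) (φ : ℝ → ℝ → ℝ) : VcT (fun x => φ (F x) (G x)) := by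
  classical
  obtain ⟨W, hW⟩ := hF.fin
  obtain ⟨W', hW'⟩ := hG.fin
  refine ⟨⟨W ∪ W', fun x x' h => ?_⟩, fun π x => ?_⟩
  · show φ (F x) (G x) = φ (F x') (G x')
    rw [hW x x' fun i hi => h i (Finset.mem_union_left _ hi), hW' x x' fun i hi => h i (Finset.mem_union_right _ hi)]
  · show φ (F (vcAct π x)) (G (vcAct π x)) = φ (F x) (G x)
    rw [hF.inv, hG.inv]

theorem VcT.comp1 {F : VcX → ℝ} (hF : VcT F) (φ : ℝ → ℝ) : VcT (fun x => φ (F x)) :=
  hF.comp2 hF fun a _ => φ a

theorem VcT.add {F G : VcX → ℝ} (hF : VcT F) (hG : VcT G) : VcT (fun x => F x + G x) := hF.comp2 hG (· + ·)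
theorem VcT.sub {F G : VcX → ℝ} (hF : VcT F) (hG : VcT G) : VcT (fun x => F x - G x) := hF.comp2 hG (· - ·)
theorem VcT.mul {F G : VcX → ℝ} (hF : VcT F) (hG : VcT G) : VcT (fun x => F x * G x) := hF.comp2 hG (· * ·)
theorem VcT.neg {F : VcX → ℝ} (hF : VcT F) : VcT (fun x => - F x) := hF.comp1 (- ·)
theorem VcT.const_mul {F : VcX → ℝ} (hF : VcT F) (c : ℝ) : VcT (fun x => c * F x) := hF.comp1 (c * ·)

theorem VcT.sum {α : Type} (s : Finset α) {F : α → VcX → ℝ} (hF : ∀ k ∈ s, VcT (F k)) : VcT (fun x => ∑ k ∈ s, F k x) := by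
  classical
  induction s using Finset.induction_on with
  | empty => simpa using VcT.const 0
  | insert a s ha ih =>
    simp only [Finset.sum_insert ha]
    exact (hF a (Finset.mem_insert_self _ _)).add (ih fun k hk => hF k (Finset.mem_insert_of_mem hk))

/-- a function of an equality test between two coordinates of the SAME level -/
theorem VcT.eqTest (a b j : ℕ) (u v : ℝ) : VcT (fun x : VcX => if x (a, j) = x (b, j) then u else v) := by
  classical
  refine ⟨⟨{(a, j), (b, j)}, fun x x' h => ?_⟩, fun π x => ?_⟩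
  · show (if x (a, j) = x (b, j) then u else v) = if x' (a, j) = x' (b, j) then u else v
    rw [h (a, j) (by simp), h (b, j) (by simp)]
  · show (if π j (x (a, j)) = π j (x (b, j)) then u else v) = if x (a, j) = x (b, j) then u else v
    simp only [EmbeddingLike.apply_eq_iff_eq]

/-- relabelling: `e` maps labels to labels -/
def vcRel (e : ℕ → ℕ) (x : VcX) : VcX := fun i => x (e i.1, i.2)

theorem VcT.rel {F : VcX → ℝ} (hF : VcT F) (e : ℕ → ℕ) : VcT (fun x => F (vcRel e x)) := by
  classical
  obtain ⟨W, hW⟩ := hF.fin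
  refine ⟨⟨W.image fun i => (e i.1, i.2), fun x x' h => ?_⟩, fun π x => ?_⟩
  · exact hW _ _ fun i hi => h (e i.1, i.2) (Finset.mem_image_of_mem (fun i : ℕ × ℕ => (e i.1, i.2)) hi)
  · exact hF.inv π (vcRel e x)

/-- precise form: if `F` depends only on `W`, the slice is constant off the values of `x` at the coordinates of `W` of the same level -/
theorem VcT.off' {F : VcX → ℝ} (hF : VcT F) {W : Finset (ℕ × ℕ)} (hW : VcDep W F) (i : ℕ × ℕ) (x : VcX) :
    ∃ c : ℝ, VcOff (((W.erase i).filter fun k => k.2 = i.2).image x) c fun y => F (Function.update x i y) := by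
  classical
  set A : Finset ℕ := ((W.erase i).filter fun k => k.2 = i.2).image x with hA
  obtain ⟨y₀, hy₀⟩ := Infinite.exists_notMem_finset A
  refine ⟨F (Function.update x i y₀), fun y hy => ?_⟩
  show F (Function.update x i y) = F (Function.update x i y₀)
  rw [← hF.inv (fun l => if l = i.2 then Equiv.swap y y₀ else 1) (Function.update x i y)]
  refine hW _ _ fun k hk => ?_
  by_cases hki : k = i
  · subst hki
    simp [vcAct]
  · rw [Function.update_of_ne hki]
    show (if k.2 = i.2 then Equiv.swap y y₀ else 1) (Function.update x i y k) = x k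
    rw [Function.update_of_ne hki]
    by_cases hl : k.2 = i.2
    · rw [if_pos hl]
      have hmem : x k ∈ A := by
        rw [hA]
        exact Finset.mem_image_of_mem x (Finset.mem_filter.2 ⟨Finset.mem_erase.2 ⟨hki, hk⟩, hl⟩)
      exact Equiv.swap_apply_of_ne_of_ne (fun h => hy (h ▸ hmem)) (fun h => hy₀ (h ▸ hmem))
    · rw [if_neg hl]
      rfl

/-- the slices of a tame function are cofinitely constant -/
theorem VcT.off {F : VcX → ℝ} (hF : VcT F) (i : ℕ × ℕ) (x : VcX) :
    ∃ (A : Finset ℕ) (c : ℝ), VcOff A c fun y => F (Function.update x i y) := by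
  classical
  obtain ⟨W, hW⟩ := hF.fin
  obtain ⟨c, hc⟩ := hF.off' hW i x
  exact ⟨_, c, hc⟩

theorem VcT.U {F : VcX → ℝ} (hF : VcT F) (ρ : ℕ → ℝ) (i : ℕ × ℕ) : VcT (vcU ρ i F) := by
  classical
  obtain ⟨W, hW⟩ := hF.fin
  refine ⟨⟨W.erase i, fun x x' h => ?_⟩, fun π x => ?_⟩
  · unfold vcU
    refine vc_I_congr (fun y => hW _ _ fun k hk => ?_) _
    by_cases hki : k = i
    · subst hki
      simp
    · rw [Function.update_of_ne hki, Function.update_of_ne hki]
      exact h k (Finset.mem_erase.2 ⟨hki, hk⟩)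
  · obtain ⟨A, c, h⟩ := hF.off i x
    unfold vcU
    rw [← vc_I_perm h (π i.2).symm]
    refine vc_I_congr (fun y => ?_) _
    rw [← hF.inv π (Function.update x i ((π i.2).symm y))]
    congr 1
    funext k
    by_cases hki : k = i
    · subst hki
      simp [vcAct]
    · simp [vcAct, Function.update_of_ne hki]

/-! ### calculus of `vcU` -/

theorem vc_U_ind (ρ : ℕ → ℝ) (i : ℕ × ℕ) (F : VcX → ℝ) : VcInd i (vcU ρ i F) := by
  intro x y
  unfold vcU
  simp only [Function.update_idem]

theorem vc_U_of_ind {F : VcX → ℝ} {i : ℕ × ℕ} (h : VcInd i F) (ρ : ℕ → ℝ) : vcU ρ i F = fun x => ρ i.2 * F x := by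
  funext x
  unfold vcU
  simp only [h x]
  exact vc_I_const _ _

theorem vc_U_add {F G : VcX → ℝ} (hF : VcT F) (hG : VcT G) (ρ : ℕ → ℝ) (i : ℕ × ℕ) :
    vcU ρ i (fun x => F x + G x) = fun x => vcU ρ i F x + vcU ρ i G x := by
  funext x
  obtain ⟨A, c, h⟩ := hF.off i x
  obtain ⟨A', c', h'⟩ := hG.off i x
  exact vc_I_add h h' _

theorem vc_U_sub {F G : VcX → ℝ} (hF : VcT F) (hG : VcT G) (ρ : ℕ → ℝ) (i : ℕ × ℕ) :
    vcU ρ i (fun x => F x - G x) = fun x => vcU ρ i F x - vcU ρ i G x := by
  funext x
  obtain ⟨A, c, h⟩ := hF.off i x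
  obtain ⟨A', c', h'⟩ := hG.off i x
  have hn : VcOff A' (-1 * c') (fun y => -1 * G (Function.update x i y)) := fun y hy => by
    show -1 * G (Function.update x i y) = -1 * c'
    have := h' y hy
    simp only at this
    rw [this]
  have e1 := vc_I_add h hn (ρ i.2)
  have e2 := vc_I_const_mul h' (ρ i.2) (-1)
  have e3 : (fun y => F (Function.update x i y) - G (Function.update x i y))
      = fun y => F (Function.update x i y) + -1 * G (Function.update x i y) := by
    funext y; ring
  show vcI (ρ i.2) (fun y => F (Function.update x i y) - G (Function.update x i y))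
    = vcI (ρ i.2) (fun y => F (Function.update x i y)) - vcI (ρ i.2) (fun y => G (Function.update x i y))
  rw [e3, e1, e2]; ring

theorem vc_U_sum {α : Type} (s : Finset α) {F : α → VcX → ℝ} (hF : ∀ k ∈ s, VcT (F k)) (ρ : ℕ → ℝ) (i : ℕ × ℕ) :
    vcU ρ i (fun x => ∑ k ∈ s, F k x) = fun x => ∑ k ∈ s, vcU ρ i (F k) x := by
  classical
  induction s using Finset.induction_on with
  | empty =>
    funext x
    simp only [Finset.sum_empty]
    show vcI (ρ i.2) (fun _ => (0 : ℝ)) = 0
    rw [vc_I_const, mul_zero]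
  | insert a s ha ih =>
    simp only [Finset.sum_insert ha]
    rw [vc_U_add (hF a (Finset.mem_insert_self _ _)) (VcT.sum s fun k hk => hF k (Finset.mem_insert_of_mem hk)),
      ih fun k hk => hF k (Finset.mem_insert_of_mem hk)]

/-- a factor which does not depend on the coordinate comes out -/
theorem vc_U_mul_left {F G : VcX → ℝ} (hF : VcT F) {i : ℕ × ℕ} (hG : VcInd i G) (ρ : ℕ → ℝ) :
    vcU ρ i (fun x => G x * F x) = fun x => G x * vcU ρ i F x := by
  funext x
  obtain ⟨A, c, h⟩ := hF.off i x
  unfold vcU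
  simp only [hG x]
  exact vc_I_const_mul h _ _

theorem vc_U_const_mul {F : VcX → ℝ} (hF : VcT F) (ρ : ℕ → ℝ) (i : ℕ × ℕ) (c : ℝ) :
    vcU ρ i (fun x => c * F x) = fun x => c * vcU ρ i F x :=
  vc_U_mul_left (G := fun _ => c) hF (fun _ _ => rfl) ρ

/-- integration against a Kronecker delta = substitution -/
theorem vc_U_delta (ρ : ℕ → ℝ) (i k : ℕ × ℕ) (hik : i ≠ k) (F : VcX → ℝ) :
    vcU ρ i (fun x => if x i = x k then F x else 0) = fun x => F (Function.update x i (x k)) := by
  funext x
  unfold vcU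
  have : ∀ y, (if Function.update x i y i = Function.update x i y k then F (Function.update x i y) else 0)
      = if y = x k then F (Function.update x i y) else 0 := by
    intro y
    rw [Function.update_self, Function.update_of_ne hik.symm]
  simp only [this]
  exact vc_I_delta _ _ _

/-- independence is preserved -/
theorem VcInd.U {F : VcX → ℝ} {k : ℕ × ℕ} (h : VcInd k F) (ρ : ℕ → ℝ) (i : ℕ × ℕ) : VcInd k (vcU ρ i F) := by
  by_cases hki : k = i
  · rw [hki]; exact vc_U_ind ρ i F
  · intro x y
    unfold vcU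
    refine vc_I_congr (fun z => ?_) _
    rw [Function.update_comm hki y z x]
    exact h _ _

/-- Fubini for two virtual sums without diagonal (helper296) -/
theorem vc_U_comm_fub {A B : Finset ℕ} {G : ℕ → ℕ → ℝ} (hA : ∀ z, ∃ c, VcOff A c fun y => G y z) (hB : ∀ y, ∃ c, VcOff B c fun z => G y z)
    (r s : ℝ) : vcI r (fun y => vcI s fun z => G y z) = vcI s fun z => vcI r fun y => G y z := by
  obtain ⟨u, hu⟩ := Infinite.exists_notMem_finset A
  obtain ⟨v, hv⟩ := Infinite.exists_notMem_finset B
  have hA' : ∀ z, VcOff A (G u z) fun y => G y z := fun z => by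
    obtain ⟨c, hc⟩ := hA z
    have : G u z = c := hc u hu
    rw [this]; exact hc
  have hB' : ∀ y, VcOff B (G y v) fun z => G y z := fun y => by
    obtain ⟨c, hc⟩ := hB y
    have : G y v = c := hc v hv
    rw [this]; exact hc
  have e1 : (fun y => vcI s fun z => G y z) = fun y => (s - B.card) * G y v + ∑ z ∈ B, G y z := funext fun y => vc_I_eq (hB' y) s
  have e2 : (fun z => vcI r fun y => G y z) = fun z => (r - A.card) * G u z + ∑ y ∈ A, G y z := funext fun z => vc_I_eq (hA' z) r
  have o1 : VcOff A ((s - B.card) * G u v + ∑ z ∈ B, G u z) fun y => (s - B.card) * G y v + ∑ z ∈ B, G y z := by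
    intro y hy
    show (s - B.card) * G y v + ∑ z ∈ B, G y z = _
    have a1 : ∀ z, G y z = G u z := fun z => hA' z y hy
    rw [a1 v, Finset.sum_congr rfl fun z _ => a1 z]
  have o2 : VcOff B ((r - A.card) * G u v + ∑ y ∈ A, G y v) fun z => (r - A.card) * G u z + ∑ y ∈ A, G y z := by
    intro z hz
    show (r - A.card) * G u z + ∑ y ∈ A, G y z = _
    have a1 : ∀ y, G y z = G y v := fun y => hB' y z hz
    rw [a1 u, Finset.sum_congr rfl fun y _ => a1 y]
  rw [e1, e2, vc_I_eq o1, vc_I_eq o2, Finset.sum_add_distrib, Finset.sum_add_distrib, ← Finset.mul_sum, ← Finset.mul_sum,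
    Finset.sum_comm (s := A) (t := B)]
  ring

/-- Fubini for two virtual sums over the same set, with a diagonal (helper296) -/
theorem vc_U_comm_diag {A : Finset ℕ} {G : ℕ → ℕ → ℝ} {r : ℝ} (h1 : ∀ y, ∃ c, VcOff (insert y A) c fun z => G y z)
    (h2 : ∀ z, ∃ c, VcOff (insert z A) c fun y => G y z) (h3 : ∃ c, VcOff A c fun y => vcI r fun z => G y z)
    (h4 : ∃ c, VcOff A c fun z => vcI r fun y => G y z) (h5 : ∀ u v, u ∉ A → v ∉ A → G u u = G v v) :
    vcI r (fun y => vcI r fun z => G y z) = vcI r fun z => vcI r fun y => G y z := by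
  obtain ⟨u, hu⟩ := Infinite.exists_notMem_finset A
  obtain ⟨v, hv⟩ := Infinite.exists_notMem_finset (insert u A)
  have hvu : v ≠ u := fun h => hv (by rw [h]; exact Finset.mem_insert_self _ _)
  have hvA : v ∉ A := fun h => hv (Finset.mem_insert_of_mem h)
  have huv : u ∉ insert v A := by
    rw [Finset.mem_insert, not_or]
    exact ⟨fun h => hvu h.symm, hu⟩
  -- the inner sums
  have i1 : (vcI r fun z => G u z) = (r - (A.card + 1)) * G u v + (G u u + ∑ z ∈ A, G u z) := by
    obtain ⟨c, hc⟩ := h1 u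
    have : G u v = c := hc v hv
    rw [vc_I_eq hc, Finset.card_insert_of_notMem hu, Finset.sum_insert hu, this]
    push_cast
    ring
  have i2 : ∀ y ∈ A, (vcI r fun z => G y z) = (r - A.card) * G y v + ∑ z ∈ A, G y z := by
    intro y hy
    obtain ⟨c, hc⟩ := h1 y
    rw [Finset.insert_eq_of_mem hy] at hc
    have : G y v = c := hc v hvA
    rw [vc_I_eq hc, this]
  have j1 : (vcI r fun y => G y v) = (r - (A.card + 1)) * G u v + (G v v + ∑ y ∈ A, G y v) := by
    obtain ⟨c, hc⟩ := h2 v
    have : G u v = c := hc u huv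
    rw [vc_I_eq hc, Finset.card_insert_of_notMem hvA, Finset.sum_insert hvA, this]
    push_cast
    ring
  have j2 : ∀ z ∈ A, (vcI r fun y => G y z) = (r - A.card) * G u z + ∑ y ∈ A, G y z := by
    intro z hz
    obtain ⟨c, hc⟩ := h2 z
    rw [Finset.insert_eq_of_mem hz] at hc
    have : G u z = c := hc u hu
    rw [vc_I_eq hc, this]
  obtain ⟨c3, hc3⟩ := h3
  obtain ⟨c4, hc4⟩ := h4
  have k3 : (vcI r fun z => G u z) = c3 := hc3 u hu
  have k4 : (vcI r fun y => G y v) = c4 := hc4 v hvA
  rw [vc_I_eq hc3, vc_I_eq hc4, ← k3, ← k4, i1, j1, Finset.sum_congr rfl i2, Finset.sum_congr rfl j2, Finset.sum_add_distrib,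
    Finset.sum_add_distrib, ← Finset.mul_sum, ← Finset.mul_sum, Finset.sum_comm (s := A) (t := A), h5 u v hu hvA]
  ring

/-- `vcU ρ k F` depends only on `W.erase k` (helper296) -/
theorem vc_U_comm_dep {F : VcX → ℝ} {W : Finset (ℕ × ℕ)} (hW : VcDep W F) (ρ : ℕ → ℝ) (k : ℕ × ℕ) : VcDep (W.erase k) (vcU ρ k F) := by
  intro x x' h
  unfold vcU
  refine vc_I_congr (fun y => hW _ _ fun j hj => ?_) _
  by_cases hjk : j = k
  · rw [hjk, Function.update_self, Function.update_self]
  · rw [Function.update_of_ne hjk, Function.update_of_ne hjk]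
    exact h j (Finset.mem_erase.2 ⟨hjk, hj⟩)

/-- the slices in the coordinate `k` after an update of the coordinate `i` (helper296) -/
theorem vc_U_comm_slice {F : VcX → ℝ} (hF : VcT F) {W : Finset (ℕ × ℕ)} (hW : VcDep W F) (i k : ℕ × ℕ) (x : VcX) (y : ℕ) :
    ∃ c, VcOff (insert y ((((W.erase i).erase k).filter fun j => j.2 = k.2).image x)) c fun z => F (Function.update (Function.update x i y) k z) := by
  obtain ⟨c, hc⟩ := hF.off' hW k (Function.update x i y)
  refine ⟨c, hc.mono ?_⟩
  intro a ha
  obtain ⟨j, hj, rfl⟩ := Finset.mem_image.1 ha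
  rw [Finset.mem_filter, Finset.mem_erase] at hj
  by_cases hji : j = i
  · rw [hji, Function.update_self]
    exact Finset.mem_insert_self _ _
  · rw [Function.update_of_ne hji]
    refine Finset.mem_insert_of_mem (Finset.mem_image.2 ⟨j, ?_, rfl⟩)
    rw [Finset.mem_filter, Finset.mem_erase, Finset.mem_erase]
    exact ⟨⟨hj.1.1, hji, hj.1.2⟩, hj.2⟩

/-- the same for two different levels (helper296) -/
theorem vc_U_comm_slice' {F : VcX → ℝ} (hF : VcT F) {W : Finset (ℕ × ℕ)} (hW : VcDep W F) (i k : ℕ × ℕ) (h : i.2 ≠ k.2) (x : VcX) (y : ℕ) :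
    ∃ c, VcOff ((((W.erase i).erase k).filter fun j => j.2 = k.2).image x) c fun z => F (Function.update (Function.update x i y) k z) := by
  obtain ⟨c, hc⟩ := hF.off' hW k (Function.update x i y)
  refine ⟨c, hc.mono ?_⟩
  intro a ha
  obtain ⟨j, hj, rfl⟩ := Finset.mem_image.1 ha
  rw [Finset.mem_filter, Finset.mem_erase] at hj
  have hji : j ≠ i := fun e => h (by rw [← e]; exact hj.2)
  rw [Function.update_of_ne hji]
  refine Finset.mem_image.2 ⟨j, ?_, rfl⟩
  rw [Finset.mem_filter, Finset.mem_erase, Finset.mem_erase]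
  exact ⟨⟨hj.1.1, hji, hj.1.2⟩, hj.2⟩

/-- the diagonal values do not depend on the fresh index (helper296) -/
theorem vc_U_comm_swap {F : VcX → ℝ} (hF : VcT F) {W : Finset (ℕ × ℕ)} (hW : VcDep W F) (i k : ℕ × ℕ) (h : i.2 = k.2) (x : VcX) (u v : ℕ)
    (hu : u ∉ (((W.erase i).erase k).filter fun j => j.2 = k.2).image x) (hv : v ∉ (((W.erase i).erase k).filter fun j => j.2 = k.2).image x) :
    F (Function.update (Function.update x i u) k u) = F (Function.update (Function.update x i v) k v) := by
  rw [← hF.inv (fun l => if l = k.2 then Equiv.swap u v else 1) (Function.update (Function.update x i u) k u)]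
  refine hW _ _ fun j hj => ?_
  unfold vcAct
  dsimp only
  by_cases hjk : j = k
  · rw [hjk, Function.update_self, Function.update_self, if_pos rfl, Equiv.swap_apply_left]
  · rw [Function.update_of_ne hjk, Function.update_of_ne hjk]
    by_cases hji : j = i
    · rw [hji, Function.update_self, Function.update_self, if_pos h, Equiv.swap_apply_left]
    · rw [Function.update_of_ne hji, Function.update_of_ne hji]
      by_cases hl : j.2 = k.2
      · rw [if_pos hl]
        have hm : x j ∈ (((W.erase i).erase k).filter fun j => j.2 = k.2).image x := by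
          refine Finset.mem_image.2 ⟨j, ?_, rfl⟩
          rw [Finset.mem_filter, Finset.mem_erase, Finset.mem_erase]
          exact ⟨⟨hjk, hji, hj⟩, hl⟩
        exact Equiv.swap_apply_of_ne_of_ne (fun e => hu (e ▸ hm)) (fun e => hv (e ▸ hm))
      · rw [if_neg hl]
        rfl

/-- **FUBINI = ORDER SYMMETRY** -/
theorem vc_U_comm {F : VcX → ℝ} (hF : VcT F) (ρ : ℕ → ℝ) (i k : ℕ × ℕ) :
    vcU ρ i (vcU ρ k F) = vcU ρ k (vcU ρ i F) := by
  by_cases hik : i = k
  · rw [hik]
  obtain ⟨W, hW⟩ := hF.fin
  funext x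
  have hcomm : ∀ y z, Function.update (Function.update x k z) i y = Function.update (Function.update x i y) k z :=
    fun y z => (Function.update_comm hik y z x).symm
  have eL : vcU ρ i (vcU ρ k F) x = vcI (ρ i.2) fun y => vcI (ρ k.2) fun z => F (Function.update (Function.update x i y) k z) := rfl
  have eR : vcU ρ k (vcU ρ i F) x = vcI (ρ k.2) fun z => vcI (ρ i.2) fun y => F (Function.update (Function.update x i y) k z) := by
    show (vcI (ρ k.2) fun z => vcI (ρ i.2) fun y => F (Function.update (Function.update x k z) i y)) = _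
    simp only [hcomm]
  rw [eL, eR]
  by_cases hl : i.2 = k.2
  · -- the same level
    have hset : (((W.erase k).erase i).filter fun j => j.2 = i.2).image x = (((W.erase i).erase k).filter fun j => j.2 = k.2).image x := by
      rw [Finset.erase_right_comm, hl]
    rw [hl]
    have g1 : ∀ y, ∃ c, VcOff (insert y ((((W.erase i).erase k).filter fun j => j.2 = k.2).image x)) c fun z => F (Function.update (Function.update x i y) k z) :=
      fun y => vc_U_comm_slice hF hW i k x y
    have g2 : ∀ z, ∃ c, VcOff (insert z ((((W.erase i).erase k).filter fun j => j.2 = k.2).image x)) c fun y => F (Function.update (Function.update x i y) k z) := by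
      intro z
      have := vc_U_comm_slice hF hW k i x z
      rw [hset] at this
      simpa only [hcomm] using this
    have g3 : ∃ c, VcOff ((((W.erase i).erase k).filter fun j => j.2 = k.2).image x) c fun y => vcI (ρ k.2) fun z => F (Function.update (Function.update x i y) k z) := by
      have := (hF.U ρ k).off' (vc_U_comm_dep hW ρ k) i x
      rw [hset] at this
      exact this
    have g4 : ∃ c, VcOff ((((W.erase i).erase k).filter fun j => j.2 = k.2).image x) c fun z => vcI (ρ k.2) fun y => F (Function.update (Function.update x i y) k z) := by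
      obtain ⟨c, hc⟩ := (hF.U ρ i).off' (vc_U_comm_dep hW ρ i) k x
      refine ⟨c, ?_⟩
      intro z hz
      have := hc z hz
      rw [← this]
      show _ = vcI (ρ i.2) fun y => F (Function.update (Function.update x k z) i y)
      simp only [hcomm, hl]
    exact vc_U_comm_diag g1 g2 g3 g4 (fun u v hu hv => vc_U_comm_swap hF hW i k hl x u v hu hv)
  · -- two different levels
    refine vc_U_comm_fub (A := (((W.erase k).erase i).filter fun j => j.2 = i.2).image x) (B := (((W.erase i).erase k).filter fun j => j.2 = k.2).image x)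
      (G := fun y z => F (Function.update (Function.update x i y) k z)) (fun z => ?_) (fun y => vc_U_comm_slice' hF hW i k hl x y) _ _
    have := vc_U_comm_slice' hF hW k i (fun e => hl e.symm) x z
    simpa only [hcomm] using this

/-- integration commutes with an injective relabelling -/
theorem vc_U_rel {F : VcX → ℝ} (ρ : ℕ → ℝ) (e : ℕ → ℕ) (he : Function.Injective e) (a j : ℕ) :
    vcU ρ (e a, j) (fun x => F (vcRel e x)) = fun x => vcU ρ (a, j) F (vcRel e x) := by
  funext x
  unfold vcU
  refine vc_I_congr (fun y => ?_) _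
  show F (vcRel e (Function.update x (e a, j) y)) = F (Function.update (vcRel e x) (a, j) y)
  congr 1
  funext k
  show Function.update x (e a, j) y (e k.1, k.2) = Function.update (vcRel e x) (a, j) y k
  by_cases hk : k = (a, j)
  · subst hk
    simp
  · have hk' : (e k.1, k.2) ≠ (e a, j) := by
      intro h
      apply hk
      rw [Prod.mk.injEq] at h
      exact Prod.ext (he h.1) h.2
    rw [Function.update_of_ne hk', Function.update_of_ne hk]
    rfl

end Claimed.Agent.R286
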